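import Vale.Agent.P321S.CellsD

/-! # P321S, module CELLS -/

namespace Vale.P321S

open scoped BigOperators

noncomputable section

/-- the normalised truncated cells -/
def tcell (q : ℝ) (m : ℕ) (d : Fin 3) : Alg :=
  (1 / tmass q m) • trunc (tmx q m) (cellN q m d)

theorem Pr_tcell {q : ℝ} (h0 : 0 < q) (h1 : q < 1) {m : ℕ} (hm : 1 ≤ m)
    (hM : 1 / 2 ≤ tmass q m) (d : Fin 3) : Pr (tcell q m d) := by
  have hM0 : 0 < tmass q m := by linarith
  refine ⟨Nn_smul (by positivity) (Nn_trunc _ (Pr_cellN h0 h1 m d).1), ?_⟩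
  unfold tcell
  rw [mass_smul, mass_trunc_cellN hm d]
  field_simp

theorem l1_tcell_sub {q : ℝ} (h0 : 0 < q) (h1 : q < 1) {m : ℕ} (hm : 1 ≤ m)
    (hM : 1 / 2 ≤ tmass q m) (d : Fin 3) :
    l1 (tcell q m d - cellN q m d) ≤ 2 * (1 - tmass q m) := by
  have hM0 : 0 < tmass q m := by linarith
  have hM1 := tmass_le_one h0 h1 m
  have hP := Pr_cellN h0 h1 m d
  have e : tcell q m d - cellN q m d
      = (1 / tmass q m - 1) • trunc (tmx q m) (cellN q m d)
        + (trunc (tmx q m) (cellN q m d) - cellN q m d) := by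
    unfold tcell
    rw [sub_smul, one_smul]
    abel
  have h2 : 0 ≤ 1 / tmass q m - 1 := by
    rw [sub_nonneg, le_div_iff₀ hM0]
    linarith
  have hN : Nn (cellN q m d - trunc (tmx q m) (cellN q m d)) := by
    intro w
    rw [MonoidAlgebra.coeff_sub, Finsupp.sub_apply, trunc_coeff]
    split_ifs
    · rw [sub_self]
    · rw [sub_zero]; exact hP.1 w
  have h3 : l1 (trunc (tmx q m) (cellN q m d) - cellN q m d) = 1 - tmass q m := by
    rw [l1_sub_comm, l1_of_Nn hN, mass_sub, hP.2, mass_trunc_cellN hm d]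
  have h4 : l1 (trunc (tmx q m) (cellN q m d)) = tmass q m := by
    rw [l1_of_Nn (Nn_trunc _ hP.1), mass_trunc_cellN hm d]
  rw [e]
  refine (l1_add _ _).trans ?_
  rw [l1_smul, h3, h4, abs_of_nonneg h2]
  have h5 : (1 / tmass q m - 1) * tmass q m = 1 - tmass q m := by field_simp
  rw [h5]
  linarith

theorem Le_scale {f : Alg} (hf : Nn f) {a b : ℝ} (hab : a ≤ b) : Le (a • f) (b • f) := by
  intro w
  rw [MonoidAlgebra.coeff_smul, MonoidAlgebra.coeff_smul, Finsupp.smul_apply, Finsupp.smul_apply,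
    smul_eq_mul, smul_eq_mul]
  exact mul_le_mul_of_nonneg_right hab (hf w)

theorem Le_tcell {q : ℝ} (h0 : 0 < q) (h1 : q < 1) {m : ℕ} (hm : 1 ≤ m)
    (hM : 1 / 2 ≤ tmass q m) (d d' : Fin 3) {Γ : ℝ} (hΓ : 2 / q ^ 2 ≤ Γ) :
    Le (tcell q m d) (Γ • tcell q m d') := by
  have hM0 : 0 < tmass q m := by linarith
  have h := Le_smul (trunc_cell_le h0 h1 hm d d') (by positivity : 0 ≤ 1 / tmass q m)
  rw [smul_comm] at h
  exact Le_trans h (Le_scale (Pr_tcell h0 h1 hm hM d').1 hΓ)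

theorem dec_trunc {q : ℝ} (h0 : 0 < q) (h1 : q < 1) {m : ℕ} (hm : 1 ≤ m)
    (hM : 1 / 2 ≤ tmass q m) {D F Res : Alg} {s τ : ℝ} (hD : D = F + Res)
    (hmass : mass (trunc (tmx q m) D) = 0) (hF : L2 F (uu q ^ (2 * m + 1)) s)
    (hR : l1 Res ≤ τ) :
    Dec ((1 / (2 * tmass q m)) • trunc (tmx q m) D) (tcell q m 1)
      (Real.sqrt (2 / q) * s) (2 * τ) := by
  have hM0 : 0 < tmass q m := by linarith
  have hM1 := tmass_le_one h0 h1 m
  have hu := Nn_pow (Pr_uu h0 h1).1 (2 * m + 1)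
  have ha0 : 0 ≤ 1 / (2 * tmass q m) := by positivity
  have ha1 : 1 / (2 * tmass q m) ≤ 1 := by
    rw [div_le_one (by positivity)]
    linarith
  have hPr := Pr_tcell h0 h1 hm hM 1
  have hle : Le (trunc (tmx q m) (uu q ^ (2 * m + 1))) ((2 / q) • tcell q m 1) := by
    refine Le_trans (trunc_uu_le h0 h1 hm 1) ?_
    refine Le_smul ?_ (by positivity)
    have h := Le_scale (Nn_trunc (tmx q m) (Pr_cellN h0 h1 m 1).1)
      (by rw [le_div_iff₀ hM0]; linarith : (1 : ℝ) ≤ 1 / tmass q m)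
    rw [one_smul] at h
    exact h
  have hL := L2_ref (by positivity : (0 : ℝ) ≤ 2 / q) (Nn_trunc (tmx q m) hu) hPr.1
    (L2_trunc (tmx q m) hu hF) hle
  refine Dec_of (f₁ := (1 / (2 * tmass q m)) • trunc (tmx q m) F)
    (f₂ := (1 / (2 * tmass q m)) • trunc (tmx q m) Res) hPr ?_ ?_ ?_ ?_
  · rw [mass_smul, hmass, mul_zero]
  · rw [hD, trunc_add, smul_add]
  · refine L2_mono (L2_smul hL _) ?_
    rw [abs_of_nonneg ha0]
    calc 1 / (2 * tmass q m) * (Real.sqrt (2 / q) * s) ≤ 1 * (Real.sqrt (2 / q) * s) :=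
          mul_le_mul_of_nonneg_right ha1 hL.1
      _ = _ := one_mul _
  · rw [l1_smul, abs_of_nonneg ha0]
    calc 1 / (2 * tmass q m) * l1 (trunc (tmx q m) Res) ≤ 1 * l1 (trunc (tmx q m) Res) :=
          mul_le_mul_of_nonneg_right ha1 (l1_nonneg _)
      _ = l1 (trunc (tmx q m) Res) := one_mul _
      _ ≤ l1 Res := l1_trunc_le _ _
      _ ≤ τ := hR

theorem stCells : StSmooth → StOV → StCells := by
  intro hS hOV q h0 h1
  have hq4 : 0 < q ^ 4 / 8 := by positivity
  have hq2 : 0 < 2 / q ^ 2 := by positivity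
  obtain ⟨m₀, hm₀⟩ : ∃ m₀ : ℕ, 16 / q ^ 4 ≤ (m₀ : ℝ) := ⟨_, Nat.le_ceil _⟩
  have hexp : ∀ m : ℕ, m₀ ≤ m → 1 / 2 ≤ tmass q m := by
    intro m hm
    have h2 : (m₀ : ℝ) ≤ m := by exact_mod_cast hm
    have h3 : 2 ≤ q ^ 4 / 8 * m := by
      have h4 : 16 / q ^ 4 ≤ (m : ℝ) := hm₀.trans h2
      rw [div_le_iff₀ (by positivity)] at h4
      linarith
    have h5 := one_sub_tmass h0 h1 m
    have h6 : Real.exp 1 * Real.exp (-(q ^ 4 / 8 * m)) ≤ 1 / 2 := by
      rw [← Real.exp_add]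
      have h7 : Real.exp (1 + -(q ^ 4 / 8 * m)) ≤ Real.exp (-1) :=
        Real.exp_le_exp.mpr (by linarith)
      refine h7.trans ?_
      rw [Real.exp_neg, one_div]
      apply inv_anti₀ (by norm_num)
      have := Real.add_one_le_exp (1 : ℝ)
      linarith
    linarith
  refine ⟨2 / q ^ 2 + 6, q ^ 4 / 8, max m₀ 1, by linarith, hq4, ?_⟩
  intro K hK
  obtain ⟨Ca, hCa1, hCa⟩ := smooth_apply hS hOV h0 h1 hK 1
  obtain ⟨Cb, hCb1, hCb⟩ := smooth_apply hS hOV h0 h1 hK 2
  set R := Real.sqrt (2 / q) with hR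
  have hR0 : 0 ≤ R := Real.sqrt_nonneg _
  set C₁ : ℝ := (4 + 2 * R) * (Ca + Cb) with hC₁
  have hCab : 0 ≤ Ca + Cb := by linarith
  have k1 : 4 * (Ca + Cb) ≤ C₁ := by
    rw [hC₁]
    nlinarith
  have k2 : 2 * R * (Ca + Cb) ≤ C₁ := by
    rw [hC₁]
    nlinarith
  have k3 : 0 ≤ R * Ca := by positivity
  have k4 : 0 ≤ R * Cb := by positivity
  refine ⟨C₁, by linarith, ?_⟩
  intro m hm
  have hm0 : m₀ ≤ m := (le_max_left _ _).trans hm
  have hm1 : 1 ≤ m := (le_max_right _ _).trans hm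
  have hM := hexp m hm0
  have hM0 : 0 < tmass q m := by linarith
  refine ⟨tcell q m, fun d => Pr_tcell h0 h1 hm1 hM d, ?_, Le_tcell h0 h1 hm1 hM _ _ (by linarith),
    Le_tcell h0 h1 hm1 hM _ _ (by linarith), Le_tcell h0 h1 hm1 hM _ _ (by linarith),
    Le_tcell h0 h1 hm1 hM _ _ (by linarith), ?_⟩
  · intro d
    refine (l1_tcell_sub h0 h1 hm1 hM d).trans ?_
    have h5 := one_sub_tmass h0 h1 m
    have h6 : Real.exp 1 ≤ 3 := Real.exp_one_lt_three.le
    have h7 := Real.exp_pos (-(q ^ 4 / 8 * m))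
    nlinarith
  · intro w hw hCw
    have hwr : (1 : ℝ) ≤ w := by exact_mod_cast hw
    have hsw : 0 < Real.sqrt w := Real.sqrt_pos.mpr (by linarith)
    have hmr : (0 : ℝ) < m := by
      have : 0 < m := hm1
      exact_mod_cast this
    have hsm : 0 < Real.sqrt m := Real.sqrt_pos.mpr hmr
    have hwa : Ca * (w : ℝ) ^ 2 ≤ m := by
      refine le_trans ?_ hCw
      apply mul_le_mul_of_nonneg_right _ (by positivity)
      linarith
    have hwb : Cb * (w : ℝ) ^ 2 ≤ m := by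
      refine le_trans ?_ hCw
      apply mul_le_mul_of_nonneg_right _ (by positivity)
      linarith
    have hpow : ∀ C : ℝ, 0 ≤ C → C ≤ C₁ →
        (C * w / Real.sqrt m) ^ K ≤ (C₁ * w / Real.sqrt m) ^ K := by
      intro C hC hC'
      apply pow_le_pow_left₀ (by positivity)
      apply div_le_div_of_nonneg_right _ hsm.le
      exact mul_le_mul_of_nonneg_right hC' (by linarith)
    obtain ⟨n, rfl⟩ : ∃ n, m = n + 1 := ⟨m - 1, by omega⟩
    refine ⟨?_, ?_⟩
    · obtain ⟨F, Res, f1, f2, f3⟩ := hCa (n + 1) n (n + 1) w (2 * (n + 1) + 1) (by omega)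
        (by omega) hw hwa (by omega)
      obtain ⟨F', Res', g1, g2, g3⟩ := hCa n (n + 1) (n + 1) w (2 * (n + 1) + 1) (by omega)
        (by omega) hw hwa (by omega)
      have hu := Nn_pow (Pr_uu h0 h1).1 (2 * (n + 1) + 1)
      have hL := L2_smul (L2_add hu f2 g2) (1 - q)
      rw [abs_of_pos (by linarith : (0 : ℝ) < 1 - q)] at hL
      have hD : cellN q (n + 1) 2 - cellN q (n + 1) 0
          = (1 - q) • (F + F') + (1 - q) • (Res + Res') := by
        rw [cell_diff1 h0, f1, g1, ← smul_add]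
        congr 1
        abel
      have hmass : mass (trunc (tmx q (n + 1)) (cellN q (n + 1) 2 - cellN q (n + 1) 0)) = 0 := by
        rw [trunc_sub, mass_sub, mass_trunc_cellN hm1, mass_trunc_cellN hm1, sub_self]
      have hRes : l1 ((1 - q) • (Res + Res'))
          ≤ 2 * (Ca * (Ca * w / Real.sqrt ((n + 1 : ℕ) : ℝ)) ^ K) := by
        rw [l1_smul, abs_of_pos (by linarith : (0 : ℝ) < 1 - q)]
        have := l1_add Res Res'
        have h8 := l1_nonneg (Res + Res')
        nlinarith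
      have hdec := dec_trunc h0 h1 hm1 hM hD hmass hL hRes
      have e : (1 / 2 : ℝ) • (tcell q (n + 1) 2 - tcell q (n + 1) 0)
          = (1 / (2 * tmass q (n + 1))) • trunc (tmx q (n + 1))
              (cellN q (n + 1) 2 - cellN q (n + 1) 0) := by
        unfold tcell
        rw [trunc_sub, ← smul_sub, smul_smul]
        congr 1
        field_simp
      rw [e]
      refine Dec_mono hdec ?_ ?_
      · rw [pow_one]
        have hden : 0 < (w : ℝ) * Real.sqrt w := by positivity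
        calc Real.sqrt (2 / q) * ((1 - q) * (Ca / ((w : ℝ) * Real.sqrt w)
              + Ca / ((w : ℝ) * Real.sqrt w)))
            = (1 - q) * (2 * (R * Ca)) / ((w : ℝ) * Real.sqrt w) := by rw [← hR]; ring
          _ ≤ C₁ / ((w : ℝ) * Real.sqrt w) := by
              apply div_le_div_of_nonneg_right _ hden.le
              nlinarith
      · have hp := hpow Ca (by linarith) (by linarith)
        have hp0 : 0 ≤ (Ca * w / Real.sqrt ((n + 1 : ℕ) : ℝ)) ^ K := by positivity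
        calc 2 * (2 * (Ca * (Ca * w / Real.sqrt ((n + 1 : ℕ) : ℝ)) ^ K))
            = (4 * Ca) * (Ca * w / Real.sqrt ((n + 1 : ℕ) : ℝ)) ^ K := by ring
          _ ≤ C₁ * (C₁ * w / Real.sqrt ((n + 1 : ℕ) : ℝ)) ^ K :=
              mul_le_mul (by linarith) hp hp0 (by linarith)
    · obtain ⟨F, Res, f1, f2, f3⟩ := hCb n n (n + 1) w (2 * (n + 1) + 1) (by omega)
        (by omega) hw hwb (by omega)
      have hu := Nn_pow (Pr_uu h0 h1).1 (2 * (n + 1) + 1)
      have hL := L2_smul f2 (1 - q)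
      rw [abs_of_pos (by linarith : (0 : ℝ) < 1 - q)] at hL
      have hD : cellN q (n + 1) 2 + cellN q (n + 1) 0 - (2 : ℝ) • cellN q (n + 1) 1
          = (1 - q) • F + (1 - q) • Res := by
        rw [cell_diff2 h0, f1, ← smul_add]
      have hmass : mass (trunc (tmx q (n + 1)) (cellN q (n + 1) 2 + cellN q (n + 1) 0
          - (2 : ℝ) • cellN q (n + 1) 1)) = 0 := by
        rw [trunc_sub, trunc_add, trunc_smul, mass_sub, mass_add, mass_smul,
          mass_trunc_cellN hm1, mass_trunc_cellN hm1, mass_trunc_cellN hm1]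
        ring
      have hRes : l1 ((1 - q) • Res)
          ≤ Cb * (Cb * w / Real.sqrt ((n + 1 : ℕ) : ℝ)) ^ K := by
        rw [l1_smul, abs_of_pos (by linarith : (0 : ℝ) < 1 - q)]
        have h8 := l1_nonneg Res
        nlinarith
      have hdec := dec_trunc h0 h1 hm1 hM hD hmass hL hRes
      have e : (1 / 2 : ℝ) • (tcell q (n + 1) 2 + tcell q (n + 1) 0) - tcell q (n + 1) 1
          = (1 / (2 * tmass q (n + 1))) • trunc (tmx q (n + 1))
              (cellN q (n + 1) 2 + cellN q (n + 1) 0 - (2 : ℝ) • cellN q (n + 1) 1) := by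
        unfold tcell
        rw [trunc_sub, trunc_add, trunc_smul, ← smul_add, smul_smul, smul_sub, smul_smul]
        have e1 : (1 / 2 : ℝ) * (1 / tmass q (n + 1)) = 1 / (2 * tmass q (n + 1)) := by
          field_simp
        have e2 : 1 / (2 * tmass q (n + 1)) * 2 = 1 / tmass q (n + 1) := by
          field_simp
        rw [e1, e2]
      rw [e]
      refine Dec_mono hdec ?_ ?_
      · have hden : 0 < (w : ℝ) ^ 2 * Real.sqrt w := by positivity
        calc Real.sqrt (2 / q) * ((1 - q) * (Cb / ((w : ℝ) ^ 2 * Real.sqrt w)))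
            = (1 - q) * (R * Cb) / ((w : ℝ) ^ 2 * Real.sqrt w) := by rw [← hR]; ring
          _ ≤ C₁ / ((w : ℝ) ^ 2 * Real.sqrt w) := by
              apply div_le_div_of_nonneg_right _ hden.le
              nlinarith
      · have hp := hpow Cb (by linarith) (by linarith)
        have hp0 : 0 ≤ (Cb * w / Real.sqrt ((n + 1 : ℕ) : ℝ)) ^ K := by positivity
        calc 2 * (Cb * (Cb * w / Real.sqrt ((n + 1 : ℕ) : ℝ)) ^ K)
            = (2 * Cb) * (Cb * w / Real.sqrt ((n + 1 : ℕ) : ℝ)) ^ K := by ring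
          _ ≤ C₁ * (C₁ * w / Real.sqrt ((n + 1 : ℕ) : ℝ)) ^ K :=
              mul_le_mul (by linarith) hp hp0 (by linarith)

end

end Vale.P321S
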