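import Vale.Agent.P321S.Defs

namespace Vale.P321S
namespace Iid

open Finset

theorem sum_inv_sqrt (n : ℕ) :
    ∑ l ∈ range n, 1 / Real.sqrt ((l : ℝ) + 1) ≤ 2 * Real.sqrt n := by
  induction n with
  | zero => simp
  | succ n ih =>
    rw [sum_range_succ]
    push_cast
    have hn : (0 : ℝ) ≤ n := Nat.cast_nonneg n
    have h1 : Real.sqrt ((n : ℝ) + 1) ^ 2 = n + 1 := Real.sq_sqrt (by positivity)
    have h2 : Real.sqrt (n : ℝ) ^ 2 = n := Real.sq_sqrt hn
    have h3 : 0 < Real.sqrt ((n : ℝ) + 1) := Real.sqrt_pos.2 (by positivity)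
    have h4 : 0 ≤ Real.sqrt (n : ℝ) := Real.sqrt_nonneg _
    have h5 : Real.sqrt (n : ℝ) ≤ Real.sqrt ((n : ℝ) + 1) := Real.sqrt_le_sqrt (by linarith)
    have h6 : 1 / Real.sqrt ((n : ℝ) + 1)
        ≤ 2 * (Real.sqrt ((n : ℝ) + 1) - Real.sqrt n) := by
      rw [div_le_iff₀ h3]
      nlinarith
    linarith

theorem pair_bound {a b : ℝ} (ha : 0 < a) (hb : 0 < b) :
    1 / (Real.sqrt a * Real.sqrt b)
      ≤ (1 / Real.sqrt (a + b)) * (1 / Real.sqrt a + 1 / Real.sqrt b) := by
  have h1 : 0 < Real.sqrt a := Real.sqrt_pos.2 ha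
  have h2 : 0 < Real.sqrt b := Real.sqrt_pos.2 hb
  have h3 : 0 < Real.sqrt (a + b) := Real.sqrt_pos.2 (by linarith)
  have h4 : Real.sqrt (a + b) ≤ Real.sqrt a + Real.sqrt b := by
    rw [Real.sqrt_le_left (by positivity)]
    nlinarith [Real.sq_sqrt ha.le, Real.sq_sqrt hb.le, mul_pos h1 h2]
  have e : (1 / Real.sqrt (a + b)) * (1 / Real.sqrt a + 1 / Real.sqrt b)
      = (Real.sqrt a + Real.sqrt b) / (Real.sqrt (a + b) * (Real.sqrt a * Real.sqrt b)) := by
    field_simp
    ring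
  rw [e, div_le_div_iff₀ (by positivity) (by positivity)]
  nlinarith [mul_pos h1 h2]

theorem conv4 (i : ℕ) :
    ∑ l ∈ range i, 1 / (Real.sqrt ((i : ℝ) - l) * Real.sqrt ((l : ℝ) + 1)) ≤ 4 := by
  have hi : (0 : ℝ) ≤ i := Nat.cast_nonneg i
  have h3 : 0 < Real.sqrt ((i : ℝ) + 1) := Real.sqrt_pos.2 (by positivity)
  have hs := sum_inv_sqrt i
  have hrefl : ∑ l ∈ range i, 1 / Real.sqrt ((i : ℝ) - l)
      = ∑ l ∈ range i, 1 / Real.sqrt ((l : ℝ) + 1) := by
    rw [← sum_range_reflect]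
    apply sum_congr rfl
    intro l hl
    have hl' := mem_range.1 hl
    congr 2
    rw [Nat.cast_sub (by omega), Nat.cast_sub (by omega)]
    push_cast; ring
  calc ∑ l ∈ range i, 1 / (Real.sqrt ((i : ℝ) - l) * Real.sqrt ((l : ℝ) + 1))
      ≤ ∑ l ∈ range i, (1 / Real.sqrt ((i : ℝ) + 1)) *
          (1 / Real.sqrt ((i : ℝ) - l) + 1 / Real.sqrt ((l : ℝ) + 1)) := by
        apply sum_le_sum
        intro l hl
        have hl' : (l : ℝ) < i := by exact_mod_cast mem_range.1 hl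
        have := pair_bound (a := (i : ℝ) - l) (b := (l : ℝ) + 1) (by linarith) (by positivity)
        have e : (i : ℝ) - l + (l + 1) = i + 1 := by ring
        rw [e] at this
        exact this
    _ = (1 / Real.sqrt ((i : ℝ) + 1)) * (∑ l ∈ range i, 1 / Real.sqrt ((i : ℝ) - l)
          + ∑ l ∈ range i, 1 / Real.sqrt ((l : ℝ) + 1)) := by
        rw [← mul_sum, sum_add_distrib]
    _ ≤ (1 / Real.sqrt ((i : ℝ) + 1)) * (4 * Real.sqrt i) := by
        apply mul_le_mul_of_nonneg_left _ (by positivity)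
        rw [hrefl]; linarith
    _ ≤ 4 := by
        have h5 : Real.sqrt (i : ℝ) ≤ Real.sqrt ((i : ℝ) + 1) := Real.sqrt_le_sqrt (by linarith)
        rw [one_div, inv_mul_le_iff₀ h3]
        linarith

/-- `min (1/√a) (1/√b) ≤ √2 / √(a+b)`, in product form -/
theorem min_bound {a b P : ℝ} (ha : 0 < a) (hb : 0 < b) (h1 : P ≤ 1 / (a * Real.sqrt b))
    (h2 : P ≤ 1 / (Real.sqrt a * b)) :
    P ≤ (3 / 2) / (Real.sqrt (a + b)) * (1 / (Real.sqrt a * Real.sqrt b)) := by
  have s1 : 0 < Real.sqrt a := Real.sqrt_pos.2 ha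
  have s2 : 0 < Real.sqrt b := Real.sqrt_pos.2 hb
  have s3 : 0 < Real.sqrt (a + b) := Real.sqrt_pos.2 (by linarith)
  have q1 := Real.sq_sqrt ha.le
  have q2 := Real.sq_sqrt hb.le
  have q3 := Real.sq_sqrt (show 0 ≤ a + b by linarith)
  rcases le_total a b with hab | hab
  · refine h2.trans ?_
    have key : Real.sqrt (a + b) ≤ 3 / 2 * Real.sqrt b := by
      rw [Real.sqrt_le_left (by positivity)]
      nlinarith
    have e : (3 / 2) / (Real.sqrt (a + b)) * (1 / (Real.sqrt a * Real.sqrt b))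
        = (3 / 2) / (Real.sqrt (a + b) * (Real.sqrt a * Real.sqrt b)) := by
      field_simp
    rw [e, div_le_div_iff₀ (by positivity) (by positivity)]
    have : Real.sqrt a * b = Real.sqrt a * (Real.sqrt b) ^ 2 := by rw [q2]
    rw [this]
    have := mul_le_mul_of_nonneg_left key (mul_pos s1 s2).le
    nlinarith
  · refine h1.trans ?_
    have key : Real.sqrt (a + b) ≤ 3 / 2 * Real.sqrt a := by
      rw [Real.sqrt_le_left (by positivity)]
      nlinarith
    have e : (3 / 2) / (Real.sqrt (a + b)) * (1 / (Real.sqrt a * Real.sqrt b))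
        = (3 / 2) / (Real.sqrt (a + b) * (Real.sqrt a * Real.sqrt b)) := by
      field_simp
    rw [e, div_le_div_iff₀ (by positivity) (by positivity)]
    have : a * Real.sqrt b = (Real.sqrt a) ^ 2 * Real.sqrt b := by rw [q1]
    rw [this]
    have := mul_le_mul_of_nonneg_left key (mul_pos s1 s2).le
    nlinarith

/-- the convolution-type sum -/
noncomputable def cv (S : ℕ) (u e : ℕ → ℝ) (t : ℕ) : ℝ :=
  ∑ j ∈ range t, (if t - 1 - j < S then u (t - 1 - j) * e j else 0)

theorem cv_sup2 {S : ℕ} {u e : ℕ → ℝ} {E : ℝ} (hu : ∀ y, 0 ≤ u y) (hE0 : 0 ≤ E)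
    (hE : ∀ j, e j ≤ E) (t : ℕ) : cv S u e t ≤ E * ∑ y ∈ range S, u y := by
  unfold cv
  calc ∑ j ∈ range t, (if t - 1 - j < S then u (t - 1 - j) * e j else 0)
      ≤ ∑ j ∈ range t, (if t - 1 - j < S then u (t - 1 - j) * E else 0) := by
        apply sum_le_sum
        intro j _
        split_ifs
        · exact mul_le_mul_of_nonneg_left (hE j) (hu _)
        · exact le_refl _
    _ = ∑ j ∈ range t, (if j < S then u j * E else 0) :=
        sum_range_reflect (fun j => if j < S then u j * E else 0) t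
    _ = ∑ j ∈ (range t).filter (fun j => j < S), u j * E := by rw [sum_filter]
    _ ≤ ∑ j ∈ range S, u j * E := by
        apply sum_le_sum_of_subset_of_nonneg
        · intro j hj
          simp only [mem_filter] at hj
          exact mem_range.2 hj.2
        · intro j _ _
          exact mul_nonneg (hu j) hE0
    _ = E * ∑ y ∈ range S, u y := by rw [← sum_mul]; ring

theorem cv_sup1 {S : ℕ} {u e : ℕ → ℝ} {U : ℝ} (he : ∀ y, 0 ≤ e y) (hU0 : 0 ≤ U)
    (hU : ∀ j, u j ≤ U) (t : ℕ) : cv S u e t ≤ U * ∑ j ∈ range t, e j := by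
  unfold cv
  rw [mul_sum]
  apply sum_le_sum
  intro j _
  split_ifs
  · exact mul_le_mul_of_nonneg_right (hU _) (he j)
  · exact mul_nonneg hU0 (he j)

theorem cv_sum {S : ℕ} {u e : ℕ → ℝ} (hu : ∀ y, 0 ≤ u y) (he : ∀ y, 0 ≤ e y) (S' : ℕ) :
    ∑ t ∈ range S', cv S u e t ≤ (∑ y ∈ range S, u y) * ∑ j ∈ range S', e j := by
  unfold cv
  have h1 : ∀ t ∈ range S', ∑ j ∈ range t, (if t - 1 - j < S then u (t - 1 - j) * e j else 0)
      = ∑ j ∈ range S', (if j < t ∧ t - 1 - j < S then u (t - 1 - j) * e j else 0) := by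
    intro t ht
    have ht' := mem_range.1 ht
    rw [← sum_filter_add_sum_filter_not (range S') (fun j => j < t)]
    have e1 : (range S').filter (fun j => j < t) = range t := by
      ext j; simp only [mem_filter, mem_range]; omega
    rw [e1]
    have e2 : ∑ x ∈ (range S').filter (fun j => ¬ j < t),
        (if x < t ∧ t - 1 - x < S then u (t - 1 - x) * e x else 0) = 0 := by
      apply sum_eq_zero
      intro x hx
      rw [if_neg]
      simp only [mem_filter] at hx
      tauto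
    rw [e2, add_zero]
    apply sum_congr rfl
    intro j hj
    have hj' := mem_range.1 hj
    simp only [hj', true_and]
  rw [sum_congr rfl h1, sum_comm, mul_sum]
  apply sum_le_sum
  intro j _
  rw [← sum_filter]
  have hinj : ∑ t ∈ (range S').filter (fun t => j < t ∧ t - 1 - j < S), u (t - 1 - j)
      ≤ ∑ y ∈ range S, u y := by
    have himg : ∑ t ∈ (range S').filter (fun t => j < t ∧ t - 1 - j < S), u (t - 1 - j)
        = ∑ y ∈ ((range S').filter (fun t => j < t ∧ t - 1 - j < S)).image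
            (fun t => t - 1 - j), u y := by
      rw [sum_image]
      intro a ha b hb hab
      simp only [coe_filter, mem_range, Set.mem_ofPred_eq] at ha hb
      simp only at hab
      omega
    rw [himg]
    apply sum_le_sum_of_subset_of_nonneg
    · intro y hy
      simp only [mem_image, mem_filter, mem_range] at hy ⊢
      obtain ⟨t, ⟨_, _, h3⟩, rfl⟩ := hy
      exact h3
    · intro y _ _; exact hu y
  calc ∑ t ∈ (range S').filter (fun t => j < t ∧ t - 1 - j < S), u (t - 1 - j) * e j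
      = (∑ t ∈ (range S').filter (fun t => j < t ∧ t - 1 - j < S), u (t - 1 - j)) * e j := by
        rw [sum_mul]
    _ ≤ (∑ y ∈ range S, u y) * e j := mul_le_mul_of_nonneg_right hinj (he j)

/-- the weights -/
structure WB (C M a : ℝ) (S : ℕ) (c : ℕ → ℝ) : Prop where
  nn : ∀ y, 0 ≤ c y
  s1 : ∑ y ∈ range S, c y ≤ 1
  b1 : ∀ y, c y ≤ C / (Real.sqrt M * Real.sqrt a)
  b2 : ∀ y, c y / Real.sqrt (y + 1) ≤ C / (M * a)
  b3 : ∑ y ∈ range S, c y / Real.sqrt (y + 1) ≤ C / (Real.sqrt M * Real.sqrt a)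

theorem WB.u1 {C M a : ℝ} {S : ℕ} {c : ℕ → ℝ} (h : WB C M a S c) (hC : 1 ≤ C) (hM : 1 ≤ M)
    (ha : 1 ≤ a) (haM : a ≤ M) {w : ℕ → ℝ} (hw : ∀ y, w y ≤ C / Real.sqrt (y + 1) + C / M)
    (y : ℕ) : w y * c y ≤ 2 * C ^ 2 / (M * a) := by
  have hC0 : 0 < C := by linarith
  have hM0 : 0 < M := by linarith
  have ha0 : 0 < a := by linarith
  have sM : 0 < Real.sqrt M := Real.sqrt_pos.2 hM0
  have sa : 0 < Real.sqrt a := Real.sqrt_pos.2 ha0
  have saM : Real.sqrt a ≤ Real.sqrt M := Real.sqrt_le_sqrt haM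
  have sy : 0 < Real.sqrt ((y : ℝ) + 1) := Real.sqrt_pos.2 (by positivity)
  have t1 : w y * c y ≤ (C / Real.sqrt (y + 1) + C / M) * c y :=
    mul_le_mul_of_nonneg_right (hw y) (h.nn y)
  have t2 : C / Real.sqrt (y + 1) * c y ≤ C * (C / (M * a)) := by
    have := mul_le_mul_of_nonneg_left (h.b2 y) hC0.le
    calc C / Real.sqrt (y + 1) * c y = C * (c y / Real.sqrt (y + 1)) := by ring
      _ ≤ _ := this
  have t3 : C / M * c y ≤ C / M * (C / (Real.sqrt M * Real.sqrt a)) :=
    mul_le_mul_of_nonneg_left (h.b1 y) (by positivity)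
  have t4 : C / M * (C / (Real.sqrt M * Real.sqrt a)) ≤ C * (C / (M * a)) := by
    have e1 : C / M * (C / (Real.sqrt M * Real.sqrt a)) = C ^ 2 / (M * (Real.sqrt M * Real.sqrt a)) := by
      field_simp
    have e2 : C * (C / (M * a)) = C ^ 2 / (M * a) := by field_simp
    rw [e1, e2]
    apply div_le_div_of_nonneg_left (by positivity) (by positivity)
    apply mul_le_mul_of_nonneg_left _ hM0.le
    calc a = Real.sqrt a * Real.sqrt a := (Real.mul_self_sqrt ha0.le).symm
      _ ≤ Real.sqrt M * Real.sqrt a := mul_le_mul_of_nonneg_right saM sa.le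
  have e : 2 * C ^ 2 / (M * a) = C * (C / (M * a)) + C * (C / (M * a)) := by
    field_simp; ring
  rw [e]
  calc w y * c y ≤ (C / Real.sqrt (y + 1) + C / M) * c y := t1
    _ = C / Real.sqrt (y + 1) * c y + C / M * c y := by ring
    _ ≤ _ := add_le_add t2 (t3.trans t4)

theorem WB.u2 {C M a : ℝ} {S : ℕ} {c : ℕ → ℝ} (h : WB C M a S c) (hC : 1 ≤ C) (hM : 1 ≤ M)
    (ha : 1 ≤ a) (haM : a ≤ M) {w : ℕ → ℝ} (hw : ∀ y, w y ≤ C / Real.sqrt (y + 1) + C / M) :
    ∑ y ∈ range S, w y * c y ≤ 2 * C ^ 2 / (Real.sqrt M * Real.sqrt a) := by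
  have hC0 : 0 < C := by linarith
  have hM0 : 0 < M := by linarith
  have ha0 : 0 < a := by linarith
  have sM : 0 < Real.sqrt M := Real.sqrt_pos.2 hM0
  have sa : 0 < Real.sqrt a := Real.sqrt_pos.2 ha0
  have saM : Real.sqrt a ≤ Real.sqrt M := Real.sqrt_le_sqrt haM
  calc ∑ y ∈ range S, w y * c y
      ≤ ∑ y ∈ range S, (C * (c y / Real.sqrt (y + 1)) + C / M * c y) := by
        apply sum_le_sum
        intro y _
        calc w y * c y ≤ (C / Real.sqrt (y + 1) + C / M) * c y :=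
              mul_le_mul_of_nonneg_right (hw y) (h.nn y)
          _ = _ := by ring
    _ = C * ∑ y ∈ range S, c y / Real.sqrt (y + 1) + C / M * ∑ y ∈ range S, c y := by
        rw [sum_add_distrib, mul_sum, mul_sum]
    _ ≤ C * (C / (Real.sqrt M * Real.sqrt a)) + C / M * 1 :=
        add_le_add (mul_le_mul_of_nonneg_left h.b3 hC0.le)
          (mul_le_mul_of_nonneg_left h.s1 (by positivity))
    _ ≤ 2 * C ^ 2 / (Real.sqrt M * Real.sqrt a) := by
        have t : C / M * 1 ≤ C ^ 2 / (Real.sqrt M * Real.sqrt a) := by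
          rw [mul_one, div_le_div_iff₀ hM0 (by positivity)]
          have k1 : Real.sqrt M * Real.sqrt a ≤ M := by
            calc Real.sqrt M * Real.sqrt a ≤ Real.sqrt M * Real.sqrt M :=
                  mul_le_mul_of_nonneg_left saM sM.le
              _ = M := Real.mul_self_sqrt hM0.le
          have k2 : C ≤ C ^ 2 := by nlinarith
          calc C * (Real.sqrt M * Real.sqrt a) ≤ C * M := mul_le_mul_of_nonneg_left k1 hC0.le
            _ ≤ C ^ 2 * M := mul_le_mul_of_nonneg_right k2 hM0.le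
        have e1 : C * (C / (Real.sqrt M * Real.sqrt a))
            = C ^ 2 / (Real.sqrt M * Real.sqrt a) := by field_simp
        have e2 : 2 * C ^ 2 / (Real.sqrt M * Real.sqrt a)
            = C ^ 2 / (Real.sqrt M * Real.sqrt a) + C ^ 2 / (Real.sqrt M * Real.sqrt a) := by
          ring
        rw [e1, e2]
        exact add_le_add (le_refl _) t

/-- one step of the induction -/
theorem step_bound {C M A : ℝ} {i S : ℕ} {e c : ℕ → ℕ → ℝ} {w : ℕ → ℝ}
    (hC : 1 ≤ C) (hM : 1 ≤ M) (hA : 0 ≤ A) (hiM : (i : ℝ) ≤ M)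
    (he0 : ∀ l j, 0 ≤ e l j)
    (hw0 : ∀ y, 0 ≤ w y) (hw : ∀ y, w y ≤ C / Real.sqrt (y + 1) + C / M)
    (hc : ∀ l < i, WB C M ((i : ℝ) - l) S (c l))
    (hE1 : ∀ l < i, ∀ t, e l t ≤ A / (M * ((l : ℝ) + 1)))
    (hE2 : ∀ l < i, ∀ S', ∑ t ∈ range S', e l t ≤ A / (Real.sqrt M * Real.sqrt ((l : ℝ) + 1))) :
    (∀ t, ∑ l ∈ range i, cv S (fun y => w y * c l y) (e l) t
        ≤ 12 * C ^ 2 * A / (M * Real.sqrt M * Real.sqrt ((i : ℝ) + 1))) ∧
    (∀ S', ∑ t ∈ range S', ∑ l ∈ range i, cv S (fun y => w y * c l y) (e l) t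
        ≤ 8 * C ^ 2 * A / M) := by
  have hC0 : 0 < C := by linarith
  have hM0 : 0 < M := by linarith
  have sM : 0 < Real.sqrt M := Real.sqrt_pos.2 hM0
  have hu0 : ∀ l < i, ∀ y, 0 ≤ w y * c l y := fun l hl y => mul_nonneg (hw0 y) ((hc l hl).nn y)
  have hab : ∀ l < i, (1 : ℝ) ≤ (i : ℝ) - l := by
    intro l hl
    have : ((l + 1 : ℕ) : ℝ) ≤ i := by exact_mod_cast hl
    push_cast at this; linarith
  have hab2 : ∀ l < i, (i : ℝ) - l ≤ M := by
    intro l _
    have : (0 : ℝ) ≤ l := Nat.cast_nonneg l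
    linarith
  have hU1 := fun l (hl : l < i) => (hc l hl).u1 hC hM (hab l hl) (hab2 l hl) hw
  have hU2 := fun l (hl : l < i) => (hc l hl).u2 hC hM (hab l hl) (hab2 l hl) hw
  constructor
  · intro t
    have hl : ∀ l ∈ range i, cv S (fun y => w y * c l y) (e l) t
        ≤ (2 * C ^ 2 * A / (M * Real.sqrt M)) * ((3 / 2) / (Real.sqrt ((i : ℝ) + 1)) *
          (1 / (Real.sqrt ((i : ℝ) - l) * Real.sqrt ((l : ℝ) + 1)))) := by
      intro l hl
      have hl' := mem_range.1 hl
      have ha0 : 0 < (i : ℝ) - l := by have := hab l hl'; linarith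
      have hb0 : (0 : ℝ) < (l : ℝ) + 1 := by positivity
      have sa : 0 < Real.sqrt ((i : ℝ) - l) := Real.sqrt_pos.2 ha0
      have sb : 0 < Real.sqrt ((l : ℝ) + 1) := Real.sqrt_pos.2 hb0
      have c1 := cv_sup1 (S := S) (u := fun y => w y * c l y) (e := e l)
        (U := 2 * C ^ 2 / (M * ((i : ℝ) - l))) (he0 l) (by positivity) (hU1 l hl') t
      have c2 := cv_sup2 (S := S) (u := fun y => w y * c l y) (e := e l)
        (E := A / (M * ((l : ℝ) + 1))) (hu0 l hl') (by positivity) (hE1 l hl') t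
      have d1 : cv S (fun y => w y * c l y) (e l) t
          ≤ 2 * C ^ 2 / (M * ((i : ℝ) - l)) * (A / (Real.sqrt M * Real.sqrt ((l : ℝ) + 1))) :=
        c1.trans (mul_le_mul_of_nonneg_left (hE2 l hl' t) (by positivity))
      have d2 : cv S (fun y => w y * c l y) (e l) t
          ≤ A / (M * ((l : ℝ) + 1)) * (2 * C ^ 2 / (Real.sqrt M * Real.sqrt ((i : ℝ) - l))) :=
        c2.trans (mul_le_mul_of_nonneg_left (hU2 l hl') (by positivity))
      rcases hA.eq_or_lt with hA0 | hApos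
      · rw [← hA0] at d1 ⊢
        simpa using d1
      · set κ := 2 * C ^ 2 * A / (M * Real.sqrt M) with hκ
        have hκ0 : 0 < κ := by positivity
        have m1 : cv S (fun y => w y * c l y) (e l) t / κ
            ≤ 1 / (((i : ℝ) - l) * Real.sqrt ((l : ℝ) + 1)) := by
          rw [div_le_iff₀ hκ0]
          refine d1.trans (le_of_eq ?_)
          rw [hκ]; field_simp
        have m2 : cv S (fun y => w y * c l y) (e l) t / κ
            ≤ 1 / (Real.sqrt ((i : ℝ) - l) * ((l : ℝ) + 1)) := by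
          rw [div_le_iff₀ hκ0]
          refine d2.trans (le_of_eq ?_)
          rw [hκ]; field_simp
        have m3 := min_bound ha0 hb0 m1 m2
        have e3 : (i : ℝ) - l + (l + 1) = i + 1 := by ring
        rw [e3, div_le_iff₀ hκ0] at m3
        linarith
    calc ∑ l ∈ range i, cv S (fun y => w y * c l y) (e l) t
        ≤ ∑ l ∈ range i, (2 * C ^ 2 * A / (M * Real.sqrt M)) *
          ((3 / 2) / (Real.sqrt ((i : ℝ) + 1)) *
          (1 / (Real.sqrt ((i : ℝ) - l) * Real.sqrt ((l : ℝ) + 1)))) := sum_le_sum hl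
      _ = (2 * C ^ 2 * A / (M * Real.sqrt M)) * ((3 / 2) / (Real.sqrt ((i : ℝ) + 1)) *
          ∑ l ∈ range i, (1 / (Real.sqrt ((i : ℝ) - l) * Real.sqrt ((l : ℝ) + 1)))) := by
          rw [← mul_sum, ← mul_sum]
      _ ≤ (2 * C ^ 2 * A / (M * Real.sqrt M)) * ((3 / 2) / (Real.sqrt ((i : ℝ) + 1)) * 4) := by
          apply mul_le_mul_of_nonneg_left _ (by positivity)
          apply mul_le_mul_of_nonneg_left (conv4 i) (by positivity)
      _ = 12 * C ^ 2 * A / (M * Real.sqrt M * Real.sqrt ((i : ℝ) + 1)) := by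
          have si : 0 < Real.sqrt ((i : ℝ) + 1) := Real.sqrt_pos.2 (by positivity)
          field_simp; ring
  · intro S'
    rw [sum_comm]
    have hl : ∀ l ∈ range i, ∑ t ∈ range S', cv S (fun y => w y * c l y) (e l) t
        ≤ (2 * C ^ 2 * A / M) *
          (1 / (Real.sqrt ((i : ℝ) - l) * Real.sqrt ((l : ℝ) + 1))) := by
      intro l hl
      have hl' := mem_range.1 hl
      have ha0 : 0 < (i : ℝ) - l := by have := hab l hl'; linarith
      have hb0 : (0 : ℝ) < (l : ℝ) + 1 := by positivity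
      have sa : 0 < Real.sqrt ((i : ℝ) - l) := Real.sqrt_pos.2 ha0
      have sb : 0 < Real.sqrt ((l : ℝ) + 1) := Real.sqrt_pos.2 hb0
      have c1 := cv_sum (S := S) (u := fun y => w y * c l y) (e := e l) (hu0 l hl') (he0 l) S'
      calc ∑ t ∈ range S', cv S (fun y => w y * c l y) (e l) t
          ≤ (∑ y ∈ range S, w y * c l y) * ∑ j ∈ range S', e l j := c1
        _ ≤ (2 * C ^ 2 / (Real.sqrt M * Real.sqrt ((i : ℝ) - l)))
              * (A / (Real.sqrt M * Real.sqrt ((l : ℝ) + 1))) := by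
            apply mul_le_mul (hU2 l hl') (hE2 l hl' S')
              (sum_nonneg (fun j _ => he0 l j)) (by positivity)
        _ = _ := by
            have : Real.sqrt M * Real.sqrt M = M := Real.mul_self_sqrt hM0.le
            field_simp
            rw [Real.sq_sqrt hM0.le]; ring
    calc ∑ l ∈ range i, ∑ t ∈ range S', cv S (fun y => w y * c l y) (e l) t
        ≤ ∑ l ∈ range i, (2 * C ^ 2 * A / M) *
          (1 / (Real.sqrt ((i : ℝ) - l) * Real.sqrt ((l : ℝ) + 1))) := sum_le_sum hl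
      _ = (2 * C ^ 2 * A / M) *
          ∑ l ∈ range i, (1 / (Real.sqrt ((i : ℝ) - l) * Real.sqrt ((l : ℝ) + 1))) := by
          rw [← mul_sum]
      _ ≤ (2 * C ^ 2 * A / M) * 4 := mul_le_mul_of_nonneg_left (conv4 i) (by positivity)
      _ = 8 * C ^ 2 * A / M := by ring

/-- the induction over the number of features, abstract form -/
theorem absInd {C M A q lam : ℝ} {g S : ℕ} {e d h : ℕ → ℕ → ℝ} {c : ℕ → ℕ → ℕ → ℝ}
    {w : ℕ → ℕ → ℝ}
    (hC : 1 ≤ C) (hM : 1 ≤ M) (hq : 0 < q) (hgM : (g : ℝ) ≤ M) (hA : A = 4 * C ^ 2)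
    (hlam : 12 * C ^ 2 / q * (Real.sqrt ((g : ℝ) + 1) / Real.sqrt M) ≤ lam)
    (hlam4 : lam ≤ 1 / 4)
    (he0 : ∀ i t, 0 ≤ e i t)
    (hed : ∀ i ≤ g, ∀ t, e i t ≤ 2 * h i t + 2 * d i t)
    (hh1 : ∀ i ≤ g, ∀ t, h i t ≤ C ^ 2 / (M * ((i : ℝ) + 1)))
    (hh2 : ∀ i ≤ g, ∀ S', ∑ t ∈ range S', h i t ≤ C / (Real.sqrt M * Real.sqrt ((i : ℝ) + 1)))
    (hw0 : ∀ i ≤ g, ∀ y, 0 ≤ w i y)
    (hw : ∀ i ≤ g, ∀ y : ℕ, w i y ≤ C / Real.sqrt (y + 1) + C / M)
    (hc : ∀ i ≤ g, ∀ l < i, WB C M ((i : ℝ) - l) S (c i l))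
    (hd : ∀ i ≤ g, ∀ t, d i t
      ≤ (1 / q) * ∑ l ∈ range i, cv S (fun y => w i y * c i l y) (e l) t) :
    ∀ i ≤ g, (∀ t, e i t ≤ A / (M * ((i : ℝ) + 1))) ∧
      (∀ S', ∑ t ∈ range S', e i t ≤ A / (Real.sqrt M * Real.sqrt ((i : ℝ) + 1))) ∧
      ∀ t, d i t ≤ lam * A / (M * ((i : ℝ) + 1)) := by
  intro i
  induction i using Nat.strong_induction_on with
  | _ i ih =>
  intro hi
  have hC0 : 0 < C := by linarith
  have hM0 : 0 < M := by linarith
  have hA0 : 0 < A := by rw [hA]; positivity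
  have sM : 0 < Real.sqrt M := Real.sqrt_pos.2 hM0
  have hig : (i : ℝ) ≤ g := by exact_mod_cast hi
  have hi0 : (0 : ℝ) ≤ i := Nat.cast_nonneg i
  have si : 0 < Real.sqrt ((i : ℝ) + 1) := Real.sqrt_pos.2 (by positivity)
  have sig : Real.sqrt ((i : ℝ) + 1) ≤ Real.sqrt ((g : ℝ) + 1) := Real.sqrt_le_sqrt (by linarith)
  have sqi : Real.sqrt ((i : ℝ) + 1) * Real.sqrt ((i : ℝ) + 1) = i + 1 :=
    Real.mul_self_sqrt (by positivity)
  have sqM : Real.sqrt M * Real.sqrt M = M := Real.mul_self_sqrt hM0.le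
  obtain ⟨B1, B2⟩ := step_bound (i := i) (S := S) (e := e) (c := c i) (w := w i) hC hM hA0.le
    (hig.trans hgM) he0 (hw0 i hi) (hw i hi) (hc i hi)
    (fun l hl => (ih l hl (by omega)).1) (fun l hl => (ih l hl (by omega)).2.1)
  have hx : 12 * C ^ 2 / q * (Real.sqrt ((i : ℝ) + 1) / Real.sqrt M) ≤ lam := by
    refine le_trans ?_ hlam
    apply mul_le_mul_of_nonneg_left _ (by positivity)
    exact div_le_div_of_nonneg_right sig sM.le
  have hlam0 : 0 ≤ lam := le_trans (by positivity) hx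
  -- pointwise bound for d
  have D1 : ∀ t, d i t ≤ lam * A / (M * ((i : ℝ) + 1)) := by
    intro t
    calc d i t ≤ (1 / q) * ∑ l ∈ range i, cv S (fun y => w i y * c i l y) (e l) t := hd i hi t
      _ ≤ (1 / q) * (12 * C ^ 2 * A / (M * Real.sqrt M * Real.sqrt ((i : ℝ) + 1))) :=
          mul_le_mul_of_nonneg_left (B1 t) (by positivity)
      _ = (12 * C ^ 2 / q * (Real.sqrt ((i : ℝ) + 1) / Real.sqrt M))
            * (A / (M * ((i : ℝ) + 1))) := by
          rw [show M * ((i : ℝ) + 1) = M * (Real.sqrt ((i : ℝ) + 1) * Real.sqrt ((i : ℝ) + 1)) by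
            rw [sqi]]
          field_simp
      _ ≤ lam * (A / (M * ((i : ℝ) + 1))) :=
          mul_le_mul_of_nonneg_right hx (by positivity)
      _ = _ := by ring
  have D2 : ∀ S', ∑ t ∈ range S', d i t ≤ lam * A / (Real.sqrt M * Real.sqrt ((i : ℝ) + 1)) := by
    intro S'
    calc ∑ t ∈ range S', d i t
        ≤ ∑ t ∈ range S', (1 / q) * ∑ l ∈ range i, cv S (fun y => w i y * c i l y) (e l) t :=
          sum_le_sum (fun t _ => hd i hi t)
      _ = (1 / q) * ∑ t ∈ range S', ∑ l ∈ range i, cv S (fun y => w i y * c i l y) (e l) t := by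
          rw [mul_sum]
      _ ≤ (1 / q) * (8 * C ^ 2 * A / M) := mul_le_mul_of_nonneg_left (B2 S') (by positivity)
      _ ≤ (1 / q) * (12 * C ^ 2 * A / M) := by
          apply mul_le_mul_of_nonneg_left _ (by positivity)
          apply div_le_div_of_nonneg_right _ hM0.le
          have : 0 ≤ C ^ 2 * A := by positivity
          nlinarith
      _ = (12 * C ^ 2 / q * (Real.sqrt ((i : ℝ) + 1) / Real.sqrt M))
            * (A / (Real.sqrt M * Real.sqrt ((i : ℝ) + 1))) := by
          rw [show 12 * C ^ 2 * A / M = 12 * C ^ 2 * A / (Real.sqrt M * Real.sqrt M) by rw [sqM]]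
          field_simp
      _ ≤ lam * (A / (Real.sqrt M * Real.sqrt ((i : ℝ) + 1))) :=
          mul_le_mul_of_nonneg_right hx (by positivity)
      _ = _ := by ring
  refine ⟨?_, ?_, D1⟩
  · intro t
    have hpos : 0 < M * ((i : ℝ) + 1) := by positivity
    calc e i t ≤ 2 * h i t + 2 * d i t := hed i hi t
      _ ≤ 2 * (C ^ 2 / (M * ((i : ℝ) + 1))) + 2 * (lam * A / (M * ((i : ℝ) + 1))) :=
          add_le_add (mul_le_mul_of_nonneg_left (hh1 i hi t) (by norm_num))
            (mul_le_mul_of_nonneg_left (D1 t) (by norm_num))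
      _ = (2 * C ^ 2 + 2 * (lam * A)) / (M * ((i : ℝ) + 1)) := by ring
      _ ≤ A / (M * ((i : ℝ) + 1)) := by
          apply div_le_div_of_nonneg_right _ hpos.le
          have : lam * A ≤ 1 / 4 * A := mul_le_mul_of_nonneg_right hlam4 hA0.le
          rw [hA] at this ⊢
          linarith
  · intro S'
    have hpos : 0 < Real.sqrt M * Real.sqrt ((i : ℝ) + 1) := by positivity
    calc ∑ t ∈ range S', e i t ≤ ∑ t ∈ range S', (2 * h i t + 2 * d i t) :=
          sum_le_sum (fun t _ => hed i hi t)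
      _ = 2 * ∑ t ∈ range S', h i t + 2 * ∑ t ∈ range S', d i t := by
          rw [sum_add_distrib, mul_sum, mul_sum]
      _ ≤ 2 * (C / (Real.sqrt M * Real.sqrt ((i : ℝ) + 1)))
            + 2 * (lam * A / (Real.sqrt M * Real.sqrt ((i : ℝ) + 1))) :=
          add_le_add (mul_le_mul_of_nonneg_left (hh2 i hi S') (by norm_num))
            (mul_le_mul_of_nonneg_left (D2 S') (by norm_num))
      _ = (2 * C + 2 * (lam * A)) / (Real.sqrt M * Real.sqrt ((i : ℝ) + 1)) := by ring
      _ ≤ A / (Real.sqrt M * Real.sqrt ((i : ℝ) + 1)) := by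
          apply div_le_div_of_nonneg_right _ hpos.le
          have : lam * A ≤ 1 / 4 * A := mul_le_mul_of_nonneg_right hlam4 hA0.le
          rw [hA] at this ⊢
          nlinarith

/-! ### words of a given length -/

/-- the word with letters `v` -/
def wf {t : ℕ} (v : Fin t → Bool) : Wd := FreeMonoid.ofList (List.ofFn v)

theorem wf_inj {t : ℕ} : Function.Injective (wf : (Fin t → Bool) → Wd) := by
  intro a b h
  exact List.ofFn_injective h

theorem wf_len {t : ℕ} (v : Fin t → Bool) : (FreeMonoid.toList (wf v)).length = t := by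
  simp [wf]

theorem exists_wf (w : Wd) : ∃ v : Fin (FreeMonoid.toList w).length → Bool, wf v = w :=
  ⟨(FreeMonoid.toList w).get, by simp [wf]⟩

theorem exists_wf' {w : Wd} {t : ℕ} (h : (FreeMonoid.toList w).length = t) :
    ∃ v : Fin t → Bool, wf v = w := by
  subst h; exact exists_wf w

/-- a sum over the words of length `t` in a finite set containing all the relevant ones -/
theorem sum_len_eq (S : Finset Wd) (t : ℕ) (φ : Wd → ℝ) (h : ∀ w, w ∉ S → φ w = 0) :
    ∑ w ∈ S.filter (fun w => (FreeMonoid.toList w).length = t), φ w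
      = ∑ v : Fin t → Bool, φ (wf v) := by
  classical
  rw [← sum_image (s := univ) (g := wf) (f := φ) (fun a _ b _ hab => wf_inj hab)]
  refine sum_subset_zero_on_sdiff ?_ ?_ ?_
  · intro w hw
    obtain ⟨v, hv⟩ := exists_wf' (mem_filter.1 hw).2
    exact mem_image.2 ⟨v, mem_univ _, hv⟩
  · intro w hw
    apply h
    intro hS
    obtain ⟨h1, h2⟩ := mem_sdiff.1 hw
    obtain ⟨v, _, rfl⟩ := mem_image.1 h1
    exact h2 (mem_filter.2 ⟨hS, wf_len v⟩)
  · intro w _; rfl

theorem nrm_eq (q : ℝ) (f : Alg) (t : ℕ) :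
    nrm q f t = ∑ v : Fin t → Bool, (f.coeff (wf v)) ^ 2 / mu q (wf v) := by
  unfold nrm
  apply sum_len_eq f.coeff.support t (fun w => (f.coeff w) ^ 2 / mu q w)
  intro w hw
  rw [Finsupp.notMem_support_iff.1 hw]
  simp

theorem mu_wf (q : ℝ) {t : ℕ} (v : Fin t → Bool) :
    mu q (wf v) = ∏ i, (if v i then q / (1 + q) else 1 / (1 + q)) := by
  unfold mu wf
  rw [FreeMonoid.toList_ofList, List.map_ofFn, List.prod_ofFn]
  rfl

theorem mu_pos {q : ℝ} (hq : 0 < q) (w : Wd) : 0 < mu q w := by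
  obtain ⟨v, hv⟩ := exists_wf w
  rw [← hv, mu_wf]
  apply prod_pos
  intro i _
  split_ifs <;> positivity

theorem sum_mu {q : ℝ} (hq : 0 < q) (t : ℕ) : ∑ v : Fin t → Bool, mu q (wf v) = 1 := by
  simp only [mu_wf]
  rw [← Fintype.sum_pow (fun b : Bool => if b then q / (1 + q) else 1 / (1 + q)) t]
  have : ∑ b : Bool, (if b then q / (1 + q) else 1 / (1 + q)) = 1 := by
    simp only [Fintype.sum_bool, if_true]
    have h1 : (1 + q) ≠ 0 := by positivity
    simp
    field_simp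
    ring
  rw [this, one_pow]

theorem nrm_nonneg {q : ℝ} (hq : 0 < q) (f : Alg) (t : ℕ) : 0 ≤ nrm q f t := by
  rw [nrm_eq]
  exact sum_nonneg (fun v _ => div_nonneg (sq_nonneg _) (mu_pos hq _).le)

theorem nrm_smul (q : ℝ) (a : ℝ) (f : Alg) (t : ℕ) : nrm q (a • f) t = a ^ 2 * nrm q f t := by
  rw [nrm_eq, nrm_eq, mul_sum]
  apply sum_congr rfl
  intro v _
  rw [MonoidAlgebra.coeff_smul_apply, smul_eq_mul]
  ring

theorem nrm_add {q : ℝ} (hq : 0 < q) (f g : Alg) (t : ℕ) :
    nrm q (f + g) t ≤ 2 * nrm q f t + 2 * nrm q g t := by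
  rw [nrm_eq, nrm_eq, nrm_eq, mul_sum, mul_sum, ← sum_add_distrib]
  apply sum_le_sum
  intro v _
  have hmu := mu_pos hq (wf v)
  rw [MonoidAlgebra.coeff_add, Finsupp.add_apply]
  have e : 2 * (f.coeff (wf v) ^ 2 / mu q (wf v)) + 2 * (g.coeff (wf v) ^ 2 / mu q (wf v))
      = (2 * f.coeff (wf v) ^ 2 + 2 * g.coeff (wf v) ^ 2) / mu q (wf v) := by ring
  rw [e]
  apply div_le_div_of_nonneg_right _ hmu.le
  nlinarith [sq_nonneg (f.coeff (wf v) - g.coeff (wf v))]

/-- Cauchy-Schwarz on the words of length `t` -/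
theorem abs_sum_le_nrm {q : ℝ} (hq : 0 < q) (f : Alg) (t : ℕ) :
    ∑ v : Fin t → Bool, |f.coeff (wf v)| ≤ Real.sqrt (nrm q f t) := by
  apply Real.le_sqrt_of_sq_le
  rw [nrm_eq]
  have h := sq_sum_div_le_sum_sq_div (univ : Finset (Fin t → Bool))
    (fun v => |f.coeff (wf v)|) (g := fun v => mu q (wf v)) (fun v _ => mu_pos hq _)
  rw [sum_mu hq, div_one] at h
  simpa only [sq_abs] using h

/-! ### coefficients of powers of `ab` -/

theorem coeff_of_mul (b b' : Bool) (r : ℝ) (f : Alg) (w : Wd) :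
    (MonoidAlgebra.single (FreeMonoid.of b) r * f : Alg).coeff (FreeMonoid.of b' * w)
      = if b = b' then r * f.coeff w else 0 := by
  split_ifs with h
  · subst h
    apply MonoidAlgebra.coeff_single_mul_eq_mul_coeff
    intro m' _
    exact mul_right_inj _
  · apply MonoidAlgebra.coeff_single_mul_of_forall_mul_ne
    intro d hd
    apply h
    have := congrArg FreeMonoid.toList hd
    simp only [FreeMonoid.toList_of_mul, List.cons.injEq] at this
    exact this.1

theorem coeff_of_mul_one (b : Bool) (r : ℝ) (f : Alg) :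
    (MonoidAlgebra.single (FreeMonoid.of b) r * f : Alg).coeff 1 = 0 := by
  apply MonoidAlgebra.coeff_single_mul_of_forall_mul_ne
  intro d hd
  have := congrArg FreeMonoid.toList hd
  simp at this

theorem mu_cons (q : ℝ) (b : Bool) (w : Wd) :
    mu q (FreeMonoid.of b * w) = (if b then q / (1 + q) else 1 / (1 + q)) * mu q w := by
  unfold mu
  rw [FreeMonoid.toList_of_mul, List.map_cons, List.prod_cons]

theorem mu_one (q : ℝ) : mu q 1 = 1 := by simp [mu]

theorem ab_coeff (q : ℝ) (t : ℕ) (w : Wd) :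
    (ab q ^ t).coeff w = if (FreeMonoid.toList w).length = t then mu q w else 0 := by
  classical
  induction t generalizing w with
  | zero =>
    rw [pow_zero, MonoidAlgebra.one_def, MonoidAlgebra.coeff_single, Finsupp.single_apply]
    by_cases h : (1 : Wd) = w
    · rw [if_pos h, ← h]; simp [mu_one]
    · rw [if_neg h, if_neg]
      intro hw
      apply h
      have : FreeMonoid.toList w = [] := List.length_eq_zero_iff.1 hw
      exact (FreeMonoid.toList.injective (by rw [this]; rfl)).symm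
  | succ t ih =>
    rw [pow_succ']
    have hab : ab q = MonoidAlgebra.single (FreeMonoid.of true) (q / (1 + q))
        + MonoidAlgebra.single (FreeMonoid.of false) (1 / (1 + q)) := by
      unfold ab
      rw [MonoidAlgebra.smul_single, MonoidAlgebra.smul_single, smul_eq_mul, smul_eq_mul,
        mul_one, mul_one]
    have e : ab q * ab q ^ t = MonoidAlgebra.single (FreeMonoid.of true) (q / (1 + q)) * ab q ^ t
        + MonoidAlgebra.single (FreeMonoid.of false) (1 / (1 + q)) * ab q ^ t := by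
      rw [← add_mul, ← hab]
    rw [e, MonoidAlgebra.coeff_add, Finsupp.add_apply]
    induction w using FreeMonoid.casesOn with
    | one => rw [coeff_of_mul_one, coeff_of_mul_one]; simp
    | of_mul b w =>
      rw [coeff_of_mul, coeff_of_mul, ih, FreeMonoid.toList_of_mul, List.length_cons, mu_cons]
      by_cases hw : (FreeMonoid.toList w).length = t
      · cases b <;> simp [hw]
      · cases b <;> simp [hw]

theorem nrm_sum_ab {q : ℝ} (hq : 0 < q) (c : ℕ → ℝ) (S t : ℕ) :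
    nrm q (∑ y ∈ range S, c y • ab q ^ y) t = if t < S then (c t) ^ 2 else 0 := by
  rw [nrm_eq]
  have hco : ∀ v : Fin t → Bool, (∑ y ∈ range S, c y • ab q ^ y : Alg).coeff (wf v)
      = (if t < S then c t else 0) * mu q (wf v) := by
    intro v
    rw [MonoidAlgebra.coeff_sum, Finsupp.finsetSum_apply]
    have h1 : ∀ y ∈ range S, (c y • ab q ^ y : Alg).coeff (wf v)
        = if y = t then c t * mu q (wf v) else 0 := by
      intro y _
      rw [MonoidAlgebra.coeff_smul_apply, smul_eq_mul, ab_coeff, wf_len]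
      by_cases h : t = y
      · subst h; simp
      · rw [if_neg h, if_neg (Ne.symm h), mul_zero]
    rw [sum_congr rfl h1, sum_ite_eq']
    by_cases h : t < S
    · rw [if_pos (mem_range.2 h), if_pos h]
    · rw [if_neg (fun h' => h (mem_range.1 h')), if_neg h, zero_mul]
  simp only [hco]
  split_ifs with h
  · have : ∀ v : Fin t → Bool, (c t * mu q (wf v)) ^ 2 / mu q (wf v)
        = c t ^ 2 * mu q (wf v) := by
      intro v
      have := (mu_pos hq (wf v)).ne'
      field_simp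
    simp only [this]
    rw [← mul_sum, sum_mu hq, mul_one]
  · simp

/-! ### moments of the length -/

/-- `∑ f(w) φ(|w|)` -/
noncomputable def mm (φ : ℕ → ℝ) (f : Alg) : ℝ :=
  f.coeff.sum (fun w r => r * φ (FreeMonoid.toList w).length)

theorem mm_add (φ : ℕ → ℝ) (f g : Alg) : mm φ (f + g) = mm φ f + mm φ g := by
  classical
  unfold mm
  rw [MonoidAlgebra.coeff_add]
  exact Finsupp.sum_add_index' (fun _ => zero_mul _) (fun _ _ _ => add_mul _ _ _)

theorem mm_zero (φ : ℕ → ℝ) : mm φ 0 = 0 := by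
  unfold mm
  rw [MonoidAlgebra.coeff_zero, Finsupp.sum_zero_index]

theorem mm_single (φ : ℕ → ℝ) (w : Wd) (r : ℝ) :
    mm φ (MonoidAlgebra.single w r) = r * φ (FreeMonoid.toList w).length := by
  unfold mm
  rw [MonoidAlgebra.coeff_single]
  exact Finsupp.sum_single_index (zero_mul _)

theorem mm_smul (φ : ℕ → ℝ) (a : ℝ) (f : Alg) : mm φ (a • f) = a * mm φ f := by
  classical
  unfold mm
  rw [MonoidAlgebra.coeff_smul, Finsupp.sum_smul_index (fun _ => zero_mul _)]
  rw [Finsupp.sum, Finsupp.sum, mul_sum]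
  exact sum_congr rfl (fun w _ => by ring)

/-- additive hom version -/
noncomputable def mmH (φ : ℕ → ℝ) : Alg →+ ℝ where
  toFun := mm φ
  map_zero' := mm_zero φ
  map_add' := mm_add φ

theorem mm_mul (φ : ℕ → ℝ) (f g : Alg) :
    mm φ (f * g) = ∑ u ∈ f.coeff.support, ∑ v ∈ g.coeff.support,
      (f.coeff u * g.coeff v) *
        φ ((FreeMonoid.toList u).length + (FreeMonoid.toList v).length) := by
  have h : mm φ (f * g) = mmH φ (f * g) := rfl
  rw [h, MonoidAlgebra.mul_def, Finsupp.sum, map_sum]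
  apply sum_congr rfl
  intro u _
  rw [Finsupp.sum, map_sum]
  apply sum_congr rfl
  intro v _
  change mm φ _ = _
  rw [mm_single, FreeMonoid.toList_mul, List.length_append]

/-- probability-like element with mean length `M` and variance `V` -/
structure Mom (f : Alg) (M V : ℝ) : Prop where
  nn : Nn f
  m0 : mm (fun _ => 1) f = 1
  m1 : mm (fun n => (n : ℝ)) f = M
  m2 : mm (fun n => (n : ℝ) ^ 2) f = V + M ^ 2

theorem Nn_mul' {f g : Alg} (hf : Nn f) (hg : Nn g) : Nn (f * g) := by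
  classical
  intro w
  rw [MonoidAlgebra.coeff_mul, Finsupp.sum]
  apply sum_nonneg
  intro u _
  apply sum_nonneg
  intro v _
  change 0 ≤ if u * v = w then f.coeff u * g.coeff v else 0
  split_ifs
  · exact mul_nonneg (hf u) (hg v)
  · exact le_refl _

theorem Mom.mul {f g : Alg} {M V M' V' : ℝ} (hf : Mom f M V) (hg : Mom g M' V') :
    Mom (f * g) (M + M') (V + V') := by
  have f0 := hf.m0
  have f1 := hf.m1
  have f2 := hf.m2
  have g0 := hg.m0
  have g1 := hg.m1
  have g2 := hg.m2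
  unfold mm at f0 f1 f2 g0 g1 g2
  rw [Finsupp.sum] at f0 f1 f2 g0 g1 g2
  refine ⟨Nn_mul' hf.nn hg.nn, ?_, ?_, ?_⟩
  · rw [mm_mul]
    have : ∀ u ∈ f.coeff.support, ∀ v ∈ g.coeff.support, (f.coeff u * g.coeff v) * 1
        = (f.coeff u * 1) * (g.coeff v * 1) := fun u _ v _ => by ring
    rw [sum_congr rfl (fun u hu => sum_congr rfl (this u hu)), ← sum_mul_sum, f0, g0, mul_one]
  · rw [mm_mul]
    have : ∀ u ∈ f.coeff.support, ∀ v ∈ g.coeff.support, (f.coeff u * g.coeff v) *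
        (((FreeMonoid.toList u).length + (FreeMonoid.toList v).length : ℕ) : ℝ)
        = (f.coeff u * ((FreeMonoid.toList u).length : ℝ)) * (g.coeff v * 1)
          + (f.coeff u * 1) * (g.coeff v * ((FreeMonoid.toList v).length : ℝ)) :=
      fun u _ v _ => by push_cast; ring
    rw [sum_congr rfl (fun u hu => sum_congr rfl (this u hu))]
    simp only [sum_add_distrib]
    rw [← sum_mul_sum, ← sum_mul_sum, f0, g0, f1, g1]
    ring
  · rw [mm_mul]
    have : ∀ u ∈ f.coeff.support, ∀ v ∈ g.coeff.support, (f.coeff u * g.coeff v) *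
        (((FreeMonoid.toList u).length + (FreeMonoid.toList v).length : ℕ) : ℝ) ^ 2
        = (f.coeff u * ((FreeMonoid.toList u).length : ℝ) ^ 2) * (g.coeff v * 1)
          + (2 * (f.coeff u * ((FreeMonoid.toList u).length : ℝ)))
              * (g.coeff v * ((FreeMonoid.toList v).length : ℝ))
          + (f.coeff u * 1) * (g.coeff v * ((FreeMonoid.toList v).length : ℝ) ^ 2) :=
      fun u _ v _ => by push_cast; ring
    rw [sum_congr rfl (fun u hu => sum_congr rfl (this u hu))]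
    simp only [sum_add_distrib]
    rw [← sum_mul_sum, ← sum_mul_sum, ← sum_mul_sum, ← mul_sum, f0, g0, f1, g1, f2, g2]
    ring

theorem Mom.one : Mom (1 : Alg) 0 0 := by
  refine ⟨?_, ?_, ?_, ?_⟩
  · intro w
    classical
    rw [MonoidAlgebra.one_def, MonoidAlgebra.coeff_single, Finsupp.single_apply]
    split_ifs <;> norm_num
  · rw [MonoidAlgebra.one_def, mm_single]; norm_num
  · rw [MonoidAlgebra.one_def, mm_single]; simp
  · rw [MonoidAlgebra.one_def, mm_single]; simp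

theorem Mom.pow {f : Alg} {M V : ℝ} (hf : Mom f M V) (n : ℕ) : Mom (f ^ n) (n * M) (n * V) := by
  induction n with
  | zero => simpa using Mom.one
  | succ n ih =>
    rw [pow_succ]
    have := ih.mul hf
    have e1 : ((n + 1 : ℕ) : ℝ) * M = n * M + M := by push_cast; ring
    have e2 : ((n + 1 : ℕ) : ℝ) * V = n * V + V := by push_cast; ring
    rw [e1, e2]
    exact this

theorem Nn_single {w : Wd} {r : ℝ} (hr : 0 ≤ r) : Nn (MonoidAlgebra.single w r : Alg) := by
  classical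
  intro w'
  rw [MonoidAlgebra.coeff_single, Finsupp.single_apply]
  split_ifs
  · exact hr
  · exact le_refl _

theorem Nn_add' {f g : Alg} (hf : Nn f) (hg : Nn g) : Nn (f + g) := by
  intro w
  rw [MonoidAlgebra.coeff_add, Finsupp.add_apply]
  exact add_nonneg (hf w) (hg w)

/-- an element supported on words of length at most one -/
theorem Mom.letter {a b c : ℝ} (ha : 0 ≤ a) (hb : 0 ≤ b) (hc : 0 ≤ c) (h : a + (b + c) = 1) :
    Mom (a • (1 : Alg) + b • MonoidAlgebra.single (FreeMonoid.of true) 1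
      + c • MonoidAlgebra.single (FreeMonoid.of false) 1) (1 - a) (a * (1 - a)) := by
  have e : a • (1 : Alg) + b • MonoidAlgebra.single (FreeMonoid.of true) 1
      + c • MonoidAlgebra.single (FreeMonoid.of false) 1
      = MonoidAlgebra.single 1 a + MonoidAlgebra.single (FreeMonoid.of true) b
        + MonoidAlgebra.single (FreeMonoid.of false) c := by
    rw [MonoidAlgebra.one_def, MonoidAlgebra.smul_single, MonoidAlgebra.smul_single,
      MonoidAlgebra.smul_single]
    simp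
  rw [e]
  refine ⟨Nn_add' (Nn_add' (Nn_single ha) (Nn_single hb)) (Nn_single hc), ?_, ?_, ?_⟩
  · rw [mm_add, mm_add, mm_single, mm_single, mm_single]; linarith
  · rw [mm_add, mm_add, mm_single, mm_single, mm_single]
    simp
    linarith
  · rw [mm_add, mm_add, mm_single, mm_single, mm_single]
    simp
    have : b + c = 1 - a := by linarith
    rw [this]; ring

theorem mom_uu {q : ℝ} (h0 : 0 < q) (h1 : q < 1) :
    Mom (uu q) (1 - q ^ 2) (q ^ 2 * (1 - q ^ 2)) := by
  unfold uu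
  apply Mom.letter (by positivity) (mul_nonneg h0.le (by linarith)) (by linarith)
  ring

theorem mom_aa {q : ℝ} (h0 : 0 < q) (h1 : q < 1) : Mom (aa q) (1 - q) (q * (1 - q)) := by
  have h := Mom.letter (a := q) (b := 1 - q) (c := 0) h0.le (by linarith) le_rfl (by ring)
  unfold aa
  simpa using h

theorem mom_aab {q : ℝ} (h0 : 0 < q) (h1 : q < 1) : Mom (aab q) (1 - q) (q * (1 - q)) := by
  have hq1 : (1 + q) ≠ 0 := by positivity
  have h := Mom.letter (a := q) (b := (1 - q) * (q / (1 + q))) (c := (1 - q) * (1 / (1 + q)))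
    h0.le (mul_nonneg (by linarith) (by positivity)) (mul_nonneg (by linarith) (by positivity))
    (by field_simp; ring)
  unfold aab ab
  rw [smul_add, smul_smul, smul_smul, ← add_assoc]
  exact h

theorem mom_feat_aux {q : ℝ} (h0 : 0 < q) (h1 : q < 1) {A : Alg}
    (hA : Mom A (1 - q) (q * (1 - q))) (ns : List ℕ) :
    Mom ((ns.map (fun n => A * uu q ^ n)).prod)
      (ns.sum * (1 - q ^ 2) + ns.length * (1 - q))
      (ns.sum * (q ^ 2 * (1 - q ^ 2)) + ns.length * (q * (1 - q))) := by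
  induction ns with
  | nil => simpa using Mom.one
  | cons n ns ih =>
    rw [List.map_cons, List.prod_cons, List.sum_cons, List.length_cons]
    have := (hA.mul ((mom_uu h0 h1).pow n)).mul ih
    rw [Nat.cast_add, Nat.cast_add, Nat.cast_one]
    convert this using 1 <;> ring

/-- Chebyshev on a finite set -/
theorem mom_cheb {f : Alg} {M V B : ℝ} (hf : Mom f M V) (hB : 0 < B) (S : Finset Wd) :
    ∑ w ∈ S.filter (fun w => B ^ 2 ≤ (((FreeMonoid.toList w).length : ℝ) - M) ^ 2), f.coeff w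
      ≤ V / B ^ 2 := by
  classical
  rw [le_div_iff₀ (by positivity), sum_mul]
  have hle : ∀ w ∈ S.filter (fun w => B ^ 2 ≤ (((FreeMonoid.toList w).length : ℝ) - M) ^ 2),
      f.coeff w * B ^ 2 ≤ f.coeff w * (((FreeMonoid.toList w).length : ℝ) - M) ^ 2 := by
    intro w hw
    exact mul_le_mul_of_nonneg_left (mem_filter.1 hw).2 (hf.nn w)
  refine (sum_le_sum hle).trans ?_
  have h3 : ∑ w ∈ S.filter (fun w => B ^ 2 ≤ (((FreeMonoid.toList w).length : ℝ) - M) ^ 2),
      f.coeff w * (((FreeMonoid.toList w).length : ℝ) - M) ^ 2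
      ≤ ∑ w ∈ f.coeff.support, f.coeff w * (((FreeMonoid.toList w).length : ℝ) - M) ^ 2 := by
    calc _ ≤ ∑ w ∈ (S.filter (fun w => B ^ 2 ≤ (((FreeMonoid.toList w).length : ℝ) - M) ^ 2))
              ∪ f.coeff.support, f.coeff w * (((FreeMonoid.toList w).length : ℝ) - M) ^ 2 := by
            apply sum_le_sum_of_subset_of_nonneg subset_union_left
            intro w _ _
            exact mul_nonneg (hf.nn w) (sq_nonneg _)
      _ = ∑ w ∈ f.coeff.support, f.coeff w * (((FreeMonoid.toList w).length : ℝ) - M) ^ 2 := by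
            symm
            apply sum_subset subset_union_right
            intro w _ hw
            rw [Finsupp.notMem_support_iff.1 hw, zero_mul]
  refine h3.trans (le_of_eq ?_)
  have f0 := hf.m0
  have f1 := hf.m1
  have f2 := hf.m2
  unfold mm at f0 f1 f2
  rw [Finsupp.sum] at f0 f1 f2
  have : ∀ w ∈ f.coeff.support, f.coeff w * (((FreeMonoid.toList w).length : ℝ) - M) ^ 2
      = f.coeff w * ((FreeMonoid.toList w).length : ℝ) ^ 2
        - 2 * M * (f.coeff w * ((FreeMonoid.toList w).length : ℝ))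
        + M ^ 2 * (f.coeff w * 1) := fun w _ => by ring
  rw [sum_congr rfl this, sum_add_distrib, sum_sub_distrib, ← mul_sum, ← mul_sum, f0, f1, f2]
  ring

/-! ### from `nrm` to `l1` -/

theorem card_window {M B : ℝ} (hM : 0 ≤ M) (hB : 0 ≤ B) :
    ((Icc ⌈M - B⌉₊ ⌊M + B⌋₊).card : ℝ) ≤ 2 * B + 1 := by
  rw [Nat.card_Icc]
  rcases le_total ⌈M - B⌉₊ (⌊M + B⌋₊ + 1) with h | h
  · rw [Nat.cast_sub h]
    push_cast
    have h1 : (⌊M + B⌋₊ : ℝ) ≤ M + B := Nat.floor_le (by linarith)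
    have h2 : M - B ≤ (⌈M - B⌉₊ : ℝ) := Nat.le_ceil _
    linarith
  · rw [Nat.sub_eq_zero_of_le h]
    push_cast
    linarith

theorem l1_window {q : ℝ} (hq : 0 < q) {f g : Alg} {M V B η : ℝ} (hf : Mom f M V)
    (hg : Mom g M V) (hM : 0 ≤ M) (hB : 0 < B) (hη : 0 ≤ η)
    (hn : ∀ t, nrm q (f - g) t ≤ η ^ 2) :
    l1 (f - g) ≤ (2 * B + 1) * η + 2 * (V / B ^ 2) := by
  classical
  set D := f - g with hD
  unfold l1
  rw [← sum_filter_add_sum_filter_not D.coeff.support
    (fun w => B ^ 2 ≤ (((FreeMonoid.toList w).length : ℝ) - M) ^ 2)]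
  have far : ∑ w ∈ D.coeff.support.filter
      (fun w => B ^ 2 ≤ (((FreeMonoid.toList w).length : ℝ) - M) ^ 2), |D.coeff w|
      ≤ 2 * (V / B ^ 2) := by
    have h1 : ∀ w ∈ D.coeff.support.filter
      (fun w => B ^ 2 ≤ (((FreeMonoid.toList w).length : ℝ) - M) ^ 2),
        |D.coeff w| ≤ f.coeff w + g.coeff w := by
      intro w _
      rw [hD, MonoidAlgebra.coeff_sub, Finsupp.sub_apply]
      have h1 := hf.nn w
      have h2 := hg.nn w
      rw [abs_le]
      constructor <;> linarith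
    refine (sum_le_sum h1).trans ?_
    rw [sum_add_distrib]
    have := mom_cheb hf hB D.coeff.support
    have := mom_cheb hg hB D.coeff.support
    linarith
  have near : ∑ w ∈ D.coeff.support.filter
      (fun w => ¬ B ^ 2 ≤ (((FreeMonoid.toList w).length : ℝ) - M) ^ 2), |D.coeff w|
      ≤ (2 * B + 1) * η := by
    set W := Icc ⌈M - B⌉₊ ⌊M + B⌋₊ with hW
    have hmaps : ∀ w ∈ D.coeff.support.filter
        (fun w => ¬ B ^ 2 ≤ (((FreeMonoid.toList w).length : ℝ) - M) ^ 2),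
        (FreeMonoid.toList w).length ∈ W := by
      intro w hw
      have h1 := (mem_filter.1 hw).2
      rw [not_le] at h1
      have h2 := abs_lt_of_sq_lt_sq h1 hB.le
      rw [abs_lt] at h2
      rw [hW, mem_Icc]
      constructor
      · apply Nat.ceil_le.2; linarith
      · apply Nat.le_floor; linarith
    rw [← sum_fiberwise_of_maps_to hmaps]
    calc _ ≤ ∑ t ∈ W, η := by
          apply sum_le_sum
          intro t _
          calc _ ≤ ∑ w ∈ D.coeff.support.filter
                    (fun w => (FreeMonoid.toList w).length = t), |D.coeff w| := by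
                apply sum_le_sum_of_subset_of_nonneg
                · intro w hw
                  obtain ⟨h1, h2⟩ := mem_filter.1 hw
                  exact mem_filter.2 ⟨(mem_filter.1 h1).1, h2⟩
                · intro w _ _; exact abs_nonneg _
            _ = ∑ v : Fin t → Bool, |D.coeff (wf v)| := by
                apply sum_len_eq D.coeff.support t (fun w => |D.coeff w|)
                intro w hw
                rw [Finsupp.notMem_support_iff.1 hw, abs_zero]
            _ ≤ Real.sqrt (nrm q D t) := abs_sum_le_nrm hq D t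
            _ ≤ η := Real.sqrt_le_iff.2 ⟨hη, hn t⟩
      _ = (W.card : ℝ) * η := by rw [sum_const, nsmul_eq_mul]
      _ ≤ (2 * B + 1) * η := mul_le_mul_of_nonneg_right (card_window hM hB.le) hη
  linarith

/-! ### telescoping -/

/-- the first `i` features -/
noncomputable def FF (q : ℝ) (A : Alg) (n₀ : ℕ) (n : ℕ → ℕ) : ℕ → Alg
  | 0 => uu q ^ n₀
  | i + 1 => FF q A n₀ n i * (A * uu q ^ n i)

theorem FF_list (q : ℝ) (A : Alg) (n₀ : ℕ) (ns : List ℕ) (i : ℕ) (hi : i ≤ ns.length) :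
    FF q A n₀ (fun j => ns.getD j 0) i
      = uu q ^ n₀ * ((ns.take i).map (fun n => A * uu q ^ n)).prod := by
  induction i with
  | zero => simp [FF]
  | succ i ih =>
    have hi' : i < ns.length := by omega
    rw [FF, ih (by omega), List.take_succ_eq_append_getElem hi', List.map_append,
      List.prod_append]
    simp [List.getD, hi', mul_assoc]

theorem uu_eq {q : ℝ} (h0 : 0 < q) : uu q = (q ^ 2) • (1 : Alg) + (1 - q ^ 2) • ab q := by
  unfold uu ab
  rw [smul_add, smul_smul, smul_smul, ← add_assoc]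
  have h1 : (1 + q) ≠ 0 := by positivity
  have e1 : (1 - q ^ 2) * (q / (1 + q)) = q * (1 - q) := by field_simp; ring
  have e2 : (1 - q ^ 2) * (1 / (1 + q)) = 1 - q := by field_simp; ring
  rw [e1, e2]

theorem comm_uu_aab {q : ℝ} (h0 : 0 < q) : Commute (aab q) (uu q) := by
  rw [uu_eq h0]
  unfold aab
  have h1 : Commute (q • (1 : Alg) + (1 - q) • ab q) (ab q) := by
    apply Commute.add_left
    · exact (Commute.one_left _).smul_left _
    · exact (Commute.refl _).smul_left _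
  have h2 : Commute (q • (1 : Alg) + (1 - q) • ab q) (1 : Alg) := Commute.one_right _
  exact (h2.smul_right _).add_right (h1.smul_right _)

theorem aa_sub (q : ℝ) : aa q - aab q = (1 - q) • xi q := by
  unfold aa aab xi
  rw [smul_sub]
  abel

theorem FF_bar {q : ℝ} (h0 : 0 < q) (n₀ : ℕ) (n : ℕ → ℕ) (i : ℕ) :
    FF q (aab q) n₀ n i = uu q ^ (n₀ + ∑ j ∈ range i, n j) * aab q ^ i := by
  induction i with
  | zero => simp [FF]
  | succ i ih =>
    rw [FF, ih, sum_range_succ, ← add_assoc, pow_add (uu q) (n₀ + ∑ j ∈ range i, n j) (n i),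
      pow_succ (aab q) i]
    have hc : aab q ^ i * (aab q * uu q ^ n i) = uu q ^ n i * (aab q ^ i * aab q) := by
      rw [← mul_assoc, ← pow_succ]
      exact ((comm_uu_aab h0).pow_pow (i + 1) (n i)).eq
    rw [mul_assoc, hc, ← mul_assoc]

theorem tele_ring {R : Type*} [Ring R] (F G a b U : R) :
    F * (a * U) - G * (b * U) = (F - G) * (b * U) + F * ((a - b) * U) := by
  rw [sub_mul, sub_mul, mul_sub]; abel

theorem tele_gen {R : Type*} [Ring R] [Algebra ℝ R] (F G : ℕ → R) (a b x u : R) (c : ℝ)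
    (n : ℕ → ℕ) (hab : a - b = c • x) (hcomm : Commute b u)
    (hF : ∀ i, F (i + 1) = F i * (a * u ^ n i)) (hG : ∀ i, G (i + 1) = G i * (b * u ^ n i))
    (h0 : F 0 = G 0) (i : ℕ) :
    F i - G i = c • ∑ l ∈ range i, F l * x * (u ^ (∑ j ∈ Ico l i, n j) * b ^ (i - 1 - l)) := by
  induction i with
  | zero => simp [h0]
  | succ i ih =>
    rw [hF, hG, tele_ring, ih, hab, sum_range_succ, smul_add]
    congr 1
    · rw [smul_mul_assoc, sum_mul]
      congr 1
      apply sum_congr rfl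
      intro l hl
      have hl' := mem_range.1 hl
      have e2 : ∑ j ∈ Ico l (i + 1), n j = ∑ j ∈ Ico l i, n j + n i :=
        sum_Ico_succ_top (by omega) _
      have e3 : i + 1 - 1 - l = (i - 1 - l) + 1 := by omega
      rw [e2, e3, pow_add u, pow_succ b, mul_assoc (F l * x)]
      congr 1
      have hc : b ^ (i - 1 - l) * (b * u ^ n i) = u ^ n i * (b ^ (i - 1 - l) * b) := by
        rw [← mul_assoc, ← pow_succ]
        exact (hcomm.pow_pow _ (n i)).eq
      rw [mul_assoc, hc, ← mul_assoc]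
    · rw [smul_mul_assoc, mul_smul_comm]
      simp [mul_assoc]

theorem FF_diff {q : ℝ} (h0 : 0 < q) (n₀ : ℕ) (n : ℕ → ℕ) (i : ℕ) :
    FF q (aa q) n₀ n i - FF q (aab q) n₀ n i
      = (1 - q) • ∑ l ∈ range i, FF q (aa q) n₀ n l * xi q *
          (uu q ^ (∑ j ∈ Ico l i, n j) * aab q ^ (i - 1 - l)) :=
  tele_gen (FF q (aa q) n₀ n) (FF q (aab q) n₀ n) (aa q) (aab q) (xi q) (uu q) (1 - q) n
    (aa_sub q) (comm_uu_aab h0) (fun _ => rfl) (fun _ => rfl) rfl i

/-! ### count laws -/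

/-- linear polynomial `(1-θ) + θ X` -/
noncomputable def lp (θ : ℝ) : Polynomial ℝ := Polynomial.C (1 - θ) + Polynomial.C θ * Polynomial.X

theorem lp_pow_coeff (θ : ℝ) (N s : ℕ) : (lp θ ^ N).coeff s = bin N θ s := by
  unfold lp bin
  rw [add_comm, add_pow, Polynomial.finsetSum_coeff]
  have h : ∀ m ∈ range (N + 1), ((Polynomial.C θ * Polynomial.X) ^ m *
      Polynomial.C (1 - θ) ^ (N - m) * ((N.choose m : ℕ) : Polynomial ℝ)).coeff s
      = if s = m then (N.choose s : ℝ) * θ ^ s * (1 - θ) ^ (N - s) else 0 := by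
    intro m _
    have e : (Polynomial.C θ * Polynomial.X) ^ m *
        Polynomial.C (1 - θ) ^ (N - m) * ((N.choose m : ℕ) : Polynomial ℝ)
        = Polynomial.C ((N.choose m : ℝ) * θ ^ m * (1 - θ) ^ (N - m)) * Polynomial.X ^ m := by
      rw [mul_pow, Polynomial.C_mul, Polynomial.C_mul, Polynomial.C_pow, Polynomial.C_pow,
        Polynomial.C_eq_natCast]
      ring
    rw [e, Polynomial.coeff_C_mul_X_pow]
    by_cases hs : s = m
    · subst hs; simp
    · simp [hs]
  rw [sum_congr rfl h, sum_ite_eq]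
  split_ifs with h2
  · rfl
  · have : N < s := by
      rw [mem_range] at h2; omega
    rw [Nat.choose_eq_zero_of_lt this]; simp

/-- generating polynomial of the count law -/
noncomputable def cp (q : ℝ) (N r : ℕ) : Polynomial ℝ := lp (1 - q) ^ r * lp (1 - q ^ 2) ^ N

theorem cp_coeff (q : ℝ) (N r y : ℕ) : (cp q N r).coeff y = cbin q N r y := by
  unfold cp cbin
  rw [Polynomial.coeff_mul, Nat.sum_antidiagonal_eq_sum_range_succ_mk]
  apply sum_congr rfl
  intro z _
  rw [lp_pow_coeff, lp_pow_coeff]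

theorem lp_deg (θ : ℝ) : (lp θ).natDegree ≤ 1 := by
  unfold lp
  apply (Polynomial.natDegree_add_le _ _).trans
  rw [Polynomial.natDegree_C]
  apply max_le (by omega)
  exact (Polynomial.natDegree_C_mul_le θ Polynomial.X).trans Polynomial.natDegree_X_le

theorem cp_deg (q : ℝ) (N r : ℕ) : (cp q N r).natDegree ≤ N + r := by
  unfold cp
  apply (Polynomial.natDegree_mul_le).trans
  have h1 := Polynomial.natDegree_pow_le_of_le r (lp_deg (1 - q))
  have h2 := Polynomial.natDegree_pow_le_of_le N (lp_deg (1 - q ^ 2))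
  omega

theorem cbin_zero_of_lt {q : ℝ} {N r y : ℕ} (h : N + r < y) : cbin q N r y = 0 := by
  rw [← cp_coeff]
  exact Polynomial.coeff_eq_zero_of_natDegree_lt ((cp_deg q N r).trans_lt h)

theorem cbin_nonneg {q : ℝ} (h0 : 0 < q) (h1 : q < 1) (N r y : ℕ) : 0 ≤ cbin q N r y := by
  unfold cbin bin
  apply sum_nonneg
  intro z _
  have a1 : 0 ≤ 1 - q := by linarith
  have a2 : 0 ≤ 1 - (1 - q) := by linarith
  have a3 : 0 ≤ 1 - q ^ 2 := by nlinarith
  have a4 : 0 ≤ 1 - (1 - q ^ 2) := by nlinarith [sq_nonneg q]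
  positivity

theorem cbin_sum_eq (q : ℝ) (N r : ℕ) : ∑ y ∈ range (N + r + 1), cbin q N r y = 1 := by
  have h : (cp q N r).eval 1 = 1 := by
    unfold cp lp
    simp
  rw [Polynomial.eval_eq_sum_range' (n := N + r + 1) (Nat.lt_succ_of_le (cp_deg q N r))] at h
  simpa [cp_coeff] using h

theorem cbin_sum_le {q : ℝ} (h0 : 0 < q) (h1 : q < 1) (N r S : ℕ) :
    ∑ y ∈ range S, cbin q N r y ≤ 1 := by
  rw [← cbin_sum_eq q N r]
  rcases le_total S (N + r + 1) with h | h
  · exact sum_le_sum_of_subset_of_nonneg (range_subset_range.2 h)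
      (fun y _ _ => cbin_nonneg h0 h1 N r y)
  · apply le_of_eq
    symm
    apply sum_subset (range_subset_range.2 h)
    intro y _ hy
    apply cbin_zero_of_lt
    rw [mem_range] at hy; omega

theorem aeval_lp {q : ℝ} (θ : ℝ) : Polynomial.aeval (ab q) (lp θ)
    = (1 - θ) • (1 : Alg) + θ • ab q := by
  unfold lp
  rw [map_add, map_mul, Polynomial.aeval_C, Polynomial.aeval_C, Polynomial.aeval_X,
    Algebra.algebraMap_eq_smul_one, Algebra.algebraMap_eq_smul_one, smul_mul_assoc, one_mul]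

theorem pow_expand {q : ℝ} (h0 : 0 < q) (N r S : ℕ) (hS : N + r + 1 ≤ S) :
    uu q ^ N * aab q ^ r = ∑ y ∈ range S, cbin q N r y • ab q ^ y := by
  have h1 : Polynomial.aeval (ab q) (cp q N r) = uu q ^ N * aab q ^ r := by
    unfold cp
    rw [map_mul, map_pow, map_pow, aeval_lp, aeval_lp]
    have e1 : (1 - (1 - q)) • (1 : Alg) + (1 - q) • ab q = aab q := by
      unfold aab
      rw [sub_sub_cancel]
    have e2 : (1 - (1 - q ^ 2)) • (1 : Alg) + (1 - q ^ 2) • ab q = uu q := by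
      rw [uu_eq h0, sub_sub_cancel]
    rw [e1, e2]
    exact ((comm_uu_aab h0).pow_pow r N).eq
  rw [← h1, Polynomial.aeval_eq_sum_range' (n := S) ((cp_deg q N r).trans_lt (by omega))]
  apply sum_congr rfl
  intro y _
  rw [cp_coeff]

/-! ### assembly -/

theorem sum_Ico_ge {m : ℕ} {n : ℕ → ℕ} {g : ℕ} (hn : ∀ j < g, m ≤ n j) {l i : ℕ} (hli : l ≤ i)
    (hi : i ≤ g) : (m : ℝ) * ((i : ℝ) - l) ≤ ((∑ j ∈ Ico l i, n j : ℕ) : ℝ) := by
  have h : m * (i - l) ≤ ∑ j ∈ Ico l i, n j := by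
    calc m * (i - l) = ∑ j ∈ Ico l i, m := by
          rw [sum_const, Nat.card_Ico, smul_eq_mul, mul_comm]
      _ ≤ ∑ j ∈ Ico l i, n j := by
          apply sum_le_sum
          intro j hj
          apply hn
          have := mem_Ico.1 hj
          omega
  have h2 : ((m * (i - l) : ℕ) : ℝ) ≤ ((∑ j ∈ Ico l i, n j : ℕ) : ℝ) := by exact_mod_cast h
  rw [Nat.cast_mul, Nat.cast_sub hli] at h2
  exact h2

theorem renew_form {q C : ℝ} {m : ℕ} (hm : 1 ≤ m)
    (hR : ∀ (m : ℕ) (ns : List ℕ), 1 ≤ m → (∀ n ∈ ns, m ≤ n) → ∀ y : ℕ,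
      ∑ l ∈ range ns.length, cbin q ((ns.take (l + 1)).sum) l y
        ≤ C / Real.sqrt (y + 1) + C / m)
    {n : ℕ → ℕ} {g : ℕ} (hn : ∀ j < g, m ≤ n j) {i : ℕ} (hi : i ≤ g) (y : ℕ) :
    ∑ l ∈ range i, cbin q (∑ j ∈ Ico l i, n j) (i - 1 - l) y
      ≤ C / Real.sqrt (y + 1) + C / m := by
  have h := hR m ((List.range i).map (fun j => n (i - 1 - j))) hm (by
    intro a ha
    obtain ⟨j, hj, rfl⟩ := List.mem_map.1 ha
    have := List.mem_range.1 hj
    exact hn _ (by omega)) y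
  rw [List.length_map, List.length_range] at h
  refine le_trans (le_of_eq ?_) h
  rw [← sum_range_reflect]
  apply sum_congr rfl
  intro l hl
  have hl' := mem_range.1 hl
  have e1 : i - 1 - (i - 1 - l) = l := by omega
  rw [e1]
  congr 1
  rw [← List.map_take, List.take_range, min_eq_left (by omega : l + 1 ≤ i)]
  have e2 : ((List.range (l + 1)).map (fun j => n (i - 1 - j))).sum
      = ∑ j ∈ range (l + 1), n (i - 1 - j) := rfl
  rw [e2]
  have e3 : i - 1 - l = i - (l + 1) := by omega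
  rw [e3]
  apply sum_bij' (fun j _ => i - 1 - j) (fun j _ => i - 1 - j)
  · intro a ha
    have := mem_Ico.1 ha
    rw [mem_range]; omega
  · intro a ha
    have := mem_range.1 ha
    rw [mem_Ico]; omega
  · intro a ha
    have := mem_Ico.1 ha
    omega
  · intro a ha
    have := mem_range.1 ha
    omega
  · intro a ha
    have := mem_Ico.1 ha
    congr 1
    omega

theorem wb_cbin {q C : ℝ} (h0 : 0 < q) (h1 : q < 1) (hC : 1 ≤ C)
    (hP : ∀ N r : ℕ,
      (∀ y, bin N (1 - q ^ 2) y ≤ C / Real.sqrt (N + 1)) ∧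
      (∀ y, cbin q N r y ≤ C / Real.sqrt (N + 1)) ∧
      (∀ y : ℕ, cbin q N r y / Real.sqrt (y + 1) ≤ C / (N + 1)) ∧
      (∑ y ∈ range (N + r + 1), cbin q N r y / Real.sqrt (y + 1) ≤ C / Real.sqrt (N + 1)))
    {M a : ℝ} (hM : 1 ≤ M) (ha : 1 ≤ a) {N r : ℕ} (hN : M * a ≤ N) (S : ℕ) :
    WB C M a S (cbin q N r) := by
  obtain ⟨_, p2, p3, p4⟩ := hP N r
  have hM0 : 0 < M := by linarith
  have ha0 : 0 < a := by linarith
  have hMa : 0 < M * a := by positivity
  have hs : Real.sqrt M * Real.sqrt a ≤ Real.sqrt ((N : ℝ) + 1) := by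
    rw [← Real.sqrt_mul hM0.le]
    exact Real.sqrt_le_sqrt (by linarith)
  have hs0 : 0 < Real.sqrt M * Real.sqrt a :=
    mul_pos (Real.sqrt_pos.2 hM0) (Real.sqrt_pos.2 ha0)
  have hCN : C / Real.sqrt ((N : ℝ) + 1) ≤ C / (Real.sqrt M * Real.sqrt a) :=
    div_le_div_of_nonneg_left (by linarith) hs0 hs
  refine ⟨cbin_nonneg h0 h1 N r, cbin_sum_le h0 h1 N r S, fun y => (p2 y).trans hCN, ?_, ?_⟩
  · intro y
    refine (p3 y).trans ?_
    exact div_le_div_of_nonneg_left (by linarith) hMa (by linarith)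
  · refine le_trans ?_ (p4.trans hCN)
    have hnn : ∀ y : ℕ, 0 ≤ cbin q N r y / Real.sqrt (y + 1) :=
      fun y => div_nonneg (cbin_nonneg h0 h1 N r y) (Real.sqrt_nonneg _)
    rcases le_total S (N + r + 1) with h | h
    · exact sum_le_sum_of_subset_of_nonneg (range_subset_range.2 h) (fun y _ _ => hnn y)
    · apply le_of_eq
      symm
      apply sum_subset (range_subset_range.2 h)
      intro y _ hy
      rw [cbin_zero_of_lt (by rw [mem_range] at hy; omega), zero_div]

theorem main_nrm {q C lam : ℝ} (h0 : 0 < q) (h1 : q < 1) (hC : 1 ≤ C)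
    (hP : ∀ N r : ℕ,
      (∀ y, bin N (1 - q ^ 2) y ≤ C / Real.sqrt (N + 1)) ∧
      (∀ y, cbin q N r y ≤ C / Real.sqrt (N + 1)) ∧
      (∀ y : ℕ, cbin q N r y / Real.sqrt (y + 1) ≤ C / (N + 1)) ∧
      (∑ y ∈ range (N + r + 1), cbin q N r y / Real.sqrt (y + 1) ≤ C / Real.sqrt (N + 1)))
    (hR : ∀ (m : ℕ) (ns : List ℕ), 1 ≤ m → (∀ n ∈ ns, m ≤ n) → ∀ y : ℕ,
      ∑ l ∈ range ns.length, cbin q ((ns.take (l + 1)).sum) l y
        ≤ C / Real.sqrt (y + 1) + C / m)
    (hO : StOrtho) {m : ℕ} (hm : 1 ≤ m) {n₀ : ℕ} (hn₀ : m ≤ n₀) {n : ℕ → ℕ} {g : ℕ}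
    (hn : ∀ j < g, m ≤ n j) (hgm : (g : ℝ) ≤ m)
    (hlam : 12 * C ^ 2 / q * (Real.sqrt ((g : ℝ) + 1) / Real.sqrt m) ≤ lam)
    (hlam4 : lam ≤ 1 / 4) (t : ℕ) :
    nrm q (FF q (aa q) n₀ n g - FF q (aab q) n₀ n g) t
      ≤ lam * (4 * C ^ 2) / (m * ((g : ℝ) + 1)) := by
  have hm1 : (1 : ℝ) ≤ m := by exact_mod_cast hm
  have hm0 : (0 : ℝ) < m := by linarith
  set S : ℕ := n₀ + ∑ j ∈ range g, n j + g + 1 with hS
  have hNi : ∀ i ≤ g, (m : ℝ) * ((i : ℝ) + 1) ≤ ((n₀ + ∑ j ∈ range i, n j : ℕ) : ℝ) := by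
    intro i hi
    have h2 := sum_Ico_ge (m := m) (n := n) hn (Nat.zero_le i) hi
    rw [Nat.Ico_zero_eq_range] at h2
    push_cast at h2 ⊢
    have : (m : ℝ) ≤ n₀ := by exact_mod_cast hn₀
    linarith
  have hbar : ∀ i ≤ g, ∀ t, nrm q (FF q (aab q) n₀ n i) t
      ≤ (cbin q (n₀ + ∑ j ∈ range i, n j) i t) ^ 2 := by
    intro i _ t
    rw [FF_bar h0, pow_expand h0 _ _ _ le_rfl, nrm_sum_ab h0]
    split_ifs
    · exact le_refl _
    · exact sq_nonneg _
  have hwb : ∀ i ≤ g, WB C m ((i : ℝ) + 1) S (cbin q (n₀ + ∑ j ∈ range i, n j) i) := by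
    intro i hi
    apply wb_cbin h0 h1 hC hP hm1 (by have : (0 : ℝ) ≤ i := Nat.cast_nonneg i; linarith) (hNi i hi)
  have key := absInd (C := C) (M := m) (A := 4 * C ^ 2) (q := q) (lam := lam) (g := g) (S := S)
    (e := fun i t => nrm q (FF q (aa q) n₀ n i) t)
    (d := fun i t => nrm q (FF q (aa q) n₀ n i - FF q (aab q) n₀ n i) t)
    (h := fun i t => nrm q (FF q (aab q) n₀ n i) t)
    (c := fun i l => cbin q (∑ j ∈ Ico l i, n j) (i - 1 - l))
    (w := fun i y => ∑ l ∈ range i, cbin q (∑ j ∈ Ico l i, n j) (i - 1 - l) y)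
    hC hm1 h0 hgm rfl hlam hlam4
    (fun i t => nrm_nonneg h0 _ _)
    (fun i _ t => by
      have e : FF q (aa q) n₀ n i
          = FF q (aab q) n₀ n i + (FF q (aa q) n₀ n i - FF q (aab q) n₀ n i) := by
        rw [add_sub_cancel]
      have := nrm_add h0 (FF q (aab q) n₀ n i) (FF q (aa q) n₀ n i - FF q (aab q) n₀ n i) t
      rw [← e] at this
      exact this)
    (fun i hi t => by
      refine (hbar i hi t).trans ?_
      have h2 := (hwb i hi).b1 t
      have h3 := (hwb i hi).nn t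
      have h4 := pow_le_pow_left₀ h3 h2 2
      refine h4.trans (le_of_eq ?_)
      rw [div_pow, mul_pow, Real.sq_sqrt hm0.le, Real.sq_sqrt (by positivity)])
    (fun i hi S' => by
      have h2 := (hwb i hi).b1
      have h3 := (hwb i hi).nn
      have hb0 : 0 ≤ C / (Real.sqrt m * Real.sqrt ((i : ℝ) + 1)) := by positivity
      calc ∑ t ∈ range S', nrm q (FF q (aab q) n₀ n i) t
          ≤ ∑ t ∈ range S', C / (Real.sqrt m * Real.sqrt ((i : ℝ) + 1))
              * cbin q (n₀ + ∑ j ∈ range i, n j) i t := by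
            apply sum_le_sum
            intro t _
            refine (hbar i hi t).trans ?_
            rw [sq]
            exact mul_le_mul_of_nonneg_right (h2 t) (h3 t)
        _ = C / (Real.sqrt m * Real.sqrt ((i : ℝ) + 1))
              * ∑ t ∈ range S', cbin q (n₀ + ∑ j ∈ range i, n j) i t := by rw [mul_sum]
        _ ≤ C / (Real.sqrt m * Real.sqrt ((i : ℝ) + 1)) * 1 :=
            mul_le_mul_of_nonneg_left (cbin_sum_le h0 h1 _ _ S') hb0
        _ = _ := mul_one _)
    (fun i _ y => sum_nonneg (fun l _ => cbin_nonneg h0 h1 _ _ _))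
    (fun i hi y => renew_form hm hR hn hi y)
    (fun i hi l hl => by
      apply wb_cbin h0 h1 hC hP hm1
      · have : ((l + 1 : ℕ) : ℝ) ≤ i := by exact_mod_cast hl
        push_cast at this; linarith
      · exact sum_Ico_ge hn hl.le hi)
    (fun i hi t => by
      change nrm q (FF q (aa q) n₀ n i - FF q (aab q) n₀ n i) t ≤ _
      rw [FF_diff h0, nrm_smul]
      have hexp : ∑ l ∈ range i, FF q (aa q) n₀ n l * xi q *
            (uu q ^ (∑ j ∈ Ico l i, n j) * aab q ^ (i - 1 - l))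
          = ∑ l ∈ range i, FF q (aa q) n₀ n l * xi q *
            (∑ y ∈ range S, cbin q (∑ j ∈ Ico l i, n j) (i - 1 - l) y • ab q ^ y) := by
        apply sum_congr rfl
        intro l hl
        have hl' := mem_range.1 hl
        rw [pow_expand h0 _ _ S]
        have h5 : ∑ j ∈ Ico l i, n j ≤ ∑ j ∈ range g, n j := by
          apply sum_le_sum_of_subset
          intro j hj
          have := mem_Ico.1 hj
          rw [mem_range]; omega
        omega
      rw [hexp]
      have hO' := hO q h0 h1 i (fun l => FF q (aa q) n₀ n l)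
        (fun l y => cbin q (∑ j ∈ Ico l i, n j) (i - 1 - l) y) S
        (fun l y => cbin_nonneg h0 h1 _ _ _) t
      have hq1 : (1 - q) ^ 2 ≤ 1 := by nlinarith
      have hnn := nrm_nonneg h0 (∑ l ∈ range i, FF q (aa q) n₀ n l * xi q *
            (∑ y ∈ range S, cbin q (∑ j ∈ Ico l i, n j) (i - 1 - l) y • ab q ^ y)) t
      calc (1 - q) ^ 2 * nrm q (∑ l ∈ range i, FF q (aa q) n₀ n l * xi q *
            (∑ y ∈ range S, cbin q (∑ j ∈ Ico l i, n j) (i - 1 - l) y • ab q ^ y)) t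
          ≤ 1 * nrm q (∑ l ∈ range i, FF q (aa q) n₀ n l * xi q *
            (∑ y ∈ range S, cbin q (∑ j ∈ Ico l i, n j) (i - 1 - l) y • ab q ^ y)) t :=
            mul_le_mul_of_nonneg_right hq1 hnn
        _ ≤ _ := by
            rw [one_mul]
            refine hO'.trans (le_of_eq ?_)
            congr 1
            unfold cv
            rw [sum_comm]
            apply sum_congr rfl
            intro j _
            split_ifs
            · rw [mul_sum]
              apply sum_congr rfl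
              intro l _
              ring
            · simp)
  exact (key g le_rfl).2.2 t

theorem sum_le_mul {ns : List ℕ} {b : ℕ} (h : ∀ n ∈ ns, n ≤ b) : ns.sum ≤ b * ns.length := by
  induction ns with
  | nil => simp
  | cons a ns ih =>
    rw [List.sum_cons, List.length_cons, Nat.mul_succ]
    have h1 := h a (by simp)
    have h2 := ih (fun n hn => h n (by simp [hn]))
    omega

theorem weaken_pmf {q C1 C : ℝ} (hle : C1 ≤ C) (hP : ∀ N r : ℕ,
      (∀ y, bin N (1 - q ^ 2) y ≤ C1 / Real.sqrt (N + 1)) ∧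
      (∀ y, cbin q N r y ≤ C1 / Real.sqrt (N + 1)) ∧
      (∀ y : ℕ, cbin q N r y / Real.sqrt (y + 1) ≤ C1 / (N + 1)) ∧
      (∑ y ∈ range (N + r + 1), cbin q N r y / Real.sqrt (y + 1) ≤ C1 / Real.sqrt (N + 1))) :
    ∀ N r : ℕ,
      (∀ y, bin N (1 - q ^ 2) y ≤ C / Real.sqrt (N + 1)) ∧
      (∀ y, cbin q N r y ≤ C / Real.sqrt (N + 1)) ∧
      (∀ y : ℕ, cbin q N r y / Real.sqrt (y + 1) ≤ C / (N + 1)) ∧
      (∑ y ∈ range (N + r + 1), cbin q N r y / Real.sqrt (y + 1) ≤ C / Real.sqrt (N + 1)) := by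
  intro N r
  obtain ⟨a1, a2, a3, a4⟩ := hP N r
  have e1 : C1 / Real.sqrt ((N : ℝ) + 1) ≤ C / Real.sqrt ((N : ℝ) + 1) :=
    div_le_div_of_nonneg_right hle (Real.sqrt_nonneg _)
  have e2 : C1 / ((N : ℝ) + 1) ≤ C / ((N : ℝ) + 1) :=
    div_le_div_of_nonneg_right hle (by positivity)
  exact ⟨fun y => (a1 y).trans e1, fun y => (a2 y).trans e1, fun y => (a3 y).trans e2,
    a4.trans e1⟩

theorem weaken_ren {q C2 C : ℝ} (hle : C2 ≤ C)
    (hR : ∀ (m : ℕ) (ns : List ℕ), 1 ≤ m → (∀ n ∈ ns, m ≤ n) → ∀ y : ℕ,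
      ∑ l ∈ range ns.length, cbin q ((ns.take (l + 1)).sum) l y
        ≤ C2 / Real.sqrt (y + 1) + C2 / m) :
    ∀ (m : ℕ) (ns : List ℕ), 1 ≤ m → (∀ n ∈ ns, m ≤ n) → ∀ y : ℕ,
      ∑ l ∈ range ns.length, cbin q ((ns.take (l + 1)).sum) l y
        ≤ C / Real.sqrt (y + 1) + C / m := by
  intro m ns hm hns y
  refine (hR m ns hm hns y).trans (add_le_add ?_ ?_)
  · exact div_le_div_of_nonneg_right hle (Real.sqrt_nonneg _)
  · exact div_le_div_of_nonneg_right hle (Nat.cast_nonneg _)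

theorem var_bound {q : ℝ} (h0 : 0 < q) (h1 : q < 1) {m n₀ : ℕ} {ns : List ℕ} (hm1 : 1 ≤ m)
    (hn₀' : n₀ ≤ 12 * m) (hns : ∀ n ∈ ns, n ≤ 12 * m) :
    (n₀ : ℝ) * (q ^ 2 * (1 - q ^ 2)) + (ns.sum * (q ^ 2 * (1 - q ^ 2))
        + ns.length * (q * (1 - q))) ≤ 13 / 4 * (m * ((ns.length : ℝ) + 1)) := by
  have hm1r : (1 : ℝ) ≤ m := by exact_mod_cast hm1
  have hg0 : (0 : ℝ) ≤ ns.length := Nat.cast_nonneg _
  have k1 : q ^ 2 * (1 - q ^ 2) ≤ 1 / 4 := by nlinarith [sq_nonneg (q ^ 2 - 1 / 2)]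
  have k2 : q * (1 - q) ≤ 1 / 4 := by nlinarith [sq_nonneg (q - 1 / 2)]
  have k3 : (n₀ : ℝ) ≤ 12 * m := by exact_mod_cast hn₀'
  have k4 : (ns.sum : ℝ) ≤ 12 * m * ns.length := by
    have := sum_le_mul (ns := ns) (b := 12 * m) hns
    exact_mod_cast this
  have k5 : (0 : ℝ) ≤ ns.sum := Nat.cast_nonneg _
  have k6 : (0 : ℝ) ≤ n₀ := Nat.cast_nonneg _
  have j1 : (n₀ : ℝ) * (q ^ 2 * (1 - q ^ 2)) ≤ 12 * m * (1 / 4) :=
    (mul_le_mul_of_nonneg_left k1 k6).trans (by linarith)
  have j2 : (ns.sum : ℝ) * (q ^ 2 * (1 - q ^ 2)) ≤ 12 * m * ns.length * (1 / 4) :=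
    (mul_le_mul_of_nonneg_left k1 k5).trans (by linarith)
  have j3 : (ns.length : ℝ) * (q * (1 - q)) ≤ ns.length * (1 / 4) :=
    mul_le_mul_of_nonneg_left k2 hg0
  have j4 : (ns.length : ℝ) ≤ m * ns.length := le_mul_of_one_le_left hg0 hm1r
  have e : 13 / 4 * ((m : ℝ) * ((ns.length : ℝ) + 1))
      = 12 * m * (1 / 4) + 12 * m * ns.length * (1 / 4) + m * ns.length * (1 / 4)
        + m * (1 / 4) := by ring
  rw [e]
  linarith

theorem window_num {V Y B η : ℝ} (hY1 : 1 ≤ Y) (hVle : V ≤ 13 / 4 * Y)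
    (hB : B = 11 * Real.sqrt Y) (hη : η = Real.sqrt (1 / 300000 / Y)) :
    (2 * B + 1) * η + 2 * (V / B ^ 2) ≤ 1 / 8 := by
  have hY0 : 0 < Y := by linarith
  have hsY1 : 1 ≤ Real.sqrt Y := Real.one_le_sqrt.2 hY1
  have hB1 : 1 ≤ B := by rw [hB]; linarith
  have hB2 : B ^ 2 = 121 * Y := by
    rw [hB, mul_pow, Real.sq_sqrt hY0.le]; norm_num
  have hη0 : 0 ≤ η := by rw [hη]; exact Real.sqrt_nonneg _
  have hη2 : η ^ 2 = 1 / 300000 / Y := by rw [hη]; exact Real.sq_sqrt (by positivity)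
  have t1 : (2 * B + 1) * η ≤ 1 / 16 := by
    have : (2 * B + 1) * η ≤ 3 * B * η := mul_le_mul_of_nonneg_right (by linarith) hη0
    refine this.trans ?_
    have hsq : (3 * B * η) ^ 2 ≤ (1 / 16) ^ 2 := by
      rw [mul_pow, mul_pow, hB2, hη2]
      have : (3 : ℝ) ^ 2 * (121 * Y) * (1 / 300000 / Y) = 1089 / 300000 := by
        field_simp; norm_num
      rw [this]; norm_num
    exact le_of_sq_le_sq hsq (by norm_num)
  have t2 : 2 * (V / B ^ 2) ≤ 1 / 16 := by
    rw [hB2]
    have : V / (121 * Y) ≤ 1 / 32 := by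
      rw [div_le_iff₀ (by positivity)]
      linarith
    linarith
  linarith

theorem final_l1 {q K : ℝ} (h0 : 0 < q) (h1 : q < 1) {m n₀ : ℕ} {ns : List ℕ} (hm1 : 1 ≤ m)
    (hn₀' : n₀ ≤ 12 * m) (hns : ∀ n ∈ ns, n ≤ 12 * m) (hK : K = 1 / 300000)
    (hn : ∀ t, nrm q (feat q n₀ ns - featbar q n₀ ns) t ≤ K / (m * ((ns.length : ℝ) + 1))) :
    l1 (feat q n₀ ns - featbar q n₀ ns) ≤ 1 / 8 := by
  have mom1 : Mom (feat q n₀ ns)
      (n₀ * (1 - q ^ 2) + (ns.sum * (1 - q ^ 2) + ns.length * (1 - q)))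
      (n₀ * (q ^ 2 * (1 - q ^ 2)) + (ns.sum * (q ^ 2 * (1 - q ^ 2))
        + ns.length * (q * (1 - q)))) :=
    ((mom_uu h0 h1).pow n₀).mul (mom_feat_aux h0 h1 (mom_aa h0 h1) ns)
  have mom2 : Mom (featbar q n₀ ns)
      (n₀ * (1 - q ^ 2) + (ns.sum * (1 - q ^ 2) + ns.length * (1 - q)))
      (n₀ * (q ^ 2 * (1 - q ^ 2)) + (ns.sum * (q ^ 2 * (1 - q ^ 2))
        + ns.length * (q * (1 - q)))) :=
    ((mom_uu h0 h1).pow n₀).mul (mom_feat_aux h0 h1 (mom_aab h0 h1) ns)
  have hm1r : (1 : ℝ) ≤ m := by exact_mod_cast hm1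
  have hg0 : (0 : ℝ) ≤ ns.length := Nat.cast_nonneg _
  have hY1 : 1 ≤ (m : ℝ) * ((ns.length : ℝ) + 1) := by
    have : (m : ℝ) * 1 ≤ m * ((ns.length : ℝ) + 1) :=
      mul_le_mul_of_nonneg_left (by linarith) (by linarith)
    linarith
  have hY0 : 0 < (m : ℝ) * ((ns.length : ℝ) + 1) := by linarith
  have hsY1 : 1 ≤ Real.sqrt ((m : ℝ) * ((ns.length : ℝ) + 1)) := Real.one_le_sqrt.2 hY1
  have hM : 0 ≤ (n₀ : ℝ) * (1 - q ^ 2) + (ns.sum * (1 - q ^ 2) + ns.length * (1 - q)) := by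
    have a1 : 0 ≤ 1 - q ^ 2 := by nlinarith
    have a2 : 0 ≤ 1 - q := by linarith
    positivity
  have hfin := l1_window h0 mom1 mom2 hM
    (B := 11 * Real.sqrt ((m : ℝ) * ((ns.length : ℝ) + 1))) (by linarith)
    (η := Real.sqrt (1 / 300000 / ((m : ℝ) * ((ns.length : ℝ) + 1)))) (Real.sqrt_nonneg _)
    (fun t => by
      rw [Real.sq_sqrt (by positivity), ← hK]
      exact hn t)
  exact hfin.trans (window_num hY1 (var_bound h0 h1 hm1 hn₀' hns) rfl rfl)

end Iid

open Finset Iid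

theorem stIid : StPmf → StRenew → StOrtho → StIid := by
  intro hPmf hRen hO q h0 h1
  obtain ⟨C1, hC1, hP⟩ := hPmf q h0 h1
  obtain ⟨C2, hC2, hR⟩ := hRen q h0 h1
  obtain ⟨C, hCdef⟩ : ∃ C, C = max C1 C2 := ⟨_, rfl⟩
  have hC : 1 ≤ C := by rw [hCdef]; exact hC1.trans (le_max_left _ _)
  have hC0 : 0 < C := by linarith
  have hP' := weaken_pmf (C := C) (by rw [hCdef]; exact le_max_left _ _) hP
  have hR' := weaken_ren (C := C) (by rw [hCdef]; exact le_max_right _ _) hR
  obtain ⟨lam, hlamdef⟩ : ∃ lam : ℝ, lam = 1 / (1200000 * C ^ 2) := ⟨_, rfl⟩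
  have hlam0 : 0 < lam := by rw [hlamdef]; positivity
  have hC2' : 1 ≤ C ^ 2 := one_le_pow₀ hC
  have hlamC : lam * (4 * C ^ 2) = 1 / 300000 := by
    rw [hlamdef]; field_simp; norm_num
  have hlam4 : lam ≤ 1 / 4 := by nlinarith
  obtain ⟨x, hx⟩ : ∃ x : ℝ, x = lam * q / (12 * C ^ 2) := ⟨_, rfl⟩
  have hx0 : 0 < x := by rw [hx]; positivity
  have hx1 : x ≤ 1 := by
    rw [hx, div_le_one (by positivity)]
    nlinarith
  have hxlam : 12 * C ^ 2 / q * x = lam := by
    rw [hx]; field_simp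
  obtain ⟨ε, hε⟩ : ∃ ε : ℝ, ε = x ^ 2 / 2 := ⟨_, rfl⟩
  have hε0 : 0 < ε := by rw [hε]; positivity
  have hε1 : ε ≤ 1 := by rw [hε]; nlinarith
  refine ⟨ε, ⌈1 / ε⌉₊ + 1, hε0, ?_⟩
  intro m hm n₀ ns hn₀ hn₀' hns hlen
  have hm1 : 1 ≤ m := by omega
  have hmr : 1 / ε ≤ (m : ℝ) := by
    have : ⌈1 / ε⌉₊ ≤ m := by omega
    exact (Nat.le_ceil _).trans (by exact_mod_cast this)
  have hεm : 1 ≤ ε * m := by
    rw [div_le_iff₀ hε0] at hmr
    linarith
  have hm0 : (0 : ℝ) < m := by exact_mod_cast hm1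
  have hg0 : (0 : ℝ) ≤ ns.length := Nat.cast_nonneg _
  have hgm : (ns.length : ℝ) ≤ m := hlen.trans (by nlinarith)
  have hsq : Real.sqrt ((ns.length : ℝ) + 1) / Real.sqrt m ≤ x := by
    rw [div_le_iff₀ (Real.sqrt_pos.2 hm0)]
    rw [Real.sqrt_le_left (by positivity), mul_pow, Real.sq_sqrt hm0.le]
    have : (ns.length : ℝ) + 1 ≤ 2 * (ε * m) := by linarith
    rw [hε] at this
    linarith
  have hlam : 12 * C ^ 2 / q * (Real.sqrt ((ns.length : ℝ) + 1) / Real.sqrt m) ≤ lam := by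
    rw [← hxlam]
    exact mul_le_mul_of_nonneg_left hsq (by positivity)
  have hnj : ∀ j < ns.length, m ≤ (fun j => ns.getD j 0) j := by
    intro j hj
    simp only [List.getD, List.getElem?_eq_getElem hj, Option.getD_some]
    exact (hns _ (List.getElem_mem hj)).1
  have hnrm := main_nrm (q := q) (C := C) (lam := lam) h0 h1 hC hP' hR' hO (m := m) hm1
    (n₀ := n₀) hn₀ (n := fun j => ns.getD j 0) (g := ns.length) hnj hgm hlam hlam4
  have hF1 : feat q n₀ ns = FF q (aa q) n₀ (fun j => ns.getD j 0) ns.length := by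
    rw [FF_list q (aa q) n₀ ns ns.length le_rfl, List.take_length]
    rfl
  have hF2 : featbar q n₀ ns = FF q (aab q) n₀ (fun j => ns.getD j 0) ns.length := by
    rw [FF_list q (aab q) n₀ ns ns.length le_rfl, List.take_length]
    rfl
  exact final_l1 h0 h1 hm1 hn₀' (fun n hn => (hns n hn).2) hlamC (fun t => by
    rw [hF1, hF2]
    exact hnrm t)

end Vale.P321S
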