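import Vale.Agent.P321S.BasicL1

/-! # P321: two-sided differences (module DD) -/

namespace Vale.P321S

open scoped BigOperators

theorem stDD : StDD := by
  intro T Q l W M₀ M M' D hT hW hD
  have hD0 : 0 ≤ D := (l1_nonneg _).trans hD
  induction l generalizing M M' with
  | nil =>
    intro _ _
    simp only [dd, List.length_nil, pow_zero, one_mul]
    exact (l1_mul_pr (Pr_pow hT M')).trans (l1_pr_mul (Pr_pow hT M))
  | cons a l ih =>
    intro hM hM'
    have hW' : ∀ b ∈ l, b ≤ W := fun b hb => hW b (by simp [hb])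
    have haW : a ≤ W := hW a (by simp)
    have hlen : (a :: l).length = l.length + 1 := rfl
    rw [hlen] at hM hM' ⊢
    have hMl : l.length * M₀ + M₀ ≤ M := by
      calc l.length * M₀ + M₀ = (l.length + 1) * M₀ := by ring
        _ ≤ M := hM
    have hMl' : l.length * M₀ + M₀ ≤ M' := by
      calc l.length * M₀ + M₀ = (l.length + 1) * M₀ := by ring
        _ ≤ M' := hM'
    obtain ⟨d, hd⟩ : ∃ d, M = M₀ + d := Nat.exists_eq_add_of_le (by omega)
    obtain ⟨d', hd'⟩ : ∃ d', M' = d' + M₀ := ⟨M' - M₀, by omega⟩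
    have hdl : l.length * M₀ ≤ d := by omega
    have hdl' : l.length * M₀ ≤ d' := by omega
    set P := dd T l Q with hP
    -- the one-sided difference
    have hstep : l1 (T ^ M₀ * (T ^ a - 1)) ≤ W * D := by
      have e : T ^ M₀ * (T ^ a - 1) = -(T ^ M₀ - T ^ (M₀ + a)) := by
        rw [mul_sub, ← pow_add]; noncomm_ring
      rw [e, l1_neg]
      refine (l1_mix_steps hT M₀ a).trans ?_
      exact mul_le_mul (by exact_mod_cast haW) hD (l1_nonneg _) (by positivity)
    have hstep' : l1 ((T ^ a - 1) * T ^ M₀) ≤ W * D := by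
      have e : (T ^ a - 1) * T ^ M₀ = T ^ M₀ * (T ^ a - 1) := by
        rw [sub_mul, mul_sub, ← pow_add, ← pow_add, add_comm]; simp
      rw [e]; exact hstep
    have hWD : 0 ≤ (W : ℝ) * D := by positivity
    have h1 : l1 (T ^ d * P * T ^ M') ≤ (2 * (W * D)) ^ l.length * l1 Q := by
      exact ih d M' hW' hdl (by omega)
    have h2 : l1 (T ^ M * P * T ^ d') ≤ (2 * (W * D)) ^ l.length * l1 Q := by
      exact ih M d' hW' (by omega) hdl'
    have e : T ^ M * dd T (a :: l) Q * T ^ M'
        = (T ^ M₀ * (T ^ a - 1)) * (T ^ d * P * T ^ M')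
          - (T ^ M * P * T ^ d') * ((T ^ a - 1) * T ^ M₀) := by
      have e1 : T ^ M * (T ^ a * P) * T ^ M' - T ^ M * P * T ^ M'
          = (T ^ M₀ * (T ^ a - 1)) * (T ^ d * P * T ^ M') := by
        have c : T ^ M₀ * (T ^ a - 1) * T ^ d = T ^ M * T ^ a - T ^ M := by
          rw [hd, mul_sub, sub_mul, ← pow_add, ← pow_add, mul_one, ← pow_add, ← pow_add]
          congr 2
          omega
        calc T ^ M * (T ^ a * P) * T ^ M' - T ^ M * P * T ^ M'
            = (T ^ M * T ^ a - T ^ M) * P * T ^ M' := by noncomm_ring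
          _ = (T ^ M₀ * (T ^ a - 1) * T ^ d) * P * T ^ M' := by rw [c]
          _ = _ := by noncomm_ring
      have e2 : T ^ M * (P * T ^ a) * T ^ M' - T ^ M * P * T ^ M'
          = (T ^ M * P * T ^ d') * ((T ^ a - 1) * T ^ M₀) := by
        have c : T ^ d' * ((T ^ a - 1) * T ^ M₀) = T ^ a * T ^ M' - T ^ M' := by
          rw [hd', sub_mul, mul_sub, ← pow_add, ← pow_add, one_mul, ← pow_add, ← pow_add]
          congr 2
          omega
        calc T ^ M * (P * T ^ a) * T ^ M' - T ^ M * P * T ^ M'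
            = T ^ M * P * (T ^ a * T ^ M' - T ^ M') := by noncomm_ring
          _ = T ^ M * P * (T ^ d' * ((T ^ a - 1) * T ^ M₀)) := by rw [c]
          _ = _ := by noncomm_ring
      rw [← e1, ← e2]
      simp only [dd, ← hP]
      noncomm_ring
    rw [e]
    calc l1 ((T ^ M₀ * (T ^ a - 1)) * (T ^ d * P * T ^ M')
          - (T ^ M * P * T ^ d') * ((T ^ a - 1) * T ^ M₀))
        ≤ l1 ((T ^ M₀ * (T ^ a - 1)) * (T ^ d * P * T ^ M'))
          + l1 ((T ^ M * P * T ^ d') * ((T ^ a - 1) * T ^ M₀)) := l1_sub _ _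
      _ ≤ (W * D) * ((2 * (W * D)) ^ l.length * l1 Q)
          + ((2 * (W * D)) ^ l.length * l1 Q) * (W * D) :=
          add_le_add (l1_mul_le hstep h1) (l1_mul_le h2 hstep')
      _ = (2 * (W * D)) ^ (l.length + 1) * l1 Q := by ring

theorem dd_neg (T Q : Alg) (l : List ℕ) : dd T l (-Q) = - dd T l Q := by
  induction l with
  | nil => rfl
  | cons a l ih => simp only [dd, ih]; noncomm_ring

theorem dd_add (T Q Q' : Alg) (l : List ℕ) : dd T l (Q + Q') = dd T l Q + dd T l Q' := by
  induction l with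
  | nil => rfl
  | cons a l ih => simp only [dd, ih]; noncomm_ring

theorem dd_smul (T Q : Alg) (a : ℝ) (l : List ℕ) : dd T l (a • Q) = a • dd T l Q := by
  induction l with
  | nil => rfl
  | cons b l ih =>
    simp only [dd, ih, mul_smul_comm, smul_mul_assoc, smul_sub]

end Vale.P321S
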