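import Vale.Agent.P321S.BasicL1

/-! # P321: expansion of the noncommutative words `val l (Y + Δ) Y` -/

namespace Vale.P321S

open scoped BigOperators

theorem val_nil (X Y : Alg) : val [] X Y = 1 := rfl

theorem val_cons (b : Bool) (l : List Bool) (X Y : Alg) :
    val (b :: l) X Y = (if b then X else Y) * val l X Y := by
  simp [val]

theorem val_true (l : List Bool) (X Y : Alg) : val (true :: l) X Y = X * val l X Y := by
  simp [val]

theorem val_false (l : List Bool) (X Y : Alg) : val (false :: l) X Y = Y * val l X Y := by
  simp [val]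

theorem val_append (l l' : List Bool) (X Y : Alg) :
    val (l ++ l') X Y = val l X Y * val l' X Y := by
  simp [val]

theorem tm_length (K : ℕ) (b : Bool) : (tm K b).length = 2 ^ K := by
  induction K generalizing b with
  | zero => simp [tm]
  | succ K ih => simp [tm, ih]; ring

theorem Nn_val {X Y : Alg} (hX : Nn X) (hY : Nn Y) (l : List Bool) : Nn (val l X Y) := by
  induction l with
  | nil => rw [val_nil]; exact Nn_one
  | cons b l ih =>
    rw [val_cons]
    cases b
    · exact Nn_mul (by simpa using hY) ih
    · exact Nn_mul (by simpa using hX) ih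

theorem Pr_val {X Y : Alg} (hX : Pr X) (hY : Pr Y) (l : List Bool) : Pr (val l X Y) := by
  induction l with
  | nil => rw [val_nil]; exact Pr_one
  | cons b l ih =>
    rw [val_cons]
    cases b
    · exact Pr_mul (by simpa using hY) ih
    · exact Pr_mul (by simpa using hX) ih

theorem Le_self_smul {f : Alg} (hf : Nn f) {a : ℝ} (ha : 1 ≤ a) : Le f (a • f) := by
  intro w
  rw [MonoidAlgebra.coeff_smul, Finsupp.smul_apply, smul_eq_mul]
  nlinarith [hf w]

theorem Le_smul_left {f g : Alg} {a b : ℝ} (hg : Nn g) (h : Le f (a • g)) (hab : a ≤ b) :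
    Le f (b • g) := by
  intro w
  have h1 := h w
  rw [MonoidAlgebra.coeff_smul, Finsupp.smul_apply, smul_eq_mul] at h1 ⊢
  nlinarith [hg w, mul_le_mul_of_nonneg_right hab (hg w)]

/-- letterwise comparison of two words of the same length -/
theorem Le_val {X Y : Alg} (hX : Nn X) (hY : Nn Y) {a : ℝ} (ha : 1 ≤ a)
    (hXY : Le X (a • Y)) (hYX : Le Y (a • X)) :
    ∀ l l' : List Bool, l.length = l'.length → Le (val l X Y) (a ^ l.length • val l' X Y) := by
  intro l
  induction l with
  | nil =>
    intro l' h
    have : l' = [] := List.length_eq_zero_iff.mp (by simpa using h.symm)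
    subst this
    simpa using Le_refl _
  | cons b l ih =>
    intro l' h
    cases l' with
    | nil => simp at h
    | cons b' l' =>
      have h' : l.length = l'.length := by simpa using h
      have e : a ^ (b :: l).length • val (b' :: l') X Y
          = (a • (if b' then X else Y)) * (a ^ l.length • val l' X Y) := by
        rw [val_cons, smul_mul_smul_comm, List.length_cons, pow_succ, mul_comm (a ^ l.length) a]
      rw [e, val_cons]
      refine Le_mul ?_ (Nn_val hX hY l) ?_ (ih l' h')
      · cases b
        · simpa using hY
        · simpa using hX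
      · cases b <;> cases b'
        · simpa using Le_self_smul hY ha
        · simpa using hYX
        · simpa using hXY
        · simpa using Le_self_smul hX ha

/-- words with all letters false -/
theorem val_replicate_false (n : ℕ) (X Y : Alg) : val (List.replicate n false) X Y = Y ^ n := by
  simp [val]

/-! ### words below `l` with at least `k` letters true -/

/-- the words obtained from `l` by switching some letters `true` to `false`, keeping at least `k`
letters `true` -/
def subk : ℕ → List Bool → List (List Bool)
  | 0, [] => [[]]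
  | _ + 1, [] => []
  | 0, true :: l => (subk 0 l).map (fun u => true :: u) ++ (subk 0 l).map (fun u => false :: u)
  | k + 1, true :: l =>
      (subk k l).map (fun u => true :: u) ++ (subk (k + 1) l).map (fun u => false :: u)
  | k, false :: l => (subk k l).map (fun u => false :: u)

/-- the sum of the words in `subk k l` -/
noncomputable def Sk (k : ℕ) (l : List Bool) (Δ Y : Alg) : Alg :=
  ((subk k l).map (fun u => val u Δ Y)).sum

theorem sum_map_true (us : List (List Bool)) (Δ Y : Alg) :
    ((us.map (fun u => true :: u)).map (fun u => val u Δ Y)).sum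
      = Δ * (us.map (fun u => val u Δ Y)).sum := by
  induction us with
  | nil => simp
  | cons u us ih =>
    simp only [List.map_cons, List.sum_cons, val_true, mul_add] at ih ⊢
    rw [ih]

theorem sum_map_false (us : List (List Bool)) (Δ Y : Alg) :
    ((us.map (fun u => false :: u)).map (fun u => val u Δ Y)).sum
      = Y * (us.map (fun u => val u Δ Y)).sum := by
  induction us with
  | nil => simp
  | cons u us ih =>
    simp only [List.map_cons, List.sum_cons, val_false, mul_add] at ih ⊢
    rw [ih]

theorem Sk_false (k : ℕ) (l : List Bool) (Δ Y : Alg) :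
    Sk k (false :: l) Δ Y = Y * Sk k l Δ Y := by
  unfold Sk
  rw [subk, sum_map_false]

theorem Sk_zero_true (l : List Bool) (Δ Y : Alg) :
    Sk 0 (true :: l) Δ Y = (Y + Δ) * Sk 0 l Δ Y := by
  unfold Sk
  rw [subk, List.map_append, List.sum_append, sum_map_false, sum_map_true]
  noncomm_ring

theorem Sk_succ_true (k : ℕ) (l : List Bool) (Δ Y : Alg) :
    Sk (k + 1) (true :: l) Δ Y = Δ * Sk k l Δ Y + Y * Sk (k + 1) l Δ Y := by
  unfold Sk
  rw [subk, List.map_append, List.sum_append, sum_map_false, sum_map_true]

theorem Sk_zero (l : List Bool) (Δ Y : Alg) : Sk 0 l Δ Y = val l (Y + Δ) Y := by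
  induction l with
  | nil => simp [Sk, subk, val]
  | cons b l ih =>
    cases b
    · rw [Sk_false, val_false, ih]
    · rw [Sk_zero_true, val_true, ih]

theorem Sk_one (l : List Bool) (Δ Y : Alg) :
    Sk 1 l Δ Y = val l (Y + Δ) Y - Y ^ l.length := by
  induction l with
  | nil => simp [Sk, subk, val]
  | cons b l ih =>
    cases b
    · rw [Sk_false, val_false, ih, List.length_cons, pow_succ', mul_sub]
    · rw [Sk_succ_true, val_true, ih, Sk_zero, List.length_cons, pow_succ']
      noncomm_ring

/-- the words with exactly one letter `true` -/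
noncomputable def one1 : List Bool → Alg → Alg → Alg
  | [], _, _ => 0
  | b :: l, Δ, Y => (if b then Δ * Y ^ l.length else 0) + Y * one1 l Δ Y

theorem Sk_two (l : List Bool) (Δ Y : Alg) :
    Sk 2 l Δ Y = val l (Y + Δ) Y - Y ^ l.length - one1 l Δ Y := by
  induction l with
  | nil => simp [Sk, subk, val, one1]
  | cons b l ih =>
    cases b
    · rw [Sk_false, val_false, ih, List.length_cons, pow_succ', one1]
      simp only [Bool.false_eq_true, if_false, zero_add]
      noncomm_ring
    · rw [Sk_succ_true, val_true, ih, Sk_one, List.length_cons, pow_succ', one1]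
      simp only [if_true]
      noncomm_ring

theorem one1_append (l l' : List Bool) (Δ Y : Alg) :
    one1 (l ++ l') Δ Y = one1 l Δ Y * Y ^ l'.length + Y ^ l.length * one1 l' Δ Y := by
  induction l with
  | nil => simp [one1]
  | cons b l ih =>
    rw [List.cons_append, one1, one1, ih, List.length_append, List.length_cons]
    cases b
    · simp only [Bool.false_eq_true, if_false, zero_add]
      rw [pow_succ']
      noncomm_ring
    · simp only [if_true]
      rw [pow_succ', pow_add]
      noncomm_ring

/-- the list `[2^(K-1), ..., 2, 1]` -/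
def pows : ℕ → List ℕ
  | 0 => []
  | K + 1 => 2 ^ K :: pows K

theorem pows_length (K : ℕ) : (pows K).length = K := by
  induction K with
  | zero => rfl
  | succ K ih => simp [pows, ih]

theorem pows_le (K : ℕ) : ∀ a ∈ pows K, a ≤ 2 ^ K := by
  induction K with
  | zero => intro a ha; simp [pows] at ha
  | succ K ih =>
    intro a ha
    rw [pows, List.mem_cons] at ha
    have h2 : 2 ^ K ≤ 2 ^ (K + 1) := Nat.pow_le_pow_right (by norm_num) (Nat.le_succ K)
    rcases ha with h | h
    · rw [h]; exact h2
    · exact (ih a h).trans h2

/-- the one-true parts of the Thue-Morse words differ by an iterated two-sided difference -/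
theorem one1_tm (K : ℕ) (Δ Y : Alg) :
    one1 (tm K true) Δ Y - one1 (tm K false) Δ Y = ((-1 : ℝ) ^ K) • dd Y (pows K) Δ := by
  induction K with
  | zero => simp [tm, one1, pows, dd]
  | succ K ih =>
    have e : one1 (tm (K + 1) true) Δ Y - one1 (tm (K + 1) false) Δ Y
        = (one1 (tm K true) Δ Y - one1 (tm K false) Δ Y) * Y ^ (2 ^ K)
          - Y ^ (2 ^ K) * (one1 (tm K true) Δ Y - one1 (tm K false) Δ Y) := by
      simp only [tm, Bool.not_true, Bool.not_false, one1_append, tm_length]
      noncomm_ring
    rw [e, ih, pows, dd, smul_mul_assoc, mul_smul_comm, ← smul_sub, pow_succ, mul_smul]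
    congr 1
    rw [neg_one_smul, neg_sub]

theorem l1_one1_tm (K : ℕ) (Δ Y A B : Alg) :
    l1 (A * (one1 (tm K true) Δ Y - one1 (tm K false) Δ Y) * B)
      = l1 (A * dd Y (pows K) Δ * B) := by
  rw [one1_tm, mul_smul_comm, smul_mul_assoc, l1_smul]
  simp

/-! ### properties of `subk` -/

theorem subk_length_le (k : ℕ) (l : List Bool) : (subk k l).length ≤ 2 ^ l.length := by
  induction l generalizing k with
  | nil =>
    cases k <;> simp [subk]
  | cons b l ih =>
    cases b
    · rw [subk, List.length_map, List.length_cons, pow_succ]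
      have := ih k
      omega
    · cases k with
      | zero =>
        rw [subk, List.length_append, List.length_map, List.length_map, List.length_cons, pow_succ]
        have := ih 0
        omega
      | succ k =>
        rw [subk, List.length_append, List.length_map, List.length_map, List.length_cons, pow_succ]
        have h1 := ih k
        have h2 := ih (k + 1)
        omega

theorem subk_mem (k : ℕ) (l : List Bool) :
    ∀ u ∈ subk k l, u.length = l.length ∧ k ≤ u.count true := by
  induction l generalizing k with
  | nil =>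
    cases k with
    | zero => intro u hu; simp [subk] at hu; subst hu; simp
    | succ k => intro u hu; simp [subk] at hu
  | cons b l ih =>
    cases b
    · intro u hu
      rw [subk, List.mem_map] at hu
      obtain ⟨v, hv, rfl⟩ := hu
      obtain ⟨h1, h2⟩ := ih k v hv
      constructor
      · simp [h1]
      · simpa using h2
    · cases k with
      | zero =>
        intro u hu
        rw [subk, List.mem_append, List.mem_map, List.mem_map] at hu
        rcases hu with ⟨v, hv, rfl⟩ | ⟨v, hv, rfl⟩
        · obtain ⟨h1, h2⟩ := ih 0 v hv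
          simp [h1]
        · obtain ⟨h1, h2⟩ := ih 0 v hv
          simp [h1]
      | succ k =>
        intro u hu
        rw [subk, List.mem_append, List.mem_map, List.mem_map] at hu
        rcases hu with ⟨v, hv, rfl⟩ | ⟨v, hv, rfl⟩
        · obtain ⟨h1, h2⟩ := ih k v hv
          constructor
          · simp [h1]
          · simp; exact h2
        · obtain ⟨h1, h2⟩ := ih (k + 1) v hv
          constructor
          · simp [h1]
          · simpa using h2

theorem mass_val {Δ Y : Alg} (hΔ : mass Δ = 0) (l : List Bool) (h : 1 ≤ l.count true) :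
    mass (val l Δ Y) = 0 := by
  induction l with
  | nil => simp at h
  | cons b l ih =>
    cases b
    · rw [val_false, mass_mul, ih (by simpa using h), mul_zero]
    · rw [val_true, mass_mul, hΔ, zero_mul]

theorem mass_Sk {Δ Y : Alg} (hΔ : mass Δ = 0) (k : ℕ) (hk : 1 ≤ k) (l : List Bool) :
    mass (Sk k l Δ Y) = 0 := by
  have key : ∀ us : List (List Bool), (∀ u ∈ us, 1 ≤ u.count true) →
      mass (us.map (fun u => val u Δ Y)).sum = 0 := by
    intro us
    induction us with
    | nil => intro _; simp [mass_zero]
    | cons u us ih =>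
      intro h
      rw [List.map_cons, List.sum_cons, mass_add, mass_val hΔ u (h u (by simp)),
        ih (fun v hv => h v (by simp [hv])), add_zero]
  exact key _ (fun u hu => hk.trans (subk_mem k l u hu).2)

/-- replacing the letter `X` by a nearby `X'` -/
theorem l1_val_sub {X X' Y : Alg} {δ : ℝ} (hX : l1 X ≤ 1) (hX' : l1 X' ≤ 1 + δ)
    (hY : l1 Y ≤ 1) (hδ : 0 ≤ δ) (hXX' : l1 (X - X') ≤ δ) (l : List Bool) :
    l1 (val l X Y - val l X' Y) ≤ (1 + δ) ^ l.length - 1 := by
  have hval : ∀ l : List Bool, l1 (val l X Y) ≤ 1 := by
    intro l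
    induction l with
    | nil => rw [val_nil, l1_one]
    | cons b l ih =>
      cases b
      · rw [val_false]
        calc l1 (Y * val l X Y) ≤ 1 * 1 := l1_mul_le hY ih
          _ = 1 := by norm_num
      · rw [val_true]
        calc l1 (X * val l X Y) ≤ 1 * 1 := l1_mul_le hX ih
          _ = 1 := by norm_num
  induction l with
  | nil => simp [val_nil, l1_zero]
  | cons b l ih =>
    have hp : 0 ≤ (1 + δ) ^ l.length - 1 := (l1_nonneg _).trans ih
    rw [List.length_cons, pow_succ]
    cases b
    · rw [val_false, val_false, ← mul_sub]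
      calc l1 (Y * (val l X Y - val l X' Y)) ≤ 1 * ((1 + δ) ^ l.length - 1) := l1_mul_le hY ih
        _ ≤ (1 + δ) ^ l.length * (1 + δ) - 1 := by nlinarith
    · have e : val (true :: l) X Y - val (true :: l) X' Y
          = (X - X') * val l X Y + X' * (val l X Y - val l X' Y) := by
        rw [val_true, val_true]; noncomm_ring
      rw [e]
      calc l1 ((X - X') * val l X Y + X' * (val l X Y - val l X' Y))
          ≤ l1 ((X - X') * val l X Y) + l1 (X' * (val l X Y - val l X' Y)) := l1_add _ _
        _ ≤ δ * 1 + (1 + δ) * ((1 + δ) ^ l.length - 1) :=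
            add_le_add (l1_mul_le hXX' (hval l)) (l1_mul_le hX' ih)
        _ = (1 + δ) ^ l.length * (1 + δ) - 1 := by ring

theorem one_add_pow_le {δ : ℝ} (h0 : 0 ≤ δ) (h1 : δ ≤ 1) (n : ℕ) :
    (1 + δ) ^ n - 1 ≤ 2 ^ n * δ := by
  have key : (1 + δ) ^ n ≤ 1 + (2 ^ n - 1) * δ := by
    induction n with
    | zero => simp
    | succ n ih =>
      have h2 : (1 : ℝ) ≤ 2 ^ n := one_le_pow₀ (by norm_num)
      calc (1 + δ) ^ (n + 1) = (1 + δ) ^ n * (1 + δ) := pow_succ _ _
        _ ≤ (1 + (2 ^ n - 1) * δ) * (1 + δ) := mul_le_mul_of_nonneg_right ih (by linarith)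
        _ = 1 + 2 ^ n * δ + (2 ^ n - 1) * (δ * δ) := by ring
        _ ≤ 1 + 2 ^ n * δ + (2 ^ n - 1) * (δ * 1) := by
            have : δ * δ ≤ δ * 1 := mul_le_mul_of_nonneg_left h1 h0
            nlinarith
        _ = 1 + (2 ^ (n + 1) - 1) * δ := by rw [pow_succ]; ring
  nlinarith

end Vale.P321S
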