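import Vale.Agent.P321S.BasicL2
import Vale.Agent.P321S.DD
import Vale.Agent.P321S.Words

/-! # P321S module LEVELS -/

namespace Vale.P321S.LV

open Vale.P321S

noncomputable section

/-! ## words -/

theorem ev_append (E : Fin 3 → Alg) (l l' : List (Fin 3)) :
    ev E (l ++ l') = ev E l * ev E l' := by
  unfold ev
  rw [List.map_append, List.prod_append]

theorem ev_rep (E : Fin 3 → Alg) (n : ℕ) (l : List (Fin 3)) :
    ev E (List.replicate n l).flatten = ev E l ^ n := by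
  induction n with
  | zero => simp [ev]
  | succ n ih => rw [List.replicate_succ, List.flatten_cons, ev_append, ih, pow_succ']

theorem ev_flatMap (E : Fin 3 → Alg) (wX wY : List (Fin 3)) (l : List Bool) :
    ev E (l.flatMap (fun b => if b then wX else wY)) = val l (ev E wX) (ev E wY) := by
  induction l with
  | nil => simp [ev, val]
  | cons b l ih =>
    rw [List.flatMap_cons, ev_append, ih]
    unfold val
    rw [List.map_cons, List.prod_cons]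
    cases b <;> simp

/-- the composed word -/
def WW (N : ℕ) (wT wX wY : List (Fin 3)) (l : List Bool) : List (Fin 3) :=
  (List.replicate N wT).flatten ++ (l.flatMap (fun b => if b then wX else wY)
    ++ (List.replicate N wT).flatten)

theorem ev_WW (E : Fin 3 → Alg) (N : ℕ) (wT wX wY : List (Fin 3)) (l : List Bool) :
    ev E (WW N wT wX wY l) = ev E wT ^ N * val l (ev E wX) (ev E wY) * ev E wT ^ N := by
  unfold WW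
  rw [ev_append, ev_append, ev_rep, ev_flatMap, mul_assoc]

theorem flatMap_length (wX wY : List (Fin 3)) (h : wX.length = wY.length) (l : List Bool) :
    (l.flatMap (fun b => if b then wX else wY)).length = l.length * wY.length := by
  induction l with
  | nil => simp
  | cons b l ih =>
    rw [List.flatMap_cons, List.length_append, ih, List.length_cons]
    cases b <;> simp [h] <;> ring

theorem rep_length (n : ℕ) (l : List (Fin 3)) :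
    (List.replicate n l).flatten.length = n * l.length := by
  induction n with
  | zero => simp
  | succ n ih => rw [List.replicate_succ, List.flatten_cons, List.length_append, ih]; ring

theorem WW_length {N : ℕ} {wT wX wY : List (Fin 3)} (h : wX.length = wY.length)
    (hT : wT.length = wY.length) (l : List Bool) :
    (WW N wT wX wY l).length = (2 * N + l.length) * wY.length := by
  unfold WW
  rw [List.length_append, List.length_append, flatMap_length wX wY h, rep_length, hT]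
  ring

theorem tm_head (K : ℕ) (b : Bool) : ∃ l, tm K b = b :: l := by
  induction K with
  | zero => exact ⟨[], rfl⟩
  | succ K ih =>
    obtain ⟨l, hl⟩ := ih
    refine ⟨l ++ tm K (!b), ?_⟩
    rw [tm, hl, List.cons_append]

theorem WW_ne {N : ℕ} {wT wX wY : List (Fin 3)} (h : wX.length = wY.length) (hne : wX ≠ wY)
    (K : ℕ) : WW N wT wX wY (tm K true) ≠ WW N wT wX wY (tm K false) := by
  intro heq
  unfold WW at heq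
  have h1 := List.append_cancel_left heq
  obtain ⟨l, hl⟩ := tm_head K true
  obtain ⟨l', hl'⟩ := tm_head K false
  rw [hl, hl', List.flatMap_cons, List.flatMap_cons, List.append_assoc, List.append_assoc] at h1
  have h2 := List.append_inj_left h1 (by simpa using h)
  apply hne
  simpa using h2

/-! ## closeness of the evaluations -/

theorem ev_pr {E : Fin 3 → Alg} (hE : ∀ d, Pr (E d)) (l : List (Fin 3)) : Pr (ev E l) := by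
  unfold ev
  apply Pr_prod
  intro f hf
  obtain ⟨d, _, rfl⟩ := List.mem_map.1 hf
  exact hE d

theorem ev_close {E E' : Fin 3 → Alg} (hE : ∀ d, Pr (E d)) (hE' : ∀ d, Pr (E' d)) {δ : ℝ}
    (h : ∀ d, l1 (E d - E' d) ≤ δ) (l : List (Fin 3)) :
    l1 (ev E l - ev E' l) ≤ l.length * δ := by
  induction l with
  | nil => simp [ev, l1_zero]
  | cons d l ih =>
    have e1 : ev E (d :: l) = E d * ev E l := by
      unfold ev
      rw [List.map_cons, List.prod_cons]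
    have e2 : ev E' (d :: l) = E' d * ev E' l := by
      unfold ev
      rw [List.map_cons, List.prod_cons]
    have e3 : E d * ev E l - E' d * ev E' l
        = (E d - E' d) * ev E l + E' d * (ev E l - ev E' l) := by noncomm_ring
    rw [e1, e2, e3]
    have a1 := l1_add ((E d - E' d) * ev E l) (E' d * (ev E l - ev E' l))
    have a2 : l1 ((E d - E' d) * ev E l) ≤ l1 (E d - E' d) := l1_mul_pr (ev_pr hE l)
    have a3 : l1 (E' d * (ev E l - ev E' l)) ≤ l1 (ev E l - ev E' l) := l1_pr_mul (hE' d)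
    have a4 := h d
    rw [List.length_cons]
    push_cast
    linarith

theorem Pr_uu {q : ℝ} (h0 : 0 < q) (h1 : q < 1) : Pr (uu q) := by
  unfold uu
  refine ⟨Nn_add (Nn_add (Nn_smul (by positivity) Nn_one)
    (Nn_smul (mul_nonneg h0.le (by linarith)) (Nn_single zero_le_one)))
    (Nn_smul (by linarith) (Nn_single zero_le_one)), ?_⟩
  rw [mass_add, mass_add, mass_smul, mass_smul, mass_smul, mass_one, mass_single, mass_single]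
  ring

theorem Pr_aa {q : ℝ} (h0 : 0 < q) (h1 : q < 1) : Pr (aa q) := by
  unfold aa
  refine ⟨Nn_add (Nn_smul h0.le Nn_one) (Nn_smul (by linarith) (Nn_single zero_le_one)), ?_⟩
  rw [mass_add, mass_smul, mass_smul, mass_one, mass_single]
  ring

theorem Pr_cellN {q : ℝ} (h0 : 0 < q) (h1 : q < 1) (m : ℕ) (d : Fin 3) : Pr (cellN q m d) := by
  unfold cellN
  exact Pr_mul (Pr_mul (Pr_pow (Pr_uu h0 h1) _) (Pr_aa h0 h1)) (Pr_pow (Pr_uu h0 h1) _)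

theorem Mix_mono {T : Alg} {k k' : ℕ} {C C' : ℝ} (hC : 0 ≤ C) (h : Mix T k C) (hk : k ≤ k')
    (hCC : C ≤ C') : Mix T k' C' := by
  intro M hM
  refine (h M hM).trans ?_
  have h1 : Real.sqrt ((k : ℝ) / M) ≤ Real.sqrt ((k' : ℝ) / M) := by
    apply Real.sqrt_le_sqrt
    have : (k : ℝ) ≤ k' := by exact_mod_cast hk
    gcongr
  exact mul_le_mul hCC h1 (Real.sqrt_nonneg _) (hC.trans hCC)

/-! ## numerics -/

theorem zle {v : ℝ} (hv : 1 ≤ v) {a b : ℤ} (h : a ≤ b) : v ^ a ≤ v ^ b :=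
  zpow_le_zpow_right₀ hv h

theorem zmul {v : ℝ} (hv : 1 ≤ v) (a b : ℤ) : v ^ a * v ^ b = v ^ (a + b) :=
  (zpow_add₀ (by linarith : v ≠ 0) a b).symm

theorem zsq {v : ℝ} (a : ℤ) : (v ^ a) ^ 2 = v ^ (2 * a) := by
  rw [← zpow_natCast, ← zpow_mul, mul_comm]
  norm_num

theorem zcube {v : ℝ} (a : ℤ) : (v ^ a) ^ 3 = v ^ (3 * a) := by
  rw [← zpow_natCast, ← zpow_mul, mul_comm]
  norm_num

theorem zpos {v : ℝ} (hv : 1 ≤ v) (a : ℤ) : 0 < v ^ a := zpow_pos (by linarith) a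

theorem tiny_pow {ν n K : ℕ} {C₁ : ℝ} (hC : 1 ≤ C₁) (hν : C₁ ^ 4 ≤ ν) (hn : 4 * n ≤ K) :
    (C₁ / Real.sqrt ν) ^ K ≤ (ν : ℝ) ^ (-(n : ℤ)) := by
  have hC4 : 1 ≤ C₁ ^ 4 := one_le_pow₀ hC
  have hν1 : (1 : ℝ) ≤ ν := hC4.trans hν
  have hs : Real.sqrt ν ^ 2 = ν := Real.sq_sqrt (by linarith)
  have hsp : 0 < Real.sqrt ν := Real.sqrt_pos.2 (by linarith)
  set x : ℝ := C₁ / Real.sqrt ν with hx
  have hx0 : 0 ≤ x := by positivity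
  have hx4 : x ^ 4 ≤ (ν : ℝ)⁻¹ := by
    rw [hx, div_pow]
    have : Real.sqrt ν ^ 4 = (ν : ℝ) ^ 2 := by
      rw [show (4 : ℕ) = 2 * 2 by norm_num, pow_mul, hs]
    rw [this, div_le_iff₀ (by positivity)]
    have : (ν : ℝ)⁻¹ * (ν : ℝ) ^ 2 = ν := by
      field_simp
    rw [this]
    exact hν
  have hx1 : x ≤ 1 := by
    by_contra h
    push Not at h
    have h1 : 1 < x ^ 4 := one_lt_pow₀ h (by norm_num)
    have h2 : (ν : ℝ)⁻¹ ≤ 1 := inv_le_one_of_one_le₀ hν1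
    linarith
  calc x ^ K ≤ x ^ (4 * n) := pow_le_pow_of_le_one hx0 hx1 hn
    _ = (x ^ 4) ^ n := pow_mul _ _ _
    _ ≤ ((ν : ℝ)⁻¹) ^ n := pow_le_pow_left₀ (by positivity) hx4 n
    _ = (ν : ℝ) ^ (-(n : ℤ)) := by rw [zpow_neg, zpow_natCast, inv_pow]

/-- numerical bounds for the data of one level -/
structure Bd (ν c p Ar Ah Ab D N k : ℕ) (r η β τ : ℝ) : Prop where
  Nlo : ν ^ (16 * p) ≤ N
  klo : ν ^ (32 * p) ≤ k
  khi : k ≤ ν ^ (c + 32 * p)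
  r0 : 0 ≤ r
  rle : r ≤ (ν : ℝ) ^ ((c : ℤ) - Ar)
  η0 : 0 ≤ η
  ηle : η ≤ (ν : ℝ) ^ ((c : ℤ) - Ah)
  β0 : 0 ≤ β
  βle : β ≤ (ν : ℝ) ^ ((c : ℤ) - Ab)
  τ0 : 0 ≤ τ
  τle : τ ≤ (ν : ℝ) ^ (-(D : ℤ))

theorem Bd.step {ν c p e Ar Ah Ab Ar' Ah' Ab' D D' N k K N' R' k' : ℕ}
    {r η β τ r' η' β' τ' C₁ : ℝ}
    (h : Bd ν c p Ar Ah Ab D N k r η β τ)
    (hC : 1 ≤ C₁) (hν4 : C₁ ^ 4 ≤ ν) (hν : 1000 ≤ ν) (hKν : 2 ^ K ≤ ν) (hc : 1 ≤ c)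
    (he : 4 * c + 3 ≤ e)
    (F1 : Ah' ≤ 8 * p + 2 * Ar) (F2 : Ah' + 16 * p ≤ Ab + 2 * Ah)
    (F3 : Ab' ≤ 8 * p + Ar) (F4 : Ab' + 16 * p ≤ Ab + Ah) (F5 : Ar' ≤ 2 * Ah)
    (F6 : 32 * p + 16 * e ≤ 2 * Ab) (F7 : 64 * p + 16 * e ≤ 2 * Ab')
    (F8 : e ≤ Ar) (F9 : e ≤ Ah)
    (hD : D' + (3 * c + 7 + 96 * p) ≤ D) (hK : 4 * D ≤ K)
    (eN' : N' = ν * k) (eR' : R' = 2 * N' + 2 ^ K) (ek' : k' = ν * (R' * k))
    (er' : r' = C₁ * η ^ 2)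
    (eη' : η' = C₁ * (Real.sqrt (1 / N) * r ^ 2 + Real.sqrt N' * β * η ^ 2))
    (eβ' : β' = C₁ * (Real.sqrt (1 / N) * r + Real.sqrt N' * β * η))
    (eτ' : τ' = C₁ * (N' * τ + (C₁ / Real.sqrt ν) ^ K)) :
    Bd ν (4 * c + 3) (2 * p) Ar' Ah' Ab' D' N' k' r' η' β' τ' ∧ r ≤ 1 ∧ η ≤ 1 ∧
      C₁ * (N' * β ^ 2) ≤ 1 ∧ C₁ * (N' * τ) ≤ 1 ∧ k' * β' ^ 2 ≤ 1 / 1000 ∧
      k' * τ' ≤ 1 / 100 ∧ R' ≤ ν ^ (c + 2 + 32 * p) := by
  have hv : (1 : ℝ) ≤ ν := by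
    have : (1000 : ℝ) ≤ ν := by exact_mod_cast hν
    linarith
  have hν1 : 1 ≤ ν := by omega
  have hv1000 : (1000 : ℝ) ≤ ν := by exact_mod_cast hν
  have hCν : C₁ ≤ (ν : ℝ) ^ (1 : ℤ) := by
    rw [zpow_one]
    have : C₁ ≤ C₁ ^ 4 := by
      calc C₁ = C₁ ^ 1 := (pow_one _).symm
        _ ≤ C₁ ^ 4 := pow_le_pow_right₀ hC (by norm_num)
    linarith
  have hC0 : 0 ≤ C₁ := by linarith
  set v : ℝ := (ν : ℝ) with hvdef
  -- integers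
  have hkr : (k : ℝ) ≤ v ^ ((c : ℤ) + 32 * p) := by
    have : (k : ℝ) ≤ ((ν ^ (c + 32 * p) : ℕ) : ℝ) := by exact_mod_cast h.khi
    rw [show ((c : ℤ) + 32 * p) = ((c + 32 * p : ℕ) : ℤ) by push_cast; ring, zpow_natCast]
    simpa using this
  have hN'r : (N' : ℝ) ≤ v ^ ((c : ℤ) + 1 + 32 * p) := by
    rw [eN']
    push_cast
    calc (ν : ℝ) * k ≤ v ^ (1 : ℤ) * v ^ ((c : ℤ) + 32 * p) := by
          rw [zpow_one]
          exact mul_le_mul_of_nonneg_left hkr (by linarith)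
      _ = v ^ ((c : ℤ) + 1 + 32 * p) := by rw [zmul hv]; congr 1; ring
  have hk1 : 1 ≤ k := le_trans (Nat.one_le_pow _ _ hν1) h.klo
  have hKN' : 2 ^ K ≤ N' := by
    rw [eN']
    calc 2 ^ K ≤ ν * 1 := by omega
      _ ≤ ν * k := Nat.mul_le_mul_left _ hk1
  have hR'N' : R' ≤ 3 * N' := by omega
  have hR'le : R' ≤ ν ^ (c + 2 + 32 * p) := by
    calc R' ≤ 3 * N' := hR'N'
      _ ≤ ν * (ν * k) := by rw [eN']; exact Nat.mul_le_mul_right _ (by omega)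
      _ ≤ ν * (ν * ν ^ (c + 32 * p)) :=
          Nat.mul_le_mul_left _ (Nat.mul_le_mul_left _ h.khi)
      _ = ν ^ (c + 2 + 32 * p) := by ring
  have hR'r : (R' : ℝ) ≤ v ^ ((c : ℤ) + 2 + 32 * p) := by
    have : (R' : ℝ) ≤ ((ν ^ (c + 2 + 32 * p) : ℕ) : ℝ) := by exact_mod_cast hR'le
    rw [show ((c : ℤ) + 2 + 32 * p) = ((c + 2 + 32 * p : ℕ) : ℤ) by push_cast; ring, zpow_natCast]
    simpa using this
  have hk'le : k' ≤ ν ^ (2 * c + 3 + 64 * p) := by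
    calc k' = ν * (R' * k) := ek'
      _ ≤ ν * (ν ^ (c + 2 + 32 * p) * ν ^ (c + 32 * p)) :=
          Nat.mul_le_mul_left _ (Nat.mul_le_mul hR'le h.khi)
      _ = ν ^ (2 * c + 3 + 64 * p) := by
          rw [← pow_add, ← pow_succ']
          congr 1
          ring
  have hk'r : (k' : ℝ) ≤ v ^ ((2 * c : ℤ) + 3 + 64 * p) := by
    have : (k' : ℝ) ≤ ((ν ^ (2 * c + 3 + 64 * p) : ℕ) : ℝ) := by exact_mod_cast hk'le
    rw [show ((2 * c : ℤ) + 3 + 64 * p) = ((2 * c + 3 + 64 * p : ℕ) : ℤ) by push_cast; ring,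
      zpow_natCast]
    simpa using this
  -- square roots
  have hsN : Real.sqrt (1 / N) ≤ v ^ (-(8 * p : ℤ)) := by
    rw [Real.sqrt_le_iff]
    refine ⟨(zpos hv _).le, ?_⟩
    rw [zsq]
    have h1 : v ^ ((16 * p : ℕ) : ℤ) ≤ (N : ℝ) := by
      rw [zpow_natCast]
      have := h.Nlo
      have h2 : (((ν ^ (16 * p) : ℕ)) : ℝ) ≤ (N : ℝ) := by exact_mod_cast this
      simpa using h2
    have h3 : v ^ (2 * -(8 * p : ℤ)) = (v ^ ((16 * p : ℕ) : ℤ))⁻¹ := by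
      rw [← zpow_neg]
      congr 1
      push_cast
      ring
    rw [h3, one_div]
    exact inv_anti₀ (zpos hv _) h1
  have hsN' : Real.sqrt N' ≤ v ^ ((c : ℤ) + 1 + 16 * p) := by
    rw [Real.sqrt_le_iff]
    refine ⟨(zpos hv _).le, ?_⟩
    rw [zsq]
    exact hN'r.trans (zle hv (by push_cast; linarith))
  have hsN0 := Real.sqrt_nonneg (1 / (N : ℝ))
  have hsN'0 := Real.sqrt_nonneg (N' : ℝ)
  have h2v : (2 : ℝ) ≤ v ^ (1 : ℤ) := by rw [zpow_one]; linarith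
  -- squares
  have hη2 : η ^ 2 ≤ v ^ (2 * ((c : ℤ) - Ah)) := by
    rw [← zsq]
    exact pow_le_pow_left₀ h.η0 h.ηle 2
  have hr2 : r ^ 2 ≤ v ^ (2 * ((c : ℤ) - Ar)) := by
    rw [← zsq]
    exact pow_le_pow_left₀ h.r0 h.rle 2
  have hβ2 : β ^ 2 ≤ v ^ (2 * ((c : ℤ) - Ab)) := by
    rw [← zsq]
    exact pow_le_pow_left₀ h.β0 h.βle 2
  have hη2' := sq_nonneg η
  have hr2' := sq_nonneg r
  -- r'
  have hr'le : r' ≤ v ^ (((4 * c + 3 : ℕ) : ℤ) - Ar') := by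
    rw [er']
    calc C₁ * η ^ 2 ≤ v ^ (1 : ℤ) * v ^ (2 * ((c : ℤ) - Ah)) :=
          mul_le_mul hCν hη2 hη2' (zpos hv _).le
      _ = v ^ (1 + 2 * ((c : ℤ) - Ah)) := zmul hv _ _
      _ ≤ _ := zle hv (by push_cast; linarith)
  -- η'
  have hη'le : η' ≤ v ^ (((4 * c + 3 : ℕ) : ℤ) - Ah') := by
    have t1 : Real.sqrt (1 / N) * r ^ 2 ≤ v ^ ((3 * c : ℤ) + 1 - Ah') := by
      calc Real.sqrt (1 / N) * r ^ 2 ≤ v ^ (-(8 * p : ℤ)) * v ^ (2 * ((c : ℤ) - Ar)) :=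
            mul_le_mul hsN hr2 hr2' (zpos hv _).le
        _ = v ^ (-(8 * p : ℤ) + 2 * ((c : ℤ) - Ar)) := zmul hv _ _
        _ ≤ _ := zle hv (by push_cast; linarith)
    have t2 : Real.sqrt N' * β * η ^ 2 ≤ v ^ ((4 * c : ℤ) + 1 - Ah') := by
      calc Real.sqrt N' * β * η ^ 2
          ≤ (v ^ ((c : ℤ) + 1 + 16 * p) * v ^ ((c : ℤ) - Ab)) * v ^ (2 * ((c : ℤ) - Ah)) := by
            refine mul_le_mul (mul_le_mul hsN' h.βle h.β0 (zpos hv _).le) hη2 hη2' ?_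
            exact (mul_pos (zpos hv _) (zpos hv _)).le
        _ = v ^ ((c : ℤ) + 1 + 16 * p + ((c : ℤ) - Ab) + 2 * ((c : ℤ) - Ah)) := by
            rw [zmul hv, zmul hv]
        _ ≤ _ := zle hv (by push_cast; linarith)
    have t1' : v ^ ((3 * c : ℤ) + 1 - Ah') ≤ v ^ ((4 * c : ℤ) + 1 - Ah') :=
      zle hv (by push_cast; linarith)
    rw [eη']
    calc C₁ * (Real.sqrt (1 / N) * r ^ 2 + Real.sqrt N' * β * η ^ 2)
        ≤ v ^ (1 : ℤ) * (v ^ (1 : ℤ) * v ^ ((4 * c : ℤ) + 1 - Ah')) := by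
          refine mul_le_mul hCν ?_ ?_ (zpos hv _).le
          · have : 2 * v ^ ((4 * c : ℤ) + 1 - Ah') ≤ v ^ (1 : ℤ) * v ^ ((4 * c : ℤ) + 1 - Ah') :=
              mul_le_mul_of_nonneg_right h2v (zpos hv _).le
            linarith
          · have := h.β0
            positivity
      _ = v ^ (1 + (1 + ((4 * c : ℤ) + 1 - Ah'))) := by rw [zmul hv, zmul hv]
      _ ≤ _ := zle hv (by push_cast; linarith)
  -- β'
  have hβ'0 : 0 ≤ β' := by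
    rw [eβ']
    have := h.β0
    have := h.η0
    have := h.r0
    positivity
  have hβ'le' : β' ≤ v ^ ((3 * c : ℤ) + 3 - Ab') := by
    have t1 : Real.sqrt (1 / N) * r ≤ v ^ ((3 * c : ℤ) + 1 - Ab') := by
      calc Real.sqrt (1 / N) * r ≤ v ^ (-(8 * p : ℤ)) * v ^ ((c : ℤ) - Ar) :=
            mul_le_mul hsN h.rle h.r0 (zpos hv _).le
        _ = v ^ (-(8 * p : ℤ) + ((c : ℤ) - Ar)) := zmul hv _ _
        _ ≤ _ := zle hv (by push_cast; linarith)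
    have t2 : Real.sqrt N' * β * η ≤ v ^ ((3 * c : ℤ) + 1 - Ab') := by
      calc Real.sqrt N' * β * η
          ≤ (v ^ ((c : ℤ) + 1 + 16 * p) * v ^ ((c : ℤ) - Ab)) * v ^ ((c : ℤ) - Ah) := by
            refine mul_le_mul (mul_le_mul hsN' h.βle h.β0 (zpos hv _).le) h.ηle h.η0 ?_
            exact (mul_pos (zpos hv _) (zpos hv _)).le
        _ = v ^ ((c : ℤ) + 1 + 16 * p + ((c : ℤ) - Ab) + ((c : ℤ) - Ah)) := by
            rw [zmul hv, zmul hv]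
        _ ≤ _ := zle hv (by push_cast; linarith)
    rw [eβ']
    calc C₁ * (Real.sqrt (1 / N) * r + Real.sqrt N' * β * η)
        ≤ v ^ (1 : ℤ) * (v ^ (1 : ℤ) * v ^ ((3 * c : ℤ) + 1 - Ab')) := by
          refine mul_le_mul hCν ?_ ?_ (zpos hv _).le
          · have : 2 * v ^ ((3 * c : ℤ) + 1 - Ab') ≤ v ^ (1 : ℤ) * v ^ ((3 * c : ℤ) + 1 - Ab') :=
              mul_le_mul_of_nonneg_right h2v (zpos hv _).le
            linarith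
          · have := h.β0
            have := h.η0
            have := h.r0
            positivity
      _ = v ^ (1 + (1 + ((3 * c : ℤ) + 1 - Ab'))) := by rw [zmul hv, zmul hv]
      _ ≤ _ := zle hv (by push_cast; linarith)
  have hβ'le : β' ≤ v ^ (((4 * c + 3 : ℕ) : ℤ) - Ab') :=
    hβ'le'.trans (zle hv (by push_cast; linarith))
  -- τ'
  have hτ'0 : 0 ≤ τ' := by
    rw [eτ']
    have := h.τ0
    positivity
  have hN'τ : N' * τ ≤ v ^ ((c : ℤ) + 1 + 32 * p - D) := by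
    calc N' * τ ≤ v ^ ((c : ℤ) + 1 + 32 * p) * v ^ (-(D : ℤ)) :=
          mul_le_mul hN'r h.τle h.τ0 (zpos hv _).le
      _ = v ^ ((c : ℤ) + 1 + 32 * p - D) := by rw [zmul hv]; congr 1
  have hN'τ0 : 0 ≤ N' * τ := mul_nonneg (Nat.cast_nonneg _) h.τ0
  have hτ'le : τ' ≤ v ^ ((c : ℤ) + 3 + 32 * p - D) := by
    have t1 : (C₁ / Real.sqrt ν) ^ K ≤ v ^ ((c : ℤ) + 1 + 32 * p - D) :=
      (tiny_pow hC hν4 hK).trans (zle hv (by push_cast; linarith))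
    rw [eτ']
    calc C₁ * (N' * τ + (C₁ / Real.sqrt ν) ^ K)
        ≤ v ^ (1 : ℤ) * (v ^ (1 : ℤ) * v ^ ((c : ℤ) + 1 + 32 * p - D)) := by
          refine mul_le_mul hCν ?_ ?_ (zpos hv _).le
          · have : 2 * v ^ ((c : ℤ) + 1 + 32 * p - D)
                ≤ v ^ (1 : ℤ) * v ^ ((c : ℤ) + 1 + 32 * p - D) :=
              mul_le_mul_of_nonneg_right h2v (zpos hv _).le
            linarith
          · positivity
      _ = v ^ (1 + (1 + ((c : ℤ) + 1 + 32 * p - D))) := by rw [zmul hv, zmul hv]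
      _ ≤ _ := zle hv (by push_cast; linarith)
  have hz1 : v ^ (-(1 : ℤ)) ≤ 1 / 1000 := by
    rw [zpow_neg, zpow_one, one_div]
    exact inv_anti₀ (by norm_num) hv1000
  refine ⟨⟨?_, ?_, ?_, ?_, hr'le, ?_, hη'le, hβ'0, hβ'le, hτ'0, ?_⟩, ?_, ?_, ?_, ?_, ?_, ?_, hR'le⟩
  · -- Nlo
    rw [eN']
    calc ν ^ (16 * (2 * p)) = 1 * ν ^ (32 * p) := by rw [one_mul]; congr 1; ring
      _ ≤ ν * k := Nat.mul_le_mul hν1 h.klo
  · -- klo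
    rw [ek']
    have : ν ^ (32 * p) ≤ R' := by
      calc ν ^ (32 * p) ≤ k := h.klo
        _ ≤ ν * k := Nat.le_mul_of_pos_left _ (by omega)
        _ = N' := eN'.symm
        _ ≤ R' := by rw [eR']; exact Nat.le_add_right_of_le (by omega)
    calc ν ^ (32 * (2 * p)) = 1 * (ν ^ (32 * p) * ν ^ (32 * p)) := by
          rw [one_mul, ← pow_add]; congr 1; ring
      _ ≤ ν * (R' * k) := Nat.mul_le_mul hν1 (Nat.mul_le_mul this h.klo)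
  · -- khi
    exact hk'le.trans (Nat.pow_le_pow_right hν1 (by omega))
  · rw [er']; positivity
  · rw [eη']
    have := h.β0
    positivity
  · exact hτ'le.trans (zle hv (by push_cast; linarith))
  · -- r ≤ 1
    calc r ≤ v ^ ((c : ℤ) - Ar) := h.rle
      _ ≤ v ^ (0 : ℤ) := zle hv (by push_cast; linarith)
      _ = 1 := zpow_zero _
  · calc η ≤ v ^ ((c : ℤ) - Ah) := h.ηle
      _ ≤ v ^ (0 : ℤ) := zle hv (by push_cast; linarith)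
      _ = 1 := zpow_zero _
  · calc C₁ * (N' * β ^ 2)
        ≤ v ^ (1 : ℤ) * (v ^ ((c : ℤ) + 1 + 32 * p) * v ^ (2 * ((c : ℤ) - Ab))) := by
          refine mul_le_mul hCν (mul_le_mul hN'r hβ2 (sq_nonneg _) (zpos hv _).le) ?_
            (zpos hv _).le
          positivity
      _ = v ^ (1 + ((c : ℤ) + 1 + 32 * p + 2 * ((c : ℤ) - Ab))) := by rw [zmul hv, zmul hv]
      _ ≤ v ^ (0 : ℤ) := zle hv (by push_cast; linarith)
      _ = 1 := zpow_zero _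
  · calc C₁ * (N' * τ) ≤ v ^ (1 : ℤ) * v ^ ((c : ℤ) + 1 + 32 * p - D) :=
          mul_le_mul hCν hN'τ hN'τ0 (zpos hv _).le
      _ = v ^ (1 + ((c : ℤ) + 1 + 32 * p - D)) := zmul hv _ _
      _ ≤ v ^ (0 : ℤ) := zle hv (by push_cast; linarith)
      _ = 1 := zpow_zero _
  · have hb2 : β' ^ 2 ≤ v ^ (2 * ((3 * c : ℤ) + 3 - Ab')) := by
      rw [← zsq]
      exact pow_le_pow_left₀ hβ'0 hβ'le' 2
    calc k' * β' ^ 2 ≤ v ^ ((2 * c : ℤ) + 3 + 64 * p) * v ^ (2 * ((3 * c : ℤ) + 3 - Ab')) :=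
          mul_le_mul hk'r hb2 (sq_nonneg _) (zpos hv _).le
      _ = v ^ ((2 * c : ℤ) + 3 + 64 * p + 2 * ((3 * c : ℤ) + 3 - Ab')) := zmul hv _ _
      _ ≤ v ^ (-(1 : ℤ)) := zle hv (by push_cast; linarith)
      _ ≤ 1 / 1000 := hz1
  · calc k' * τ' ≤ v ^ ((2 * c : ℤ) + 3 + 64 * p) * v ^ ((c : ℤ) + 3 + 32 * p - D) :=
          mul_le_mul hk'r hτ'le hτ'0 (zpos hv _).le
      _ = v ^ ((2 * c : ℤ) + 3 + 64 * p + ((c : ℤ) + 3 + 32 * p - D)) := zmul hv _ _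
      _ ≤ v ^ (-(1 : ℤ)) := zle hv (by push_cast; linarith)
      _ ≤ 1 / 1000 := hz1
      _ ≤ 1 / 100 := by norm_num

/-! ## exponents -/

/-- exponent of `r` -/
def ar (j : ℕ) : ℕ := if j = 1 then 64 else if j = 2 then 128 else 2 ^ j * (31 + j)

/-- exponent of `η` -/
def ah (j : ℕ) : ℕ := if j = 1 then 64 else 2 ^ j * (32 + j)

/-- exponent of `β` -/
def xb (j : ℕ) : ℕ := if j = 1 then 40 else 18 * 2 ^ j

theorem facts {j : ℕ} (hj : 1 ≤ j) :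
    ah (j + 1) ≤ 8 * 2 ^ j + 2 * ar j ∧ ah (j + 1) + 16 * 2 ^ j ≤ xb j + 2 * ah j ∧
    xb (j + 1) ≤ 8 * 2 ^ j + ar j ∧ xb (j + 1) + 16 * 2 ^ j ≤ xb j + ah j ∧
    ar (j + 1) ≤ 2 * ah j ∧ 32 * 2 ^ j + 16 ≤ 2 * xb j ∧ 64 * 2 ^ j + 16 ≤ 2 * xb (j + 1) ∧
    1 ≤ ar j ∧ 1 ≤ ah j := by
  have h3 : j = 1 ∨ j = 2 ∨ ∃ i, j = i + 3 := by
    by_cases h3 : 3 ≤ j
    · exact Or.inr (Or.inr ⟨j - 3, by omega⟩)
    · omega
  rcases h3 with rfl | rfl | ⟨i, rfl⟩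
  · norm_num [ar, ah, xb]
  · norm_num [ar, ah, xb]
  · have hP : 8 ≤ 2 ^ (i + 3) := by
      rw [pow_add]
      have := Nat.one_le_two_pow (n := i)
      omega
    have e1 : ar (i + 3) = 2 ^ (i + 3) * (31 + (i + 3)) := by
      unfold ar; rw [if_neg (by omega), if_neg (by omega)]
    have e2 : ar (i + 3 + 1) = 2 * 2 ^ (i + 3) * (31 + (i + 3 + 1)) := by
      unfold ar; rw [if_neg (by omega), if_neg (by omega), pow_succ']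
    have e3 : ah (i + 3) = 2 ^ (i + 3) * (32 + (i + 3)) := by
      unfold ah; rw [if_neg (by omega)]
    have e4 : ah (i + 3 + 1) = 2 * 2 ^ (i + 3) * (32 + (i + 3 + 1)) := by
      unfold ah; rw [if_neg (by omega), pow_succ']
    have e5 : xb (i + 3) = 18 * 2 ^ (i + 3) := by
      unfold xb; rw [if_neg (by omega)]
    have e6 : xb (i + 3 + 1) = 18 * (2 * 2 ^ (i + 3)) := by
      unfold xb; rw [if_neg (by omega), pow_succ']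
    rw [e1, e2, e3, e4, e5, e6]
    generalize 2 ^ (i + 3) = P at hP ⊢
    refine ⟨?_, ?_, ?_, ?_, ?_, ?_, ?_, ?_, ?_⟩ <;> nlinarith [Nat.zero_le (P * i)]

theorem facts_e {j : ℕ} (hj : 1 ≤ j) (e : ℕ) :
    e * ah (j + 1) ≤ 8 * (2 ^ j * e) + 2 * (e * ar j) ∧
    e * ah (j + 1) + 16 * (2 ^ j * e) ≤ e * xb j + 2 * (e * ah j) ∧
    e * xb (j + 1) ≤ 8 * (2 ^ j * e) + e * ar j ∧
    e * xb (j + 1) + 16 * (2 ^ j * e) ≤ e * xb j + e * ah j ∧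
    e * ar (j + 1) ≤ 2 * (e * ah j) ∧ 32 * (2 ^ j * e) + 16 * e ≤ 2 * (e * xb j) ∧
    64 * (2 ^ j * e) + 16 * e ≤ 2 * (e * xb (j + 1)) ∧ e ≤ e * ar j ∧ e ≤ e * ah j := by
  obtain ⟨F1, F2, F3, F4, F5, F6, F7, F8, F9⟩ := facts hj
  generalize ah (j + 1) = a1 at *
  generalize ar (j + 1) = a2 at *
  generalize xb (j + 1) = a3 at *
  generalize ah j = b1 at *
  generalize ar j = b2 at *
  generalize xb j = b3 at *
  generalize 2 ^ j = P at *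
  refine ⟨?_, ?_, ?_, ?_, ?_, ?_, ?_, ?_, ?_⟩
  · calc e * a1 ≤ e * (8 * P + 2 * b2) := Nat.mul_le_mul_left e F1
      _ = _ := by ring
  · calc e * a1 + 16 * (P * e) = e * (a1 + 16 * P) := by ring
      _ ≤ e * (b3 + 2 * b1) := Nat.mul_le_mul_left e F2
      _ = _ := by ring
  · calc e * a3 ≤ e * (8 * P + b2) := Nat.mul_le_mul_left e F3
      _ = _ := by ring
  · calc e * a3 + 16 * (P * e) = e * (a3 + 16 * P) := by ring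
      _ ≤ e * (b3 + b1) := Nat.mul_le_mul_left e F4
      _ = _ := by ring
  · calc e * a2 ≤ e * (2 * b1) := Nat.mul_le_mul_left e F5
      _ = _ := by ring
  · calc 32 * (P * e) + 16 * e = e * (32 * P + 16) := by ring
      _ ≤ e * (2 * b3) := Nat.mul_le_mul_left e F6
      _ = _ := by ring
  · calc 64 * (P * e) + 16 * e = e * (64 * P + 16) := by ring
      _ ≤ e * (2 * a3) := Nat.mul_le_mul_left e F7
      _ = _ := by ring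
  · exact Nat.le_mul_of_pos_right _ F8
  · exact Nat.le_mul_of_pos_right _ F9

/-! ## the data of one level -/

/-- the data of level `j` -/
def Dat (q Γ₀ c₀ C₀ : ℝ) (K e j c D ν : ℕ) (Γ : ℝ) : Prop :=
  ∃ (E : Fin 3 → Alg) (T X Y ρ : Alg) (N R kT k : ℕ) (r η β τ : ℝ) (wX wY : List (Fin 3)),
    (∀ d, Pr (E d)) ∧
    (∀ d, l1 (E d - cellN q (ν ^ (32 * e)) d)
      ≤ Γ₀ * Real.exp (-(c₀ * ((ν ^ (32 * e) : ℕ) : ℝ)))) ∧
    Lvl K T X Y ρ N R kT k C₀ Γ r η β τ ∧ X = ev E wX ∧ Y = ev E wY ∧ wX ≠ wY ∧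
    wX.length = wY.length ∧ wY.length ≤ ν ^ (c + 32 * e * (2 ^ j - 1)) ∧ 1 ≤ kT ∧
    Bd ν c (2 ^ j * e) (e * ar j) (e * ah j) (e * xb j) D N k r η β τ

/-- all levels -/
def PJ (q Γ₀ c₀ C₀ : ℝ) (j c : ℕ) : Prop :=
  ∀ e, c ≤ e → ∀ D : ℕ, ∃ K₀ : ℕ, 1 ≤ K₀ ∧ ∀ K, K₀ ≤ K → ∃ Γ : ℝ, 1 ≤ Γ ∧
    ∃ ν₀ : ℕ, ∀ ν : ℕ, ν₀ ≤ ν → Dat q Γ₀ c₀ C₀ K e j c D ν Γ

theorem PJ_step (hstep : StStep) {q Γ₀ c₀ C₀ : ℝ} (hC₀ : 2 ≤ C₀)
    (hmix : ∀ (T : Alg) (k : ℕ), Pr T → 1 ≤ k → l1 (T ^ k - T ^ (k + 1)) ≤ 1 → Mix T k C₀)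
    {j c : ℕ} (hj : 1 ≤ j) (hc : 1 ≤ c) (h : PJ q Γ₀ c₀ C₀ j c) :
    PJ q Γ₀ c₀ C₀ (j + 1) (4 * c + 3) := by
  intro e he D'
  obtain ⟨K₀, hK₀, hK⟩ := h e (by omega) (D' + (3 * c + 7 + 96 * (2 ^ j * e)))
  refine ⟨max K₀ (4 * (D' + (3 * c + 7 + 96 * (2 ^ j * e)))), le_max_of_le_left hK₀, ?_⟩
  intro K hKK
  obtain ⟨Γ, hΓ, ν₀, hν₀⟩ := hK K (le_trans (le_max_left _ _) hKK)
  have hK1 : 1 ≤ K := hK₀.trans (le_trans (le_max_left _ _) hKK)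
  obtain ⟨C₁, hC₁, hS⟩ := hstep K C₀ Γ hK1 hC₀ hΓ hmix
  refine ⟨Γ ^ (2 ^ (K + 1)), one_le_pow₀ hΓ, max ν₀ (max ⌈C₁ ^ 4⌉₊ (max 1000 (2 ^ K))), ?_⟩
  intro ν hν
  have hν1 : ν₀ ≤ ν := le_trans (le_max_left _ _) hν
  have hν2 := le_trans (le_max_right _ _) hν
  have hν3 : C₁ ^ 4 ≤ ν := (Nat.le_ceil _).trans (by exact_mod_cast le_trans (le_max_left _ _) hν2)
  have hν4 := le_trans (le_max_right _ _) hν2
  have hν5 : 1000 ≤ ν := le_trans (le_max_left _ _) hν4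
  have hν6 : 2 ^ K ≤ ν := le_trans (le_max_right _ _) hν4
  obtain ⟨E, T, X, Y, ρ, N, R, kT, k, r, η, β, τ, wX, wY, hE, hcl, hlvl, eX, eY, hne, hlen,
    hlenle, hkT, hB⟩ := hν₀ ν hν1
  obtain ⟨F1, F2, F3, F4, F5, F6, F7, F8, F9⟩ := facts_e hj e
  have hνpos : 1 ≤ ν := by omega
  have key := Bd.step (N' := ν * k) (R' := 2 * (ν * k) + 2 ^ K)
    (k' := ν * ((2 * (ν * k) + 2 ^ K) * k)) (K := K) (e := e) (D' := D')
    (Ar' := e * ar (j + 1)) (Ah' := e * ah (j + 1)) (Ab' := e * xb (j + 1))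
    hB hC₁ hν3 hν5 hν6 hc he
    F1 F2 F3 F4 F5 F6 F7 F8 F9 le_rfl (le_trans (le_max_right _ _) hKK)
    rfl rfl rfl rfl rfl rfl rfl
  obtain ⟨hB', hr1, hη1, c1, c2, c3, c4, hR'⟩ := key
  have hN1 : 1 ≤ N := le_trans (Nat.one_le_pow _ _ hνpos) hB.Nlo
  have hC₁ν : C₁ ≤ ν := by
    have : C₁ ≤ C₁ ^ 4 := by
      calc C₁ = C₁ ^ 1 := (pow_one _).symm
        _ ≤ C₁ ^ 4 := pow_le_pow_right₀ hC₁ (by norm_num)
    linarith
  obtain ⟨ρ', hL'⟩ := hS T X Y ρ N R kT k ν (ν * k) (2 * (ν * k) + 2 ^ K)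
    (ν * ((2 * (ν * k) + 2 ^ K) * k)) r η β τ _ _ _ _ hlvl hkT hN1 hC₁ν hr1 hη1 rfl rfl rfl
    c1 c2 rfl rfl rfl rfl c3 c4
  have hk1 : 1 ≤ k := le_trans (Nat.one_le_pow _ _ hνpos) hB.klo
  refine ⟨E, Y, _, _, ρ', ν * k, 2 * (ν * k) + 2 ^ K, k, ν * ((2 * (ν * k) + 2 ^ K) * k),
    _, _, _, _, WW (ν * k) wY wX wY (tm K true), WW (ν * k) wY wX wY (tm K false), hE, hcl, hL',
    ?_, ?_, WW_ne hlen hne K, ?_, ?_, hk1, ?_⟩
  · rw [ev_WW, eX, eY]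
  · rw [ev_WW, eX, eY]
  · rw [WW_length hlen rfl, WW_length hlen rfl, tm_length, tm_length]
  · rw [WW_length hlen rfl, tm_length]
    obtain ⟨P, hP⟩ : ∃ P, 2 ^ j = P + 1 :=
      ⟨2 ^ j - 1, (Nat.sub_add_cancel Nat.one_le_two_pow).symm⟩
    calc (2 * (ν * k) + 2 ^ K) * wY.length
        ≤ ν ^ (c + 2 + 32 * (2 ^ j * e)) * ν ^ (c + 32 * e * (2 ^ j - 1)) :=
          Nat.mul_le_mul hR' hlenle
      _ = ν ^ (2 * c + 2 + 32 * e * (2 ^ (j + 1) - 1)) := by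
          rw [← pow_add, pow_succ, hP]
          congr 1
          rw [Nat.add_sub_cancel, show (P + 1) * 2 - 1 = 2 * P + 1 by omega]
          ring
      _ ≤ _ := Nat.pow_le_pow_right hνpos (by omega)
  · have : 2 ^ (j + 1) * e = 2 * (2 ^ j * e) := by rw [pow_succ]; ring
    rw [this]
    exact hB'

/-! ## the first level -/

theorem c_le {ν : ℕ} (hv : (1 : ℝ) ≤ ν) {C : ℝ} (hC : 1 ≤ C) (hC4 : C ^ 4 ≤ ν) :
    C ≤ (ν : ℝ) ^ (1 : ℤ) := by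
  rw [zpow_one]
  have : C ≤ C ^ 4 := by
    calc C = C ^ 1 := (pow_one _).symm
      _ ≤ C ^ 4 := pow_le_pow_right₀ hC (by norm_num)
  linarith

/-- the cell quantities -/
theorem base_cell {v w m : ℝ} {e : ℕ} {Cc : ℝ} (hv : 1 ≤ v)
    (hCcν : Cc ≤ v ^ (1 : ℤ)) (hwr : w = v ^ (16 * (e : ℤ) - 1))
    (hmr : m = v ^ (32 * (e : ℤ))) :
    Cc / (w * Real.sqrt w) ≤ v ^ (3 - 24 * (e : ℤ)) ∧
    Cc / (w ^ 2 * Real.sqrt w) ≤ v ^ (4 - 40 * (e : ℤ)) ∧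
    w / Real.sqrt m = v⁻¹ ∧ Cc * w ^ 2 ≤ m := by
  have hwpos : 0 < w := by rw [hwr]; exact zpos hv _
  have hsw : v ^ (8 * (e : ℤ) - 1) ≤ Real.sqrt w := by
    apply Real.le_sqrt_of_sq_le
    rw [zsq, hwr]
    exact zle hv (by linarith)
  have hsm : Real.sqrt m = v ^ (16 * (e : ℤ)) := by
    rw [hmr]
    rw [show (32 * (e : ℤ)) = 2 * (16 * (e : ℤ)) by ring, ← zsq]
    exact Real.sqrt_sq (zpos hv _).le
  have hd1 : v ^ (24 * (e : ℤ) - 2) ≤ w * Real.sqrt w := by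
    calc v ^ (24 * (e : ℤ) - 2) = v ^ (16 * (e : ℤ) - 1) * v ^ (8 * (e : ℤ) - 1) := by
          rw [zmul hv]; congr 1; ring
      _ ≤ w * Real.sqrt w := by
          rw [← hwr]
          exact mul_le_mul_of_nonneg_left hsw hwpos.le
  have hd2 : v ^ (40 * (e : ℤ) - 3) ≤ w ^ 2 * Real.sqrt w := by
    calc v ^ (40 * (e : ℤ) - 3) = v ^ (2 * (16 * (e : ℤ) - 1)) * v ^ (8 * (e : ℤ) - 1) := by
          rw [zmul hv]; congr 1; ring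
      _ ≤ w ^ 2 * Real.sqrt w := by
          rw [← zsq, ← hwr]
          exact mul_le_mul_of_nonneg_left hsw (by positivity)
  have hdiv : ∀ (x : ℝ) (a : ℤ), v ^ a ≤ x → Cc / x ≤ v ^ (1 - a) := by
    intro x a hx
    have hx0 : 0 < x := lt_of_lt_of_le (zpos hv a) hx
    rw [div_le_iff₀ hx0]
    calc Cc ≤ v ^ (1 : ℤ) := hCcν
      _ = v ^ (1 - a) * v ^ a := by rw [zmul hv]; congr 1; ring
      _ ≤ v ^ (1 - a) * x := mul_le_mul_of_nonneg_left hx (zpos hv _).le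
  refine ⟨(hdiv _ _ hd1).trans (zle hv (by linarith)), (hdiv _ _ hd2).trans (zle hv (by linarith)),
    ?_, ?_⟩
  · rw [hsm, hwr, div_eq_iff (zpos hv _).ne', ← zpow_neg_one, zmul hv]
    congr 1
    try ring
  · calc Cc * w ^ 2 ≤ v ^ (1 : ℤ) * v ^ (2 * (16 * (e : ℤ) - 1)) := by
          refine mul_le_mul hCcν ?_ (by positivity) (zpos hv _).le
          rw [hwr, zsq]
      _ = v ^ (1 + (2 * (16 * (e : ℤ) - 1))) := zmul hv _ _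
      _ ≤ m := by rw [hmr]; exact zle hv (by linarith)

theorem base_rb {v s₁ s₂ C₁ : ℝ} {e : ℕ} (hv : 1 ≤ v) (hv2 : 2 ≤ v) (hC₁ : 1 ≤ C₁)
    (he : 11 ≤ e) (hCν : C₁ ≤ v ^ (1 : ℤ)) (hs₁0 : 0 ≤ s₁) (hs₂0 : 0 ≤ s₂)
    (hs₁ : s₁ ≤ v ^ (3 - 24 * (e : ℤ))) (hs₂ : s₂ ≤ v ^ (4 - 40 * (e : ℤ))) :
    C₁ * (s₁ * s₂ + s₁ ^ 3) ≤ v ^ (11 - 64 * (e : ℤ)) ∧
    C₁ * (s₂ + s₁ ^ 2) ≤ v ^ (8 - 40 * (e : ℤ)) := by
  have he' : (11 : ℤ) ≤ e := by exact_mod_cast he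
  have h2v : (2 : ℝ) ≤ v ^ (1 : ℤ) := by rw [zpow_one]; linarith
  have key : ∀ (x y : ℝ) (a : ℤ), 0 ≤ x → 0 ≤ y → x ≤ v ^ a → y ≤ v ^ a →
      C₁ * (x + y) ≤ v ^ (2 + a) := by
    intro x y a hx hy hxa hya
    calc C₁ * (x + y) ≤ v ^ (1 : ℤ) * (v ^ (1 : ℤ) * v ^ a) := by
          refine mul_le_mul hCν ?_ (by positivity) (zpos hv _).le
          have : 2 * v ^ a ≤ v ^ (1 : ℤ) * v ^ a :=
            mul_le_mul_of_nonneg_right h2v (zpos hv _).le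
          linarith
      _ = v ^ (1 + (1 + a)) := by rw [zmul hv, zmul hv]
      _ ≤ _ := zle hv (by linarith)
  constructor
  · have t1 : s₁ * s₂ ≤ v ^ (9 - 64 * (e : ℤ)) := by
      calc s₁ * s₂ ≤ v ^ (3 - 24 * (e : ℤ)) * v ^ (4 - 40 * (e : ℤ)) :=
            mul_le_mul hs₁ hs₂ hs₂0 (zpos hv _).le
        _ = v ^ (3 - 24 * (e : ℤ) + (4 - 40 * (e : ℤ))) := zmul hv _ _
        _ ≤ _ := zle hv (by linarith)
    have t2 : s₁ ^ 3 ≤ v ^ (9 - 64 * (e : ℤ)) := by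
      calc s₁ ^ 3 ≤ (v ^ (3 - 24 * (e : ℤ))) ^ 3 := pow_le_pow_left₀ hs₁0 hs₁ 3
        _ = v ^ (3 * (3 - 24 * (e : ℤ))) := zcube _
        _ ≤ _ := zle hv (by linarith)
    exact (key _ _ _ (by positivity) (by positivity) t1 t2).trans (zle hv (by linarith))
  · have t1 : s₂ ≤ v ^ (6 - 40 * (e : ℤ)) := hs₂.trans (zle hv (by linarith))
    have t2 : s₁ ^ 2 ≤ v ^ (6 - 40 * (e : ℤ)) := by
      calc s₁ ^ 2 ≤ (v ^ (3 - 24 * (e : ℤ))) ^ 2 := pow_le_pow_left₀ hs₁0 hs₁ 2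
        _ = v ^ (2 * (3 - 24 * (e : ℤ))) := zsq _
        _ ≤ _ := zle hv (by linarith)
    exact (key _ _ _ hs₂0 (by positivity) t1 t2).trans (zle hv (by linarith))

theorem base_tau {ν n K : ℕ} {v C₁ Cc w m : ℝ} (hvν : v = ν) (hv : 1 ≤ v) (hv2 : 2 ≤ v)
    (hC : 1 ≤ C₁) (hCc : 1 ≤ Cc) (hν4 : C₁ ^ 4 ≤ ν) (hνc : Cc ^ 4 ≤ ν)
    (hCν : C₁ ≤ v ^ (1 : ℤ)) (hCcν : Cc ≤ v ^ (1 : ℤ)) (hw0 : 0 ≤ w)
    (hwm : w / Real.sqrt m = v⁻¹) (hK : 4 * n ≤ K) :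
    Cc * (Cc * w / Real.sqrt m) ^ K ≤ v ^ (1 - (n : ℤ)) ∧
    C₁ * (Cc * (Cc * w / Real.sqrt m) ^ K + (C₁ / Real.sqrt ν) ^ K) ≤ v ^ (3 - (n : ℤ)) := by
  subst hvν
  have h2v : (2 : ℝ) ≤ (ν : ℝ) ^ (1 : ℤ) := by rw [zpow_one]; linarith
  have hsm0 : 0 ≤ Real.sqrt m := Real.sqrt_nonneg _
  have hle : Cc * w / Real.sqrt m ≤ Cc / Real.sqrt ν := by
    rw [mul_div_assoc, hwm, ← div_eq_mul_inv]
    apply div_le_div_of_nonneg_left (by linarith) (Real.sqrt_pos.2 (by linarith))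
    rw [Real.sqrt_le_iff]
    constructor
    · linarith
    · nlinarith
  have h0 : 0 ≤ Cc * w / Real.sqrt m := by positivity
  have t0 : Cc * (Cc * w / Real.sqrt m) ^ K ≤ (ν : ℝ) ^ (1 - (n : ℤ)) := by
    calc Cc * (Cc * w / Real.sqrt m) ^ K
        ≤ (ν : ℝ) ^ (1 : ℤ) * (ν : ℝ) ^ (-(n : ℤ)) := by
          refine mul_le_mul hCcν ?_ (by positivity) (zpos hv _).le
          exact (pow_le_pow_left₀ h0 hle K).trans (tiny_pow hCc hνc hK)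
      _ = _ := by rw [zmul hv]; congr 1
  refine ⟨t0, ?_⟩
  have t1 : (C₁ / Real.sqrt ν) ^ K ≤ (ν : ℝ) ^ (1 - (n : ℤ)) :=
    (tiny_pow hC hν4 hK).trans (zle hv (by linarith))
  calc C₁ * (Cc * (Cc * w / Real.sqrt m) ^ K + (C₁ / Real.sqrt ν) ^ K)
      ≤ (ν : ℝ) ^ (1 : ℤ) * ((ν : ℝ) ^ (1 : ℤ) * (ν : ℝ) ^ (1 - (n : ℤ))) := by
        refine mul_le_mul hCν ?_ (by positivity) (zpos hv _).le
        have : 2 * (ν : ℝ) ^ (1 - (n : ℤ)) ≤ (ν : ℝ) ^ (1 : ℤ) * (ν : ℝ) ^ (1 - (n : ℤ)) :=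
          mul_le_mul_of_nonneg_right h2v (zpos hv _).le
        linarith
    _ = (ν : ℝ) ^ (1 + (1 + (1 - (n : ℤ)))) := by rw [zmul hv, zmul hv]
    _ ≤ _ := zle hv (by linarith)

theorem base_nat {ν e K Cn k₀ N R k m : ℕ} (hν : 1000 ≤ ν)
    (hKν : 2 ^ K ≤ ν) (hCn1 : 1 ≤ Cn) (hCn : Cn ≤ ν)
    (em : m = ν ^ (32 * e)) (ek₀ : k₀ = Cn * m) (eN : N = ν * k₀)
    (eR : R = 2 * N + 2 ^ K) (ek : k = ν * (R * k₀)) :
    ν ^ (32 * e) ≤ N ∧ ν ^ (64 * e) ≤ k ∧ k ≤ ν ^ (5 + 64 * e) ∧ R ≤ ν ^ (3 + 32 * e) := by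
  have hν1 : 1 ≤ ν := by omega
  have hm1 : 1 ≤ m := by rw [em]; exact Nat.one_le_pow _ _ hν1
  have hk₀m : m ≤ k₀ := by rw [ek₀]; exact Nat.le_mul_of_pos_left _ hCn1
  have hk₀ν : k₀ ≤ ν ^ (1 + 32 * e) := by
    rw [ek₀, em, pow_add, pow_one]
    exact Nat.mul_le_mul_right _ hCn
  have hk₀1 : 1 ≤ k₀ := hm1.trans hk₀m
  have hNν : N ≤ ν ^ (2 + 32 * e) := by
    rw [eN]
    calc ν * k₀ ≤ ν * ν ^ (1 + 32 * e) := Nat.mul_le_mul_left _ hk₀ν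
      _ = ν ^ (2 + 32 * e) := by ring
  have hKN : 2 ^ K ≤ N := by
    rw [eN]
    calc 2 ^ K ≤ ν * 1 := by omega
      _ ≤ ν * k₀ := Nat.mul_le_mul_left _ hk₀1
  have hR3 : R ≤ 3 * N := by omega
  have hRν : R ≤ ν ^ (3 + 32 * e) := by
    calc R ≤ 3 * N := hR3
      _ ≤ ν * ν ^ (2 + 32 * e) := Nat.mul_le_mul (by omega) hNν
      _ = ν ^ (3 + 32 * e) := by ring
  refine ⟨?_, ?_, ?_, hRν⟩
  · calc ν ^ (32 * e) = 1 * m := by rw [em, one_mul]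
      _ ≤ ν * k₀ := Nat.mul_le_mul hν1 hk₀m
      _ = N := eN.symm
  · have h1 : m ≤ R := by
      calc m ≤ k₀ := hk₀m
        _ ≤ ν * k₀ := Nat.le_mul_of_pos_left _ (by omega)
        _ = N := eN.symm
        _ ≤ R := by rw [eR]; exact Nat.le_add_right_of_le (by omega)
    calc ν ^ (64 * e) = 1 * (m * m) := by
          rw [em, one_mul, ← pow_add]; congr 1; ring
      _ ≤ ν * (R * k₀) := Nat.mul_le_mul hν1 (Nat.mul_le_mul h1 hk₀m)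
      _ = k := ek.symm
  · rw [ek]
    calc ν * (R * k₀) ≤ ν * (ν ^ (3 + 32 * e) * ν ^ (1 + 32 * e)) :=
          Nat.mul_le_mul_left _ (Nat.mul_le_mul hRν hk₀ν)
      _ = ν ^ (5 + 64 * e) := by ring

theorem Bd.base {ν e D K Cn k₀ N R k w m : ℕ} {C₁ Cc s₁ s₂ τ₀ r β τ : ℝ}
    (hC : 1 ≤ C₁) (hCc : 1 ≤ Cc) (hν4 : C₁ ^ 4 ≤ ν) (hνc : Cc ^ 4 ≤ ν) (hν : 1000 ≤ ν)
    (hKν : 2 ^ K ≤ ν) (hCn1 : 1 ≤ Cn) (hCn : Cn ≤ ν) (he : 11 ≤ e)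
    (hK : 4 * (D + 64 * e + 9) ≤ K)
    (em : m = ν ^ (32 * e)) (ew : w = ν ^ (16 * e - 1)) (ek₀ : k₀ = Cn * m) (eN : N = ν * k₀)
    (eR : R = 2 * N + 2 ^ K) (ek : k = ν * (R * k₀))
    (es₁ : s₁ = Cc / (w * Real.sqrt w)) (es₂ : s₂ = Cc / (w ^ 2 * Real.sqrt w))
    (eτ₀ : τ₀ = Cc * (Cc * w / Real.sqrt m) ^ K)
    (er : r = C₁ * (s₁ * s₂ + s₁ ^ 3)) (eβ : β = C₁ * (s₂ + s₁ ^ 2))
    (eτ : τ = C₁ * (τ₀ + (C₁ / Real.sqrt ν) ^ K)) :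
    Bd ν 11 (2 ^ 1 * e) (e * ar 1) (e * ah 1) (e * xb 1) D N k r r β τ ∧ s₁ ≤ 1 ∧ s₂ ≤ 1 ∧
      τ₀ ≤ 1 ∧ k * β ^ 2 ≤ 1 / 1000 ∧ k * τ ≤ 1 / 100 ∧ R ≤ ν ^ (11 + 32 * e) ∧
      Cc * (w : ℝ) ^ 2 ≤ m ∧ 1 ≤ w := by
  have hv1000 : (1000 : ℝ) ≤ ν := by exact_mod_cast hν
  have hv : (1 : ℝ) ≤ ν := by linarith
  have hν1 : 1 ≤ ν := by omega
  have he' : (11 : ℤ) ≤ e := by exact_mod_cast he
  have hw1 : 1 ≤ w := by rw [ew]; exact Nat.one_le_pow _ _ hν1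
  have hmr : (m : ℝ) = (ν : ℝ) ^ (32 * (e : ℤ)) := by
    rw [em, show (32 * (e : ℤ)) = ((32 * e : ℕ) : ℤ) by push_cast; ring, zpow_natCast]
    push_cast; ring
  have hwr : (w : ℝ) = (ν : ℝ) ^ (16 * (e : ℤ) - 1) := by
    rw [ew, show 16 * (e : ℤ) - 1 = ((16 * e - 1 : ℕ) : ℤ) by
      rw [Nat.cast_sub (by omega)]; push_cast; ring, zpow_natCast]
    push_cast; ring
  have hCν := c_le hv hC hν4
  have hCcν := c_le hv hCc hνc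
  obtain ⟨hs₁, hs₂, hwm, hwm2⟩ := base_cell hv hCcν hwr hmr
  rw [← es₁] at hs₁
  rw [← es₂] at hs₂
  have hwpos : (0 : ℝ) < w := by exact_mod_cast hw1
  have hs₁0 : 0 ≤ s₁ := by rw [es₁]; positivity
  have hs₂0 : 0 ≤ s₂ := by rw [es₂]; positivity
  obtain ⟨hr, hβ⟩ := base_rb hv (by linarith) hC he hCν hs₁0 hs₂0 hs₁ hs₂
  rw [← er] at hr
  rw [← eβ] at hβ
  obtain ⟨hτ₀, hτ⟩ := base_tau (n := D + 64 * e + 9) rfl hv (by linarith) hC hCc hν4 hνc hCν hCcν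
    hwpos.le hwm hK
  rw [← eτ₀] at hτ₀ hτ
  rw [← eτ] at hτ
  obtain ⟨hN, hk1, hk2, hR⟩ := base_nat (e := e) hν hKν hCn1 hCn em ek₀ eN eR ek
  have hτ₀0 : 0 ≤ τ₀ := by rw [eτ₀]; positivity
  have hτ0 : 0 ≤ τ := by rw [eτ]; positivity
  have hβ0 : 0 ≤ β := by rw [eβ]; positivity
  have hr0 : 0 ≤ r := by rw [er]; positivity
  have hkr : (k : ℝ) ≤ (ν : ℝ) ^ ((5 : ℤ) + 64 * e) := by
    have : (k : ℝ) ≤ ((ν ^ (5 + 64 * e) : ℕ) : ℝ) := by exact_mod_cast hk2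
    rw [show ((5 : ℤ) + 64 * e) = ((5 + 64 * e : ℕ) : ℤ) by push_cast; ring, zpow_natCast]
    simpa using this
  clear es₁ es₂ eτ₀ er eβ eτ ek eR eN ek₀ ew em hν4 hνc hCν hCcν hwm hmr hwr
  have hz1 : (ν : ℝ) ^ (-(1 : ℤ)) ≤ 1 / 1000 := by
    rw [zpow_neg, zpow_one, one_div]
    exact inv_anti₀ (by norm_num) hv1000
  have hone : ∀ a : ℤ, a ≤ 0 → (ν : ℝ) ^ a ≤ 1 := by
    intro a ha
    calc (ν : ℝ) ^ a ≤ (ν : ℝ) ^ (0 : ℤ) := zle hv ha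
      _ = 1 := zpow_zero _
  have ea : ar 1 = 64 := rfl
  have eb : ah 1 = 64 := rfl
  have ec : xb 1 = 40 := rfl
  refine ⟨⟨?_, ?_, ?_, hr0, ?_, hr0, ?_, hβ0, ?_, hτ0, ?_⟩, ?_, ?_, ?_, ?_, ?_, ?_, hwm2, hw1⟩
  · rw [show 16 * (2 ^ 1 * e) = 32 * e by ring]
    exact hN
  · rw [show 32 * (2 ^ 1 * e) = 64 * e by ring]
    exact hk1
  · exact hk2.trans (Nat.pow_le_pow_right hν1 (by omega))
  · refine hr.trans (zle hv ?_)
    rw [ea]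
    push_cast
    linarith
  · refine hr.trans (zle hv ?_)
    rw [eb]
    push_cast
    linarith
  · refine hβ.trans (zle hv ?_)
    rw [ec]
    push_cast
    linarith
  · exact hτ.trans (zle hv (by push_cast; linarith))
  · exact hs₁.trans (hone _ (by linarith))
  · exact hs₂.trans (hone _ (by linarith))
  · exact hτ₀.trans (hone _ (by push_cast; linarith))
  · have hb2 : β ^ 2 ≤ (ν : ℝ) ^ (2 * (8 - 40 * (e : ℤ))) := by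
      rw [← zsq]
      exact pow_le_pow_left₀ hβ0 hβ 2
    calc k * β ^ 2 ≤ (ν : ℝ) ^ ((5 : ℤ) + 64 * e) * (ν : ℝ) ^ (2 * (8 - 40 * (e : ℤ))) :=
          mul_le_mul hkr hb2 (sq_nonneg _) (zpos hv _).le
      _ = (ν : ℝ) ^ ((5 : ℤ) + 64 * e + 2 * (8 - 40 * (e : ℤ))) := zmul hv _ _
      _ ≤ (ν : ℝ) ^ (-(1 : ℤ)) := zle hv (by linarith)
      _ ≤ 1 / 1000 := hz1
  · calc k * τ ≤ (ν : ℝ) ^ ((5 : ℤ) + 64 * e) * (ν : ℝ) ^ (3 - ((D + 64 * e + 9 : ℕ) : ℤ)) :=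
          mul_le_mul hkr hτ hτ0 (zpos hv _).le
      _ = (ν : ℝ) ^ ((5 : ℤ) + 64 * e + (3 - ((D + 64 * e + 9 : ℕ) : ℤ))) := zmul hv _ _
      _ ≤ (ν : ℝ) ^ (-(1 : ℤ)) := zle hv (by push_cast; linarith)
      _ ≤ 1 / 1000 := hz1
      _ ≤ 1 / 100 := by norm_num
  · exact hR.trans (Nat.pow_le_pow_right hν1 (by omega))

theorem exp_small (Q : ℕ) {c₀ : ℝ} (hc : 0 < c₀) (A : ℝ) {s : ℝ} (hs : 0 < s) :
    ∃ m₂ : ℕ, ∀ m : ℕ, m₂ ≤ m → A * (m : ℝ) ^ Q * Real.exp (-(c₀ * m)) ≤ s := by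
  have h1 : Filter.Tendsto (fun m : ℕ => c₀ * (m : ℝ)) Filter.atTop Filter.atTop :=
    Filter.Tendsto.const_mul_atTop hc tendsto_natCast_atTop_atTop
  have h2 := ((Real.tendsto_pow_mul_exp_neg_atTop_nhds_zero Q).comp h1).const_mul (A / c₀ ^ Q)
  rw [mul_zero] at h2
  have h3 := h2.eventually (eventually_le_nhds hs)
  obtain ⟨m₂, hm₂⟩ := Filter.eventually_atTop.1 h3
  refine ⟨m₂, fun m hm => ?_⟩
  have h4 := hm₂ m hm
  simp only [Function.comp] at h4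
  have h5 : A / c₀ ^ Q * ((c₀ * (m : ℝ)) ^ Q * Real.exp (-(c₀ * (m : ℝ))))
      = A * (m : ℝ) ^ Q * Real.exp (-(c₀ * m)) := by
    rw [mul_pow]
    have : c₀ ^ Q ≠ 0 := pow_ne_zero _ hc.ne'
    field_simp
  rw [h5] at h4
  exact h4

theorem over_close {E F : Alg} (hE : Pr E) (hF : Pr F) {δ s : ℝ} {k : ℕ}
    (hd : l1 (E - F) ≤ δ) (h : l1 (F ^ k - F ^ (k + 1)) ≤ 2 * (1 - s))
    (hδ : (2 * (k : ℝ) + 1) * δ ≤ s) : l1 (E ^ k - E ^ (k + 1)) ≤ 2 * (1 - s / 2) := by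
  have h1 := l1_pow_sub_pow_pr hE hF k
  have h2 := l1_pow_sub_pow_pr hE hF (k + 1)
  have e1 : E ^ k - E ^ (k + 1) = (E ^ k - F ^ k) + ((F ^ k - F ^ (k + 1))
      - (E ^ (k + 1) - F ^ (k + 1))) := by abel
  have h3 := l1_add (E ^ k - F ^ k) ((F ^ k - F ^ (k + 1)) - (E ^ (k + 1) - F ^ (k + 1)))
  have h4 := l1_sub (F ^ k - F ^ (k + 1)) (E ^ (k + 1) - F ^ (k + 1))
  rw [← e1] at h3
  have h5 : (k : ℝ) * l1 (E - F) ≤ k * δ := mul_le_mul_of_nonneg_left hd (Nat.cast_nonneg _)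
  have h6 : ((k + 1 : ℕ) : ℝ) * l1 (E - F) ≤ ((k + 1 : ℕ) : ℝ) * δ :=
    mul_le_mul_of_nonneg_left hd (Nat.cast_nonneg _)
  push_cast at h6 h2
  linarith

theorem PJ_base (hL1 : StLevel1) {q : ℝ} (h0 : 0 < q) (h1 : q < 1) {Γ₀ c₀ : ℝ} {m₀ : ℕ}
    (hΓ₀ : 1 ≤ Γ₀) (hc₀ : 0 < c₀)
    (hcells : ∀ K : ℕ, 1 ≤ K → ∃ C₁ : ℝ, 1 ≤ C₁ ∧ ∀ m : ℕ, m₀ ≤ m →
      ∃ E : Fin 3 → Alg, (∀ d, Pr (E d)) ∧
      (∀ d, l1 (E d - cellN q m d) ≤ Γ₀ * Real.exp (-(c₀ * m))) ∧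
      Le (E 1) (Γ₀ • E 0) ∧ Le (E 1) (Γ₀ • E 2) ∧ Le (E 0) (Γ₀ • E 1) ∧ Le (E 2) (Γ₀ • E 1) ∧
      ∀ w : ℕ, 1 ≤ w → C₁ * (w : ℝ) ^ 2 ≤ m →
        Dec ((1 / 2 : ℝ) • (E 2 - E 0)) (E 1) (C₁ / (w * Real.sqrt w))
          (C₁ * (C₁ * w / Real.sqrt m) ^ K) ∧
        Dec ((1 / 2 : ℝ) • (E 2 + E 0) - E 1) (E 1) (C₁ / (w ^ 2 * Real.sqrt w))
          (C₁ * (C₁ * w / Real.sqrt m) ^ K))
    {s C₀ : ℝ} {Cn m₁ : ℕ} (hs : 0 < s) (hCn : 1 ≤ Cn)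
    (hover : ∀ m : ℕ, m₁ ≤ m → ∃ k : ℕ, 1 ≤ k ∧ k ≤ Cn * m ∧
      l1 (cellN q m 1 ^ k - cellN q m 1 ^ (k + 1)) ≤ 2 * (1 - s))
    (hmixa : ∀ (T : Alg) (k : ℕ), Pr T → 1 ≤ k →
      l1 (T ^ k - T ^ (k + 1)) ≤ 2 * (1 - s / 2) → Mix T k C₀)
    (hC₀ : 2 ≤ C₀)
    (hmix : ∀ (T : Alg) (k : ℕ), Pr T → 1 ≤ k → l1 (T ^ k - T ^ (k + 1)) ≤ 1 → Mix T k C₀) :
    PJ q Γ₀ c₀ C₀ 1 11 := by
  intro e he D
  refine ⟨max 1 (4 * (D + 64 * e + 9)), le_max_left _ _, ?_⟩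
  intro K hKK
  have hK1 : 1 ≤ K := (le_max_left _ _).trans hKK
  have hK2 : 4 * (D + 64 * e + 9) ≤ K := (le_max_right _ _).trans hKK
  obtain ⟨Cc, hCc, hcell⟩ := hcells K hK1
  obtain ⟨C₁, hC₁, hL⟩ := hL1 K C₀ Γ₀ hK1 hC₀ hΓ₀ hmix
  obtain ⟨m₂, hm₂⟩ := exp_small 1 hc₀ (3 * Cn * Γ₀) hs
  refine ⟨Γ₀ ^ (2 ^ (K + 1)), one_le_pow₀ hΓ₀, max m₀ (max m₁ (max m₂ (max 1000
    (max (2 ^ K) (max ⌈C₁ ^ 4⌉₊ (max ⌈Cc ^ 4⌉₊ Cn)))))), ?_⟩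
  intro ν hν
  simp only [max_le_iff] at hν
  obtain ⟨hν1, hν2, hν3, hν4, hν5, hν6, hν7, hν8⟩ := hν
  have hνC₁ : C₁ ^ 4 ≤ ν := (Nat.le_ceil _).trans (by exact_mod_cast hν6)
  have hνCc : Cc ^ 4 ≤ ν := (Nat.le_ceil _).trans (by exact_mod_cast hν7)
  have hνm : ν ≤ ν ^ (32 * e) := Nat.le_self_pow (by omega) ν
  obtain ⟨E, hE, hcl, hle1, hle2, hle3, hle4, hdec⟩ := hcell (ν ^ (32 * e)) (hν1.trans hνm)
  obtain ⟨hB, hs₁, hs₂, hτ₀, hkβ, hkτ, hR, hwm, hw1⟩ := Bd.base (ν := ν) (e := e) (D := D)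
    (K := K) (Cn := Cn) (k₀ := Cn * ν ^ (32 * e)) (N := ν * (Cn * ν ^ (32 * e)))
    (R := 2 * (ν * (Cn * ν ^ (32 * e))) + 2 ^ K)
    (k := ν * ((2 * (ν * (Cn * ν ^ (32 * e))) + 2 ^ K) * (Cn * ν ^ (32 * e))))
    (w := ν ^ (16 * e - 1)) (m := ν ^ (32 * e)) hC₁ hCc hνC₁ hνCc hν4 hν5 hCn hν8 he hK2
    rfl rfl rfl rfl rfl rfl rfl rfl rfl rfl rfl rfl
  obtain ⟨hd1, hd2⟩ := hdec (ν ^ (16 * e - 1)) hw1 hwm
  -- mixing of the middle cell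
  have hk₀ : 1 ≤ Cn * ν ^ (32 * e) := by
    have := Nat.one_le_pow (32 * e) ν (by omega)
    exact Nat.mul_le_mul hCn this |>.trans' (by norm_num)
  have hMix : Mix (E 1) (Cn * ν ^ (32 * e)) C₀ := by
    obtain ⟨k, hk1, hk2, hk3⟩ := hover (ν ^ (32 * e)) (hν2.trans hνm)
    have hsm := hm₂ (ν ^ (32 * e)) (hν3.trans hνm)
    have hδ : (2 * (k : ℝ) + 1) * (Γ₀ * Real.exp (-(c₀ * ((ν ^ (32 * e) : ℕ) : ℝ)))) ≤ s := by
      refine le_trans ?_ hsm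
      have hkr : (k : ℝ) ≤ Cn * ((ν ^ (32 * e) : ℕ) : ℝ) := by exact_mod_cast hk2
      have hk1r : (1 : ℝ) ≤ k := by exact_mod_cast hk1
      have hpos : 0 ≤ Γ₀ * Real.exp (-(c₀ * ((ν ^ (32 * e) : ℕ) : ℝ))) := by positivity
      calc (2 * (k : ℝ) + 1) * (Γ₀ * Real.exp (-(c₀ * ((ν ^ (32 * e) : ℕ) : ℝ))))
          ≤ (3 * (Cn * ((ν ^ (32 * e) : ℕ) : ℝ)))
            * (Γ₀ * Real.exp (-(c₀ * ((ν ^ (32 * e) : ℕ) : ℝ)))) :=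
            mul_le_mul_of_nonneg_right (by linarith) hpos
        _ = _ := by rw [pow_one]; ring
    have hov := over_close (hE 1) (Pr_cellN h0 h1 _ 1) (hcl 1) hk3 hδ
    exact Mix_mono (by linarith) (hmixa (E 1) k (hE 1) hk1 hov) hk2 le_rfl
  have hC₁ν : C₁ ≤ ν := by
    have : C₁ ≤ C₁ ^ 4 := by
      calc C₁ = C₁ ^ 1 := (pow_one _).symm
        _ ≤ C₁ ^ 4 := pow_le_pow_right₀ hC₁ (by norm_num)
    linarith
  obtain ⟨ρ, hlvl⟩ := hL (E 0) (E 1) (E 2) (Cn * ν ^ (32 * e)) ν _ _ _ _ _ _ _ _ _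
    (hE 0) (hE 1) (hE 2) hle1 hle2 hle3 hle4 hd1 hd2 hs₁ hs₂ hτ₀ hMix hk₀ hC₁ν
    rfl rfl rfl rfl rfl rfl hkβ hkτ
  refine ⟨E, E 1, _, _, ρ, _, _, _, _, _, _, _, _,
    WW (ν * (Cn * ν ^ (32 * e))) [1] [2] [0] (tm K true),
    WW (ν * (Cn * ν ^ (32 * e))) [1] [2] [0] (tm K false), hE, hcl, hlvl,
    ?_, ?_, WW_ne (wX := [2]) (wY := [0]) rfl (by decide) K, ?_, ?_, hk₀, hB⟩
  · rw [ev_WW]
    simp [ev]
  · rw [ev_WW]
    simp [ev]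
  · rw [WW_length (wT := [1]) (wX := [2]) (wY := [0]) rfl rfl,
      WW_length (wT := [1]) (wX := [2]) (wY := [0]) rfl rfl, tm_length, tm_length]
  · rw [WW_length (wT := [1]) (wX := [2]) (wY := [0]) rfl rfl, tm_length]
    simpa using hR

theorem levels_final {q : ℝ} (h0 : 0 < q) (h1 : q < 1) {Γ₀ c₀ C₀ : ℝ} (hΓ₀ : 1 ≤ Γ₀)
    (hc₀ : 0 < c₀) {J c : ℕ} (hJ : 2 ≤ J) (hP : PJ q Γ₀ c₀ C₀ J c) :
    ∃ c : ℕ, ∀ e : ℕ, c ≤ e → ∃ ν₀ : ℕ, ∀ ν : ℕ,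
    ν₀ ≤ ν → ∃ wX wY : List (Fin 3), wX ≠ wY ∧ wX.length = wY.length ∧
      wX.length ≤ ν ^ (c + 32 * e * (2 ^ J - 1)) ∧
      l1 (ev (cellN q (ν ^ (32 * e))) wX - ev (cellN q (ν ^ (32 * e))) wY)
        ≤ (ν : ℝ) ^ c / (ν : ℝ) ^ (e * (2 ^ J * (32 + J))) := by
  refine ⟨c + 1, fun e he => ?_⟩
  obtain ⟨K₀, hK₀, hK⟩ := hP e (by omega) (e * ah J)
  obtain ⟨Γ, hΓ, ν₀, hν₀⟩ := hK K₀ le_rfl
  obtain ⟨m₂, hm₂⟩ := exp_small (c + 32 * e * (2 ^ J - 1) + e * ah J) hc₀ Γ₀ zero_lt_one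
  refine ⟨max ν₀ (max m₂ 1000), fun ν hν => ?_⟩
  simp only [max_le_iff] at hν
  obtain ⟨hν1, hν2, hν3⟩ := hν
  obtain ⟨E, T, X, Y, ρ, N, R, kT, k, r, η, β, τ, wX, wY, hE, hcl, hlvl, eX, eY, hne, hlen,
    hlenle, hkT, hB⟩ := hν₀ ν hν1
  have hv1000 : (1000 : ℝ) ≤ ν := by exact_mod_cast hν3
  have hv : (1 : ℝ) ≤ ν := by linarith
  have hν1' : 1 ≤ ν := by omega
  have hlenX : wX.length ≤ ν ^ (c + 32 * e * (2 ^ J - 1)) := by rw [hlen]; exact hlenle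
  refine ⟨wX, wY, hne, hlen, hlenX.trans (Nat.pow_le_pow_right hν1' (by omega)), ?_⟩
  have hah : ah J = 2 ^ J * (32 + J) := by
    unfold ah
    rw [if_neg (by omega)]
  rw [← hah]
  -- the pieces
  set δ : ℝ := Γ₀ * Real.exp (-(c₀ * ((ν ^ (32 * e) : ℕ) : ℝ))) with hδ
  have hδ0 : 0 ≤ δ := by rw [hδ]; positivity
  have hF : ∀ d, Pr (cellN q (ν ^ (32 * e)) d) := fun d => Pr_cellN h0 h1 _ d
  have a1 := ev_close hE hF hcl wX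
  have a2 := ev_close hE hF hcl wY
  have a3 : l1 (X - Y) ≤ η + 2 * τ := by
    have b1 : X - Y = (X - Y - T ^ N * ρ * T ^ N) + T ^ N * ρ * T ^ N := by abel
    have b2 := l1_add (X - Y - T ^ N * ρ * T ^ N) (T ^ N * ρ * T ^ N)
    rw [← b1] at b2
    have b3 := Dec_l1 (Pr_pow hlvl.prT R) hlvl.dρ
    have b4 := hlvl.dXY
    linarith
  have hnu : ν ≤ ν ^ (32 * e) := Nat.le_self_pow (by omega) ν
  have hδle : (ν : ℝ) ^ (c + 32 * e * (2 ^ J - 1)) * δ ≤ (ν : ℝ) ^ (-((e * ah J : ℕ) : ℤ)) := by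
    have c1 : Real.exp (-(c₀ * ((ν ^ (32 * e) : ℕ) : ℝ))) ≤ Real.exp (-(c₀ * ν)) := by
      apply Real.exp_le_exp.2
      have : (ν : ℝ) ≤ ((ν ^ (32 * e) : ℕ) : ℝ) := by exact_mod_cast hnu
      have := mul_le_mul_of_nonneg_left this hc₀.le
      linarith
    have c2 := hm₂ ν hν2
    have hpos : (0 : ℝ) < (ν : ℝ) ^ (e * ah J) := by positivity
    rw [zpow_neg, zpow_natCast, ← one_div, le_div_iff₀ hpos]
    calc (ν : ℝ) ^ (c + 32 * e * (2 ^ J - 1)) * δ * (ν : ℝ) ^ (e * ah J)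
        = (ν : ℝ) ^ (c + 32 * e * (2 ^ J - 1) + e * ah J) * δ := by rw [pow_add _ _ (e * ah J)]; ring
      _ ≤ (ν : ℝ) ^ (c + 32 * e * (2 ^ J - 1) + e * ah J) * (Γ₀ * Real.exp (-(c₀ * ν))) := by
          apply mul_le_mul_of_nonneg_left _ (by positivity)
          rw [hδ]
          exact mul_le_mul_of_nonneg_left c1 (by linarith)
      _ = Γ₀ * (ν : ℝ) ^ (c + 32 * e * (2 ^ J - 1) + e * ah J) * Real.exp (-(c₀ * ν)) := by ring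
      _ ≤ 1 := c2
  have hlX : (wX.length : ℝ) * δ ≤ (ν : ℝ) ^ (-((e * ah J : ℕ) : ℤ)) := by
    refine le_trans (mul_le_mul_of_nonneg_right ?_ hδ0) hδle
    exact_mod_cast hlenX
  have hlY : (wY.length : ℝ) * δ ≤ (ν : ℝ) ^ (-((e * ah J : ℕ) : ℤ)) := by
    rw [← hlen]
    exact hlX
  have hη := hB.ηle
  have hτ := hB.τle
  have e1 : ev (cellN q (ν ^ (32 * e))) wX - ev (cellN q (ν ^ (32 * e))) wY
      = (X - Y) - (ev E wX - ev (cellN q (ν ^ (32 * e))) wX)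
        + (ev E wY - ev (cellN q (ν ^ (32 * e))) wY) := by
    rw [eX, eY]
    abel
  have b1 := l1_add ((X - Y) - (ev E wX - ev (cellN q (ν ^ (32 * e))) wX))
    (ev E wY - ev (cellN q (ν ^ (32 * e))) wY)
  have b2 := l1_sub (X - Y) (ev E wX - ev (cellN q (ν ^ (32 * e))) wX)
  rw [← e1] at b1
  have hz : (ν : ℝ) ^ (-((e * ah J : ℕ) : ℤ)) ≤ (ν : ℝ) ^ ((c : ℤ) - ((e * ah J : ℕ) : ℤ)) :=
    zle hv (by linarith)
  have hfin : l1 (ev (cellN q (ν ^ (32 * e))) wX - ev (cellN q (ν ^ (32 * e))) wY)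
      ≤ 1000 * (ν : ℝ) ^ ((c : ℤ) - ((e * ah J : ℕ) : ℤ)) := by
    have hz0 : 0 < (ν : ℝ) ^ (-((e * ah J : ℕ) : ℤ)) := zpos hv _
    linarith
  refine hfin.trans ?_
  have e2 : (ν : ℝ) ^ (c + 1) / (ν : ℝ) ^ (e * ah J)
      = ν * (ν : ℝ) ^ ((c : ℤ) - ((e * ah J : ℕ) : ℤ)) := by
    rw [zpow_sub₀ (by linarith : (ν : ℝ) ≠ 0), zpow_natCast, zpow_natCast, pow_succ']
    ring
  rw [e2]
  exact mul_le_mul_of_nonneg_right hv1000 (zpos hv _).le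

end

end Vale.P321S.LV

namespace Vale.P321S

open LV

theorem stLevels (hstep : StStep) (hL1 : StLevel1) (hcells : StCells) (hover : StOverlap)
    (hOV : StOV) : StLevels := by
  intro q h0 h1 J hJ
  obtain ⟨Γ₀, c₀, m₀, hΓ₀, hc₀, hcl⟩ := hcells q h0 h1
  obtain ⟨s, Cn, m₁, hs, hs1, hCn, hov⟩ := hover q h0 h1
  obtain ⟨Ca, hCa2, hCa⟩ := hOV (s / 2) (by linarith) (by linarith)
  obtain ⟨Cb, hCb2, hCb⟩ := hOV (1 / 2) (by norm_num) (by norm_num)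
  have hmixa : ∀ (T : Alg) (k : ℕ), Pr T → 1 ≤ k →
      l1 (T ^ k - T ^ (k + 1)) ≤ 2 * (1 - s / 2) → Mix T k (max Ca Cb) := fun T k hT hk h =>
    Mix_mono (by linarith) (hCa T k hT hk h) le_rfl (le_max_left _ _)
  have hmix : ∀ (T : Alg) (k : ℕ), Pr T → 1 ≤ k →
      l1 (T ^ k - T ^ (k + 1)) ≤ 1 → Mix T k (max Ca Cb) := fun T k hT hk h =>
    Mix_mono (by linarith) (hCb T k hT hk (by linarith)) le_rfl (le_max_right _ _)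
  have hC₀ : 2 ≤ max Ca Cb := hCa2.trans (le_max_left _ _)
  have hall : ∀ j, 1 ≤ j → ∃ c, 1 ≤ c ∧ PJ q Γ₀ c₀ (max Ca Cb) j c := by
    intro j hj
    induction j, hj using Nat.le_induction with
    | base => exact ⟨11, by norm_num, PJ_base hL1 h0 h1 hΓ₀ hc₀ hcl hs hCn hov hmixa hC₀ hmix⟩
    | succ j hj ih =>
      obtain ⟨c, hc, hP⟩ := ih
      exact ⟨4 * c + 3, by omega, PJ_step hstep hC₀ hmix hj hc hP⟩
  obtain ⟨c, hc, hP⟩ := hall J (by omega)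
  exact levels_final h0 h1 hΓ₀ hc₀ hJ hP

end Vale.P321S
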