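import Vale.Agent.P321S.AllPre
import Vale.Agent.P321S.Iid
import Vale.Agent.P321S.Cells
import Vale.Agent.P321S.Levels

namespace Vale.P321S

/-- The sample complexity of trace reconstruction is superpolynomial for every fixed `q`. -/
theorem final : StFinal := final_of stIid stCells stLevels

end Vale.P321S
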