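import Vale.Agent.P321S.BasicL2
import Vale.Agent.P321S.DD

/-! # P321: the gain lemma for one feature (module CORE) -/

namespace Vale.P321S

open scoped BigOperators

theorem L2_congr {f f' g g' : Alg} {s s' : ℝ} (h : L2 f g s) (hf : f = f') (hg : g = g')
    (hs : s = s') : L2 f' g' s' := by
  subst hf; subst hg; subst hs; exact h

/-- one orthogonal step, with powers of `T` -/
theorem L2_orth_pow (T ρ H Φ : Alg) (L h : ℕ) (r b c : ℝ) (hT : Pr T) (hρ : mass ρ = 0)
    (h1 : L2 ρ (T ^ L) r) (h2 : L2 H (T ^ h) b) (h3 : L2 Φ (T ^ h) c) :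
    L2 (ρ * H + T ^ L * Φ) (T ^ (L + h)) (Real.sqrt (r ^ 2 * b ^ 2 + c ^ 2)) := by
  have := L2_orth (Pr_pow hT L) (Pr_pow hT h) hρ h1 h2 h3
  exact L2_congr this rfl (pow_add T L h).symm rfl

theorem sqrt_step (x y S : ℝ) (hS : 0 ≤ S) (hy : 0 ≤ y) :
    Real.sqrt (1 * (|x| * y) ^ 2 + (Real.sqrt S * y) ^ 2) = Real.sqrt (S + x ^ 2) * y := by
  rw [mul_pow, mul_pow, sq_abs, Real.sq_sqrt hS,
    show 1 * (x ^ 2 * y ^ 2) + S * y ^ 2 = (S + x ^ 2) * y ^ 2 by ring,
    Real.sqrt_mul (by positivity), Real.sqrt_sq hy]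

/-- weighted sum of shifted features: `∑_{a < n} c a • T^{(n-1-a) L} ρ Z T^{X' + a L}` is
orthogonal. -/
theorem L2_shift_sum (T ρ Z : Alg) (L h : ℕ) (r z : ℝ) (hT : Pr T) (hρ : mass ρ = 0)
    (h1 : L2 ρ (T ^ L) r) (h2 : L2 Z (T ^ h) z) (c : ℕ → ℝ) (X' : ℕ) (n : ℕ) :
    L2 (∑ a ∈ Finset.range n, c a • (T ^ ((n - 1 - a) * L) * (ρ * Z) * T ^ (X' + a * L)))
      (T ^ (n * L + h + X')) (Real.sqrt (∑ a ∈ Finset.range n, c a ^ 2) * (r * z)) := by
  induction n with
  | zero =>
    simp only [Finset.range_zero, Finset.sum_empty, Real.sqrt_zero, zero_mul]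
    exact L2_zero _
  | succ n ih =>
    have e : (∑ a ∈ Finset.range (n + 1),
        c a • (T ^ ((n + 1 - 1 - a) * L) * (ρ * Z) * T ^ (X' + a * L)))
        = ρ * (c n • (Z * T ^ (X' + n * L)))
          + T ^ L * (∑ a ∈ Finset.range n,
            c a • (T ^ ((n - 1 - a) * L) * (ρ * Z) * T ^ (X' + a * L))) := by
      rw [Finset.sum_range_succ, add_comm, Finset.mul_sum]
      congr 1
      · simp [mul_assoc]
      · apply Finset.sum_congr rfl
        intro a ha
        have ha' := Finset.mem_range.mp ha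
        rw [mul_smul_comm]
        congr 1
        have e0 : (n + 1 - 1 - a) * L = L + (n - 1 - a) * L := by
          have : n + 1 - 1 - a = 1 + (n - 1 - a) := by omega
          rw [this]; ring
        have e1 : T ^ ((n + 1 - 1 - a) * L) = T ^ L * T ^ ((n - 1 - a) * L) := by
          rw [e0, pow_add]
        rw [e1]
        simp only [mul_assoc]
    rw [e]
    set Φ : Alg := ∑ a ∈ Finset.range n,
            c a • (T ^ ((n - 1 - a) * L) * (ρ * Z) * T ^ (X' + a * L)) with hΦ
    clear_value Φ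
    have hz : L2 (c n • (Z * T ^ (X' + n * L))) (T ^ (n * L + h + X')) (|c n| * (z * 1)) := by
      have e2 : n * L + h + X' = h + (X' + n * L) := by ring
      have h5 := L2_smul (L2_mul (Pr_pow hT h).1 (Pr_pow hT (X' + n * L)).1 h2
        (L2_self (Pr_pow hT (X' + n * L)))) (c n)
      refine L2_congr h5 rfl ?_ rfl
      rw [e2, pow_add T h]
    have hr := h1.1
    have hz0 := h2.1
    have h4 := L2_orth_pow T ρ (c n • (Z * T ^ (X' + n * L))) Φ L (n * L + h + X') r
      (|c n| * (z * 1)) (Real.sqrt (∑ a ∈ Finset.range n, c a ^ 2) * (r * z)) hT hρ h1 hz ih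
    refine L2_congr h4 rfl ?_ ?_
    · congr 1; ring
    · rw [Finset.sum_range_succ]
      have hS : 0 ≤ ∑ a ∈ Finset.range n, c a ^ 2 := Finset.sum_nonneg (fun _ _ => sq_nonneg _)
      rw [← sqrt_step (c n) (r * z) _ hS (by positivity)]
      congr 1
      ring

/-- average over a window of `w` shifts -/
theorem L2_avg (T ρ Z : Alg) (L h w X X' : ℕ) (r z : ℝ) (hT : Pr T) (hρ : mass ρ = 0)
    (h1 : L2 ρ (T ^ L) r) (h2 : L2 Z (T ^ h) z) (hw : 1 ≤ w) (hX : w * L ≤ X) :
    L2 ((1 / (w : ℝ)) • ∑ a ∈ Finset.range w,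
        T ^ (X - (a + 1) * L) * (ρ * Z) * T ^ (X' + (a + 1) * L))
      (T ^ (X + L + h + X')) (Real.sqrt (1 / w) * (r * z)) := by
  have hb := L2_shift_sum T ρ Z L h r z hT hρ h1 h2 (fun _ => 1 / (w : ℝ)) (X' + L) w
  have e : (1 / (w : ℝ)) • ∑ a ∈ Finset.range w,
        T ^ (X - (a + 1) * L) * (ρ * Z) * T ^ (X' + (a + 1) * L)
      = T ^ (X - w * L) * ∑ a ∈ Finset.range w,
        (1 / (w : ℝ)) • (T ^ ((w - 1 - a) * L) * (ρ * Z) * T ^ (X' + L + a * L)) := by
    rw [Finset.smul_sum, Finset.mul_sum]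
    apply Finset.sum_congr rfl
    intro a ha
    have ha' := Finset.mem_range.mp ha
    rw [mul_smul_comm]
    congr 1
    have e1 : X - (a + 1) * L = (X - w * L) + (w - 1 - a) * L := by
      have h3 : w = (w - 1 - a) + (a + 1) := by omega
      have h4 : w * L = (w - 1 - a) * L + (a + 1) * L := by
        conv_lhs => rw [h3]
        ring
      omega
    have e2 : X' + (a + 1) * L = X' + L + a * L := by ring
    rw [e1, e2, pow_add]
    noncomm_ring
  rw [e]
  have := L2_mul (Pr_pow hT (X - w * L)).1 (Pr_pow hT _).1 (L2_self (Pr_pow hT (X - w * L))) hb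
  refine L2_congr this rfl ?_ ?_
  · rw [← pow_add]
    congr 1
    omega
  · rw [one_mul, Finset.sum_const, Finset.card_range, nsmul_eq_mul]
    congr 2
    have : (w : ℝ) ≠ 0 := by positivity
    field_simp

/-- averages of `dd`-terms -/
theorem L2_avg_dd (T ρ Z : Alg) (L h w : ℕ) (r z : ℝ) (hT : Pr T) (hρ : mass ρ = 0)
    (h1 : L2 ρ (T ^ L) r) (h2 : L2 Z (T ^ h) z) (hw : 1 ≤ w) (l : List ℕ) :
    ∀ X X' : ℕ, w * L ≤ X →
    L2 ((1 / (w : ℝ)) • ∑ a ∈ Finset.range w,
        T ^ (X - (a + 1) * L) * dd T l (ρ * Z) * T ^ (X' + (a + 1) * L))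
      (T ^ (X + l.sum + L + h + X')) (2 ^ l.length * (Real.sqrt (1 / w) * (r * z))) := by
  induction l with
  | nil =>
    intro X X' hX
    simpa [dd] using L2_avg T ρ Z L h w X X' r z hT hρ h1 h2 hw hX
  | cons b l ih =>
    intro X X' hX
    have i1 := ih (X + b) X' (by omega)
    have i2 := ih X (X' + b) hX
    have e : (1 / (w : ℝ)) • ∑ a ∈ Finset.range w,
        T ^ (X - (a + 1) * L) * dd T (b :: l) (ρ * Z) * T ^ (X' + (a + 1) * L)
        = (1 / (w : ℝ)) • ∑ a ∈ Finset.range w,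
          T ^ (X + b - (a + 1) * L) * dd T l (ρ * Z) * T ^ (X' + (a + 1) * L)
          - (1 / (w : ℝ)) • ∑ a ∈ Finset.range w,
          T ^ (X - (a + 1) * L) * dd T l (ρ * Z) * T ^ (X' + b + (a + 1) * L) := by
      rw [← smul_sub, ← Finset.sum_sub_distrib]
      congr 1
      apply Finset.sum_congr rfl
      intro a ha
      have ha' := Finset.mem_range.mp ha
      have h3 : (a + 1) * L ≤ X := le_trans (Nat.mul_le_mul_right L (by omega)) hX
      have e1 : X + b - (a + 1) * L = (X - (a + 1) * L) + b := by omega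
      have e2 : X' + b + (a + 1) * L = b + (X' + (a + 1) * L) := by ring
      have p1 : T ^ (X + b - (a + 1) * L) = T ^ (X - (a + 1) * L) * T ^ b := by
        rw [e1, pow_add]
      have p2 : T ^ (X' + b + (a + 1) * L) = T ^ b * T ^ (X' + (a + 1) * L) := by
        rw [e2, pow_add]
      rw [p1, p2]
      simp only [dd]
      generalize dd T l (ρ * Z) = Q
      generalize T ^ (X - (a + 1) * L) = A1
      generalize T ^ (X' + (a + 1) * L) = A2
      generalize T ^ b = B1
      noncomm_ring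
    rw [e, sub_eq_add_neg]
    have e3 : X + b + l.sum + L + h + X' = X + (b :: l).sum + L + h + X' := by
      simp only [List.sum_cons]; ring
    have e4 : X + l.sum + L + h + (X' + b) = X + (b :: l).sum + L + h + X' := by
      simp only [List.sum_cons]; ring
    rw [e3] at i1
    rw [e4] at i2
    refine L2_congr (L2_add (Pr_pow hT _).1 i1 (L2_neg i2)) rfl rfl ?_
    rw [List.length_cons, pow_succ]; ring

/-- mass of `dd` -/
theorem mass_dd (T Q : Alg) (hQ : mass Q = 0) (l : List ℕ) : mass (dd T l Q) = 0 := by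
  induction l with
  | nil => exact hQ
  | cons a l ih => simp only [dd, mass_sub, mass_mul, ih]; ring

theorem core_iter (T ρ Z : Alg) (L h w : ℕ) (r z B : ℝ) (hT : Pr T) (hρ : mass ρ = 0)
    (h1 : L2 ρ (T ^ L) r) (h2 : L2 Z (T ^ h) z) (hw : 1 ≤ w) (X₀ X' : ℕ) (K : ℕ) :
    ∀ (l : List ℕ) (c : ℕ), K * (w * L) ≤ c → (∀ a ∈ l, a ≤ w * L) →
      (∀ l' : List ℕ, l'.length = l.length + K → (∀ a ∈ l', a ≤ w * L) → ∀ X, X₀ ≤ X →
        l1 (T ^ X * dd T l' (ρ * Z) * T ^ X') ≤ B) →
      ∃ G Res : Alg, T ^ (X₀ + c) * dd T l (ρ * Z) * T ^ X' = T ^ X₀ * G * T ^ X' + Res ∧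
        mass G = 0 ∧
        L2 G (T ^ (c + l.sum + L + h)) ((2 ^ K - 1) * (2 ^ l.length * (Real.sqrt (1 / w) * (r * z)))) ∧
        l1 Res ≤ B := by
  have hP : mass (ρ * Z) = 0 := by rw [mass_mul, hρ, zero_mul]
  induction K with
  | zero =>
    intro l c _ hl hB
    refine ⟨0, T ^ (X₀ + c) * dd T l (ρ * Z) * T ^ X', by simp, mass_zero, ?_, ?_⟩
    · simpa using L2_zero (T ^ (c + l.sum + L + h))
    · exact hB l rfl hl _ (Nat.le_add_right _ _)
  | succ K ih =>
    intro l c hc hl hB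
    have hcw : w * L ≤ c := by
      have : (K + 1) * (w * L) = K * (w * L) + w * L := by ring
      omega
    have hw0 : (w : ℝ) ≠ 0 := by positivity
    -- the inner statements
    have hin : ∀ a : ℕ, a < w → ∃ G Res : Alg,
        T ^ (X₀ + (c - (a + 1) * L)) * dd T ((a + 1) * L :: l) (ρ * Z) * T ^ X'
          = T ^ X₀ * G * T ^ X' + Res ∧ mass G = 0 ∧
        L2 G (T ^ (c + l.sum + L + h))
          ((2 ^ K - 1) * (2 ^ (l.length + 1) * (Real.sqrt (1 / w) * (r * z)))) ∧ l1 Res ≤ B := by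
      intro a ha
      have h3 : (a + 1) * L ≤ w * L := Nat.mul_le_mul_right L (by omega)
      have h4 : K * (w * L) ≤ c - (a + 1) * L := by
        have : (K + 1) * (w * L) = K * (w * L) + w * L := by ring
        omega
      have h5 : ∀ b ∈ ((a + 1) * L :: l), b ≤ w * L := by
        intro b hb
        rcases List.mem_cons.mp hb with hb | hb
        · rw [hb]; exact h3
        · exact hl b hb
      obtain ⟨G, Res, e1, e2, e3, e4⟩ := ih ((a + 1) * L :: l) (c - (a + 1) * L) h4 h5
        (fun l' hl' hl'' X hX => hB l' (by rw [hl', List.length_cons]; ring) hl'' X hX)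
      refine ⟨G, Res, e1, e2, ?_, e4⟩
      refine L2_congr e3 rfl ?_ ?_
      · congr 1
        simp only [List.sum_cons]
        omega
      · rw [List.length_cons]
    choose! G Res hG using hin
    refine ⟨(1 / (w : ℝ)) • (∑ a ∈ Finset.range w,
        T ^ (c - (a + 1) * L) * dd T l (ρ * Z) * T ^ (0 + (a + 1) * L))
        + (1 / (w : ℝ)) • (∑ a ∈ Finset.range w, G a),
        (1 / (w : ℝ)) • (∑ a ∈ Finset.range w, Res a), ?_, ?_, ?_, ?_⟩
    · -- the identity
      have hone : T ^ (X₀ + c) * dd T l (ρ * Z) * T ^ X'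
          = (1 / (w : ℝ)) • ∑ a ∈ Finset.range w, T ^ (X₀ + c) * dd T l (ρ * Z) * T ^ X' := by
        rw [Finset.sum_const, Finset.card_range, ← Nat.cast_smul_eq_nsmul ℝ, smul_smul,
          one_div, inv_mul_cancel₀ hw0, one_smul]
      rw [hone]
      have hterm : ∀ a ∈ Finset.range w, T ^ (X₀ + c) * dd T l (ρ * Z) * T ^ X'
          = T ^ X₀ * (T ^ (c - (a + 1) * L) * dd T l (ρ * Z) * T ^ (0 + (a + 1) * L)) * T ^ X'
            + (T ^ X₀ * G a * T ^ X' + Res a) := by
        intro a ha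
        have ha' := Finset.mem_range.mp ha
        rw [← (hG a ha').1]
        have h3 : (a + 1) * L ≤ c := le_trans (Nat.mul_le_mul_right L (by omega)) hcw
        have p1 : T ^ (X₀ + c) = T ^ (X₀ + (c - (a + 1) * L)) * T ^ ((a + 1) * L) := by
          rw [← pow_add]; congr 1; omega
        have p2 : T ^ (X₀ + (c - (a + 1) * L)) = T ^ X₀ * T ^ (c - (a + 1) * L) := by
          rw [← pow_add]
        have p3 : T ^ (0 + (a + 1) * L) = T ^ ((a + 1) * L) := by rw [zero_add]
        rw [p1, p2, p3]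
        simp only [dd]
        generalize dd T l (ρ * Z) = Q
        generalize T ^ (c - (a + 1) * L) = A1
        generalize T ^ ((a + 1) * L) = A2
        generalize T ^ X₀ = A3
        generalize T ^ X' = A4
        noncomm_ring
      rw [Finset.sum_congr rfl hterm, Finset.sum_add_distrib, Finset.sum_add_distrib,
        ← Finset.sum_mul, ← Finset.sum_mul, ← Finset.mul_sum, ← Finset.mul_sum]
      simp only [smul_add, mul_add, add_mul, mul_smul_comm, smul_mul_assoc]
      abel
    · rw [mass_add, mass_smul, mass_smul, mass_sum, mass_sum]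
      have z1 : ∑ a ∈ Finset.range w, mass (G a) = 0 :=
        Finset.sum_eq_zero (fun a ha => (hG a (Finset.mem_range.mp ha)).2.1)
      have z2 : ∑ a ∈ Finset.range w,
          mass (T ^ (c - (a + 1) * L) * dd T l (ρ * Z) * T ^ (0 + (a + 1) * L)) = 0 :=
        Finset.sum_eq_zero (fun a _ => by rw [mass_mul, mass_mul, mass_dd T _ hP]; ring)
      rw [z1, z2]; ring
    · have g1 := L2_avg_dd T ρ Z L h w r z hT hρ h1 h2 hw l c 0 hcw
      have g2 : L2 ((1 / (w : ℝ)) • (∑ a ∈ Finset.range w, G a)) (T ^ (c + l.sum + L + h))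
          (|1 / (w : ℝ)| * ∑ a ∈ Finset.range w,
            ((2 ^ K - 1) * (2 ^ (l.length + 1) * (Real.sqrt (1 / w) * (r * z))))) :=
        L2_smul (L2_sum _ (Pr_pow hT _).1
          (fun a ha => (hG a (Finset.mem_range.mp ha)).2.2.1)) _
      refine L2_congr (L2_add (Pr_pow hT _).1 g1 g2) rfl (by rw [add_zero]) ?_
      rw [Finset.sum_const, Finset.card_range, nsmul_eq_mul, abs_of_pos (by positivity)]
      field_simp
      ring
    · rw [l1_smul]
      calc |1 / (w : ℝ)| * l1 (∑ a ∈ Finset.range w, Res a)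
          ≤ |1 / (w : ℝ)| * ∑ a ∈ Finset.range w, B := by
            refine mul_le_mul_of_nonneg_left ?_ (abs_nonneg _)
            exact (l1_sum _ _).trans
              (Finset.sum_le_sum (fun a ha => (hG a (Finset.mem_range.mp ha)).2.2.2))
        _ = B := by
            rw [Finset.sum_const, Finset.card_range, nsmul_eq_mul, abs_of_pos (by positivity)]
            field_simp

theorem stCore (hDD : StDD) : StCore := by
  intro K w L c₀ X₀ X' h M₀ T ρ Z r z D hT hρ h1 h2 hw hL hc hX hX' hD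
  obtain ⟨G, Res, e1, e2, e3, e4⟩ := core_iter T ρ Z L h w r z
    ((2 * ((w * L : ℕ) * D)) ^ K * l1 (ρ * Z)) hT hρ h1 h2 hw X₀ X' K [] c₀ hc
    (by simp) (by
      intro l' hl' hl'' X hXX
      have hlen : l'.length = K := by simpa using hl'
      have := hDD T (ρ * Z) l' (w * L) M₀ X X' D hT hl'' hD (by rw [hlen]; omega)
        (by rw [hlen]; omega)
      rw [hlen] at this
      exact this)
  refine ⟨G, Res, e1, e2, ?_, e4⟩
  simp only [List.sum_nil, List.length_nil, pow_zero, one_mul, add_zero] at e3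
  have hr := h1.1
  have hz := h2.1
  refine L2_mono e3 ?_
  have : 0 ≤ Real.sqrt (1 / w) * (r * z) := by positivity
  nlinarith

end Vale.P321S
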