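import Vale.Agent.P321S.BasicL1
import Vale.Agent.P321.SAMP
import Vale.Agent.P321.LINK

/-! # P321S: module FINAL (from close trace laws to the sample complexity) -/

namespace Vale.P321S

open scoped BigOperators

noncomputable section

namespace FinalMod

theorem tr_eq_T (q : ℝ) (x : List Bool) : tr q x = P321.T q (FreeMonoid.ofList x) := by
  unfold tr P321.T
  rw [FreeMonoid.lift_apply]
  rfl

theorem l1_eq_nrm (f : Alg) : l1 f = P321.nrm f := rfl

theorem wt_eq (q : ℝ) {n : ℕ} (S : Finset (Fin n)) : wt q S = P321.retainProb q S := rfl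

theorem survive_eq {n : ℕ} (x : Fin n → Bool) (S : Finset (Fin n)) :
    survive x S = P321.trace x S := rfl

theorem recon {q : ℝ} {n m : ℕ} (h : Reconstructs q n m) : P321.Reconstructs q n m := by
  obtain ⟨est, h1, h2, h3⟩ := h
  exact ⟨est, h1, h2, h3⟩

theorem ofFn_cast {n : ℕ} (l : List Bool) (h : l.length = n) :
    List.ofFn (fun i : Fin n => l.get (i.cast h.symm)) = l := by
  subst h
  simp

end FinalMod

open FinalMod

/-- the number of traces needed is at least a third of the inverse of the distance of two laws -/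
theorem sample_bound {q : ℝ} (h0 : 0 ≤ q) (h1 : q ≤ 1) {n m : ℕ} {x y : List Bool}
    (hx : x.length = n) (hy : y.length = n) (hxy : x ≠ y) (hr : Reconstructs q n m) :
    1 / 3 ≤ (m : ℝ) * l1 (tr q x - tr q y) := by
  set u : Fin n → Bool := fun i => x.get (i.cast hx.symm) with hu
  set v : Fin n → Bool := fun i => y.get (i.cast hy.symm) with hv
  have hou : List.ofFn u = x := ofFn_cast _ hx
  have hov : List.ofFn v = y := ofFn_cast _ hy
  have huv : v ≠ u := by
    intro h
    apply hxy
    rw [← hou, ← hov, h]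
  have h := P321.samp P321.link q h0 h1 n m v u huv (recon hr)
  rw [hou, hov, ← tr_eq_T, ← tr_eq_T] at h
  exact h

theorem stFinal (hTV : StTV) : StFinal := by
  intro q hq0 hq1 A
  obtain ⟨n₀, hn₀⟩ := hTV q hq0 hq1 (A + 1)
  refine ⟨n₀ + 3, ?_⟩
  intro n hn m hr
  obtain ⟨x, y, hx, hy, hxy, hclose⟩ := hn₀ n (by omega)
  have h := sample_bound hq0.le hq1.le hx hy hxy hr
  have hnpos : (0 : ℝ) < n := by
    have : 0 < n := by omega
    exact_mod_cast this
  have hn3 : (3 : ℝ) ≤ n := by
    have : 3 ≤ n := by omega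
    exact_mod_cast this
  have h2 : (1 : ℝ) / 3 ≤ (m : ℝ) * (1 / (n : ℝ) ^ (A + 1)) :=
    h.trans (mul_le_mul_of_nonneg_left hclose (Nat.cast_nonneg m))
  have hp : (0 : ℝ) < (n : ℝ) ^ (A + 1) := by positivity
  rw [mul_one_div, div_le_div_iff₀ (by norm_num) hp, one_mul] at h2
  have hpA : (0 : ℝ) < (n : ℝ) ^ A := by positivity
  have h3 : (n : ℝ) ^ A ≤ m := by
    rw [pow_succ] at h2
    nlinarith
  exact_mod_cast h3

end

end Vale.P321S
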