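import Vale.Agent.P321S.Defs

/-! # P321: finiteness of the sample complexity -/

namespace Vale.P321S

open scoped BigOperators

theorem wt_nonneg {q : ℝ} (h0 : 0 < q) (h1 : q < 1) {n : ℕ} (S : Finset (Fin n)) :
    0 ≤ wt q S := by
  unfold wt
  have : 0 < 1 - q := by linarith
  positivity

theorem wt_sum {q : ℝ} {n : ℕ} : ∑ S : Finset (Fin n), wt q S = 1 := by
  unfold wt
  have h := Finset.sum_pow_mul_eq_add_pow (1 - q) q (Finset.univ : Finset (Fin n))
  rw [Finset.powerset_univ] at h
  simp only [Finset.card_univ, Fintype.card_fin] at h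
  rw [h]
  simp

theorem survive_univ {n : ℕ} (x : Fin n → Bool) :
    survive x (Finset.univ : Finset (Fin n)) = List.ofFn x := by
  unfold survive
  simp [List.ofFn_eq_map]

theorem survive_length {n : ℕ} (x : Fin n → Bool) (S : Finset (Fin n)) :
    (survive x S).length = S.card := by
  unfold survive
  rw [List.length_map, ← List.toFinset_card_of_nodup]
  · congr 1
    ext i
    simp
  · exact (List.nodup_finRange n).filter _

/-- the estimator that outputs a trace of full length if there is one -/
noncomputable def fullEst (n m : ℕ) (ys : Fin m → List Bool) (x : Fin n → Bool) : ℝ := by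
  classical
  exact if h : ∃ i : Fin m, (ys i).length = n then
      (if ys h.choose = List.ofFn x then 1 else 0)
    else (if x = fun _ => true then 1 else 0)

theorem fullEst_nonneg (n m : ℕ) (ys : Fin m → List Bool) (x : Fin n → Bool) :
    0 ≤ fullEst n m ys x := by
  unfold fullEst
  split_ifs <;> norm_num

theorem ofFn_exists {n : ℕ} (l : List Bool) (hl : l.length = n) :
    ∃ x₀ : Fin n → Bool, List.ofFn x₀ = l := by
  subst hl
  exact ⟨fun i => l.get i, by simp⟩

theorem fullEst_sum (n m : ℕ) (ys : Fin m → List Bool) : ∑ x, fullEst n m ys x = 1 := by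
  classical
  unfold fullEst
  split_ifs with h
  · have hl := h.choose_spec
    set l := ys h.choose
    obtain ⟨x₀, hx₀⟩ : ∃ x₀ : Fin n → Bool, List.ofFn x₀ = l := by
      exact ofFn_exists l hl
    rw [Finset.sum_eq_single x₀]
    · rw [if_pos hx₀.symm]
    · intro b _ hb
      rw [if_neg]
      intro hlb
      apply hb
      apply List.ofFn_injective
      rw [hx₀, hlb]
    · intro h0; exact absurd (Finset.mem_univ _) h0
  · rw [Finset.sum_ite_eq']
    simp

theorem fullEst_one {n m : ℕ} (x : Fin n → Bool) (S : Fin m → Finset (Fin n))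
    (h : ∃ i, S i = Finset.univ) : fullEst n m (fun i => survive x (S i)) x = 1 := by
  classical
  unfold fullEst
  have hex : ∃ i : Fin m, (survive x (S i)).length = n := by
    obtain ⟨i, hi⟩ := h
    refine ⟨i, ?_⟩
    rw [survive_length, hi]; simp
  rw [dif_pos hex]
  have hs := hex.choose_spec
  have h2 : S hex.choose = Finset.univ := by
    rw [survive_length] at hs
    apply Finset.eq_univ_of_card
    simpa using hs
  rw [if_pos]
  change survive x (S hex.choose) = List.ofFn x
  rw [h2, survive_univ]

theorem reconstructs_exists {q : ℝ} (h0 : 0 < q) (h1 : q < 1) (n : ℕ) :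
    ∃ m, Reconstructs q n m := by
  classical
  have hp : 0 < 1 - q := by linarith
  set a : ℝ := wt q (Finset.univ : Finset (Fin n)) with ha
  have ha0 : 0 < a := by
    rw [ha]; unfold wt
    simp only [Finset.card_univ, Fintype.card_fin, Nat.sub_self, pow_zero, mul_one]
    positivity
  have ha1 : a ≤ 1 := by
    rw [← wt_sum (q := q) (n := n)]
    exact Finset.single_le_sum (f := fun S => wt q S) (fun S _ => wt_nonneg h0 h1 S)
      (Finset.mem_univ _)
  obtain ⟨m, hm⟩ := exists_pow_lt_of_lt_one (show (0 : ℝ) < 1 / 3 by norm_num)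
    (show 1 - a < 1 by linarith)
  refine ⟨m, fullEst n m, fullEst_nonneg n m, fullEst_sum n m, ?_⟩
  intro x
  have hall : ∑ S : Fin m → Finset (Fin n), ∏ i, wt q (S i) = 1 := by
    have e1 := Finset.prod_univ_sum (fun _ : Fin m => (Finset.univ : Finset (Finset (Fin n))))
      (fun _ S => wt q S)
    rw [Fintype.piFinset_univ] at e1
    rw [← e1]
    simp [wt_sum]
  have hbad : ∑ S : Fin m → Finset (Fin n),
      (if ∃ i, S i = Finset.univ then 0 else ∏ i, wt q (S i)) ≤ (1 - a) ^ m := by
    have e : ∀ S : Fin m → Finset (Fin n),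
        (if ∃ i, S i = Finset.univ then (0 : ℝ) else ∏ i, wt q (S i))
          = ∏ i, (if S i = Finset.univ then 0 else wt q (S i)) := by
      intro S
      split_ifs with h
      · obtain ⟨i, hi⟩ := h
        symm
        apply Finset.prod_eq_zero (Finset.mem_univ i)
        rw [if_pos hi]
      · apply Finset.prod_congr rfl
        intro i _
        rw [if_neg (fun hi => h ⟨i, hi⟩)]
    simp_rw [e]
    have e2 := Finset.prod_univ_sum (fun _ : Fin m => (Finset.univ : Finset (Finset (Fin n))))
      (fun _ S => if S = Finset.univ then (0 : ℝ) else wt q S)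
    rw [Fintype.piFinset_univ] at e2
    rw [← e2, Finset.prod_const, Finset.card_univ, Fintype.card_fin]
    apply le_of_eq
    congr 1
    have e3 : ∑ S : Finset (Fin n), (if S = Finset.univ then (0 : ℝ) else wt q S)
        = ∑ S : Finset (Fin n), wt q S - a := by
      rw [← Finset.add_sum_erase Finset.univ (fun S => wt q S) (Finset.mem_univ Finset.univ),
        ← Finset.add_sum_erase Finset.univ
          (fun S : Finset (Fin n) => if S = Finset.univ then (0 : ℝ) else wt q S)
          (Finset.mem_univ Finset.univ)]
      simp only [if_true]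
      rw [← ha, zero_add, add_sub_cancel_left]
      apply Finset.sum_congr rfl
      intro S hS
      rw [if_neg (Finset.ne_of_mem_erase hS)]
    rw [e3, wt_sum]
  have hge : ∑ S : Fin m → Finset (Fin n), ((∏ i, wt q (S i))
      - (if ∃ i, S i = Finset.univ then 0 else ∏ i, wt q (S i)))
      ≤ ∑ S : Fin m → Finset (Fin n),
        (∏ i, wt q (S i)) * fullEst n m (fun i => survive x (S i)) x := by
    apply Finset.sum_le_sum
    intro S _
    split_ifs with h
    · rw [fullEst_one x S h]; linarith
    · rw [sub_self]
      exact mul_nonneg (Finset.prod_nonneg (fun i _ => wt_nonneg h0 h1 _))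
        (fullEst_nonneg _ _ _ _)
  rw [Finset.sum_sub_distrib, hall] at hge
  linarith

end Vale.P321S
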