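import Vale.Agent.P321S.Step

/-! # P321: the first level (module LEVEL1) -/

namespace Vale.P321S

open scoped BigOperators

/-- the signed linear part -/
noncomputable def lin1 : List Bool → Alg → Alg → Alg
  | [], _, _ => 0
  | b :: l, O, E => (if b then O * E ^ l.length else -(O * E ^ l.length)) + E * lin1 l O E

theorem lin1_eq (l : List Bool) (O E : Alg) :
    lin1 l O E = one1 l O E - one1 (l.map (fun b => !b)) O E := by
  induction l with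
  | nil => simp [lin1, one1]
  | cons b l ih =>
    rw [lin1, ih, List.map_cons, one1, one1, List.length_map]
    cases b
    · simp only [Bool.false_eq_true, if_false, Bool.not_false, if_true, zero_add]
      noncomm_ring
    · simp only [Bool.false_eq_true, if_false, Bool.not_true, if_true, zero_add]
      noncomm_ring

theorem tm_not (K : ℕ) (b : Bool) : (tm K b).map (fun b => !b) = tm K (!b) := by
  induction K generalizing b with
  | zero => simp [tm]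
  | succ K ih => simp [tm, ih]

theorem lvl1_num_e {s₁ s₂ A n : ℝ} (h10 : 0 ≤ s₁) (h20 : 0 ≤ s₂) (h1 : s₁ ≤ 1) (h2 : s₂ ≤ 1)
    (hn : 0 ≤ n) (hA : n + 1 ≤ A) :
    1 * (A * (s₂ + s₁ ^ 2)) + s₁ * (n * s₁) + s₁ * (A * (s₁ * s₂ + s₁ ^ 3)) + s₂ * 1
      + s₂ * (A * (s₂ + s₁ ^ 2)) ≤ A * 4 * (s₂ + s₁ ^ 2) := by
  have he : 0 ≤ s₂ + s₁ ^ 2 := by positivity
  have hA0 : 0 ≤ A := by linarith
  have hAe : 0 ≤ A * (s₂ + s₁ ^ 2) := by positivity
  have t1 : s₁ * (A * (s₁ * s₂ + s₁ ^ 3)) ≤ A * (s₂ + s₁ ^ 2) := by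
    have e : s₁ * (A * (s₁ * s₂ + s₁ ^ 3)) = s₁ ^ 2 * (A * (s₂ + s₁ ^ 2)) := by ring
    rw [e]
    have : s₁ ^ 2 ≤ 1 := pow_le_one₀ h10 h1
    calc s₁ ^ 2 * (A * (s₂ + s₁ ^ 2)) ≤ 1 * (A * (s₂ + s₁ ^ 2)) :=
          mul_le_mul_of_nonneg_right this hAe
      _ = _ := one_mul _
  have t2 : s₂ * (A * (s₂ + s₁ ^ 2)) ≤ A * (s₂ + s₁ ^ 2) := by
    calc s₂ * (A * (s₂ + s₁ ^ 2)) ≤ 1 * (A * (s₂ + s₁ ^ 2)) :=
          mul_le_mul_of_nonneg_right h2 hAe
      _ = _ := one_mul _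
  have t3 : s₁ * (n * s₁) + s₂ * 1 ≤ A * (s₂ + s₁ ^ 2) := by
    have h3 : (n + 1) * (s₂ + s₁ ^ 2) ≤ A * (s₂ + s₁ ^ 2) := mul_le_mul_of_nonneg_right hA he
    have h4 : 0 ≤ n * s₂ := by positivity
    have h5 : 0 ≤ s₁ ^ 2 := by positivity
    nlinarith
  linarith

theorem lvl1_num_o {s₁ s₂ A n : ℝ} (h10 : 0 ≤ s₁) (h20 : 0 ≤ s₂) (_h1 : s₁ ≤ 1) (h2 : s₂ ≤ 1)
    (hn : 0 ≤ n) (hA : n + 1 ≤ A) :
    1 * (A * (s₁ * s₂ + s₁ ^ 3)) + s₁ * (A * (s₂ + s₁ ^ 2)) + s₂ * (n * s₁)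
      + s₂ * (A * (s₁ * s₂ + s₁ ^ 3)) ≤ A * 4 * (s₁ * s₂ + s₁ ^ 3) := by
  have ho : 0 ≤ s₁ * s₂ + s₁ ^ 3 := by positivity
  have hA0 : 0 ≤ A := by linarith
  have hAo : 0 ≤ A * (s₁ * s₂ + s₁ ^ 3) := by positivity
  have t1 : s₁ * (A * (s₂ + s₁ ^ 2)) = A * (s₁ * s₂ + s₁ ^ 3) := by ring
  have t2 : s₂ * (A * (s₁ * s₂ + s₁ ^ 3)) ≤ A * (s₁ * s₂ + s₁ ^ 3) := by
    calc s₂ * (A * (s₁ * s₂ + s₁ ^ 3)) ≤ 1 * (A * (s₁ * s₂ + s₁ ^ 3)) :=
          mul_le_mul_of_nonneg_right h2 hAo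
      _ = _ := one_mul _
  have t3 : s₂ * (n * s₁) ≤ A * (s₁ * s₂ + s₁ ^ 3) := by
    have h3 : n * (s₁ * s₂ + s₁ ^ 3) ≤ A * (s₁ * s₂ + s₁ ^ 3) :=
      mul_le_mul_of_nonneg_right (by linarith) ho
    have h4 : 0 ≤ n * s₁ ^ 3 := by positivity
    nlinarith
  linarith

theorem lvl1_step {E O V En Ev L Od : Alg} {s₁ s₂ A n : ℝ} (hE : Pr E) (hEn : Pr En)
    (hO : L2 O E s₁) (hV : L2 V E s₂) (h1 : s₁ ≤ 1) (h2 : s₂ ≤ 1) (hn : 0 ≤ n) (hA : n + 1 ≤ A)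
    (hL : L2 L En (n * s₁)) (hEv : L2 Ev En (A * (s₂ + s₁ ^ 2)))
    (hOd : L2 Od En (A * (s₁ * s₂ + s₁ ^ 3))) :
    ∃ Ev' Od' : Alg, (E + O + V) * (En + Ev + (L + Od)) = E * En + Ev' + ((O * En + E * L) + Od')
      ∧ (E - O + V) * (En + Ev - (L + Od)) = E * En + Ev' - ((O * En + E * L) + Od')
      ∧ L2 Ev' (E * En) (A * 4 * (s₂ + s₁ ^ 2))
      ∧ L2 Od' (E * En) (A * 4 * (s₁ * s₂ + s₁ ^ 3))
      ∧ L2 (O * En + E * L) (E * En) ((n + 1) * s₁) := by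
  have hG : Nn (E * En) := Nn_mul hE.1 hEn.1
  refine ⟨E * Ev + O * L + O * Od + V * En + V * Ev, E * Od + O * Ev + V * L + V * Od, ?_, ?_,
    ?_, ?_, ?_⟩
  · noncomm_ring
  · noncomm_ring
  · have a1 := L2_mul hE.1 hEn.1 (L2_self hE) hEv
    have a2 := L2_mul hE.1 hEn.1 hO hL
    have a3 := L2_mul hE.1 hEn.1 hO hOd
    have a4 := L2_mul hE.1 hEn.1 hV (L2_self hEn)
    have a5 := L2_mul hE.1 hEn.1 hV hEv
    exact L2_mono (L2_add hG (L2_add hG (L2_add hG (L2_add hG a1 a2) a3) a4) a5)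
      (lvl1_num_e hO.1 hV.1 h1 h2 hn hA)
  · have a1 := L2_mul hE.1 hEn.1 (L2_self hE) hOd
    have a2 := L2_mul hE.1 hEn.1 hO hEv
    have a3 := L2_mul hE.1 hEn.1 hV hL
    have a4 := L2_mul hE.1 hEn.1 hV hOd
    exact L2_mono (L2_add hG (L2_add hG (L2_add hG a1 a2) a3) a4)
      (lvl1_num_o hO.1 hV.1 h1 h2 hn hA)
  · have a1 := L2_mul hE.1 hEn.1 hO (L2_self hEn)
    have a2 := L2_mul hE.1 hEn.1 (L2_self hE) hL
    refine L2_mono (L2_add hG a1 a2) (le_of_eq (by ring))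

theorem succ_le_four_pow (n : ℕ) : (n : ℝ) + 1 ≤ 4 ^ n := by
  induction n with
  | zero => simp
  | succ n ih =>
    rw [pow_succ]
    push_cast
    have : (0 : ℝ) ≤ n := Nat.cast_nonneg n
    linarith

theorem lvl1_expand {E O V : Alg} {s₁ s₂ : ℝ} (hE : Pr E) (hO : L2 O E s₁) (hV : L2 V E s₂)
    (h1 : s₁ ≤ 1) (h2 : s₂ ≤ 1) (l : List Bool) :
    ∃ Ev Od : Alg, val l (E + O + V) (E - O + V) = E ^ l.length + Ev + (lin1 l O E + Od) ∧
      val (l.map (fun b => !b)) (E + O + V) (E - O + V)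
        = E ^ l.length + Ev - (lin1 l O E + Od) ∧
      L2 Ev (E ^ l.length) (4 ^ l.length * (s₂ + s₁ ^ 2)) ∧
      L2 Od (E ^ l.length) (4 ^ l.length * (s₁ * s₂ + s₁ ^ 3)) ∧
      L2 (lin1 l O E) (E ^ l.length) (l.length * s₁) := by
  have hs1 := hO.1
  have hs2 := hV.1
  induction l with
  | nil =>
    refine ⟨0, 0, by simp [val_nil, lin1], by simp [val_nil, lin1], ?_, ?_, ?_⟩
    · refine L2_mono (L2_zero _) (by positivity)
    · refine L2_mono (L2_zero _) (by positivity)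
    · refine L2_mono (L2_zero _) (by simp)
  | cons b l ih =>
    obtain ⟨Ev, Od, e1, e2, b1, b2, b3⟩ := ih
    rw [List.map_cons, List.length_cons, pow_succ' E, pow_succ (4 : ℝ)]
    cases b
    · -- O replaced by -O
      have hO' : L2 (-O) E s₁ := L2_neg hO
      obtain ⟨Ev', Od', f1, f2, f3, f4, f5⟩ := lvl1_step hE (Pr_pow hE l.length) hO' hV h1 h2
        (Nat.cast_nonneg _) (succ_le_four_pow l.length) b3 b1 b2
      refine ⟨Ev', Od', ?_, ?_, f3, f4, ?_⟩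
      · rw [val_false, e1]
        have : lin1 (false :: l) O E = (-O) * E ^ l.length + E * lin1 l O E := by
          rw [lin1]; simp
        rw [this, ← f1]
        noncomm_ring
      · rw [Bool.not_false, val_true, e2]
        have : lin1 (false :: l) O E = (-O) * E ^ l.length + E * lin1 l O E := by
          rw [lin1]; simp
        rw [this, ← f2]
        noncomm_ring
      · have : lin1 (false :: l) O E = (-O) * E ^ l.length + E * lin1 l O E := by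
          rw [lin1]; simp
        rw [this]
        refine L2_mono f5 (le_of_eq (by push_cast; ring))
    · obtain ⟨Ev', Od', f1, f2, f3, f4, f5⟩ := lvl1_step hE (Pr_pow hE l.length) hO hV h1 h2
        (Nat.cast_nonneg _) (succ_le_four_pow l.length) b3 b1 b2
      refine ⟨Ev', Od', ?_, ?_, f3, f4, ?_⟩
      · rw [val_true, e1]
        have : lin1 (true :: l) O E = O * E ^ l.length + E * lin1 l O E := by
          rw [lin1]; simp
        rw [this, ← f1]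
      · rw [Bool.not_true, val_false, e2]
        have : lin1 (true :: l) O E = O * E ^ l.length + E * lin1 l O E := by
          rw [lin1]; simp
        rw [this, ← f2]
      · have : lin1 (true :: l) O E = O * E ^ l.length + E * lin1 l O E := by
          rw [lin1]; simp
        rw [this]
        refine L2_mono f5 (le_of_eq (by push_cast; ring))

/-- replacing both letters by nearby ones -/
theorem l1_val_sub2 {X X' Y Y' : Alg} {δ : ℝ} (hX : l1 X ≤ 1) (hY : l1 Y ≤ 1)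
    (hX' : l1 X' ≤ 1 + δ) (hY' : l1 Y' ≤ 1 + δ) (_hδ : 0 ≤ δ) (hXX' : l1 (X - X') ≤ δ)
    (hYY' : l1 (Y - Y') ≤ δ) (l : List Bool) :
    l1 (val l X Y - val l X' Y') ≤ (1 + δ) ^ l.length - 1 := by
  have hval : ∀ l : List Bool, l1 (val l X Y) ≤ 1 := by
    intro l
    induction l with
    | nil => rw [val_nil, l1_one]
    | cons b l ih =>
      cases b
      · rw [val_false]
        calc l1 (Y * val l X Y) ≤ 1 * 1 := l1_mul_le hY ih
          _ = 1 := by norm_num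
      · rw [val_true]
        calc l1 (X * val l X Y) ≤ 1 * 1 := l1_mul_le hX ih
          _ = 1 := by norm_num
  induction l with
  | nil => simp [val_nil, l1_zero]
  | cons b l ih =>
    rw [List.length_cons, pow_succ]
    cases b
    · have e : val (false :: l) X Y - val (false :: l) X' Y'
          = (Y - Y') * val l X Y + Y' * (val l X Y - val l X' Y') := by
        rw [val_false, val_false]; noncomm_ring
      rw [e]
      calc l1 ((Y - Y') * val l X Y + Y' * (val l X Y - val l X' Y'))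
          ≤ l1 ((Y - Y') * val l X Y) + l1 (Y' * (val l X Y - val l X' Y')) := l1_add _ _
        _ ≤ δ * 1 + (1 + δ) * ((1 + δ) ^ l.length - 1) :=
            add_le_add (l1_mul_le hYY' (hval l)) (l1_mul_le hY' ih)
        _ = (1 + δ) ^ l.length * (1 + δ) - 1 := by ring
    · have e : val (true :: l) X Y - val (true :: l) X' Y'
          = (X - X') * val l X Y + X' * (val l X Y - val l X' Y') := by
        rw [val_true, val_true]; noncomm_ring
      rw [e]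
      calc l1 ((X - X') * val l X Y + X' * (val l X Y - val l X' Y'))
          ≤ l1 ((X - X') * val l X Y) + l1 (X' * (val l X Y - val l X' Y')) := l1_add _ _
        _ ≤ δ * 1 + (1 + δ) * ((1 + δ) ^ l.length - 1) :=
            add_le_add (l1_mul_le hXX' (hval l)) (l1_mul_le hX' ih)
        _ = (1 + δ) ^ l.length * (1 + δ) - 1 := by ring

theorem mass_val_one {X Y : Alg} (hX : mass X = 1) (hY : mass Y = 1) (l : List Bool) :
    mass (val l X Y) = 1 := by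
  induction l with
  | nil => rw [val_nil, mass_one]
  | cons b l ih =>
    cases b
    · rw [val_false, mass_mul, hY, ih, one_mul]
    · rw [val_true, mass_mul, hX, ih, one_mul]

theorem mass_lin1 {O E : Alg} (hO : mass O = 0) (l : List Bool) : mass (lin1 l O E) = 0 := by
  induction l with
  | nil => rw [lin1, mass_zero]
  | cons b l ih =>
    rw [lin1, mass_add, mass_mul, ih, mul_zero, add_zero]
    cases b
    · simp only [Bool.false_eq_true, if_false]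
      rw [mass_neg, mass_mul, hO, zero_mul, neg_zero]
    · simp only [if_true]
      rw [mass_mul, hO, zero_mul]

/-- letterwise comparison with a power -/
theorem Le_pow_val {E X Y : Alg} (hE : Nn E) {a : ℝ} (hX : Le E (a • X)) (hY : Le E (a • Y))
    (l : List Bool) : Le (E ^ l.length) (a ^ l.length • val l X Y) := by
  induction l with
  | nil => rw [val_nil, List.length_nil, pow_zero, pow_zero, one_smul]; exact Le_refl _
  | cons b l ih =>
    have e : a ^ (b :: l).length • val (b :: l) X Y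
        = (a • (if b then X else Y)) * (a ^ l.length • val l X Y) := by
      rw [val_cons, smul_mul_smul_comm, List.length_cons, pow_succ, mul_comm (a ^ l.length) a]
    rw [e, List.length_cons, pow_succ']
    refine Le_mul hE (Nn_pow hE _) ?_ ih
    cases b
    · simpa using hY
    · simpa using hX

theorem Le_val_pow {E X Y : Alg} (hXn : Nn X) (hYn : Nn Y) {a : ℝ} (hX : Le X (a • E))
    (hY : Le Y (a • E)) (l : List Bool) : Le (val l X Y) (a ^ l.length • E ^ l.length) := by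
  induction l with
  | nil => rw [val_nil, List.length_nil, pow_zero, pow_zero, one_smul]; exact Le_refl _
  | cons b l ih =>
    have e : a ^ (b :: l).length • E ^ (b :: l).length
        = (a • E) * (a ^ l.length • E ^ l.length) := by
      rw [smul_mul_smul_comm, List.length_cons, pow_succ, pow_succ' E, mul_comm (a ^ l.length) a]
    rw [e, val_cons]
    refine Le_mul ?_ (Nn_val hXn hYn l) ?_ ih
    · cases b
      · simpa using hYn
      · simpa using hXn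
    · cases b
      · simpa using hY
      · simpa using hX


theorem sea_diff2 (S U U₁ V V₁ o : Alg) :
    S * U * S - S * V * S - S * (U₁ - V₁ - (2 : ℝ) • o) * S
      = S * (U - U₁) * S - S * (V - V₁) * S + (2 : ℝ) • (S * o * S) := by
  have h : S * (U₁ - V₁ - (2 : ℝ) • o) * S = S * U₁ * S - S * V₁ * S - (2 : ℝ) • (S * o * S) := by
    rw [mul_sub, mul_sub, sub_mul, sub_mul, mul_smul_comm, smul_mul_assoc]
  rw [h, mul_sub, mul_sub, sub_mul, sub_mul]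
  abel

theorem sea_diff3 (S V V₁ Z Ev o Od : Alg) (h : V₁ = Z + Ev - (o + Od)) :
    S * V * S - S * Z * S = S * (Ev - Od) * S + (S * (V - V₁) * S - S * o * S) := by
  rw [h]
  noncomm_ring

theorem num_l1 {B C₁ u p x y z : ℝ} (he : 4 * B ≤ C₁) (h2 : 2 ≤ C₁) (hu : 0 ≤ u)
    (hp : 0 ≤ p) (hx : x ≤ B * (2 * u)) (hy : y ≤ B * (2 * u)) (hz : z ≤ p) :
    x + y + 2 * z ≤ C₁ * (u + p) := by
  have h4 : 4 * B * u ≤ C₁ * u := mul_le_mul_of_nonneg_right he hu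
  have h5 : 2 * p ≤ C₁ * p := mul_le_mul_of_nonneg_right h2 hp
  linarith

theorem num_l2 {B C₁ u p x z : ℝ} (hB : 0 ≤ B) (he : 4 * B ≤ C₁) (h2 : 2 ≤ C₁) (hu : 0 ≤ u)
    (hp : 0 ≤ p) (hx : x ≤ B * (2 * u)) (hz : z ≤ p) :
    x + z ≤ C₁ * (u + p) := by
  have h4 : 4 * B * u ≤ C₁ * u := mul_le_mul_of_nonneg_right he hu
  have h5 : 2 * p ≤ C₁ * p := mul_le_mul_of_nonneg_right h2 hp
  have h6 : 0 ≤ B * u := mul_nonneg hB hu
  linarith

theorem stLevel1 (hDD : StDD) (hMS : StMixStep) : StLevel1 := by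
  intro K C₀ Γ hK hC₀ hΓ hOV
  have hL1 : 1 ≤ 2 ^ K := Nat.one_le_two_pow
  have hB1 : (1 : ℝ) ≤ 2 ^ (2 ^ K) := one_le_pow₀ (by norm_num)
  have hA1 : (1 : ℝ) ≤ 4 ^ (2 ^ K) := one_le_pow₀ (by norm_num)
  have hC₀0 : (0 : ℝ) ≤ C₀ := by linarith
  have hKR : (1 : ℝ) ≤ K := by exact_mod_cast hK
  have h2K : (1 : ℝ) ≤ 2 ^ (K + 2) := one_le_pow₀ (by norm_num)
  have hta : (0 : ℝ) ≤ 2 * 4 ^ (2 ^ K) := by positivity
  have htb : (0 : ℝ) ≤ 4 * 2 ^ (2 ^ K) := by positivity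
  have htc : 0 ≤ 2 ^ (K + 2) * K * C₀ := by positivity
  have htd : 0 ≤ 64 * C₀ ^ 2 := by positivity
  obtain ⟨C₁, hC₁⟩ : ∃ C₁ : ℝ, C₁ = 2 * 4 ^ (2 ^ K) + 4 * 2 ^ (2 ^ K) + 2 ^ (K + 2) * K * C₀
      + 64 * C₀ ^ 2 := ⟨_, rfl⟩
  have ha : 2 * 4 ^ (2 ^ K) ≤ C₁ := by rw [hC₁]; linarith
  have hb : 4 * 2 ^ (2 ^ K) ≤ C₁ := by rw [hC₁]; linarith
  have hc : 2 ^ (K + 2) * K * C₀ ≤ C₁ := by rw [hC₁]; linarith
  have hd : 64 * C₀ ^ 2 ≤ C₁ := by rw [hC₁]; linarith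
  clear hC₁
  have h2C : 2 ≤ C₁ := by linarith
  have h1C : 1 ≤ C₁ := by linarith
  have hKC : (K : ℝ) ≤ C₁ := by
    have h1 : (1 : ℝ) * K * 1 ≤ 2 ^ (K + 2) * K * C₀ := by
      apply mul_le_mul _ (by linarith) (by norm_num) (by positivity)
      exact mul_le_mul_of_nonneg_right h2K (by positivity)
    linarith
  refine ⟨C₁, h1C, ?_⟩
  intro Em E₀ Ep k₀ ν N R k s₁ s₂ τ₀ r β τ prEm prE prEp hEEm hEEp hEmE hEpE hdO hdV hs₁ hs₂
    hτ₀ mixE hk₀ hν hN hR hk hr hβ hτ hkβ hkτ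
  obtain ⟨O, o₂, hOs, hOm, hO, ho₂⟩ := hdO
  obtain ⟨V, v₂, hVs, hVm, hV, hv₂⟩ := hdV
  have hs10 := hO.1
  have hs20 := hV.1
  have hτ₀0 : 0 ≤ τ₀ := (l1_nonneg _).trans ho₂
  have hν1 : 1 ≤ ν := by
    have : (1 : ℝ) ≤ ν := h1C.trans hν
    exact_mod_cast this
  have hνpos : (0 : ℝ) < ν := by exact_mod_cast hν1
  have hR1 : 1 ≤ R := by rw [hR]; omega
  have hk1 : 1 ≤ k := by
    rw [hk]
    calc 1 = 1 * (1 * 1) := rfl
      _ ≤ ν * (R * k₀) := Nat.mul_le_mul hν1 (Nat.mul_le_mul hR1 hk₀)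
  have hkR : (1 : ℝ) ≤ k := by exact_mod_cast hk1
  have hKν : K ≤ ν := by
    have : (K : ℝ) ≤ ν := hKC.trans hν
    exact_mod_cast this
  have hpow0 : 0 ≤ (C₁ / Real.sqrt ν) ^ K := by positivity
  have hτ0 : 0 ≤ τ := by rw [hτ]; positivity
  have hτ₀τ : τ₀ ≤ τ := by
    rw [hτ]
    have h1 : τ₀ + 0 ≤ τ₀ + (C₁ / Real.sqrt ν) ^ K := by linarith
    have h2 : 1 * (τ₀ + (C₁ / Real.sqrt ν) ^ K) ≤ C₁ * (τ₀ + (C₁ / Real.sqrt ν) ^ K) :=
      mul_le_mul_of_nonneg_right h1C (by linarith)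
    linarith
  have h2τ : 2 * τ₀ ≤ 1 := by
    have h3 : 1 * τ ≤ k * τ := mul_le_mul_of_nonneg_right hkR hτ0
    linarith
  -- the two perturbed letters
  obtain ⟨Ep₁, hEp₁⟩ : ∃ Z : Alg, Z = E₀ + O + V := ⟨_, rfl⟩
  obtain ⟨Em₁, hEm₁⟩ : ∃ Z : Alg, Z = E₀ - O + V := ⟨_, rfl⟩
  have eP : Ep - Ep₁ = o₂ + v₂ := by
    have h1 : Ep = (1 / 2 : ℝ) • (Ep - Em) + (1 / 2 : ℝ) • (Ep + Em) := by
      rw [← smul_add]
      have : Ep - Em + (Ep + Em) = (2 : ℝ) • Ep := by rw [two_smul]; abel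
      rw [this, smul_smul]; norm_num
    have h2 : (1 / 2 : ℝ) • (Ep + Em) = E₀ + (V + v₂) := by rw [← hVs]; abel
    rw [hEp₁]
    calc Ep - (E₀ + O + V)
        = (1 / 2 : ℝ) • (Ep - Em) + (1 / 2 : ℝ) • (Ep + Em) - (E₀ + O + V) := by rw [← h1]
      _ = (O + o₂) + (E₀ + (V + v₂)) - (E₀ + O + V) := by rw [hOs, h2]
      _ = o₂ + v₂ := by abel
  have eM : Em - Em₁ = -o₂ + v₂ := by
    have h1 : Em = -((1 / 2 : ℝ) • (Ep - Em)) + (1 / 2 : ℝ) • (Ep + Em) := by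
      rw [← smul_neg, ← smul_add]
      have : -(Ep - Em) + (Ep + Em) = (2 : ℝ) • Em := by rw [two_smul]; abel
      rw [this, smul_smul]; norm_num
    have h2 : (1 / 2 : ℝ) • (Ep + Em) = E₀ + (V + v₂) := by rw [← hVs]; abel
    rw [hEm₁]
    calc Em - (E₀ - O + V)
        = -((1 / 2 : ℝ) • (Ep - Em)) + (1 / 2 : ℝ) • (Ep + Em) - (E₀ - O + V) := by rw [← h1]
      _ = -(O + o₂) + (E₀ + (V + v₂)) - (E₀ - O + V) := by rw [hOs, h2]
      _ = -o₂ + v₂ := by abel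
  have lP : l1 (Ep - Ep₁) ≤ 2 * τ₀ := by
    rw [eP]; refine (l1_add _ _).trans ?_; linarith
  have lM : l1 (Em - Em₁) ≤ 2 * τ₀ := by
    rw [eM]; refine (l1_add _ _).trans ?_; rw [l1_neg]; linarith
  have hl1P : l1 Ep ≤ 1 := le_of_eq (Pr_l1 prEp)
  have hl1M : l1 Em ≤ 1 := le_of_eq (Pr_l1 prEm)
  have hl1P₁ : l1 Ep₁ ≤ 1 + 2 * τ₀ := by
    have e : Ep₁ = Ep - (Ep - Ep₁) := by abel
    rw [e]; refine (l1_sub _ _).trans ?_; linarith
  have hl1M₁ : l1 Em₁ ≤ 1 + 2 * τ₀ := by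
    have e : Em₁ = Em - (Em - Em₁) := by abel
    rw [e]; refine (l1_sub _ _).trans ?_; linarith
  have hrepl : ∀ b : Bool,
      l1 (val (tm K b) Ep Em - val (tm K b) Ep₁ Em₁) ≤ 2 ^ (2 ^ K) * (2 * τ₀) := by
    intro b
    refine (l1_val_sub2 hl1P hl1M hl1P₁ hl1M₁ (by linarith) lP lM _).trans ?_
    refine (one_add_pow_le (by linarith) h2τ _).trans (le_of_eq ?_)
    rw [tm_length]
  -- the expansion
  obtain ⟨Ev, Od, x1, x2, x3, x4, x5⟩ := lvl1_expand prE hO hV hs₁ hs₂ (tm K true)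
  rw [tm_not, Bool.not_true] at x2
  rw [← hEp₁, ← hEm₁] at x1 x2
  rw [tm_length] at x1 x2 x3 x4
  have hl1O : l1 O ≤ 1 := (L2_l1 prE hO).trans hs₁
  have hlin : l1 (E₀ ^ N * lin1 (tm K true) O E₀ * E₀ ^ N) ≤ (C₁ / Real.sqrt ν) ^ K := by
    rw [lin1_eq, tm_not, Bool.not_true, l1_one1_tm]
    refine (l1_dd_pows hDD prE hK hC₀0 mixE hk₀ hN hKν hl1O).trans ?_
    apply pow_le_pow_left₀ (by positivity)
    exact div_le_div_of_nonneg_right hc (Real.sqrt_nonneg _)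
  have hmP₁ : mass Ep₁ = 1 := by rw [hEp₁, mass_add, mass_add, hOm, hVm, prE.2]; norm_num
  have hmM₁ : mass Em₁ = 1 := by rw [hEm₁, mass_add, mass_sub, hOm, hVm, prE.2]; norm_num
  have hmlin : mass (lin1 (tm K true) O E₀) = 0 := mass_lin1 hOm _
  have hmU := mass_val_one hmP₁ hmM₁ (tm K true)
  have hmV := mass_val_one hmP₁ hmM₁ (tm K false)
  have hmE : mass (E₀ ^ (2 ^ K)) = 1 := (Pr_pow prE _).2
  have hEvOd : mass Ev + mass Od = 0 ∧ mass Ev - mass Od = 0 := by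
    rw [x1, mass_add, mass_add, mass_add, hmE, hmlin] at hmU
    rw [x2, mass_sub, mass_add, mass_add, hmE, hmlin] at hmV
    constructor <;> linarith
  have hmEv : mass Ev = 0 := by linarith [hEvOd.1, hEvOd.2]
  have hmOd : mass Od = 0 := by linarith [hEvOd.1, hEvOd.2]
  have hseaN : ∀ Q : Alg, l1 (E₀ ^ N * Q * E₀ ^ N) ≤ l1 Q := fun Q =>
    (l1_mul_pr (Pr_pow prE N)).trans (l1_pr_mul (Pr_pow prE N))
  have prX' : Pr (E₀ ^ N * val (tm K true) Ep Em * E₀ ^ N) :=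
    Pr_mul (Pr_mul (Pr_pow prE N) (Pr_val prEp prEm _)) (Pr_pow prE N)
  have prY' : Pr (E₀ ^ N * val (tm K false) Ep Em * E₀ ^ N) :=
    Pr_mul (Pr_mul (Pr_pow prE N) (Pr_val prEp prEm _)) (Pr_pow prE N)
  have hERsplit : E₀ ^ R = E₀ ^ N * E₀ ^ (2 ^ K) * E₀ ^ N := by
    rw [hR, ← pow_add, ← pow_add]
    congr 1
    ring
  have hsea2 : ∀ (Q : Alg) (s : ℝ), L2 Q (E₀ ^ (2 ^ K)) s → L2 (E₀ ^ N * Q * E₀ ^ N) (E₀ ^ R) s := by
    intro Q s hQ
    rw [hERsplit]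
    have h1 := L2_mul (Nn_pow prE.1 N) (Nn_pow prE.1 (2 ^ K)) (L2_self (Pr_pow prE N)) hQ
    have h2 := L2_mul (Nn_mul (Nn_pow prE.1 N) (Nn_pow prE.1 (2 ^ K))) (Nn_pow prE.1 N) h1
      (L2_self (Pr_pow prE N))
    rw [one_mul, mul_one] at h2
    exact h2
  have hseam : ∀ Q : Alg, mass Q = 0 → mass (E₀ ^ N * Q * E₀ ^ N) = 0 := by
    intro Q hQ
    rw [mass_mul, mass_mul, hQ, mul_zero, zero_mul]
  have hB2 : (0 : ℝ) ≤ 2 ^ (2 ^ K) := by positivity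
  have hΓpow : Γ ^ (2 ^ K) ≤ Γ ^ (2 ^ (K + 1)) :=
    pow_le_pow_right₀ hΓ (Nat.pow_le_pow_right (by norm_num) (Nat.le_succ K))
  -- dY
  have hdY : Dec (E₀ ^ N * val (tm K false) Ep Em * E₀ ^ N - E₀ ^ R) (E₀ ^ R) β τ := by
    refine ⟨E₀ ^ N * (Ev - Od) * E₀ ^ N,
      E₀ ^ N * (val (tm K false) Ep Em - val (tm K false) Ep₁ Em₁) * E₀ ^ N
        - E₀ ^ N * lin1 (tm K true) O E₀ * E₀ ^ N, ?_, ?_, ?_, ?_⟩
    · rw [hERsplit]
      exact sea_diff3 _ _ _ _ _ _ _ x2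
    · exact hseam _ (by rw [mass_sub, hmEv, hmOd, sub_zero])
    · refine L2_mono (hsea2 _ _ (by
        have := L2_add (Nn_pow prE.1 _) x3 (L2_neg x4)
        rw [← sub_eq_add_neg] at this
        exact this)) ?_
      rw [hβ]
      have h1 : s₁ * s₂ + s₁ ^ 3 ≤ s₂ + s₁ ^ 2 := by
        have e : s₁ * s₂ + s₁ ^ 3 = s₁ * (s₂ + s₁ ^ 2) := by ring
        rw [e]
        have h0 : 0 ≤ s₂ + s₁ ^ 2 := by positivity
        calc s₁ * (s₂ + s₁ ^ 2) ≤ 1 * (s₂ + s₁ ^ 2) := mul_le_mul_of_nonneg_right hs₁ h0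
          _ = _ := one_mul _
      have h0 : 0 ≤ s₂ + s₁ ^ 2 := by positivity
      calc 4 ^ (2 ^ K) * (s₂ + s₁ ^ 2) + 4 ^ (2 ^ K) * (s₁ * s₂ + s₁ ^ 3)
          ≤ 4 ^ (2 ^ K) * (s₂ + s₁ ^ 2) + 4 ^ (2 ^ K) * (s₂ + s₁ ^ 2) := by
            gcongr
        _ = 2 * 4 ^ (2 ^ K) * (s₂ + s₁ ^ 2) := by ring
        _ ≤ C₁ * (s₂ + s₁ ^ 2) := mul_le_mul_of_nonneg_right ha h0
    · refine (l1_sub _ _).trans ?_
      rw [hτ]
      exact num_l2 hB2 hb h2C hτ₀0 hpow0 ((hseaN _).trans (hrepl false)) hlin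
  -- the feature
  have hρeq : val (tm K true) Ep₁ Em₁ - val (tm K false) Ep₁ Em₁
      - (2 : ℝ) • lin1 (tm K true) O E₀ = (2 : ℝ) • Od := by
    rw [x1, x2, two_smul, two_smul]
    abel
  have hρ2 : L2 ((2 : ℝ) • Od) (E₀ ^ (2 ^ K)) r := by
    refine L2_mono (L2_smul x4 2) ?_
    rw [hr, abs_of_pos (by norm_num : (0 : ℝ) < 2)]
    have h0 : 0 ≤ s₁ * s₂ + s₁ ^ 3 := by positivity
    calc 2 * (4 ^ (2 ^ K) * (s₁ * s₂ + s₁ ^ 3)) = 2 * 4 ^ (2 ^ K) * (s₁ * s₂ + s₁ ^ 3) := by ring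
      _ ≤ C₁ * (s₁ * s₂ + s₁ ^ 3) := mul_le_mul_of_nonneg_right ha h0
  have hρm : mass ((2 : ℝ) • Od) = 0 := by rw [mass_smul, hmOd, mul_zero]
  refine ⟨(2 : ℝ) • Od, ?_⟩
  refine
    { prT := prE
      prX := prX'
      prY := prY'
      Req := hR
      massρ := hρm
      l2ρ := hρ2
      dXY := ?_
      dρ := ?_
      dY := hdY
      YX := ?_
      XY := ?_
      TY := ?_
      YT := ?_
      mixT := mixE
      mixY := ?_
      kbig := ?_ }
  · -- dXY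
    rw [← hρeq, sea_diff2]
    refine (l1_add _ _).trans ((add_le_add_left (l1_sub _ _) _).trans ?_)
    rw [l1_smul, abs_of_pos (by norm_num : (0 : ℝ) < 2), hτ]
    exact num_l1 hb h2C hτ₀0 hpow0 ((hseaN _).trans (hrepl true))
      ((hseaN _).trans (hrepl false)) hlin
  · exact ⟨E₀ ^ N * ((2 : ℝ) • Od) * E₀ ^ N, 0, by rw [add_zero], hseam _ hρm, hsea2 _ _ hρ2,
      by rw [l1_zero]; exact hτ0⟩
  · -- YX
    have hEE : ∀ {A B : Alg}, Le A (Γ • E₀) → Le E₀ (Γ • B) → Le A ((Γ ^ 2) • B) := by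
      intro A B hA hB
      refine Le_trans hA ?_
      have := Le_smul hB (show (0 : ℝ) ≤ Γ by linarith)
      rw [smul_smul, ← pow_two] at this
      exact this
    have h1 := Le_val prEp.1 prEm.1 (one_le_pow₀ hΓ) (hEE hEpE hEEm) (hEE hEmE hEEp)
      (tm K false) (tm K true) (by rw [tm_length, tm_length])
    rw [tm_length, ← pow_mul, ← pow_succ'] at h1
    exact Le_sea (Nn_pow prE.1 _) (Nn_val prEp.1 prEm.1 _) (Nn_val prEp.1 prEm.1 _) (le_refl _) h1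
  · -- XY
    have hEE : ∀ {A B : Alg}, Le A (Γ • E₀) → Le E₀ (Γ • B) → Le A ((Γ ^ 2) • B) := by
      intro A B hA hB
      refine Le_trans hA ?_
      have := Le_smul hB (show (0 : ℝ) ≤ Γ by linarith)
      rw [smul_smul, ← pow_two] at this
      exact this
    have h1 := Le_val prEp.1 prEm.1 (one_le_pow₀ hΓ) (hEE hEpE hEEm) (hEE hEmE hEEp)
      (tm K true) (tm K false) (by rw [tm_length, tm_length])
    rw [tm_length, ← pow_mul, ← pow_succ'] at h1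
    exact Le_sea (Nn_pow prE.1 _) (Nn_val prEp.1 prEm.1 _) (Nn_val prEp.1 prEm.1 _) (le_refl _) h1
  · -- TY
    have h1 := Le_pow_val prE.1 hEEp hEEm (tm K false)
    rw [tm_length] at h1
    rw [hERsplit]
    exact Le_sea (Nn_pow prE.1 _) (Nn_pow prE.1 _) (Nn_val prEp.1 prEm.1 _) hΓpow h1
  · -- YT
    have h1 := Le_val_pow prEp.1 prEm.1 hEpE hEmE (tm K false)
    rw [tm_length] at h1
    rw [hERsplit]
    exact Le_sea (Nn_pow prE.1 _) (Nn_val prEp.1 prEm.1 _) (Nn_pow prE.1 _) hΓpow h1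
  · -- mixY
    refine hOV _ k prY' hk1 ?_
    refine hMS E₀ _ R k₀ k C₀ β τ prE prY' hC₀ hR1 hk₀ hτ0 mixE hdY ?_ hkβ hkτ
    rw [hk]
    push_cast
    have h1 : 0 ≤ (R : ℝ) * k₀ := by positivity
    exact mul_le_mul_of_nonneg_right (hd.trans hν) h1
  · -- kbig
    rw [hk]
    calc R * k₀ = 1 * (R * k₀) := (one_mul _).symm
      _ ≤ ν * (R * k₀) := Nat.mul_le_mul_right _ hν1

end Vale.P321S
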