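import Vale.Agent.P321S.BasicL2

/-! # P321: the gain lemma for monomials (module MONO, section 6 of the plan) -/

namespace Vale.P321S

open scoped BigOperators

namespace Mono

theorem split_first (l : List Bool) (h : 1 ≤ l.count true) :
    ∃ (i : ℕ) (rest : List Bool), l = List.replicate i false ++ true :: rest := by
  induction l with
  | nil => simp at h
  | cons a t ih =>
    cases a with
    | true => exact ⟨0, t, by simp⟩
    | false =>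
      have h' : 1 ≤ t.count true := by simpa using h
      obtain ⟨i, rest, hr⟩ := ih h'
      exact ⟨i + 1, rest, by rw [hr]; simp [List.replicate_succ]⟩

theorem val_cons (a : Bool) (l : List Bool) (X Y : Alg) :
    val (a :: l) X Y = (if a then X else Y) * val l X Y := by
  simp [val]

theorem val_split (i : ℕ) (rest : List Bool) (X Y : Alg) :
    val (List.replicate i false ++ true :: rest) X Y = Y ^ i * (X * val rest X Y) := by
  simp [val, List.map_append, List.prod_append, List.map_replicate, List.prod_replicate]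

theorem L2_val {X Y G : Alg} {g x : ℝ} (hG : Pr G)
    (hX : L2 X G (g * x)) (hY : L2 Y G g) (l : List Bool) :
    L2 (val l X Y) (G ^ l.length) (g ^ l.length * x ^ l.count true) := by
  induction l with
  | nil => simpa [val] using L2_self Pr_one
  | cons a t ih =>
    rw [val_cons]
    cases a with
    | true =>
      have h := L2_mul hG.1 (Nn_pow hG.1 _) hX ih
      have e1 : G * G ^ t.length = G ^ (true :: t).length := by
        rw [List.length_cons, pow_succ']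
      have e2 : g * x * (g ^ t.length * x ^ t.count true)
          = g ^ (true :: t).length * x ^ (true :: t).count true := by
        rw [List.length_cons, List.count_cons_self]; ring
      rw [e1, e2] at h
      simpa using h
    | false =>
      have h := L2_mul hG.1 (Nn_pow hG.1 _) hY ih
      have e1 : G * G ^ t.length = G ^ (false :: t).length := by
        rw [List.length_cons, pow_succ']
      have e2 : g * (g ^ t.length * x ^ t.count true)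
          = g ^ (false :: t).length * x ^ (false :: t).count true := by
        rw [List.length_cons, List.count_cons_of_ne (by decide)]; ring
      rw [e1, e2] at h
      simpa using h

theorem l1_val {X Y : Alg} (hX : l1 X ≤ 1) (hY : l1 Y ≤ 1) (l : List Bool) :
    l1 (val l X Y) ≤ 1 := by
  induction l with
  | nil => simp [val, l1_one]
  | cons a t ih =>
    rw [val_cons]
    refine (l1_mul _ _).trans ?_
    have h0 := l1_nonneg (val t X Y)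
    cases a with
    | true => simpa using mul_le_one₀ hX h0 ih
    | false => simpa using mul_le_one₀ hY h0 ih

theorem l1_val_sub {X X' Y : Alg} {τ : ℝ} (hX : l1 X ≤ 1) (hX' : l1 X' ≤ 1) (hY : l1 Y ≤ 1)
    (hτ : l1 (X - X') ≤ τ) (l : List Bool) :
    l1 (val l X Y - val l X' Y) ≤ l.length * τ := by
  have hτ0 : 0 ≤ τ := (l1_nonneg _).trans hτ
  induction l with
  | nil => simp [val, l1_zero]
  | cons a t ih =>
    rw [val_cons, val_cons]
    have h1 := l1_val hX hY t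
    have h0 := l1_nonneg (val t X Y)
    have h2 := l1_nonneg (val t X Y - val t X' Y)
    cases a with
    | true =>
      have e : (if true = true then X else Y) * val t X Y - (if true = true then X' else Y) * val t X' Y
          = (X - X') * val t X Y + X' * (val t X Y - val t X' Y) := by
        simp only [if_true]; noncomm_ring
      rw [e]
      refine (l1_add _ _).trans ?_
      have a1 : l1 ((X - X') * val t X Y) ≤ τ := by
        refine (l1_mul _ _).trans ?_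
        calc l1 (X - X') * l1 (val t X Y) ≤ τ * 1 := mul_le_mul hτ h1 h0 hτ0
          _ = τ := mul_one _
      have a2 : l1 (X' * (val t X Y - val t X' Y)) ≤ t.length * τ := by
        refine (l1_mul _ _).trans ?_
        calc l1 X' * l1 (val t X Y - val t X' Y) ≤ 1 * (t.length * τ) :=
              mul_le_mul hX' ih h2 zero_le_one
          _ = _ := one_mul _
      push_cast [List.length_cons]
      linarith
    | false =>
      have e : (if false = true then X else Y) * val t X Y - (if false = true then X' else Y) * val t X' Y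
          = Y * (val t X Y - val t X' Y) := by
        simp only [Bool.false_eq_true, if_false]; noncomm_ring
      rw [e]
      have a2 : l1 (Y * (val t X Y - val t X' Y)) ≤ t.length * τ := by
        refine (l1_mul _ _).trans ?_
        calc l1 Y * l1 (val t X Y - val t X' Y) ≤ 1 * (t.length * τ) :=
              mul_le_mul hY ih h2 zero_le_one
          _ = _ := one_mul _
      push_cast [List.length_cons]
      linarith

/-- replacing the two outer seas `Y^M` by `T^(R M)` around a monomial -/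
theorem forward {T1 T3 Y h1 t1 h3 t3 Q : Alg} {M1 M3 n : ℕ} {ε1 ε3 a τ1 τ3 : ℝ} (hY : Pr Y)
    (hT1 : Pr T1) (e1 : T1 = Y ^ M1 + h1 + t1) (e3 : T3 = Y ^ M3 + h3 + t3)
    (hh1 : L2 h1 (Y ^ M1) ε1) (hh3 : L2 h3 (Y ^ M3) ε3) (hε1 : ε1 ≤ 2) (hε3 : ε3 ≤ 2)
    (ht1 : l1 t1 ≤ τ1) (ht3 : l1 t3 ≤ τ3) (hQ : L2 Q (Y ^ n) a) (hQ1 : l1 Q ≤ 1) :
    ∃ f₁ f₂ : Alg, Y ^ M1 * Q * Y ^ M3 = T1 * Q * T3 + f₁ + f₂ ∧
      L2 f₁ (Y ^ (M1 + n + M3)) (ε1 * a + 3 * (ε3 * a)) ∧ l1 f₂ ≤ 3 * τ1 + τ3 := by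
  have ha : 0 ≤ a := hQ.1
  have hε1' : 0 ≤ ε1 := hh1.1
  have hε3' : 0 ≤ ε3 := hh3.1
  have hτ1 : 0 ≤ τ1 := (l1_nonneg _).trans ht1
  have hτ3 : 0 ≤ τ3 := (l1_nonneg _).trans ht3
  have pY : ∀ j, Pr (Y ^ j) := fun j => Pr_pow hY j
  have ref : Y ^ M1 * Y ^ n * Y ^ M3 = Y ^ (M1 + n + M3) := by rw [pow_add, pow_add]
  refine ⟨-(h1 * Q * Y ^ M3) + -((Y ^ M1 + h1) * Q * h3),
    -(t1 * Q * Y ^ M3) + (-(t1 * Q * h3) + -(T1 * Q * t3)), ?_, ?_, ?_⟩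
  · have E3 : T1 * Q * T3 = T1 * Q * Y ^ M3 + T1 * Q * h3 + T1 * Q * t3 := by
      rw [e3]; noncomm_ring
    have E1 : T1 * Q * Y ^ M3 = Y ^ M1 * Q * Y ^ M3 + h1 * Q * Y ^ M3 + t1 * Q * Y ^ M3 := by
      rw [e1]; noncomm_ring
    have E2 : T1 * Q * h3 = (Y ^ M1 + h1) * Q * h3 + t1 * Q * h3 := by
      rw [e1]; noncomm_ring
    rw [E3, E1, E2]
    abel
  · have a1 : L2 (h1 * Q * Y ^ M3) (Y ^ (M1 + n + M3)) (ε1 * a) := by
      have h := L2_mul (Nn_mul (pY M1).1 (pY n).1) (pY M3).1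
        (L2_mul (pY M1).1 (pY n).1 hh1 hQ) (L2_self (pY M3))
      rwa [ref, mul_one] at h
    have a2 : L2 ((Y ^ M1 + h1) * Q * h3) (Y ^ (M1 + n + M3)) (3 * (ε3 * a)) := by
      have h0 : L2 (Y ^ M1 + h1) (Y ^ M1) 3 :=
        L2_mono (L2_add (pY M1).1 (L2_self (pY M1)) hh1) (by linarith)
      have h := L2_mul (Nn_mul (pY M1).1 (pY n).1) (pY M3).1
        (L2_mul (pY M1).1 (pY n).1 h0 hQ) hh3
      rw [ref] at h
      exact L2_mono h (le_of_eq (by ring))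
    exact L2_add (pY _).1 (L2_neg a1) (L2_neg a2)
  · have b3 : l1 h3 ≤ 2 := (L2_l1 (pY M3) hh3).trans hε3
    have c1 : l1 (t1 * Q * Y ^ M3) ≤ τ1 := by
      refine (l1_mul _ _).trans ?_
      rw [Pr_l1 (pY M3), mul_one]
      refine (l1_mul _ _).trans ?_
      calc l1 t1 * l1 Q ≤ τ1 * 1 := mul_le_mul ht1 hQ1 (l1_nonneg _) hτ1
        _ = τ1 := mul_one _
    have c2 : l1 (t1 * Q * h3) ≤ 2 * τ1 := by
      refine (l1_mul _ _).trans ?_
      have h : l1 (t1 * Q) ≤ τ1 := by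
        refine (l1_mul _ _).trans ?_
        calc l1 t1 * l1 Q ≤ τ1 * 1 := mul_le_mul ht1 hQ1 (l1_nonneg _) hτ1
          _ = τ1 := mul_one _
      calc l1 (t1 * Q) * l1 h3 ≤ τ1 * 2 := mul_le_mul h b3 (l1_nonneg _) hτ1
        _ = 2 * τ1 := by ring
    have c3 : l1 (T1 * Q * t3) ≤ τ3 := by
      refine (l1_mul _ _).trans ?_
      have h : l1 (T1 * Q) ≤ 1 := by
        refine (l1_mul _ _).trans ?_
        rw [Pr_l1 hT1, one_mul]; exact hQ1
      calc l1 (T1 * Q) * l1 t3 ≤ 1 * τ3 := mul_le_mul h ht3 (l1_nonneg _) zero_le_one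
        _ = τ3 := one_mul _
    have d1 := l1_add (-(t1 * Q * Y ^ M3)) (-(t1 * Q * h3) + -(T1 * Q * t3))
    have d2 := l1_add (-(t1 * Q * h3)) (-(T1 * Q * t3))
    rw [l1_neg] at d1
    rw [l1_neg, l1_neg] at d2
    linarith

/-- replacing the outer `T^(R M)` by `Y^M` around the good part -/
theorem backward {T1 T3 Y h1 t1 h3 t3 G : Alg} {M1 M3 n : ℕ} {ε1 ε3 a τ1 τ3 : ℝ} (hY : Pr Y)
    (hT3 : Pr T3) (e1 : T1 = Y ^ M1 + h1 + t1) (e3 : T3 = Y ^ M3 + h3 + t3)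
    (hh1 : L2 h1 (Y ^ M1) ε1) (hh3 : L2 h3 (Y ^ M3) ε3) (hε1 : ε1 ≤ 2) (hε3 : ε3 ≤ 2)
    (ht1 : l1 t1 ≤ τ1) (ht3 : l1 t3 ≤ τ3) (hG : L2 G (Y ^ n) a) :
    ∃ f₁ f₂ : Alg, T1 * G * T3 = f₁ + f₂ ∧
      L2 f₁ (Y ^ (M1 + n + M3)) (9 * a) ∧ l1 f₂ ≤ a * (τ1 + 3 * τ3) := by
  have ha : 0 ≤ a := hG.1
  have hε1' : 0 ≤ ε1 := hh1.1
  have hε3' : 0 ≤ ε3 := hh3.1
  have hτ1 : 0 ≤ τ1 := (l1_nonneg _).trans ht1
  have hτ3 : 0 ≤ τ3 := (l1_nonneg _).trans ht3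
  have pY : ∀ j, Pr (Y ^ j) := fun j => Pr_pow hY j
  have ref : Y ^ M1 * Y ^ n * Y ^ M3 = Y ^ (M1 + n + M3) := by rw [pow_add, pow_add]
  have h0 : L2 (Y ^ M1 + h1) (Y ^ M1) 3 :=
    L2_mono (L2_add (pY M1).1 (L2_self (pY M1)) hh1) (by linarith)
  have h0' : L2 (Y ^ M3 + h3) (Y ^ M3) 3 :=
    L2_mono (L2_add (pY M3).1 (L2_self (pY M3)) hh3) (by linarith)
  have hG1 : l1 G ≤ a := L2_l1 (pY n) hG
  refine ⟨(Y ^ M1 + h1) * G * (Y ^ M3 + h3), t1 * G * T3 + (Y ^ M1 + h1) * G * t3, ?_, ?_, ?_⟩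
  · have E1 : T1 * G * T3 = (Y ^ M1 + h1) * G * T3 + t1 * G * T3 := by
      rw [e1]; noncomm_ring
    have E2 : (Y ^ M1 + h1) * G * T3 = (Y ^ M1 + h1) * G * (Y ^ M3 + h3)
        + (Y ^ M1 + h1) * G * t3 := by
      rw [e3, mul_add]
    rw [E1, E2]
    abel
  · have h := L2_mul (Nn_mul (pY M1).1 (pY n).1) (pY M3).1
      (L2_mul (pY M1).1 (pY n).1 h0 hG) h0'
    rw [ref] at h
    exact L2_mono h (le_of_eq (by ring))
  · have c1 : l1 (t1 * G * T3) ≤ a * τ1 := by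
      refine (l1_mul _ _).trans ?_
      rw [Pr_l1 hT3, mul_one]
      refine (l1_mul _ _).trans ?_
      calc l1 t1 * l1 G ≤ τ1 * a := mul_le_mul ht1 hG1 (l1_nonneg _) hτ1
        _ = a * τ1 := mul_comm _ _
    have c2 : l1 ((Y ^ M1 + h1) * G * t3) ≤ a * (3 * τ3) := by
      refine (l1_mul _ _).trans ?_
      have h : l1 ((Y ^ M1 + h1) * G) ≤ 3 * a := by
        refine (l1_mul _ _).trans ?_
        exact mul_le_mul (L2_l1 (pY M1) h0) hG1 (l1_nonneg _) (by norm_num)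
      calc l1 ((Y ^ M1 + h1) * G) * l1 t3 ≤ (3 * a) * τ3 :=
            mul_le_mul h ht3 (l1_nonneg _) (by positivity)
        _ = a * (3 * τ3) := by ring
    have d1 := l1_add (t1 * G * T3) ((Y ^ M1 + h1) * G * t3)
    linarith

/-- the total exponent `K` difference bound -/
theorem diff_bound {K N R kT k ν M₀ : ℕ} {C₀ C₁ : ℝ} (hC₀ : 0 ≤ C₀) (hK : 1 ≤ K) (hkT : 1 ≤ kT)
    (hN : 1 ≤ N) (hR : R = 2 * N + 2 ^ K) (hRk : R * kT ≤ k) (hν : 1 ≤ ν)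
    (hM : R * (ν * k) ≤ 4 * K * M₀) (hC₁ : 2 * K * (2 ^ K : ℕ) * C₀ ≤ C₁) :
    2 * (((N * 2 ^ K : ℕ) : ℝ) * (C₀ * Real.sqrt ((kT : ℝ) / (M₀ : ℝ)))) ≤
      C₁ / Real.sqrt ν := by
  have hRpos : 0 < R := by rw [hR]; positivity
  have hk : 0 < k := lt_of_lt_of_le (Nat.mul_pos hRpos hkT) hRk
  have hM₀ : 0 < M₀ := by
    rcases Nat.eq_zero_or_pos M₀ with h | h
    · exfalso
      have h2 : 0 < R * (ν * k) := Nat.mul_pos hRpos (Nat.mul_pos hν hk)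
      rw [h, Nat.mul_zero] at hM
      exact absurd hM (Nat.not_le.mpr h2)
    · exact h
  have hνr : (0 : ℝ) < ν := by exact_mod_cast hν
  have hRr : (0 : ℝ) < R := by exact_mod_cast hRpos
  have hMr : (0 : ℝ) < M₀ := by exact_mod_cast hM₀
  have hKr : (1 : ℝ) ≤ K := by exact_mod_cast hK
  have hsν : 0 < Real.sqrt ν := Real.sqrt_pos.mpr hνr
  have hsq : Real.sqrt ν ^ 2 = ν := Real.sq_sqrt hνr.le
  have hx : Real.sqrt ((kT : ℝ) / (M₀ : ℝ)) ≤ 2 * K / (R * Real.sqrt ν) := by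
    apply Real.sqrt_le_iff.mpr
    refine ⟨by positivity, ?_⟩
    rw [div_pow, mul_pow, mul_pow, hsq, div_le_div_iff₀ hMr (by positivity)]
    have h1 : (R : ℝ) * (ν * k) ≤ 4 * K * M₀ := by exact_mod_cast hM
    have h2 : (R : ℝ) * kT ≤ k := by exact_mod_cast hRk
    have h3 : (R : ℝ) * (ν * (R * kT)) ≤ 4 * K * M₀ :=
      le_trans (mul_le_mul_of_nonneg_left (mul_le_mul_of_nonneg_left h2 hνr.le) hRr.le) h1
    have h4 : (4 : ℝ) * K * M₀ ≤ 2 ^ 2 * K ^ 2 * M₀ := by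
      have : (K : ℝ) ≤ K ^ 2 := by nlinarith
      nlinarith
    nlinarith
  have hLr : (0 : ℝ) ≤ ((2 ^ K : ℕ) : ℝ) := Nat.cast_nonneg _
  have hNr : (0 : ℝ) ≤ (N : ℝ) := Nat.cast_nonneg _
  have h2N : 2 * (N : ℝ) ≤ R := by
    have : 2 * N ≤ R := hR ▸ Nat.le_add_right _ _
    exact_mod_cast this
  have h5 : 2 * (((N * 2 ^ K : ℕ) : ℝ) * (C₀ * Real.sqrt ((kT : ℝ) / (M₀ : ℝ)))) ≤
      2 * (((N : ℝ) * ((2 ^ K : ℕ) : ℝ)) * (C₀ * (2 * K / (R * Real.sqrt ν)))) := by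
    rw [Nat.cast_mul]
    have := mul_le_mul_of_nonneg_left (mul_le_mul_of_nonneg_left hx hC₀)
      (mul_nonneg hNr hLr)
    linarith
  refine h5.trans ?_
  have h6 : 2 * (((N : ℝ) * ((2 ^ K : ℕ) : ℝ)) * (C₀ * (2 * K / (R * Real.sqrt ν)))) =
      (2 * N / R) * ((2 * K * ((2 ^ K : ℕ) : ℝ) * C₀) / Real.sqrt ν) := by
    field_simp
  rw [h6]
  have h7 : 2 * (N : ℝ) / R ≤ 1 := (div_le_one hRr).mpr h2N
  have h8 : (2 * K * ((2 ^ K : ℕ) : ℝ) * C₀) / Real.sqrt ν ≤ C₁ / Real.sqrt ν :=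
    div_le_div_of_nonneg_right hC₁ hsν.le
  have h9 : 0 ≤ (2 * K * ((2 ^ K : ℕ) : ℝ) * C₀) / Real.sqrt ν := by positivity
  calc (2 * N / R) * ((2 * K * ((2 ^ K : ℕ) : ℝ) * C₀) / Real.sqrt ν)
      ≤ 1 * ((2 * K * ((2 ^ K : ℕ) : ℝ) * C₀) / Real.sqrt ν) :=
        mul_le_mul_of_nonneg_right h7 h9
    _ ≤ C₁ / Real.sqrt ν := by rw [one_mul]; exact h8

/-- TM in the shape needed here -/
theorem tm_use (htm : StTM) {T Y : Alg} {R M N' L : ℕ} {Γ β τ : ℝ} (hT : Pr T) (hY : Pr Y)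
    (hΓ : 1 ≤ Γ) (hτ : 0 ≤ τ) (hβ0 : 0 ≤ β) (hdec : Dec (Y - T ^ R) (T ^ R) β τ)
    (hTY : Le (T ^ R) (Γ • Y)) (hM : M ≤ N' * (1 + L))
    (hβ : ((1 + L : ℕ) * Γ) * ((N' : ℝ) * β ^ 2) ≤ 1)
    (hτ' : ((1 + L : ℕ) : ℝ) * ((N' : ℝ) * τ) ≤ 1) :
    ∃ (h t : Alg) (ε : ℝ), T ^ (R * M) = Y ^ M + h + t ∧ L2 h (Y ^ M) ε ∧ ε ≤ 2 ∧
      ε ≤ 2 * Real.sqrt ((1 + L : ℕ) * Γ) * (Real.sqrt N' * β) ∧
      l1 t ≤ 3 * (1 + L : ℕ) * (N' * τ) := by
  have hMr : (M : ℝ) ≤ N' * ((1 + L : ℕ) : ℝ) := by exact_mod_cast hM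
  have h1 : (M : ℝ) * (Γ * β ^ 2) ≤ 1 := by
    have h0 : 0 ≤ Γ * β ^ 2 := by positivity
    calc (M : ℝ) * (Γ * β ^ 2) ≤ (N' * ((1 + L : ℕ) : ℝ)) * (Γ * β ^ 2) :=
          mul_le_mul_of_nonneg_right hMr h0
      _ = ((1 + L : ℕ) * Γ) * ((N' : ℝ) * β ^ 2) := by ring
      _ ≤ 1 := hβ
  have h2 : (M : ℝ) * τ ≤ 1 := by
    calc (M : ℝ) * τ ≤ (N' * ((1 + L : ℕ) : ℝ)) * τ := mul_le_mul_of_nonneg_right hMr hτ
      _ = ((1 + L : ℕ) : ℝ) * ((N' : ℝ) * τ) := by ring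
      _ ≤ 1 := hτ'
  obtain ⟨h, t, e, -, hh, ht⟩ := htm T Y R M Γ β τ hT hY hΓ hτ hdec hTY h1 h2
  have hMΓ : 0 ≤ (M : ℝ) * Γ := by positivity
  refine ⟨h, t, 2 * Real.sqrt (M * Γ) * β, e, hh, ?_, ?_, ?_⟩
  · have h3 : (Real.sqrt (M * Γ) * β) ^ 2 ≤ 1 := by
      rw [mul_pow, Real.sq_sqrt hMΓ]
      linarith
    have h4 : Real.sqrt (M * Γ) * β ≤ 1 := by
      have h5 : 0 ≤ Real.sqrt (M * Γ) * β := by positivity
      nlinarith
    linarith
  · have h3 : Real.sqrt (M * Γ) ≤ Real.sqrt ((1 + L : ℕ) * Γ) * Real.sqrt N' := by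
      rw [← Real.sqrt_mul (by positivity)]
      apply Real.sqrt_le_sqrt
      calc (M : ℝ) * Γ ≤ (N' * ((1 + L : ℕ) : ℝ)) * Γ :=
            mul_le_mul_of_nonneg_right hMr (by linarith)
        _ = ((1 + L : ℕ) * Γ) * (N' : ℝ) := by ring
    have h4 := mul_le_mul_of_nonneg_right h3 hβ0
    linarith
  · have h3 := mul_le_mul_of_nonneg_right hMr hτ
    calc l1 t ≤ 3 * M * τ := ht
      _ ≤ 3 * (1 + L : ℕ) * (N' * τ) := by linarith

/-- the core step: from CORE to a bound relative to powers of `Y` -/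
theorem core_use (hcore : StCore) {K L c N R kT k ν P N' i s : ℕ} {C₀ C₁ Γ g B r : ℝ}
    {T Y ρ Δ₁ : Alg} {rest : List Bool} (hK : 1 ≤ K) (hC₀ : 2 ≤ C₀) (hΓ : 1 ≤ Γ)
    (hgdef : g = Real.sqrt Γ) (hLdef : L = 2 ^ K) (hcdef : c = K * L) (hBdef : B = g ^ L)
    (hC₁ : 2 * K * (2 ^ K : ℕ) * C₀ ≤ C₁)
    (hT : Pr T) (hY : Pr Y) (hR : R = 2 * N + 2 ^ K) (hρ : mass ρ = 0)
    (l2ρ : L2 ρ (T ^ (2 ^ K)) r) (hΔ₁ : Δ₁ = T ^ N * ρ * T ^ N)
    (hTY : Le (T ^ R) (Γ • Y)) (hYT : Le Y (Γ • T ^ R)) (hmix : Mix T kT C₀)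
    (hRk : R * kT ≤ k) (hkT : 1 ≤ kT) (hN : 1 ≤ N) (hr : r ≤ 1)
    (hN' : N' = ν * k) (hν1 : 1 ≤ ν) (hνK : 4 * K ≤ N') (hP : N' + i = P + c)
    (hP2 : N' ≤ 2 * P) (hlen : i + 1 + rest.length = L) (hcount : s ≤ rest.count true + 1) :
    ∃ G Res : Alg, T ^ (R * (N' + i)) * (Δ₁ * val rest Δ₁ Y) * T ^ (R * N')
        = T ^ (R * P) * G * T ^ (R * N') + Res ∧
      L2 G (Y ^ (c + 1 + rest.length))
        (g ^ (c + 1 + L) * (L * B) * (Real.sqrt (1 / N) * r ^ s)) ∧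
      l1 Res ≤ (C₁ / Real.sqrt ν) ^ K := by
  have hr0 : 0 ≤ r := l2ρ.1
  have hg1 : 1 ≤ g := by rw [hgdef]; exact Real.one_le_sqrt.mpr hΓ
  have hg2 : g ^ 2 = Γ := by rw [hgdef]; exact Real.sq_sqrt (by linarith)
  have hRpos : 0 < R := by rw [hR]; positivity
  have hL1 : 1 ≤ L := by rw [hLdef]; exact Nat.one_le_two_pow
  have hN'1 : 1 ≤ N' := by omega
  have hB1 : 1 ≤ B := by rw [hBdef]; exact one_le_pow₀ hg1
  have hgl : ∀ j : ℕ, j ≤ L → g ^ j ≤ B := fun j hj => by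
    rw [hBdef]; exact pow_le_pow_right₀ hg1 hj
  have l1Y : l1 Y ≤ 1 := le_of_eq (Pr_l1 hY)
  have l1ρ : l1 ρ ≤ 1 := (L2_l1 (Pr_pow hT _) l2ρ).trans hr
  have l1Δ₁ : l1 Δ₁ ≤ 1 := by
    rw [hΔ₁]
    refine (l1_mul _ _).trans ?_
    rw [Pr_l1 (Pr_pow hT N), mul_one]
    refine (l1_mul _ _).trans ?_
    rw [Pr_l1 (Pr_pow hT N), one_mul]
    exact l1ρ
  have l2Δ₁ : L2 Δ₁ (T ^ R) (g * r) := by
    have h := L2_mul (Nn_mul (Pr_pow hT N).1 (Pr_pow hT (2 ^ K)).1) (Pr_pow hT N).1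
      (L2_mul (Pr_pow hT N).1 (Pr_pow hT (2 ^ K)).1 (L2_self (Pr_pow hT N)) l2ρ)
      (L2_self (Pr_pow hT N))
    have e : T ^ N * T ^ (2 ^ K) * T ^ N = T ^ R := by
      rw [← pow_add, ← pow_add, hR]; congr 1; ring
    rw [e, ← hΔ₁, one_mul, mul_one] at h
    exact L2_mono h (le_mul_of_one_le_left hr0 hg1)
  have l2YT : L2 Y (T ^ R) g := by
    have h := L2_of_le (by linarith) hY (Pr_pow hT R).1 hYT
    rwa [← hgdef] at h
  have hZ : L2 (T ^ N * val rest Δ₁ Y) (T ^ (N + R * rest.length))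
      (g ^ rest.length * r ^ rest.count true) := by
    have h := L2_mul (Pr_pow hT N).1 (Nn_pow (Pr_pow hT R).1 _) (L2_self (Pr_pow hT N))
      (L2_val (Pr_pow hT R) l2Δ₁ l2YT rest)
    rwa [one_mul, ← pow_mul, ← pow_add] at h
  obtain ⟨M₀, hM₀⟩ : ∃ M₀ : ℕ, M₀ = R * N' / (2 * K) := ⟨_, rfl⟩
  have hM₀a : 2 * K * M₀ ≤ R * N' := by rw [hM₀]; exact Nat.mul_div_le _ _
  have hM₀b : R * N' ≤ 4 * K * M₀ := by
    have h5 : R * N' < 2 * K * (M₀ + 1) := by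
      rw [hM₀]
      exact Nat.lt_mul_div_succ _ (by omega)
    have h6 : 4 * K ≤ R * N' := by
      calc 4 * K ≤ N' := hνK
        _ ≤ R * N' := Nat.le_mul_of_pos_left _ hRpos
    have h7 : 2 * K * (M₀ + 1) = 2 * K * M₀ + 2 * K := by ring
    have h8 : 4 * K * M₀ = 2 * (2 * K * M₀) := by ring
    omega
  have hM₀1 : 1 ≤ M₀ := by
    rcases Nat.eq_zero_or_pos M₀ with h | h
    · exfalso
      rw [h, Nat.mul_zero] at hM₀b
      exact absurd hM₀b (Nat.not_le.mpr (Nat.mul_pos hRpos hN'1))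
    · exact h
  have hNR : N ≤ R := by
    rw [hR, two_mul, add_assoc]; exact Nat.le_add_right _ _
  obtain ⟨G, Res, eG, -, hG, hRes⟩ := hcore K N L (R * c + N) (R * P) (R * N')
    (N + R * rest.length) M₀ T ρ (T ^ N * val rest Δ₁ Y) r
    (g ^ rest.length * r ^ rest.count true)
    (C₀ * Real.sqrt ((kT : ℝ) / (M₀ : ℝ))) hT hρ (by rw [hLdef]; exact l2ρ) hZ hN hL1
    (by
      calc K * (N * L) = N * c := by rw [hcdef]; ring
        _ ≤ R * c := Nat.mul_le_mul_right _ hNR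
        _ ≤ R * c + N := Nat.le_add_right _ _)
    (by
      have h5 : R * N' ≤ 2 * (R * P) := by
        calc R * N' ≤ R * (2 * P) := Nat.mul_le_mul_left _ hP2
          _ = 2 * (R * P) := by ring
      have h6 : 2 * K * M₀ = 2 * (K * M₀) := by ring
      omega)
    (by
      have h6 : 2 * K * M₀ = 2 * (K * M₀) := by ring
      omega)
    (hmix M₀ hM₀1)
  refine ⟨G, Res, ?_, ?_, ?_⟩
  · rw [← eG, hΔ₁]
    have e : R * P + (R * c + N) = R * (N' + i) + N := by rw [hP]; ring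
    rw [e, pow_add]
    simp only [mul_assoc]
  · have e : R * c + N + L + (N + R * rest.length) = R * (c + 1 + rest.length) := by
      have : N + L + N = R := by rw [hR, hLdef]; ring
      calc R * c + N + L + (N + R * rest.length) = R * c + (N + L + N) + R * rest.length := by
            ring
        _ = R * (c + 1 + rest.length) := by rw [this]; ring
    rw [e, pow_mul] at hG
    have hle : Le ((T ^ R) ^ (c + 1 + rest.length))
        (Γ ^ (c + 1 + rest.length) • Y ^ (c + 1 + rest.length)) :=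
      Le_pow (by linarith) (Pr_pow hT R).1 hY.1 hTY _
    have h := L2_ref (by positivity) (Nn_pow (Pr_pow hT R).1 _) (Pr_pow hY _).1 hG hle
    have hsq : Real.sqrt (Γ ^ (c + 1 + rest.length)) = g ^ (c + 1 + rest.length) := by
      rw [← hg2, ← pow_mul, mul_comm 2, pow_mul, Real.sqrt_sq (by positivity)]
    rw [hsq] at h
    refine L2_mono h ?_
    have q1 : g ^ (c + 1 + rest.length) ≤ g ^ (c + 1 + L) :=
      pow_le_pow_right₀ hg1 (by omega)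
    have q2 : r * (g ^ rest.length * r ^ rest.count true) ≤ B * r ^ s := by
      calc r * (g ^ rest.length * r ^ rest.count true)
          = g ^ rest.length * r ^ (rest.count true + 1) := by ring
        _ ≤ B * r ^ s := by
            refine mul_le_mul (hgl _ (by omega)) (pow_le_pow_of_le_one hr0 hr hcount)
              (by positivity) (by linarith)
    have q3 : (2 : ℝ) ^ K = (L : ℝ) := by rw [hLdef]; push_cast; rfl
    have hs0 : 0 ≤ Real.sqrt (1 / N) := Real.sqrt_nonneg _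
    calc g ^ (c + 1 + rest.length) * (2 ^ K * Real.sqrt (1 / N) * r
          * (g ^ rest.length * r ^ rest.count true))
        = g ^ (c + 1 + rest.length) * (L * Real.sqrt (1 / N))
          * (r * (g ^ rest.length * r ^ rest.count true)) := by rw [q3]; ring
      _ ≤ g ^ (c + 1 + L) * (L * Real.sqrt (1 / N)) * (B * r ^ s) := by
          refine mul_le_mul (mul_le_mul_of_nonneg_right q1 (by positivity)) q2
            (by positivity) (by positivity)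
      _ = g ^ (c + 1 + L) * (L * B) * (Real.sqrt (1 / N) * r ^ s) := by ring
  · refine hRes.trans ?_
    have hd := diff_bound (C₁ := C₁) (by linarith) hK hkT hN hR hRk hν1
      (by rw [← hN']; exact hM₀b) hC₁
    rw [← hLdef] at hd
    have y3 : l1 (ρ * (T ^ N * val rest Δ₁ Y)) ≤ 1 := by
      refine (l1_mul _ _).trans (mul_le_one₀ l1ρ (l1_nonneg _) ?_)
      refine (l1_mul _ _).trans ?_
      rw [Pr_l1 (Pr_pow hT N), one_mul]
      exact l1_val l1Δ₁ l1Y rest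
    have y4 : 0 ≤ 2 * (((N * L : ℕ) : ℝ) * (C₀ * Real.sqrt ((kT : ℝ) / (M₀ : ℝ)))) := by
      positivity
    calc (2 * (((N * L : ℕ) : ℝ) * (C₀ * Real.sqrt ((kT : ℝ) / (M₀ : ℝ))))) ^ K
          * l1 (ρ * (T ^ N * val rest Δ₁ Y))
        ≤ (2 * (((N * L : ℕ) : ℝ) * (C₀ * Real.sqrt ((kT : ℝ) / (M₀ : ℝ))))) ^ K * 1 :=
          mul_le_mul_of_nonneg_left y3 (pow_nonneg y4 _)
      _ ≤ (C₁ / Real.sqrt ν) ^ K := by
          rw [mul_one]; exact pow_le_pow_left₀ y4 hd K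

theorem num_l2 {A B E C₁ ε1 ε3 x y z : ℝ} (hx : 0 ≤ x) (hy : 0 ≤ y) (hz : 0 ≤ z) (hB : 0 ≤ B)
    (h1 : ε1 ≤ E * x) (h3 : ε3 ≤ E * x) (hC1 : 4 * E * B ≤ C₁) (hC2 : 9 * A ≤ C₁) :
    ε1 * (B * y) + 3 * (ε3 * (B * y)) + 9 * (A * z) ≤ C₁ * (z + x * y) := by
  have z4 : 0 ≤ B * y := by positivity
  have z5 := mul_le_mul_of_nonneg_right h1 z4
  have z6 := mul_le_mul_of_nonneg_right h3 z4
  have z7 := mul_le_mul_of_nonneg_right hC1 (mul_nonneg hx hy)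
  have z8 := mul_le_mul_of_nonneg_right hC2 hz
  linarith

theorem num_l1 {A L C₁ x τ a b₂ b₄ b₅ bR e : ℝ} (hA : 0 ≤ A) (hL : 0 ≤ L) (hx : 0 ≤ x)
    (hτ : τ ≤ x) (ha1 : a ≤ 1) (he : 0 ≤ e)
    (h2 : b₂ ≤ 3 * (3 * (1 + L) * x) + 3 * (1 + L) * x)
    (h4 : b₄ ≤ A * a * (3 * (1 + L) * x + 3 * (3 * (1 + L) * x)))
    (h5 : b₅ ≤ L * τ) (hR : bR ≤ e) (hC : 2 * ((24 + 12 * A) * (1 + L)) + 2 ≤ C₁) :
    2 * (b₂ + b₄ + bR + b₅) ≤ C₁ * (x + e) := by
  have y1 : A * a * (3 * (1 + L) * x + 3 * (3 * (1 + L) * x))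
      ≤ A * (3 * (1 + L) * x + 3 * (3 * (1 + L) * x)) :=
    mul_le_mul_of_nonneg_right (mul_le_of_le_one_right hA ha1) (by positivity)
  have y6 : L * τ ≤ L * x := mul_le_mul_of_nonneg_left hτ hL
  have hC0 : 0 ≤ 2 * ((24 + 12 * A) * (1 + L)) := by positivity
  have y8 : (2 * ((24 + 12 * A) * (1 + L))) * x ≤ C₁ * x :=
    mul_le_mul_of_nonneg_right (by linarith) hx
  have y9 : 2 * e ≤ C₁ * e := mul_le_mul_of_nonneg_right (by linarith) he
  have y10 : 0 ≤ L * x := by positivity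
  have y11 : 0 ≤ A * x := by positivity
  have y12 : 0 ≤ A * (L * x) := by positivity
  nlinarith

end Mono

theorem stMono (hcore : StCore) (htm : StTM) : StMono := by
  intro K C₀ Γ hK hC₀ hΓ
  obtain ⟨g, hgdef⟩ : ∃ g : ℝ, g = Real.sqrt Γ := ⟨_, rfl⟩
  have hg1 : 1 ≤ g := by rw [hgdef]; exact Real.one_le_sqrt.mpr hΓ
  obtain ⟨L, hLdef⟩ : ∃ L : ℕ, L = 2 ^ K := ⟨_, rfl⟩
  obtain ⟨c, hcdef⟩ : ∃ c : ℕ, c = K * L := ⟨_, rfl⟩
  obtain ⟨B, hBdef⟩ : ∃ B : ℝ, B = g ^ L := ⟨_, rfl⟩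
  have hB1 : 1 ≤ B := by rw [hBdef]; exact one_le_pow₀ hg1
  obtain ⟨E, hEdef⟩ : ∃ E : ℝ, E = 2 * Real.sqrt ((1 + L : ℕ) * Γ) := ⟨_, rfl⟩
  have hE0 : 0 ≤ E := by rw [hEdef]; positivity
  obtain ⟨A, hAdef⟩ : ∃ A : ℝ, A = g ^ (c + 1 + L) * (L * B) := ⟨_, rfl⟩
  have hA0 : 0 ≤ A := by rw [hAdef]; positivity
  refine ⟨4 * E * B + 9 * A + 2 * ((24 + 12 * A) * (1 + L)) + 2 * K * (2 ^ K : ℕ) * C₀
    + (1 + L : ℕ) * Γ + 2 * c + 4 * K + 2, ?_, ?_⟩
  · have : (0 : ℝ) ≤ 4 * E * B + 9 * A + 2 * ((24 + 12 * A) * (1 + L)) + 2 * K * (2 ^ K : ℕ) * C₀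
      + (1 + L : ℕ) * Γ + 2 * c + 4 * K := by positivity
    linarith
  generalize hC₁ : 4 * E * B + 9 * A + 2 * ((24 + 12 * A) * (1 + L)) + 2 * K * (2 ^ K : ℕ) * C₀
    + (1 + L : ℕ) * Γ + 2 * c + 4 * K + 2 = C₁
  have p1 : 0 ≤ 4 * E * B := by positivity
  have p2 : 0 ≤ 9 * A := by positivity
  have p3 : 0 ≤ 2 * ((24 + 12 * A) * (1 + (L : ℝ))) := by positivity
  have p4 : 0 ≤ 2 * K * (2 ^ K : ℕ) * C₀ := by positivity
  have p5 : 0 ≤ ((1 + L : ℕ) : ℝ) * Γ := by positivity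
  have p6 : (0 : ℝ) ≤ 2 * c := by positivity
  have p7 : (0 : ℝ) ≤ 4 * K := by positivity
  have c1 : 4 * E * B ≤ C₁ := by linarith
  have c2 : 9 * A ≤ C₁ := by linarith
  have c3 : 2 * ((24 + 12 * A) * (1 + (L : ℝ))) + 2 ≤ C₁ := by linarith
  have c4 : 2 * K * (2 ^ K : ℕ) * C₀ ≤ C₁ := by linarith
  have c5 : ((1 + L : ℕ) : ℝ) * Γ ≤ C₁ := by linarith
  have c6 : 2 * (c : ℝ) ≤ C₁ := by linarith
  have c7 : 4 * (K : ℝ) ≤ C₁ := by linarith
  have hC₁0 : 0 ≤ C₁ := by linarith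
  clear hC₁ p1 p2 p3 p4 p5 p6 p7
  intro T Y ρ Δ N R kT k ν s r η β τ l hT hY hR hρ l2ρ hΔ l2Δ hτ hdec hTY hYT hmix hRk hkT hN
    hν hr hη hβ hτ' hl hs hs'
  have hτ0 : 0 ≤ τ := (l1_nonneg _).trans hτ
  have hr0 : 0 ≤ r := l2ρ.1
  have hη0 : 0 ≤ η := l2Δ.1
  have hβ0 : 0 ≤ β := by
    obtain ⟨f₁, f₂, -, -, h, -⟩ := hdec
    exact h.1
  have hRpos : 0 < R := by rw [hR]; positivity
  have hk : 1 ≤ k := le_trans (Nat.mul_pos hRpos hkT) hRk
  obtain ⟨N', hN'⟩ : ∃ N' : ℕ, N' = ν * k := ⟨_, rfl⟩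
  rw [← hN'] at hβ hτ' ⊢
  have hνc : 2 * c ≤ ν := by
    have : ((2 * c : ℕ) : ℝ) ≤ ν := by push_cast; linarith
    exact_mod_cast this
  have hνK : 4 * K ≤ ν := by
    have : ((4 * K : ℕ) : ℝ) ≤ ν := by push_cast; linarith
    exact_mod_cast this
  have hν1 : 1 ≤ ν := by omega
  have hN'ν : ν ≤ N' := by rw [hN']; exact Nat.le_mul_of_pos_right _ hk
  have hN'1 : 1 ≤ N' := le_trans hν1 hN'ν
  -- the TM approximations
  have hTMc : ∀ M : ℕ, M ≤ N' * (1 + L) → ∃ (h t : Alg) (ε : ℝ), T ^ (R * M) = Y ^ M + h + t ∧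
      L2 h (Y ^ M) ε ∧ ε ≤ 2 ∧ ε ≤ E * (Real.sqrt N' * β) ∧
      l1 t ≤ 3 * (1 + L : ℕ) * (N' * τ) := by
    intro M hM
    rw [hEdef]
    refine Mono.tm_use htm hT hY hΓ hτ0 hβ0 hdec hTY hM ?_ ?_
    · have h0 : 0 ≤ (N' : ℝ) * β ^ 2 := by positivity
      exact (mul_le_mul_of_nonneg_right c5 h0).trans hβ
    · have h0 : 0 ≤ (N' : ℝ) * τ := by positivity
      have h1 : ((1 + L : ℕ) : ℝ) ≤ C₁ :=
        le_trans (le_mul_of_one_le_right (by positivity) hΓ) c5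
      exact (mul_le_mul_of_nonneg_right h1 h0).trans hτ'
  -- splitting the word
  obtain ⟨i, rest, hli⟩ := Mono.split_first l (hs.trans hs')
  have hlen : i + 1 + rest.length = L := by
    rw [hli] at hl
    simp only [List.length_append, List.length_replicate, List.length_cons] at hl
    rw [hLdef, ← hl]; omega
  have hcount : s ≤ rest.count true + 1 := by
    rw [hli] at hs'
    simpa [List.count_append, List.count_replicate] using hs'
  have hval : val l Δ Y = Y ^ i * (Δ * val rest Δ Y) := by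
    rw [hli]; exact Mono.val_split i rest Δ Y
  clear hli hs' hs hl
  obtain ⟨P, hP⟩ : ∃ P, N' + i = P + c := ⟨N' + i - c, by omega⟩
  have hP2 : N' ≤ 2 * P := by omega
  have hNL : N' + L ≤ N' * (1 + L) := by
    rw [Nat.mul_add, Nat.mul_one]
    exact Nat.add_le_add_left (Nat.le_mul_of_pos_left _ hN'1) _
  obtain ⟨h1, t1, ε1, e1, hh1, hε1, hε1', ht1⟩ := hTMc (N' + i) (by omega)
  obtain ⟨h3, t3, ε3, e3, hh3, hε3, hε3', ht3⟩ := hTMc N' (by omega)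
  obtain ⟨h2, t2, ε2, e2, hh2, hε2, -, ht2⟩ := hTMc P (by omega)
  clear hTMc
  -- the monomial
  have l1Y : l1 Y ≤ 1 := le_of_eq (Pr_l1 hY)
  have l1Δ : l1 Δ ≤ 1 := (L2_l1 (Pr_pow hT R) l2Δ).trans hη
  have l2ΔY : L2 Δ Y (g * η) := by
    have h := L2_ref (by linarith) (Pr_pow hT R).1 hY.1 l2Δ hTY
    rwa [← hgdef] at h
  have l2YY : L2 Y Y g := L2_mono (L2_self hY) hg1
  have hQ : L2 (Δ * val rest Δ Y) (Y ^ (1 + rest.length)) (B * η ^ s) := by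
    have h := L2_mul hY.1 (Pr_pow hY _).1 l2ΔY (Mono.L2_val hY l2ΔY l2YY rest)
    have e : Y * Y ^ rest.length = Y ^ (1 + rest.length) := by rw [pow_add, pow_one]
    rw [e] at h
    refine L2_mono h ?_
    have hgl : g ^ (1 + rest.length) ≤ B := by
      rw [hBdef]; exact pow_le_pow_right₀ hg1 (by omega)
    calc g * η * (g ^ rest.length * η ^ rest.count true)
        = g ^ (1 + rest.length) * η ^ (rest.count true + 1) := by ring
      _ ≤ B * η ^ s := by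
          refine mul_le_mul hgl (pow_le_pow_of_le_one hη0 hη hcount)
            (by positivity) (by linarith)
  have hQ1 : l1 (Δ * val rest Δ Y) ≤ 1 :=
    (l1_mul _ _).trans (mul_le_one₀ l1Δ (l1_nonneg _) (Mono.l1_val l1Δ l1Y rest))
  obtain ⟨f₁, f₂, ef, hf₁, hf₂⟩ := Mono.forward hY (Pr_pow hT (R * (N' + i))) e1 e3 hh1 hh3
    hε1 hε3 ht1 ht3 hQ hQ1
  -- replacing Δ by T^N ρ T^N
  obtain ⟨Δ₁, hΔ₁⟩ : ∃ Δ₁ : Alg, Δ₁ = T ^ N * ρ * T ^ N := ⟨_, rfl⟩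
  rw [← hΔ₁] at hτ
  have l1ρ : l1 ρ ≤ 1 := (L2_l1 (Pr_pow hT _) l2ρ).trans hr
  have l1Δ₁ : l1 Δ₁ ≤ 1 := by
    rw [hΔ₁]
    refine (l1_mul _ _).trans ?_
    rw [Pr_l1 (Pr_pow hT N), mul_one]
    refine (l1_mul _ _).trans ?_
    rw [Pr_l1 (Pr_pow hT N), one_mul]
    exact l1ρ
  have pT1 : Pr (T ^ (R * (N' + i))) := Pr_pow hT _
  have pT3 : Pr (T ^ (R * N')) := Pr_pow hT _
  obtain ⟨f₅, hf₅⟩ : ∃ f₅ : Alg, f₅ = T ^ (R * (N' + i)) * (Δ * val rest Δ Y) * T ^ (R * N')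
    - T ^ (R * (N' + i)) * (Δ₁ * val rest Δ₁ Y) * T ^ (R * N') := ⟨_, rfl⟩
  have hf₅l : l1 f₅ ≤ L * τ := by
    have e : f₅ = T ^ (R * (N' + i)) * (val (true :: rest) Δ Y - val (true :: rest) Δ₁ Y)
        * T ^ (R * N') := by
      rw [hf₅, Mono.val_cons, Mono.val_cons, mul_sub, sub_mul]
      simp only [if_true]
    rw [e]
    refine (l1_mul _ _).trans ?_
    rw [Pr_l1 pT3, mul_one]
    refine (l1_mul _ _).trans ?_
    rw [Pr_l1 pT1, one_mul]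
    have hτs : l1 (Δ - Δ₁) ≤ τ := by rw [l1_sub_comm]; exact hτ
    refine (Mono.l1_val_sub l1Δ l1Δ₁ l1Y hτs (true :: rest)).trans ?_
    refine mul_le_mul_of_nonneg_right ?_ hτ0
    have : (true :: rest).length ≤ L := by rw [List.length_cons]; omega
    exact_mod_cast this
  -- CORE
  obtain ⟨G, Res, eT, hGY, hRes⟩ := Mono.core_use hcore hK hC₀ hΓ hgdef hLdef hcdef hBdef c4
    hT hY hR hρ l2ρ hΔ₁ hTY hYT hmix hRk hkT hN hr hN' hν1 (hνK.trans hN'ν) hP hP2 hlen hcount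
  rw [← hAdef] at hGY
  obtain ⟨f₃, f₄, ef', hf₃, hf₄⟩ := Mono.backward hY pT3 e2 e3 hh2 hh3 hε2 hε3 ht2 ht3 hGY
  -- assembling
  have hmain : Y ^ N' * val l Δ Y * Y ^ N' = (f₁ + f₃) + (f₂ + f₄ + Res + f₅) := by
    have e : Y ^ N' * val l Δ Y * Y ^ N' = Y ^ (N' + i) * (Δ * val rest Δ Y) * Y ^ N' := by
      rw [hval, pow_add]; simp only [mul_assoc]
    have e5 : T ^ (R * (N' + i)) * (Δ * val rest Δ Y) * T ^ (R * N')
        = T ^ (R * (N' + i)) * (Δ₁ * val rest Δ₁ Y) * T ^ (R * N') + f₅ := by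
      rw [hf₅]; abel
    rw [e, ef, e5, eT, ef']
    abel
  have hmass : mass (Y ^ N' * val l Δ Y * Y ^ N') = 0 := by
    rw [hval, mass_mul, mass_mul, mass_mul, mass_mul, hΔ]; ring
  have href1 : Y ^ (N' + i + (1 + rest.length) + N') = Y ^ (2 * N' + 2 ^ K) := by
    congr 1; rw [← hLdef]; omega
  have href3 : Y ^ (P + (c + 1 + rest.length) + N') = Y ^ (2 * N' + 2 ^ K) := by
    congr 1; rw [← hLdef]; omega
  rw [href1] at hf₁
  rw [href3] at hf₃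
  have pYn : Pr (Y ^ (2 * N' + 2 ^ K)) := Pr_pow hY _
  have y5 : l1 (f₂ + f₄ + Res + f₅) ≤ l1 f₂ + l1 f₄ + l1 Res + l1 f₅ := by
    have a1 := l1_add (f₂ + f₄ + Res) f₅
    have a2 := l1_add (f₂ + f₄) Res
    have a3 := l1_add f₂ f₄
    linarith
  have hdec2 := Dec_of pYn hmass hmain (L2_add pYn.1 hf₁ hf₃) y5
  refine Dec_mono hdec2 ?_ ?_
  · exact Mono.num_l2 (by positivity) (by positivity) (by positivity) (by linarith)
      hε1' hε3' c1 c2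
  · have hcast : ((1 + L : ℕ) : ℝ) = 1 + (L : ℝ) := by push_cast; ring
    rw [hcast] at hf₂ hf₄
    have hsmall : Real.sqrt (1 / N) * r ^ s ≤ 1 := by
      refine mul_le_one₀ ?_ (by positivity) (pow_le_one₀ hr0 hr)
      have hNr : (1 : ℝ) ≤ N := by exact_mod_cast hN
      rw [Real.sqrt_le_left (by norm_num), one_pow]
      exact (div_le_one (by linarith)).mpr hNr
    have hτx : τ ≤ (N' : ℝ) * τ := by
      have : (1 : ℝ) ≤ N' := by exact_mod_cast hN'1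
      exact le_mul_of_one_le_left hτ0 this
    exact Mono.num_l1 hA0 (Nat.cast_nonneg _) (by positivity) hτx hsmall (by positivity)
      hf₂ hf₄ hf₅l hRes c3

end Vale.P321S
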