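import Vale.Agent.P321S.BasicL1

/-! # P321: orthogonality in the position of the centred symbol (module ORTHO) -/

namespace Vale.P321S

open scoped BigOperators

/-- the finite set of words of length `t` -/
noncomputable def words (t : ℕ) : Finset Wd := by
  classical
  exact (Finset.univ : Finset (Fin t → Bool)).image (fun f => FreeMonoid.ofList (List.ofFn f))

theorem mem_words (t : ℕ) (w : Wd) : w ∈ words t ↔ (FreeMonoid.toList w).length = t := by
  classical
  unfold words
  rw [Finset.mem_image]
  constructor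
  · rintro ⟨f, _, rfl⟩
    simp
  · intro h
    refine ⟨fun i => (FreeMonoid.toList w).get (i.cast h.symm), Finset.mem_univ _, ?_⟩
    apply FreeMonoid.toList.injective
    rw [FreeMonoid.toList_ofList]
    subst h
    simp

theorem nrm_eq (q : ℝ) (f : Alg) (t : ℕ) :
    nrm q f t = ∑ w ∈ words t, (f.coeff w) ^ 2 / mu q w := by
  classical
  unfold nrm
  apply Finset.sum_subset
  · intro w hw
    rw [Finset.mem_filter] at hw
    exact (mem_words t w).mpr hw.2
  · intro w hw hw'
    have : f.coeff w = 0 := by
      by_contra hne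
      apply hw'
      rw [Finset.mem_filter]
      exact ⟨Finsupp.mem_support_iff.mpr hne, (mem_words t w).mp hw⟩
    rw [this]; simp

theorem words_zero_sum (F : Wd → ℝ) : ∑ w ∈ words 0, F w = F 1 := by
  classical
  have : words 0 = {1} := by
    ext w
    rw [mem_words, Finset.mem_singleton, List.length_eq_zero_iff]
    constructor
    · intro h
      apply FreeMonoid.toList.injective
      rw [h]; rfl
    · intro h
      rw [h]; rfl
  rw [this, Finset.sum_singleton]

theorem of_cancel {w w' : Wd} {b x : Bool} :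
    w' * FreeMonoid.of b = w * FreeMonoid.of x ↔ w' = w ∧ b = x := by
  constructor
  · intro h
    have h1 : FreeMonoid.toList w' ++ [b] = FreeMonoid.toList w ++ [x] := by
      have := congrArg FreeMonoid.toList h
      simpa [FreeMonoid.toList_mul, FreeMonoid.toList_of] using this
    have h2 := List.append_inj' h1 rfl
    refine ⟨FreeMonoid.toList.injective h2.1, ?_⟩
    simpa using h2.2
  · rintro ⟨rfl, rfl⟩; rfl

theorem words_succ_sum (t : ℕ) (F : Wd → ℝ) :
    ∑ w ∈ words (t + 1), F w
      = ∑ w ∈ words t, (F (w * FreeMonoid.of true) + F (w * FreeMonoid.of false)) := by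
  classical
  have h : words (t + 1) = (words t).image (fun w => w * FreeMonoid.of true)
      ∪ (words t).image (fun w => w * FreeMonoid.of false) := by
    ext w
    rw [mem_words, Finset.mem_union, Finset.mem_image, Finset.mem_image]
    constructor
    · intro hw
      have hne : FreeMonoid.toList w ≠ [] := by
        intro h0; rw [h0] at hw; simp at hw
      have hdl := List.dropLast_append_getLast hne
      set u : Wd := FreeMonoid.ofList (FreeMonoid.toList w).dropLast with hu
      have hul : u ∈ words t := by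
        rw [mem_words, hu, FreeMonoid.toList_ofList, List.length_dropLast, hw]
        rfl
      have hwu : u * FreeMonoid.of ((FreeMonoid.toList w).getLast hne) = w := by
        apply FreeMonoid.toList.injective
        rw [FreeMonoid.toList_mul, hu, FreeMonoid.toList_ofList, FreeMonoid.toList_of]
        exact hdl
      cases hb : (FreeMonoid.toList w).getLast hne with
      | true => left; exact ⟨u, hul, by rw [← hb]; exact hwu⟩
      | false => right; exact ⟨u, hul, by rw [← hb]; exact hwu⟩
    · rintro (⟨u, hu, rfl⟩ | ⟨u, hu, rfl⟩)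
      · rw [mem_words] at hu
        simp [FreeMonoid.toList_mul, FreeMonoid.toList_of, hu]
      · rw [mem_words] at hu
        simp [FreeMonoid.toList_mul, FreeMonoid.toList_of, hu]
  rw [h, Finset.sum_union, Finset.sum_image, Finset.sum_image, Finset.sum_add_distrib]
  · intro a _ b _ hab
    exact (of_cancel.mp hab).1
  · intro a _ b _ hab
    exact (of_cancel.mp hab).1
  · rw [Finset.disjoint_left]
    intro w hw hw'
    rw [Finset.mem_image] at hw hw'
    obtain ⟨u, _, rfl⟩ := hw
    obtain ⟨u', _, hu'⟩ := hw'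
    have := (of_cancel.mp hu').2
    exact absurd this (by decide)

theorem coeff_mul_single_of (f : Alg) (w : Wd) (b x : Bool) (r : ℝ) :
    (f * MonoidAlgebra.single (FreeMonoid.of b) r).coeff (w * FreeMonoid.of x)
      = if b = x then f.coeff w * r else 0 := by
  split_ifs with h
  · subst h
    exact MonoidAlgebra.coeff_mul_single_eq_coeff_mul w
      (fun m' _ => ⟨fun hm => (of_cancel.mp hm).1, fun hm => by rw [hm]⟩)
  · exact MonoidAlgebra.coeff_mul_single_of_forall_mul_ne r f
      (fun d hd => h (of_cancel.mp hd).2)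

theorem coeff_mul_single_one' (f : Alg) (b : Bool) (r : ℝ) :
    (f * MonoidAlgebra.single (FreeMonoid.of b) r).coeff 1 = 0 := by
  apply MonoidAlgebra.coeff_mul_single_of_forall_mul_ne
  intro d hd
  have := congrArg FreeMonoid.toList hd
  simp [FreeMonoid.toList_mul, FreeMonoid.toList_of] at this

theorem mu_mul_of (q : ℝ) (w : Wd) (b : Bool) :
    mu q (w * FreeMonoid.of b) = mu q w * (if b then q / (1 + q) else 1 / (1 + q)) := by
  unfold mu
  rw [FreeMonoid.toList_mul, List.map_append, List.prod_append, FreeMonoid.toList_of]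
  simp

theorem mu_pos {q : ℝ} (hq : 0 < q) (w : Wd) : 0 < mu q w := by
  unfold mu
  apply List.prod_pos
  intro a ha
  rw [List.mem_map] at ha
  obtain ⟨b, _, rfl⟩ := ha
  split_ifs <;> positivity

theorem coeff_mul_ab (q : ℝ) (f : Alg) (w : Wd) (x : Bool) :
    (f * ab q).coeff (w * FreeMonoid.of x)
      = f.coeff w * (if x then q / (1 + q) else 1 / (1 + q)) := by
  unfold ab
  rw [mul_add, MonoidAlgebra.coeff_add, Finsupp.add_apply, mul_smul_comm, mul_smul_comm,
    MonoidAlgebra.coeff_smul, MonoidAlgebra.coeff_smul, Finsupp.smul_apply, Finsupp.smul_apply,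
    coeff_mul_single_of, coeff_mul_single_of]
  cases x <;> simp [mul_comm]

theorem coeff_mul_xi (q : ℝ) (hq : 0 < q) (f : Alg) (w : Wd) (x : Bool) :
    (f * xi q).coeff (w * FreeMonoid.of x)
      = f.coeff w * (if x then 1 / (1 + q) else -(1 / (1 + q))) := by
  unfold xi
  rw [mul_sub, MonoidAlgebra.coeff_sub, Finsupp.sub_apply, coeff_mul_single_of, coeff_mul_ab]
  cases x
  · simp
  · simp only [if_true]
    field_simp
    ring

theorem coeff_mul_ab_one (q : ℝ) (f : Alg) : (f * ab q).coeff 1 = 0 := by
  unfold ab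
  rw [mul_add, MonoidAlgebra.coeff_add, Finsupp.add_apply, mul_smul_comm, mul_smul_comm,
    MonoidAlgebra.coeff_smul, MonoidAlgebra.coeff_smul, Finsupp.smul_apply, Finsupp.smul_apply,
    coeff_mul_single_one', coeff_mul_single_one']
  simp

theorem coeff_mul_xi_one (q : ℝ) (f : Alg) : (f * xi q).coeff 1 = 0 := by
  unfold xi
  rw [mul_sub, MonoidAlgebra.coeff_sub, Finsupp.sub_apply, coeff_mul_single_one',
    coeff_mul_ab_one]
  simp

/-- the basic orthogonality identity -/
theorem nrm_step (q : ℝ) (hq : 0 < q) (g P : Alg) (t : ℕ) :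
    nrm q (P * xi q + g * ab q) (t + 1) = nrm q g t + (1 / q) * nrm q P t := by
  rw [nrm_eq, nrm_eq, nrm_eq, words_succ_sum, Finset.mul_sum, ← Finset.sum_add_distrib]
  apply Finset.sum_congr rfl
  intro w _
  have hm := mu_pos hq w
  rw [MonoidAlgebra.coeff_add, Finsupp.add_apply, Finsupp.add_apply, coeff_mul_ab, coeff_mul_ab,
    coeff_mul_xi q hq, coeff_mul_xi q hq, mu_mul_of, mu_mul_of]
  simp only [if_true, Bool.false_eq_true, if_false]
  have h1 : (1 + q) ≠ 0 := by positivity
  field_simp
  ring

theorem nrm_step_zero (q : ℝ) (g P : Alg) : nrm q (P * xi q + g * ab q) 0 = 0 := by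
  rw [nrm_eq, words_zero_sum, MonoidAlgebra.coeff_add, Finsupp.add_apply, coeff_mul_ab_one,
    coeff_mul_xi_one]
  simp

theorem nrm_zero (q : ℝ) (t : ℕ) : nrm q 0 t = 0 := by
  rw [nrm_eq]; simp

theorem ortho_eq (q : ℝ) (hq : 0 < q) (n : ℕ) (F : ℕ → Alg) (S : ℕ) :
    ∀ (c : ℕ → ℕ → ℝ) (t : ℕ),
      nrm q (∑ l ∈ Finset.range n, F l * xi q * (∑ y ∈ Finset.range S, c l y • ab q ^ y)) t
        = (1 / q) * ∑ j ∈ Finset.range t, (if t - 1 - j < S then
            nrm q (∑ l ∈ Finset.range n, c l (t - 1 - j) • F l) j else 0) := by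
  induction S with
  | zero => intro c t; simp [nrm_zero]
  | succ S ih =>
    intro c t
    have e : (∑ l ∈ Finset.range n, F l * xi q * (∑ y ∈ Finset.range (S + 1), c l y • ab q ^ y))
        = (∑ l ∈ Finset.range n, c l 0 • F l) * xi q
          + (∑ l ∈ Finset.range n, F l * xi q *
              (∑ y ∈ Finset.range S, (fun l y => c l (y + 1)) l y • ab q ^ y)) * ab q := by
      rw [Finset.sum_mul, Finset.sum_mul, ← Finset.sum_add_distrib]
      apply Finset.sum_congr rfl
      intro l _
      rw [Finset.sum_range_succ', mul_add, add_comm]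
      congr 1
      · simp
      · rw [mul_assoc, mul_assoc, mul_assoc, Finset.sum_mul]
        congr 2
        apply Finset.sum_congr rfl
        intro y _
        rw [smul_mul_assoc, pow_succ]
    rw [e]
    cases t with
    | zero => rw [nrm_step_zero]; simp
    | succ t =>
      rw [nrm_step q hq, ih, Finset.sum_range_succ]
      have e0 : t + 1 - 1 - t = 0 := by omega
      rw [e0, if_pos (Nat.succ_pos S), mul_add]
      congr 2
      apply Finset.sum_congr rfl
      intro j hj
      have hj' := Finset.mem_range.mp hj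
      have e1 : t + 1 - 1 - j = (t - 1 - j) + 1 := by omega
      rw [e1]
      by_cases h : t - 1 - j < S
      · rw [if_pos h, if_pos (by omega)]
      · rw [if_neg h, if_neg (by omega)]

theorem nrm_cs (q : ℝ) (hq : 0 < q) (n : ℕ) (F : ℕ → Alg) (c : ℕ → ℝ) (hc : ∀ l, 0 ≤ c l)
    (t : ℕ) : nrm q (∑ l ∈ Finset.range n, c l • F l) t
      ≤ (∑ l ∈ Finset.range n, c l) * ∑ l ∈ Finset.range n, c l * nrm q (F l) t := by
  simp_rw [nrm_eq]
  rw [Finset.mul_sum]
  have e : ∑ i ∈ Finset.range n, (∑ l ∈ Finset.range n, c l) *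
      (c i * ∑ w ∈ words t, (F i).coeff w ^ 2 / mu q w)
      = ∑ w ∈ words t, (∑ l ∈ Finset.range n, c l) *
        (∑ i ∈ Finset.range n, c i * (F i).coeff w ^ 2) / mu q w := by
    simp_rw [Finset.mul_sum, Finset.sum_div]
    rw [Finset.sum_comm]
    apply Finset.sum_congr rfl
    intro w _
    apply Finset.sum_congr rfl
    intro i _
    ring
  rw [e]
  apply Finset.sum_le_sum
  intro w _
  have hm := mu_pos hq w
  apply div_le_div_of_nonneg_right _ hm.le
  have e2 : (∑ l ∈ Finset.range n, c l • F l).coeff w
      = ∑ l ∈ Finset.range n, c l * (F l).coeff w := by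
    rw [MonoidAlgebra.coeff_sum, Finsupp.finsetSum_apply]
    apply Finset.sum_congr rfl
    intro l _
    rw [MonoidAlgebra.coeff_smul, Finsupp.smul_apply, smul_eq_mul]
  rw [e2]
  exact Finset.sum_sq_le_sum_mul_sum_of_sq_eq_mul _ (fun l _ => hc l)
    (fun l _ => mul_nonneg (hc l) (sq_nonneg _)) (fun l _ => by ring)

theorem stOrtho : StOrtho := by
  intro q hq _ n F c S hc t
  rw [ortho_eq q hq n F S c t]
  apply mul_le_mul_of_nonneg_left _ (by positivity)
  apply Finset.sum_le_sum
  intro j _
  split_ifs with h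
  · exact nrm_cs q hq n F (fun l => c l (t - 1 - j)) (fun l => hc l _) j
  · exact le_refl _

end Vale.P321S
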