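import Vale.Agent.P321S.BasicL1

/-! # P321: the sea of cells mixes at about `m` cells (module OVERLAP_C) -/

namespace Vale.P321S

open scoped BigOperators

/-! ### common lower bounds -/

theorem ovc_exists_min {f g : Alg} (hf : Pr f) (hg : Pr g) :
    ∃ c : Alg, Nn c ∧ Le c f ∧ Le c g ∧ mass c = 1 - l1 (f - g) / 2 := by
  classical
  let S : Finset Wd := f.coeff.support ∪ g.coeff.support
  let c : Alg := ∑ w ∈ S, MonoidAlgebra.single w (min (f.coeff w) (g.coeff w))
  have hc : ∀ w, c.coeff w = min (f.coeff w) (g.coeff w) := by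
    intro w
    have h1 : c.coeff w = ∑ v ∈ S, (if v = w then min (f.coeff v) (g.coeff v) else 0) := by
      simp only [c, MonoidAlgebra.coeff_sum, Finsupp.finsetSum_apply, MonoidAlgebra.coeff_single,
        Finsupp.single_apply]
    rw [h1, Finset.sum_ite_eq' S w]
    split_ifs with hw
    · rfl
    · have hw1 : w ∉ f.coeff.support := fun h => hw (Finset.mem_union_left _ h)
      have hw2 : w ∉ g.coeff.support := fun h => hw (Finset.mem_union_right _ h)
      rw [Finsupp.notMem_support_iff.mp hw1, Finsupp.notMem_support_iff.mp hw2, min_self]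
  refine ⟨c, ?_, ?_, ?_, ?_⟩
  · intro w
    rw [hc]
    exact le_min (hf.1 w) (hg.1 w)
  · intro w
    rw [hc]
    exact min_le_left _ _
  · intro w
    rw [hc]
    exact min_le_right _ _
  · have hmin : c = (1 / 2 : ℝ) • (f + g) - (1 / 2 : ℝ) • ∑ w ∈ S,
        MonoidAlgebra.single w |(f - g).coeff w| := by
      ext w
      have h2 : (∑ w ∈ S, (MonoidAlgebra.single w |(f - g).coeff w| : Alg)).coeff w
          = |(f - g).coeff w| := by
        have h1 : (∑ w ∈ S, (MonoidAlgebra.single w |(f - g).coeff w| : Alg)).coeff w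
            = ∑ v ∈ S, (if v = w then |(f - g).coeff v| else 0) := by
          simp only [MonoidAlgebra.coeff_sum, Finsupp.finsetSum_apply,
            MonoidAlgebra.coeff_single, Finsupp.single_apply]
        rw [h1, Finset.sum_ite_eq' S w]
        split_ifs with hw
        · rfl
        · have hw1 : w ∉ f.coeff.support := fun h => hw (Finset.mem_union_left _ h)
          have hw2 : w ∉ g.coeff.support := fun h => hw (Finset.mem_union_right _ h)
          rw [MonoidAlgebra.coeff_sub, Finsupp.sub_apply, Finsupp.notMem_support_iff.mp hw1,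
            Finsupp.notMem_support_iff.mp hw2]
          simp
      rw [MonoidAlgebra.coeff_sub, Finsupp.sub_apply, MonoidAlgebra.coeff_smul,
        MonoidAlgebra.coeff_smul, Finsupp.smul_apply, Finsupp.smul_apply, h2, hc,
        MonoidAlgebra.coeff_add, MonoidAlgebra.coeff_sub, Finsupp.add_apply, Finsupp.sub_apply,
        smul_eq_mul, smul_eq_mul]
      rcases le_total (f.coeff w) (g.coeff w) with h | h
      · rw [min_eq_left h, abs_of_nonpos (by linarith)]; ring
      · rw [min_eq_right h, abs_of_nonneg (by linarith)]; ring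
    have hsub : (f - g).coeff.support ⊆ S := by
      rw [MonoidAlgebra.coeff_sub]
      exact Finsupp.support_sub
    rw [hmin, mass_sub, mass_smul, mass_smul, mass_add, hf.2, hg.2, mass_sum,
      l1_eq_of_subset _ hsub]
    simp_rw [mass_single]
    ring

theorem ovc_l1_le {f g c : Alg} {s : ℝ} (hf : Pr f) (hg : Pr g) (h1 : Le c f)
    (h2 : Le c g) (hs : s ≤ mass c) : l1 (f - g) ≤ 2 * (1 - s) := by
  have e : f - g = (f - c) - (g - c) := by abel
  rw [e]
  calc l1 ((f - c) - (g - c)) ≤ l1 (f - c) + l1 (g - c) := l1_sub _ _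
    _ = (1 - mass c) + (1 - mass c) := by
        rw [l1_of_Nn (Le_iff_Nn.mp h1), l1_of_Nn (Le_iff_Nn.mp h2), mass_sub, mass_sub, hf.2, hg.2]
    _ ≤ 2 * (1 - s) := by linarith

/-! ### the letters -/

theorem ovc_Pr_uu {q : ℝ} (h0 : 0 < q) (h1 : q < 1) : Pr (uu q) := by
  refine ⟨?_, ?_⟩
  · unfold uu
    refine Nn_add (Nn_add ?_ ?_) ?_
    · exact Nn_smul (sq_nonneg q) Nn_one
    · exact Nn_smul (mul_nonneg h0.le (by linarith)) (Nn_single zero_le_one)
    · exact Nn_smul (by linarith) (Nn_single zero_le_one)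
  · unfold uu
    rw [mass_add, mass_add, mass_smul, mass_smul, mass_smul, mass_one, mass_single, mass_single]
    ring

theorem ovc_Pr_aa {q : ℝ} (h0 : 0 < q) (h1 : q < 1) : Pr (aa q) := by
  refine ⟨?_, ?_⟩
  · unfold aa
    refine Nn_add ?_ ?_
    · exact Nn_smul h0.le Nn_one
    · exact Nn_smul (by linarith) (Nn_single zero_le_one)
  · unfold aa
    rw [mass_add, mass_smul, mass_smul, mass_one, mass_single]
    ring

theorem ovc_Pr_ab {q : ℝ} (h0 : 0 < q) : Pr (ab q) := by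
  have h2 : 0 < 1 + q := by linarith
  refine ⟨?_, ?_⟩
  · unfold ab
    refine Nn_add ?_ ?_
    · exact Nn_smul (by positivity) (Nn_single zero_le_one)
    · exact Nn_smul (by positivity) (Nn_single zero_le_one)
  · unfold ab
    rw [mass_add, mass_smul, mass_smul, mass_single, mass_single]
    field_simp
    ring

theorem ovc_Pr_aab {q : ℝ} (h0 : 0 < q) (h1 : q < 1) : Pr (aab q) := by
  refine ⟨?_, ?_⟩
  · unfold aab
    refine Nn_add ?_ ?_
    · exact Nn_smul h0.le Nn_one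
    · exact Nn_smul (by linarith) (ovc_Pr_ab h0).1
  · unfold aab
    rw [mass_add, mass_smul, mass_smul, mass_one, (ovc_Pr_ab h0).2]
    ring

theorem ovc_uu_eq {q : ℝ} (h0 : 0 < q) :
    uu q = (q ^ 2) • (1 : Alg) + (1 - q ^ 2) • ab q := by
  have h2 : (1 + q) ≠ 0 := by linarith
  unfold uu ab
  rw [smul_add, smul_smul, smul_smul, add_assoc]
  congr 2
  · congr 1
    field_simp
    ring
  · congr 1
    field_simp
    ring

theorem ovc_comm {q : ℝ} (h0 : 0 < q) : Commute (uu q) (aab q) := by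
  rw [ovc_uu_eq h0]
  unfold aab
  have h1 : Commute (1 : Alg) (1 : Alg) := Commute.refl _
  have h2 : Commute (1 : Alg) (ab q) := Commute.one_left _
  have h3 : Commute (ab q) (1 : Alg) := Commute.one_right _
  have h4 : Commute (ab q) (ab q) := Commute.refl _
  refine Commute.add_left (Commute.add_right ?_ ?_) (Commute.add_right ?_ ?_)
  · exact (h1.smul_left _).smul_right _
  · exact (h2.smul_left _).smul_right _
  · exact (h3.smul_left _).smul_right _
  · exact (h4.smul_left _).smul_right _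

theorem ovc_aa_ge {q : ℝ} (h1 : q < 1) : Le (q • (1 : Alg)) (aa q) := by
  rw [Le_iff_Nn]
  have e : aa q - q • (1 : Alg) = (1 - q) • MonoidAlgebra.single (FreeMonoid.of true) 1 := by
    unfold aa; abel
  rw [e]
  exact Nn_smul (by linarith) (Nn_single zero_le_one)

theorem ovc_uu_ge {q : ℝ} (h0 : 0 < q) (h1 : q < 1) : Le ((q ^ 2) • (1 : Alg)) (uu q) := by
  rw [Le_iff_Nn]
  have e : uu q - (q ^ 2) • (1 : Alg) = (q * (1 - q)) • MonoidAlgebra.single (FreeMonoid.of true) 1
    + (1 - q) • MonoidAlgebra.single (FreeMonoid.of false) 1 := by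
    unfold uu; abel
  rw [e]
  exact Nn_add (Nn_smul (mul_nonneg h0.le (by linarith)) (Nn_single zero_le_one))
    (Nn_smul (by linarith) (Nn_single zero_le_one))

theorem ovc_mix_uu {q : ℝ} (h0 : 0 < q) (h1 : q < 1) :
    l1 (uu q ^ 1 - uu q ^ (1 + 1)) ≤ 2 * (1 - q ^ 2) := by
  have hP := ovc_Pr_uu h0 h1
  refine ovc_l1_le (c := (q ^ 2) • uu q) (Pr_pow hP 1) (Pr_pow hP 2) ?_ ?_ ?_
  · intro w
    rw [pow_one, MonoidAlgebra.coeff_smul, Finsupp.smul_apply, smul_eq_mul]
    have h3 := hP.1 w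
    have h4 : q ^ 2 ≤ 1 := by nlinarith
    have h5 := mul_le_mul_of_nonneg_right h4 h3
    linarith
  · have h := Le_mul (f := (q ^ 2) • (1 : Alg)) (f' := uu q) (g := uu q) (g' := uu q)
      (Nn_smul (sq_nonneg q) Nn_one) hP.1 (ovc_uu_ge h0 h1) (Le_refl _)
    rw [smul_mul_assoc, one_mul] at h
    rw [show uu q ^ (1 + 1) = uu q * uu q by rw [pow_succ, pow_one]]
    exact h
  · rw [mass_smul, hP.2, mul_one]

/-! ### stretches -/

theorem ovc_stretch (u x : Alg) (m b : ℕ) : ∀ r a : ℕ,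
    u ^ a * (u ^ m * x * u ^ m) ^ (r + 1) * u ^ b =
      u ^ (a + m) * ((List.replicate r (2 * m) ++ [m + b]).map (fun n => x * u ^ n)).prod := by
  intro r
  induction r with
  | zero =>
    intro a
    simp only [zero_add, pow_one, List.replicate_zero, List.nil_append, List.map_cons,
      List.map_nil, List.prod_cons, List.prod_nil, mul_one, pow_add, mul_assoc]
  | succ r ih =>
    intro a
    have h := ih m
    rw [List.replicate_succ, List.cons_append, List.map_cons, List.prod_cons, pow_succ']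
    calc u ^ a * ((u ^ m * x * u ^ m) * (u ^ m * x * u ^ m) ^ (r + 1)) * u ^ b
        = u ^ a * u ^ m * x * (u ^ m * (u ^ m * x * u ^ m) ^ (r + 1) * u ^ b) := by
          simp only [mul_assoc]
      _ = u ^ a * u ^ m * x * (u ^ (m + m) *
          ((List.replicate r (2 * m) ++ [m + b]).map (fun n => x * u ^ n)).prod) := by rw [h]
      _ = _ := by
          rw [← two_mul, ← pow_add]
          simp only [mul_assoc]

theorem ovc_bar {u x : Alg} (h : Commute u x) (m r a b : ℕ) :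
    u ^ a * (u ^ m * x * u ^ m) ^ r * u ^ b = u ^ (a + b + 2 * m * r) * x ^ r := by
  have e : u ^ m * x * u ^ m = u ^ (2 * m) * x := by
    have h1 : Commute x (u ^ m) := (h.symm).pow_right m
    rw [mul_assoc, h1.eq, ← mul_assoc, ← pow_add, two_mul]
  have h2 : Commute (u ^ (2 * m)) x := h.pow_left _
  rw [e, h2.mul_pow, ← pow_mul]
  have h3 : Commute (x ^ r) (u ^ b) := (h.symm).pow_pow r b
  rw [mul_assoc, mul_assoc, h3.eq, ← mul_assoc, ← mul_assoc, ← pow_add, ← pow_add]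
  congr 2
  ring

theorem ovc_feat_Pr {q : ℝ} (h0 : 0 < q) (h1 : q < 1) {x : Alg} (hx : Pr x) (m r a b : ℕ) :
    Pr (uu q ^ a * (uu q ^ m * x * uu q ^ m) ^ r * uu q ^ b) := by
  have hu := ovc_Pr_uu h0 h1
  exact Pr_mul (Pr_mul (Pr_pow hu a) (Pr_pow (Pr_mul (Pr_mul (Pr_pow hu m) hx) (Pr_pow hu m)) r))
    (Pr_pow hu b)

/-- one stretch against a slightly longer one with the same number of features -/
theorem ovc_compare {q : ℝ} (h0 : 0 < q) (h1 : q < 1) {m r a b d : ℕ} {C η : ℝ}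
    (hiid : ∀ (n₀ : ℕ) (ns : List ℕ), m ≤ n₀ → n₀ ≤ 12 * m → (∀ n ∈ ns, m ≤ n ∧ n ≤ 12 * m) →
      ns.length ≤ r + 1 → l1 (feat q n₀ ns - featbar q n₀ ns) ≤ 1 / 8)
    (ha : a ≤ 2 * m) (hb : b ≤ 2 * m) (hab : a + b = 2 * m + d)
    (hmix : Mix (uu q) 1 C) (hm : 1 ≤ m)
    (hη : (d : ℝ) * (C * Real.sqrt (1 / ((2 * m + 2 * m * (r + 1) : ℕ) : ℝ))) ≤ η) :
    l1 (uu q ^ (2 * m) * (uu q ^ m * aa q * uu q ^ m) ^ (r + 1) * uu q ^ 0 -
      uu q ^ a * (uu q ^ m * aa q * uu q ^ m) ^ (r + 1) * uu q ^ b) ≤ 1 / 4 + η := by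
  have hu := ovc_Pr_uu h0 h1
  have hkey : ∀ a b : ℕ, a ≤ 2 * m → b ≤ 2 * m →
      l1 (uu q ^ a * (uu q ^ m * aa q * uu q ^ m) ^ (r + 1) * uu q ^ b -
        uu q ^ (a + b + 2 * m * (r + 1)) * aab q ^ (r + 1)) ≤ 1 / 8 := by
    intro a b ha hb
    rw [← ovc_bar (ovc_comm h0) m (r + 1) a b, ovc_stretch, ovc_stretch]
    refine hiid (a + m) (List.replicate r (2 * m) ++ [m + b]) (by omega) (by omega) ?_ ?_
    · intro n hn
      rw [List.mem_append] at hn
      rcases hn with hn | hn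
      · rw [List.mem_replicate] at hn
        obtain ⟨_, rfl⟩ := hn
        omega
      · rw [List.mem_singleton] at hn
        subst hn
        omega
    · simp
  have k1 := hkey (2 * m) 0 (le_refl _) (Nat.zero_le _)
  have k2 := hkey a b ha hb
  have k3 : l1 (uu q ^ (2 * m + 0 + 2 * m * (r + 1)) * aab q ^ (r + 1) -
      uu q ^ (a + b + 2 * m * (r + 1)) * aab q ^ (r + 1)) ≤ η := by
    rw [← sub_mul, hab, add_zero]
    refine (l1_mul_pr (Pr_pow (ovc_Pr_aab h0 h1) _)).trans ?_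
    rw [show 2 * m + d + 2 * m * (r + 1) = 2 * m + 2 * m * (r + 1) + d by ring]
    refine (l1_mix_steps hu _ _).trans (le_trans ?_ hη)
    refine mul_le_mul_of_nonneg_left ?_ (Nat.cast_nonneg _)
    have := hmix (2 * m + 2 * m * (r + 1)) (by omega)
    simpa using this
  have e : uu q ^ (2 * m) * (uu q ^ m * aa q * uu q ^ m) ^ (r + 1) * uu q ^ 0 -
      uu q ^ a * (uu q ^ m * aa q * uu q ^ m) ^ (r + 1) * uu q ^ b =
      (uu q ^ (2 * m) * (uu q ^ m * aa q * uu q ^ m) ^ (r + 1) * uu q ^ 0 -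
        uu q ^ (2 * m + 0 + 2 * m * (r + 1)) * aab q ^ (r + 1)) +
      (uu q ^ (2 * m + 0 + 2 * m * (r + 1)) * aab q ^ (r + 1) -
      uu q ^ (a + b + 2 * m * (r + 1)) * aab q ^ (r + 1)) -
      (uu q ^ a * (uu q ^ m * aa q * uu q ^ m) ^ (r + 1) * uu q ^ b -
        uu q ^ (a + b + 2 * m * (r + 1)) * aab q ^ (r + 1)) := by abel
  rw [e]
  refine (l1_sub _ _).trans ?_
  have := (l1_add (uu q ^ (2 * m) * (uu q ^ m * aa q * uu q ^ m) ^ (r + 1) * uu q ^ 0 -
        uu q ^ (2 * m + 0 + 2 * m * (r + 1)) * aab q ^ (r + 1))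
      (uu q ^ (2 * m + 0 + 2 * m * (r + 1)) * aab q ^ (r + 1) -
      uu q ^ (a + b + 2 * m * (r + 1)) * aab q ^ (r + 1)))
  linarith

/-- the chain of stretches -/
theorem ovc_chain {u V : Alg} (hu : Pr u) (hV : Pr V) {m S : ℕ} (b : ℕ → ℕ) (hb0 : b 0 = 0)
    (hb : ∀ j, j ≤ S → b j ≤ 2 * m)
    (hc : ∀ j, j < S → l1 (u ^ (2 * m) * V * u ^ 0 - u ^ (2 * m - b j) * V * u ^ (b (j + 1))) ≤ 1) :
    ∀ j, j ≤ S → ∃ c : Alg, Nn c ∧ Le c ((u ^ (2 * m) * V) ^ j) ∧
      Le c ((u ^ (2 * m) * V) ^ j * u ^ (b j)) ∧ (1 / 2 : ℝ) ^ j ≤ mass c := by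
  intro j
  induction j with
  | zero =>
    intro _
    refine ⟨1, Nn_one, ?_, ?_, ?_⟩
    · rw [pow_zero]; exact Le_refl _
    · rw [pow_zero, hb0, pow_zero, mul_one]; exact Le_refl _
    · rw [mass_one, pow_zero]
  | succ j ih =>
    intro hj
    obtain ⟨c, hc0, hc1, hc2, hc3⟩ := ih (by omega)
    have hPA : Pr (u ^ (2 * m) * V * u ^ 0) :=
      Pr_mul (Pr_mul (Pr_pow hu _) hV) (Pr_pow hu _)
    have hPB : Pr (u ^ (2 * m - b j) * V * u ^ (b (j + 1))) :=
      Pr_mul (Pr_mul (Pr_pow hu _) hV) (Pr_pow hu _)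
    obtain ⟨d, hd0, hd1, hd2, hd3⟩ := ovc_exists_min hPA hPB
    have hl := hc j (by omega)
    refine ⟨c * d, Nn_mul hc0 hd0, ?_, ?_, ?_⟩
    · rw [pow_succ]
      rw [pow_zero, mul_one] at hd1
      exact Le_mul hc0 hd0 hc1 hd1
    · have h := Le_mul hc0 hd0 hc2 hd2
      have e : (u ^ (2 * m) * V) ^ j * u ^ b j * (u ^ (2 * m - b j) * V * u ^ b (j + 1)) =
          (u ^ (2 * m) * V) ^ (j + 1) * u ^ b (j + 1) := by
        have e1 : u ^ b j * u ^ (2 * m - b j) = u ^ (2 * m) := by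
          rw [← pow_add]
          congr 1
          have := hb j (by omega)
          omega
        calc (u ^ (2 * m) * V) ^ j * u ^ b j * (u ^ (2 * m - b j) * V * u ^ b (j + 1))
            = (u ^ (2 * m) * V) ^ j * (u ^ b j * u ^ (2 * m - b j)) * V * u ^ b (j + 1) := by
              simp only [mul_assoc]
          _ = _ := by rw [e1, pow_succ]; simp only [mul_assoc]
      rw [e] at h
      exact h
    · rw [mass_mul, hd3, pow_succ]
      refine mul_le_mul hc3 (by linarith) (by norm_num) ?_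
      exact mass_nonneg hc0

theorem ovc_cell_ge {q : ℝ} (h0 : 0 < q) (h1 : q < 1) (m : ℕ) :
    Le (q • uu q ^ (2 * m)) (uu q ^ m * aa q * uu q ^ m) := by
  have hu := ovc_Pr_uu h0 h1
  have h := Le_mul (f := uu q ^ m * (q • (1 : Alg))) (f' := uu q ^ m) (g := uu q ^ m * aa q)
    (g' := uu q ^ m) (Nn_mul (Nn_pow hu.1 _) (Nn_smul h0.le Nn_one)) (Nn_pow hu.1 _)
    (Le_mul (Nn_pow hu.1 _) (Nn_smul h0.le Nn_one) (Le_refl _) (ovc_aa_ge h1)) (Le_refl _)
  rw [mul_smul_comm, mul_one, smul_mul_assoc, ← pow_add, ← two_mul] at h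
  exact h

theorem ovc_group_ge {q : ℝ} (h0 : 0 < q) (h1 : q < 1) (m f : ℕ) :
    Le (q • (uu q ^ (2 * m) * (uu q ^ m * aa q * uu q ^ m) ^ f))
      ((uu q ^ m * aa q * uu q ^ m) ^ (f + 1)) := by
  have hu := ovc_Pr_uu h0 h1
  have hT : Pr (uu q ^ m * aa q * uu q ^ m) :=
    Pr_mul (Pr_mul (Pr_pow hu m) (ovc_Pr_aa h0 h1)) (Pr_pow hu m)
  rw [pow_succ', ← smul_mul_assoc]
  exact Le_mul (Nn_smul h0.le (Nn_pow hu.1 _)) (Nn_pow hT.1 _) (ovc_cell_ge h0 h1 m) (Le_refl _)

theorem stOverlap (hIid : StIid) (hOV : StOV) : StOverlap := by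
  intro q h0 h1
  obtain ⟨ε, m₀, hε, hI⟩ := hIid q h0 h1
  have hu := ovc_Pr_uu h0 h1
  obtain ⟨C, hC2, hC⟩ := hOV (q ^ 2) (by positivity) (by nlinarith)
  have hmix : Mix (uu q) 1 C := hC (uu q) 1 hu (le_refl _) (ovc_mix_uu h0 h1)
  -- constants
  obtain ⟨S, hS⟩ := exists_nat_gt (max 1 (8 * C / Real.sqrt ε))
  have hS1 : (1 : ℝ) < S := lt_of_le_of_lt (le_max_left _ _) hS
  have hS2 : 8 * C / Real.sqrt ε < S := lt_of_le_of_lt (le_max_right _ _) hS
  have hSpos : 0 < S := by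
    have : (0 : ℝ) < S := by linarith
    exact_mod_cast this
  have hSε : 0 < Real.sqrt ε := Real.sqrt_pos.mpr hε
  obtain ⟨m₁, hm₁⟩ := exists_nat_gt (max (2 / ε) (4 * C / Real.sqrt ε))
  obtain ⟨E, hE⟩ := exists_nat_gt ε
  refine ⟨q ^ (S + 1) * (1 / 2) ^ S, S * (E + 1), max m₀ (max m₁ 1), by positivity, ?_, ?_, ?_⟩
  · have a1 : q ^ (S + 1) ≤ 1 := pow_le_one₀ h0.le h1.le
    have a2 : (1 / 2 : ℝ) ^ S ≤ 1 := pow_le_one₀ (by norm_num) (by norm_num)
    have a3 : 0 ≤ q ^ (S + 1) := by positivity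
    have a4 : (0 : ℝ) ≤ (1 / 2 : ℝ) ^ S := by positivity
    nlinarith
  · exact Nat.one_le_iff_ne_zero.mpr (by positivity)
  intro m hm
  have hmm₀ : m₀ ≤ m := le_trans (le_max_left _ _) hm
  have hmm₁ : m₁ ≤ m := le_trans (le_trans (le_max_left _ _) (le_max_right _ _)) hm
  have hm1 : 1 ≤ m := le_trans (le_trans (le_max_right _ _) (le_max_right _ _)) hm
  have hmR : (1 : ℝ) ≤ m := by exact_mod_cast hm1
  have hmm₁R : (m₁ : ℝ) ≤ m := by exact_mod_cast hmm₁
  have hmA : 2 / ε < m := lt_of_le_of_lt (le_max_left _ _) (lt_of_lt_of_le hm₁ hmm₁R)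
  have hmB : 4 * C / Real.sqrt ε < m :=
    lt_of_le_of_lt (le_max_right _ _) (lt_of_lt_of_le hm₁ hmm₁R)
  have hεm : 2 < ε * m := by
    rw [div_lt_iff₀ hε] at hmA
    linarith
  -- number of features in a stretch: `f = r + 1`
  obtain ⟨r, hr⟩ : ∃ r : ℕ, ⌊ε * m⌋₊ = r + 1 := by
    have : 1 ≤ ⌊ε * m⌋₊ := by
      rw [Nat.one_le_floor_iff]
      linarith
    exact ⟨⌊ε * m⌋₊ - 1, by omega⟩
  have hf1 : ((r + 1 : ℕ) : ℝ) ≤ ε * m := by
    rw [← hr]
    exact Nat.floor_le (by positivity)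
  have hf2 : ε * m / 2 ≤ ((r + 1 : ℕ) : ℝ) := by
    have := Nat.lt_floor_add_one (ε * m)
    rw [hr] at this
    linarith
  have hiid : ∀ (n₀ : ℕ) (ns : List ℕ), m ≤ n₀ → n₀ ≤ 12 * m →
      (∀ n ∈ ns, m ≤ n ∧ n ≤ 12 * m) →
      ns.length ≤ r + 1 → l1 (feat q n₀ ns - featbar q n₀ ns) ≤ 1 / 8 := by
    intro n₀ ns a1 a2 a3 a4
    refine hI m hmm₀ n₀ ns a1 a2 a3 (le_trans ?_ hf1)
    exact_mod_cast a4
  have haa := ovc_Pr_aa h0 h1
  have hT : Pr (uu q ^ m * aa q * uu q ^ m) :=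
    Pr_mul (Pr_mul (Pr_pow hu m) haa) (Pr_pow hu m)
  have hV : Pr ((uu q ^ m * aa q * uu q ^ m) ^ (r + 1)) := Pr_pow hT _
  -- the cut points
  have hbS : ∀ j, j ≤ S → 2 * m * j / S ≤ 2 * m := by
    intro j hj
    apply Nat.div_le_of_le_mul
    calc 2 * m * j ≤ 2 * m * S := Nat.mul_le_mul_left _ hj
      _ = S * (2 * m) := by ring
  have hchain := ovc_chain hu hV (m := m) (S := S) (fun j => 2 * m * j / S) (by simp) hbS ?_ S
    (le_refl _)
  · obtain ⟨c, hc0, hc1, hc2, hc3⟩ := hchain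
    have hlast : 2 * m * S / S = 2 * m := Nat.mul_div_cancel _ hSpos
    simp only [hlast] at hc2
    have hcell : cellN q m 1 = uu q ^ m * aa q * uu q ^ m := by
      unfold cellN
      rw [show m + (1 : Fin 3).val - 1 = m by simp, show m + 1 - (1 : Fin 3).val = m by simp]
    refine ⟨S * (r + 1 + 1), ?_, ?_, ?_⟩
    · exact Nat.one_le_iff_ne_zero.mpr (by positivity)
    · have hr2 : r + 1 ≤ E * m := by
        have : ((r + 1 : ℕ) : ℝ) ≤ ((E * m : ℕ) : ℝ) := by
          push_cast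
          push_cast at hf1
          refine hf1.trans ?_
          exact mul_le_mul_of_nonneg_right hE.le (by linarith)
        exact_mod_cast this
      calc S * (r + 1 + 1) ≤ S * (E * m + m) := by
            apply Nat.mul_le_mul_left
            omega
        _ = S * (E + 1) * m := by ring
    · rw [hcell]
      have g0 := ovc_group_ge h0 h1 m (r + 1)
      have g1 : Le ((q ^ S) • ((uu q ^ (2 * m) * (uu q ^ m * aa q * uu q ^ m) ^ (r + 1)) ^ S))
          ((uu q ^ m * aa q * uu q ^ m) ^ (S * (r + 1 + 1))) := by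
        rw [mul_comm S, ← smul_pow]
        have hNA : Nn (q • (uu q ^ (2 * m) * (uu q ^ m * aa q * uu q ^ m) ^ (r + 1))) :=
          Nn_smul h0.le (Nn_mul (Nn_pow hu.1 _) hV.1)
        have := Le_pow (f := q • (uu q ^ (2 * m) * (uu q ^ m * aa q * uu q ^ m) ^ (r + 1)))
          (g := (uu q ^ m * aa q * uu q ^ m) ^ (r + 1 + 1)) (a := 1) zero_le_one hNA
          (Nn_pow hT.1 _) (by rw [one_smul]; exact g0) S
        rw [one_pow, one_smul, ← pow_mul] at this
        exact this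
      have g2 : Le ((q ^ (S + 1)) •
            ((uu q ^ (2 * m) * (uu q ^ m * aa q * uu q ^ m) ^ (r + 1)) ^ S * uu q ^ (2 * m)))
          ((uu q ^ m * aa q * uu q ^ m) ^ (S * (r + 1 + 1) + 1)) := by
        rw [pow_succ (uu q ^ m * aa q * uu q ^ m), pow_succ q, ← smul_mul_smul_comm]
        refine Le_mul ?_ ?_ g1 (ovc_cell_ge h0 h1 m)
        · exact Nn_smul (by positivity) (Nn_pow (Nn_mul (Nn_pow hu.1 _) hV.1) _)
        · exact Nn_smul h0.le (Nn_pow hu.1 _)
      refine ovc_l1_le (c := (q ^ (S + 1)) • c) (Pr_pow hT _) (Pr_pow hT _) ?_ ?_ ?_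
      · refine Le_trans ?_ g1
        intro w
        rw [MonoidAlgebra.coeff_smul, MonoidAlgebra.coeff_smul, Finsupp.smul_apply,
          Finsupp.smul_apply, smul_eq_mul, smul_eq_mul]
        have a1 := hc1 w
        have a2 := hc0 w
        have a3 : q ^ (S + 1) ≤ q ^ S := pow_le_pow_of_le_one h0.le h1.le (Nat.le_succ _)
        have a4 : 0 ≤ q ^ S := by positivity
        exact (mul_le_mul_of_nonneg_right a3 a2).trans (mul_le_mul_of_nonneg_left a1 a4)
      · exact Le_trans (Le_smul hc2 (by positivity)) g2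
      · rw [mass_smul]
        exact mul_le_mul_of_nonneg_left hc3 (by positivity)
  · intro j hj
    -- comparison of one stretch
    have hd : 2 * m * j / S ≤ 2 * m * (j + 1) / S := Nat.div_le_div_right (by nlinarith)
    obtain ⟨d, hd'⟩ := Nat.exists_eq_add_of_le hd
    have hdR : (d : ℝ) ≤ 2 * m / S + 1 := by
      have hSR : (0 : ℝ) < S := by exact_mod_cast hSpos
      have b1 : ((2 * m * (j + 1) / S : ℕ) : ℝ) ≤ 2 * m * (j + 1) / S := by
        have := @Nat.cast_div_le ℝ _ _ _ (2 * m * (j + 1)) S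
        push_cast at this
        exact this
      have b2 : (2 * m * j : ℝ) / S < ((2 * m * j / S : ℕ) : ℝ) + 1 := by
        rw [div_lt_iff₀ hSR]
        have := Nat.lt_mul_div_succ (2 * m * j) hSpos
        have h3 : ((2 * m * j : ℕ) : ℝ) < ((S * (2 * m * j / S + 1) : ℕ) : ℝ) := by
          exact_mod_cast this
        push_cast at h3
        linarith
      have b3 : ((2 * m * (j + 1) / S : ℕ) : ℝ) = ((2 * m * j / S : ℕ) : ℝ) + d := by
        exact_mod_cast hd'
      have b4 : (2 * m * (j + 1) : ℝ) / S = 2 * m * j / S + 2 * m / S := by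
        field_simp
      rw [b3] at b1
      rw [b4] at b1
      linarith
    have hcmp := ovc_compare h0 h1 (m := m) (r := r) (a := 2 * m - 2 * m * j / S)
      (b := 2 * m * (j + 1) / S) (d := d) (C := C) (η := 3 / 4) hiid (Nat.sub_le _ _)
      (hbS (j + 1) hj) (by have := hbS j hj.le; omega) hmix hm1 ?_
    · refine hcmp.trans (by norm_num)
    · -- arithmetic
      have hN : ε * m ^ 2 ≤ ((2 * m + 2 * m * (r + 1) : ℕ) : ℝ) := by
        push_cast
        push_cast at hf2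
        nlinarith
      have hpos : 0 < ε * (m : ℝ) ^ 2 := by positivity
      have hsq : Real.sqrt (1 / ((2 * m + 2 * m * (r + 1) : ℕ) : ℝ)) ≤ 1 / (Real.sqrt ε * m) := by
        rw [Real.sqrt_le_left (by positivity)]
        rw [div_pow, mul_pow, Real.sq_sqrt hε.le, one_pow]
        exact one_div_le_one_div_of_le hpos hN
      have hC0 : 0 < C := by linarith
      have hmpos : (0 : ℝ) < m := by linarith
      have hSR : (0 : ℝ) < S := by exact_mod_cast hSpos
      calc (d : ℝ) * (C * Real.sqrt (1 / ((2 * m + 2 * m * (r + 1) : ℕ) : ℝ)))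
          ≤ (2 * m / S + 1) * (C * (1 / (Real.sqrt ε * m))) := by
            refine mul_le_mul hdR (mul_le_mul_of_nonneg_left hsq hC0.le) (by positivity)
              (by positivity)
        _ = 2 * C / (Real.sqrt ε * S) + C / (Real.sqrt ε * m) := by
            field_simp
        _ ≤ 1 / 4 + 1 / 4 := by
            have c1 : 2 * C / (Real.sqrt ε * S) ≤ 1 / 4 := by
              rw [div_lt_iff₀ hSε] at hS2
              rw [div_le_iff₀ (by positivity)]
              linarith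
            have c2 : C / (Real.sqrt ε * m) ≤ 1 / 4 := by
              rw [div_lt_iff₀ hSε] at hmB
              rw [div_le_iff₀ (by positivity)]
              linarith
            linarith
        _ ≤ 3 / 4 := by norm_num

end Vale.P321S
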