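import Vale.Agent.P321S.Defs

/-!
# P321S, module PMF: bounds for the binomial and the count laws
-/

namespace Vale.P321S

open scoped BigOperators
open Finset

namespace Pmf

lemma bin_nonneg {θ : ℝ} (h0 : 0 ≤ θ) (h1 : θ ≤ 1) (N s : ℕ) : 0 ≤ bin N θ s := by
  unfold bin
  have : 0 ≤ 1 - θ := by linarith
  positivity

lemma bin_eq_zero {θ : ℝ} {N s : ℕ} (h : N < s) : bin N θ s = 0 := by
  unfold bin
  rw [Nat.choose_eq_zero_of_lt h]
  simp

lemma bin_zero_zero (θ : ℝ) : bin 0 θ 0 = 1 := by simp [bin]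

lemma bin_succ_zero (θ : ℝ) (N : ℕ) : bin (N + 1) θ 0 = (1 - θ) * bin N θ 0 := by
  simp [bin, pow_succ]
  ring

lemma bin_succ_succ (θ : ℝ) (N s : ℕ) :
    bin (N + 1) θ (s + 1) = (1 - θ) * bin N θ (s + 1) + θ * bin N θ s := by
  unfold bin
  rw [Nat.choose_succ_succ, show N + 1 - (s + 1) = N - s by omega]
  rcases lt_or_ge s N with h | h
  · rw [show N - s = (N - (s + 1)) + 1 by omega]
    push_cast
    ring
  · rw [Nat.choose_eq_zero_of_lt (by omega : N < s + 1)]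
    push_cast
    ring

/-- first size-bias identity -/
lemma bin_sb (θ : ℝ) (N y : ℕ) :
    ((N : ℝ) + 1) * θ * bin N θ y = ((y : ℝ) + 1) * bin (N + 1) θ (y + 1) := by
  unfold bin
  have h : ((N + 1 : ℕ) : ℝ) * (N.choose y : ℝ) = ((N + 1).choose (y + 1) : ℝ) * ((y + 1 : ℕ) : ℝ) := by
    exact_mod_cast Nat.add_one_mul_choose_eq N y
  rw [show N + 1 - (y + 1) = N - y by omega]
  push_cast at h
  calc ((N : ℝ) + 1) * θ * ((N.choose y : ℝ) * θ ^ y * (1 - θ) ^ (N - y))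
      = (((N : ℝ) + 1) * (N.choose y : ℝ)) * (θ ^ (y + 1) * (1 - θ) ^ (N - y)) := by ring
    _ = (((N + 1).choose (y + 1) : ℝ) * ((y : ℝ) + 1)) * (θ ^ (y + 1) * (1 - θ) ^ (N - y)) := by
        rw [h]
    _ = _ := by ring

/-- second size-bias identity -/
lemma bin_sb' (θ : ℝ) (N y : ℕ) :
    ((N : ℝ) + 1) * (1 - θ) * bin N θ y = ((N : ℝ) + 1 - y) * bin (N + 1) θ y := by
  rcases y with _ | y
  · rw [bin_succ_zero]; push_cast; ring
  · have h1 := bin_sb θ N y
    have h2 := bin_succ_succ θ N y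
    push_cast
    have : ((N : ℝ) + 1) * bin (N + 1) θ (y + 1)
        = ((N : ℝ) + 1) * (1 - θ) * bin N θ (y + 1) + ((N : ℝ) + 1) * θ * bin N θ y := by
      rw [h2]; ring
    rw [h1] at this
    linarith

/-- expectation recursion -/
lemma exp_rec (θ : ℝ) (N : ℕ) (f : ℕ → ℝ) :
    ∑ s ∈ range (N + 2), bin (N + 1) θ s * f s
      = (1 - θ) * ∑ s ∈ range (N + 1), bin N θ s * f s
        + θ * ∑ s ∈ range (N + 1), bin N θ s * f (s + 1) := by
  rw [Finset.sum_range_succ' (fun s => bin (N + 1) θ s * f s) (N + 1)]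
  have h1 : ∑ s ∈ range (N + 1), bin (N + 1) θ (s + 1) * f (s + 1)
      = (1 - θ) * ∑ s ∈ range (N + 1), bin N θ (s + 1) * f (s + 1)
        + θ * ∑ s ∈ range (N + 1), bin N θ s * f (s + 1) := by
    rw [Finset.mul_sum, Finset.mul_sum, ← Finset.sum_add_distrib]
    apply Finset.sum_congr rfl
    intro s _
    rw [bin_succ_succ]
    ring
  have h2 : ∑ s ∈ range (N + 1), bin N θ (s + 1) * f (s + 1) + bin N θ 0 * f 0
      = ∑ s ∈ range (N + 1), bin N θ s * f s := by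
    rw [← Finset.sum_range_succ' (fun s => bin N θ s * f s) (N + 1), Finset.sum_range_succ,
      bin_eq_zero (by omega : N < N + 1)]
    simp
  rw [h1, bin_succ_zero, ← h2]
  ring

lemma sum_bin (θ : ℝ) (N : ℕ) : ∑ s ∈ range (N + 1), bin N θ s = 1 := by
  induction N with
  | zero => simp [bin]
  | succ N ih =>
    have := exp_rec θ N (fun _ => 1)
    simp only [mul_one] at this
    rw [this, ih]; ring

lemma sum_bin_le {θ : ℝ} (h0 : 0 ≤ θ) (h1 : θ ≤ 1) (N M : ℕ) :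
    ∑ s ∈ range M, bin N θ s ≤ 1 := by
  have h2 : ∑ s ∈ range M, bin N θ s ≤ ∑ s ∈ range (max M (N + 1)), bin N θ s := by
    apply Finset.sum_le_sum_of_subset_of_nonneg
    · intro x hx
      rw [Finset.mem_range] at hx ⊢
      exact lt_of_lt_of_le hx (le_max_left _ _)
    · intro i _ _
      exact bin_nonneg h0 h1 N i
  have h3 : ∑ s ∈ range (max M (N + 1)), bin N θ s = ∑ s ∈ range (N + 1), bin N θ s := by
    symm
    apply Finset.sum_subset
    · intro x hx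
      rw [Finset.mem_range] at hx ⊢
      exact lt_of_lt_of_le hx (le_max_right _ _)
    · intro x _ hx
      rw [Finset.mem_range] at hx
      exact bin_eq_zero (by omega)
  rw [h3, sum_bin] at h2
  exact h2

lemma second (θ : ℝ) (N : ℕ) : ∀ x : ℝ,
    ∑ s ∈ range (N + 1), bin N θ s * ((s : ℝ) - x) ^ 2
      = ((N : ℝ) * θ - x) ^ 2 + N * θ * (1 - θ) := by
  induction N with
  | zero => intro x; simp [bin]
  | succ N ih =>
    intro x
    rw [exp_rec θ N (fun s => ((s : ℝ) - x) ^ 2), ih x]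
    have h : ∑ s ∈ range (N + 1), bin N θ s * (((s + 1 : ℕ) : ℝ) - x) ^ 2
        = ∑ s ∈ range (N + 1), bin N θ s * ((s : ℝ) - (x - 1)) ^ 2 := by
      apply Finset.sum_congr rfl
      intro i _
      push_cast
      ring
    rw [h, ih (x - 1)]
    push_cast
    ring

lemma first_abs {θ : ℝ} (h0 : 0 < θ) (h1 : θ < 1) (N : ℕ) :
    ∑ s ∈ range (N + 2), bin (N + 1) θ s * |((N : ℝ) + 1) * θ - s|
      ≤ Real.sqrt (((N : ℝ) + 1) * (θ * (1 - θ))) := by
  have h1' : 0 < 1 - θ := by linarith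
  set V := ((N : ℝ) + 1) * (θ * (1 - θ)) with hV
  have hV0 : 0 < V := by positivity
  set l := Real.sqrt V with hl
  have hl0 : 0 < l := Real.sqrt_pos.2 hV0
  have hl2 : l ^ 2 = V := Real.sq_sqrt hV0.le
  have hs : ∑ s ∈ range (N + 2), bin (N + 1) θ s * (l + ((s : ℝ) - ((N : ℝ) + 1) * θ) ^ 2 / l)
      = 2 * l := by
    have e : ∀ s ∈ range (N + 2),
        bin (N + 1) θ s * (l + ((s : ℝ) - ((N : ℝ) + 1) * θ) ^ 2 / l)
        = l * bin (N + 1) θ s + (1 / l) * (bin (N + 1) θ s * ((s : ℝ) - ((N : ℝ) + 1) * θ) ^ 2) := by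
      intro s _
      ring
    rw [Finset.sum_congr rfl e, Finset.sum_add_distrib, ← Finset.mul_sum, ← Finset.mul_sum,
      sum_bin θ (N + 1), second θ (N + 1)]
    push_cast
    have : (((N : ℝ) + 1) * θ - ((N : ℝ) + 1) * θ) ^ 2 + ((N : ℝ) + 1) * θ * (1 - θ) = l ^ 2 := by
      rw [hl2, hV]; ring
    rw [this]
    field_simp
    ring
  have h2 : ∑ s ∈ range (N + 2), bin (N + 1) θ s * |((N : ℝ) + 1) * θ - s|
      ≤ ∑ s ∈ range (N + 2),
        bin (N + 1) θ s * ((l + ((s : ℝ) - ((N : ℝ) + 1) * θ) ^ 2 / l) / 2) := by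
    apply Finset.sum_le_sum
    intro s _
    apply mul_le_mul_of_nonneg_left _ (bin_nonneg h0.le h1.le _ _)
    have : |((N : ℝ) + 1) * θ - s| ^ 2 = ((s : ℝ) - ((N : ℝ) + 1) * θ) ^ 2 := by
      rw [sq_abs]; ring
    rw [← this, le_div_iff₀ (by norm_num : (0:ℝ) < 2)]
    set a := |((N : ℝ) + 1) * θ - s|
    have : 0 ≤ (a - l) ^ 2 / l := by positivity
    have e : (a - l) ^ 2 / l = a ^ 2 / l - 2 * a + l := by field_simp; ring
    rw [e] at this
    linarith
  refine h2.trans (le_of_eq ?_)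
  have : ∑ s ∈ range (N + 2),
        bin (N + 1) θ s * ((l + ((s : ℝ) - ((N : ℝ) + 1) * θ) ^ 2 / l) / 2)
      = (∑ s ∈ range (N + 2),
        bin (N + 1) θ s * (l + ((s : ℝ) - ((N : ℝ) + 1) * θ) ^ 2 / l)) / 2 := by
    rw [Finset.sum_div]
    apply Finset.sum_congr rfl
    intro s _
    ring
  rw [this, hs]
  ring

lemma diff_zero (θ : ℝ) (N : ℕ) :
    θ * (1 - θ) * ((N : ℝ) + 1) * bin N θ 0
      = bin (N + 1) θ 0 * (((N : ℝ) + 1) * θ - (0 : ℕ)) := by
  rw [bin_succ_zero]; push_cast; ring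

lemma diff_succ (θ : ℝ) (N y : ℕ) :
    θ * (1 - θ) * ((N : ℝ) + 1) * (bin N θ (y + 1) - bin N θ y)
      = bin (N + 1) θ (y + 1) * (((N : ℝ) + 1) * θ - (y + 1 : ℕ)) := by
  have h1 := bin_sb θ N y
  have h2 := bin_sb' θ N (y + 1)
  push_cast at h2 ⊢
  have e : θ * (1 - θ) * ((N : ℝ) + 1) * (bin N θ (y + 1) - bin N θ y)
      = θ * (((N : ℝ) + 1) * (1 - θ) * bin N θ (y + 1))
        - (1 - θ) * (((N : ℝ) + 1) * θ * bin N θ y) := by ring
  rw [e, h1, h2]
  ring

lemma bin_le_sum {θ : ℝ} (h0 : 0 < θ) (h1 : θ < 1) (N y : ℕ) :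
    θ * (1 - θ) * ((N : ℝ) + 1) * bin N θ y
      ≤ ∑ s ∈ range (y + 1), bin (N + 1) θ s * |((N : ℝ) + 1) * θ - s| := by
  induction y with
  | zero =>
    rw [diff_zero]
    simp only [zero_add, Finset.sum_range_one]
    exact mul_le_mul_of_nonneg_left (le_abs_self _) (bin_nonneg h0.le h1.le _ _)
  | succ y ih =>
    rw [Finset.sum_range_succ]
    have e : θ * (1 - θ) * ((N : ℝ) + 1) * bin N θ (y + 1)
        = θ * (1 - θ) * ((N : ℝ) + 1) * bin N θ y
          + θ * (1 - θ) * ((N : ℝ) + 1) * (bin N θ (y + 1) - bin N θ y) := by ring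
    rw [e, diff_succ]
    exact add_le_add ih (mul_le_mul_of_nonneg_left (le_abs_self _) (bin_nonneg h0.le h1.le _ _))

lemma bin_le {θ : ℝ} (h0 : 0 < θ) (h1 : θ < 1) (N y : ℕ) :
    bin N θ y ≤ (1 / Real.sqrt (θ * (1 - θ))) / Real.sqrt ((N : ℝ) + 1) := by
  have h1' : 0 < 1 - θ := by linarith
  rcases lt_or_ge N y with h | h
  · rw [bin_eq_zero h]; positivity
  · have h2 := bin_le_sum h0 h1 N y
    have h3 : ∑ s ∈ range (y + 1), bin (N + 1) θ s * |((N : ℝ) + 1) * θ - s|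
        ≤ ∑ s ∈ range (N + 2), bin (N + 1) θ s * |((N : ℝ) + 1) * θ - s| := by
      apply Finset.sum_le_sum_of_subset_of_nonneg
      · intro x hx
        rw [Finset.mem_range] at hx ⊢
        omega
      · intro i _ _
        exact mul_nonneg (bin_nonneg h0.le h1.le _ _) (abs_nonneg _)
    have h4 := first_abs h0 h1 N
    set V := ((N : ℝ) + 1) * (θ * (1 - θ)) with hV
    have hV0 : 0 < V := by positivity
    have h5 : V * bin N θ y ≤ Real.sqrt V := by
      have : V * bin N θ y = θ * (1 - θ) * ((N : ℝ) + 1) * bin N θ y := by rw [hV]; ring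
      rw [this]
      linarith
    have h6 : bin N θ y ≤ Real.sqrt V / V := by
      rw [le_div_iff₀ hV0]; linarith
    refine h6.trans (le_of_eq ?_)
    have h7 : Real.sqrt V / V = 1 / Real.sqrt V := by
      rw [Real.sqrt_div_self']
    rw [h7, hV, Real.sqrt_mul (by positivity)]
    field_simp

lemma bin_div_sqrt {θ : ℝ} (h0 : 0 < θ) (h1 : θ < 1) (N x : ℕ) :
    bin N θ x / Real.sqrt ((x : ℝ) + 1)
      ≤ ((1 / Real.sqrt (θ * (1 - θ))) / Real.sqrt θ) / ((N : ℝ) + 1) := by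
  have h1' : 0 < 1 - θ := by linarith
  set C := 1 / Real.sqrt (θ * (1 - θ)) with hC
  have hC0 : 0 < C := by rw [hC]; positivity
  have hN : (0 : ℝ) < (N : ℝ) + 1 := by positivity
  have hx : (0 : ℝ) < (x : ℝ) + 1 := by positivity
  have hb := bin_nonneg h0.le h1.le N x
  have e1 := bin_le h0 h1 N x
  have e2 := bin_le h0 h1 (N + 1) (x + 1)
  have e3 := bin_sb θ N x
  have e4 : bin N θ x / ((x : ℝ) + 1) = bin (N + 1) θ (x + 1) / (((N : ℝ) + 1) * θ) := by
    rw [div_eq_div_iff hx.ne' (by positivity)]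
    linarith
  have e5 : bin (N + 1) θ (x + 1) ≤ C / Real.sqrt ((N : ℝ) + 1) := by
    refine e2.trans ?_
    apply div_le_div_of_nonneg_left hC0.le (Real.sqrt_pos.2 hN)
    apply Real.sqrt_le_sqrt
    push_cast
    linarith
  apply le_of_sq_le_sq _ (by positivity)
  have e6 : (bin N θ x / Real.sqrt ((x : ℝ) + 1)) ^ 2
      = bin N θ x * (bin N θ x / ((x : ℝ) + 1)) := by
    rw [div_pow, Real.sq_sqrt hx.le]; ring
  have e7 : (C / Real.sqrt θ / ((N : ℝ) + 1)) ^ 2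
      = (C / Real.sqrt ((N : ℝ) + 1)) * ((C / Real.sqrt ((N : ℝ) + 1)) / (((N : ℝ) + 1) * θ)) := by
    rw [div_pow, div_pow, Real.sq_sqrt h0.le]
    have hs : Real.sqrt ((N : ℝ) + 1) * Real.sqrt ((N : ℝ) + 1) = (N : ℝ) + 1 :=
      Real.mul_self_sqrt hN.le
    have hs0 : Real.sqrt ((N : ℝ) + 1) ≠ 0 := (Real.sqrt_pos.2 hN).ne'
    have : (C / Real.sqrt ((N : ℝ) + 1)) * ((C / Real.sqrt ((N : ℝ) + 1)) / (((N : ℝ) + 1) * θ))
        = C ^ 2 / ((Real.sqrt ((N : ℝ) + 1) * Real.sqrt ((N : ℝ) + 1)) * (((N : ℝ) + 1) * θ)) := by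
      field_simp
    rw [this, hs]
    field_simp
  rw [e6, e7, e4]
  apply mul_le_mul e1 _ (div_nonneg (bin_nonneg h0.le h1.le _ _) (by positivity)) (by positivity)
  exact div_le_div_of_nonneg_right e5 (by positivity)

lemma sum_bin_div_sqrt {θ : ℝ} (h0 : 0 < θ) (h1 : θ < 1) (N M : ℕ) :
    ∑ x ∈ range M, bin N θ x / Real.sqrt ((x : ℝ) + 1)
      ≤ ((1 / θ + 1) / 2) / Real.sqrt ((N : ℝ) + 1) := by
  have h1' : 0 < 1 - θ := by linarith
  have hN : (0 : ℝ) < (N : ℝ) + 1 := by positivity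
  set l := Real.sqrt ((N : ℝ) + 1) with hl
  have hl0 : 0 < l := Real.sqrt_pos.2 hN
  have hl2 : l ^ 2 = (N : ℝ) + 1 := Real.sq_sqrt hN.le
  have a1 : ∀ x ∈ range M, bin N θ x / Real.sqrt ((x : ℝ) + 1)
      ≤ (1 / 2) * (1 / (l * θ)) * bin (N + 1) θ (x + 1) + (1 / 2) * (1 / l) * bin N θ x := by
    intro x _
    have hx : (0 : ℝ) < (x : ℝ) + 1 := by positivity
    have hb := bin_nonneg h0.le h1.le N x
    set r := Real.sqrt ((x : ℝ) + 1) with hr
    have hr0 : 0 < r := Real.sqrt_pos.2 hx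
    have hr2 : r ^ 2 = (x : ℝ) + 1 := Real.sq_sqrt hx.le
    have b1 : 1 / r ≤ (1 / 2) * (l / r ^ 2) + (1 / 2) * (1 / l) := by
      have : 0 ≤ (l - r) ^ 2 / (r ^ 2 * l) := by positivity
      have e : (l - r) ^ 2 / (r ^ 2 * l) = l / r ^ 2 - 2 * (1 / r) + 1 / l := by
        field_simp
        ring
      rw [e] at this
      linarith
    have b2 : bin N θ x * (l / r ^ 2) = (1 / (l * θ)) * bin (N + 1) θ (x + 1) := by
      have e3 := bin_sb θ N x
      rw [hr2]
      rw [← hl2] at e3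
      field_simp
      nlinarith [e3]
    calc bin N θ x / r = bin N θ x * (1 / r) := by ring
      _ ≤ bin N θ x * ((1 / 2) * (l / r ^ 2) + (1 / 2) * (1 / l)) :=
          mul_le_mul_of_nonneg_left b1 hb
      _ = (1 / 2) * (bin N θ x * (l / r ^ 2)) + (1 / 2) * (1 / l) * bin N θ x := by ring
      _ = _ := by rw [b2]; ring
  refine (Finset.sum_le_sum a1).trans ?_
  rw [Finset.sum_add_distrib, ← Finset.mul_sum, ← Finset.mul_sum]
  have a2 : ∑ x ∈ range M, bin (N + 1) θ (x + 1) ≤ 1 := by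
    have := sum_bin_le h0.le h1.le (N + 1) (M + 1)
    rw [Finset.sum_range_succ'] at this
    linarith [bin_nonneg h0.le h1.le (N + 1) 0]
  have a3 := sum_bin_le h0.le h1.le N M
  have a4 : (1 / 2) * (1 / (l * θ)) * ∑ x ∈ range M, bin (N + 1) θ (x + 1)
      ≤ (1 / 2) * (1 / (l * θ)) * 1 := mul_le_mul_of_nonneg_left a2 (by positivity)
  have a5 : (1 / 2) * (1 / l) * ∑ x ∈ range M, bin N θ x ≤ (1 / 2) * (1 / l) * 1 :=
    mul_le_mul_of_nonneg_left a3 (by positivity)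
  have a6 : (1 / 2) * (1 / (l * θ)) * 1 + (1 / 2) * (1 / l) * 1 = ((1 / θ + 1) / 2) / l := by
    field_simp
  linarith

end Pmf

open Pmf

/-- PMF -/
theorem stPmf : StPmf := by
  intro q hq0 hq1
  have hp0 : 0 < 1 - q := by linarith
  have hp1 : 1 - q < 1 := by linarith
  set θ := 1 - q ^ 2 with hθ
  have hθ0 : 0 < θ := by rw [hθ]; nlinarith
  have hθ1 : θ < 1 := by rw [hθ]; nlinarith [sq_pos_of_pos hq0]
  set C₁ := 1 / Real.sqrt (θ * (1 - θ)) with hC₁
  set C₂ := (1 / Real.sqrt (θ * (1 - θ))) / Real.sqrt θ with hC₂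
  set C₃ := (1 / θ + 1) / 2 with hC₃
  have hθ1' : 0 < 1 - θ := by linarith
  have hC₁0 : 0 < C₁ := by rw [hC₁]; positivity
  have hC₂0 : 0 < C₂ := by rw [hC₂]; positivity
  have hC₃0 : 0 < C₃ := by rw [hC₃]; positivity
  set C := C₁ + C₂ + C₃ + 1 with hC
  have hC0 : 0 < C := by rw [hC]; positivity
  refine ⟨C, by rw [hC]; linarith, ?_⟩
  intro N r
  have hN : (0 : ℝ) < (N : ℝ) + 1 := by positivity
  have hsN : 0 < Real.sqrt ((N : ℝ) + 1) := Real.sqrt_pos.2 hN
  have p1 : ∀ y, bin N θ y ≤ C / Real.sqrt (N + 1) := by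
    intro y
    refine (bin_le hθ0 hθ1 N y).trans ?_
    apply div_le_div_of_nonneg_right _ hsN.le
    rw [hC]; linarith
  have key : ∀ (g : ℕ → ℝ) (B : ℝ) (y : ℕ), 0 ≤ B → (∀ x, g x ≤ B) →
      ∑ z ∈ range (y + 1), bin r (1 - q) z * g (y - z) ≤ B := by
    intro g B y hB hg
    calc ∑ z ∈ range (y + 1), bin r (1 - q) z * g (y - z)
        ≤ ∑ z ∈ range (y + 1), bin r (1 - q) z * B := by
          apply Finset.sum_le_sum
          intro z _
          exact mul_le_mul_of_nonneg_left (hg _) (bin_nonneg hp0.le hp1.le _ _)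
      _ = (∑ z ∈ range (y + 1), bin r (1 - q) z) * B := by rw [Finset.sum_mul]
      _ ≤ 1 * B := mul_le_mul_of_nonneg_right (sum_bin_le hp0.le hp1.le r (y + 1)) hB
      _ = B := one_mul B
  have conv : ∀ y, cbin q N r y / Real.sqrt (y + 1)
      ≤ ∑ z ∈ range (y + 1), bin r (1 - q) z *
        (bin N θ (y - z) / Real.sqrt (((y - z : ℕ) : ℝ) + 1)) := by
    intro y
    unfold cbin
    rw [Finset.sum_div]
    apply Finset.sum_le_sum
    intro z hz
    rw [mul_div_assoc]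
    apply mul_le_mul_of_nonneg_left _ (bin_nonneg hp0.le hp1.le _ _)
    apply div_le_div_of_nonneg_left (bin_nonneg hθ0.le hθ1.le _ _)
    · exact Real.sqrt_pos.2 (by positivity)
    · apply Real.sqrt_le_sqrt
      have : ((y - z : ℕ) : ℝ) ≤ (y : ℝ) := by exact_mod_cast Nat.sub_le y z
      linarith
  refine ⟨p1, ?_, ?_, ?_⟩
  · intro y
    exact key (fun x => bin N θ x) _ y (by positivity) p1
  · intro y
    refine (conv y).trans ?_
    apply key (fun x => bin N θ x / Real.sqrt ((x : ℝ) + 1)) _ y (by positivity)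
    intro x
    refine (bin_div_sqrt hθ0 hθ1 N x).trans ?_
    apply div_le_div_of_nonneg_right _ hN.le
    rw [hC]; linarith
  · have h1 : ∑ y ∈ range (N + r + 1), cbin q N r y / Real.sqrt (y + 1)
        ≤ ∑ y ∈ range (N + r + 1), ∑ z ∈ range (y + 1), bin r (1 - q) z *
        (bin N θ (y - z) / Real.sqrt (((y - z : ℕ) : ℝ) + 1)) :=
      Finset.sum_le_sum (fun y _ => conv y)
    refine h1.trans ?_
    rw [Finset.sum_range_diag_flip (N + r + 1)
      (fun z x => bin r (1 - q) z * (bin N θ x / Real.sqrt ((x : ℝ) + 1)))]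
    have h2 : ∀ z ∈ range (N + r + 1), ∑ x ∈ range (N + r + 1 - z),
        bin r (1 - q) z * (bin N θ x / Real.sqrt ((x : ℝ) + 1))
        ≤ bin r (1 - q) z * (C / Real.sqrt ((N : ℝ) + 1)) := by
      intro z _
      rw [← Finset.mul_sum]
      apply mul_le_mul_of_nonneg_left _ (bin_nonneg hp0.le hp1.le _ _)
      refine (sum_bin_div_sqrt hθ0 hθ1 N _).trans ?_
      apply div_le_div_of_nonneg_right _ hsN.le
      rw [hC]; linarith
    refine (Finset.sum_le_sum h2).trans ?_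
    rw [← Finset.sum_mul]
    calc (∑ z ∈ range (N + r + 1), bin r (1 - q) z) * (C / Real.sqrt ((N : ℝ) + 1))
        ≤ 1 * (C / Real.sqrt ((N : ℝ) + 1)) :=
          mul_le_mul_of_nonneg_right (sum_bin_le hp0.le hp1.le r _) (by positivity)
      _ = _ := one_mul _

end Vale.P321S
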