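import Vale.Agent.P321S.Pmf

/-!
# P321S, module RENEW: renewal bound, by log-concavity of the count laws
-/

namespace Vale.P321S

open scoped BigOperators
open Finset

namespace Renew

/-- one Bernoulli step of a law on `ℕ` -/
structure Stp (p : ℝ) (g g' : ℕ → ℝ) : Prop where
  zero : g' 0 = (1 - p) * g 0
  succ : ∀ y, g' (y + 1) = (1 - p) * g (y + 1) + p * g y

/-- nonnegative with monotone ratios -/
structure PF (g : ℕ → ℝ) : Prop where
  nn : ∀ y, 0 ≤ g y
  lc : ∀ i j, i ≤ j → g i * g (j + 1) ≤ g (i + 1) * g j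

lemma PF.step {p : ℝ} (hp0 : 0 ≤ p) (hp1 : p ≤ 1) {g g' : ℕ → ℝ} (hg : PF g) (hs : Stp p g g') :
    PF g' := by
  have hp1' : 0 ≤ 1 - p := by linarith
  refine ⟨?_, ?_⟩
  · intro y
    rcases y with _ | y
    · rw [hs.zero]; exact mul_nonneg hp1' (hg.nn 0)
    · rw [hs.succ]
      exact add_nonneg (mul_nonneg hp1' (hg.nn _)) (mul_nonneg hp0 (hg.nn _))
  · intro i j hij
    rcases i with _ | i
    · rcases j with _ | j
      · rw [mul_comm]
      · rw [hs.zero, hs.succ (j + 1), hs.succ 0, hs.succ j]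
        have h1 := hg.lc 0 (j + 1) (Nat.zero_le _)
        have h2 := mul_nonneg (mul_nonneg hp1' hp1') (sub_nonneg.2 h1)
        have h3 := mul_nonneg (mul_nonneg hp0 hp1') (mul_nonneg (hg.nn (0 + 1)) (hg.nn j))
        have h4 := mul_nonneg (mul_nonneg hp0 hp0) (mul_nonneg (hg.nn 0) (hg.nn j))
        nlinarith [h2, h3, h4]
    · rcases j with _ | j
      · omega
      · have hij' : i ≤ j := by omega
        rw [hs.succ i, hs.succ (j + 1), hs.succ (i + 1), hs.succ j]
        have h1 := hg.lc (i + 1) (j + 1) (by omega)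
        have h2 := hg.lc i j hij'
        have h3 : g i * g (j + 2) ≤ g (i + 2) * g j := by
          rcases hij'.eq_or_lt with h | h
          · rw [h, mul_comm]
          · have a1 := hg.lc (i + 1) j (by omega)
            have a2 := hg.lc i (j + 1) (by omega)
            linarith
        have b1 := mul_nonneg (mul_nonneg hp1' hp1') (sub_nonneg.2 h1)
        have b2 := mul_nonneg (mul_nonneg hp0 hp0) (sub_nonneg.2 h2)
        have b3 := mul_nonneg (mul_nonneg hp0 hp1') (sub_nonneg.2 h3)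
        nlinarith [b1, b2, b3]

/-- the level `y` is on the descending side -/
def Dn (g : ℕ → ℝ) (y : ℕ) : Prop := (∀ x, y = x + 1 → g x ≤ g y) ∧ 0 < g y

lemma Dn.step {p : ℝ} (hp0 : 0 ≤ p) (hp1 : p < 1) {g g' : ℕ → ℝ} (hg : PF g)
    (hs : Stp p g g') {y : ℕ} (h : Dn g y) : Dn g' y := by
  have hp1' : 0 < 1 - p := by linarith
  refine ⟨?_, ?_⟩
  · intro x hx
    subst hx
    have h1 := h.1 x rfl
    have h2 := h.2
    rw [hs.succ x]
    rcases x with _ | x
    · rw [hs.zero]
      have := mul_le_mul_of_nonneg_left h1 hp1'.le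
      have := mul_nonneg hp0 (hg.nn 0)
      linarith
    · rw [hs.succ x]
      have h3 : g x ≤ g (x + 1) := by
        by_contra hcon
        push Not at hcon
        have a1 := hg.lc x (x + 1) (by omega)
        have a2 : g (x + 1) * g (x + 1) ≤ g (x + 1) * g (x + 2) :=
          mul_le_mul_of_nonneg_left h1 (hg.nn _)
        have a3 : g (x + 1) * g (x + 2) < g x * g (x + 2) := mul_lt_mul_of_pos_right hcon h2
        have a4 : g x * g (x + 1 + 1) = g x * g (x + 2) := rfl
        linarith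
      have := mul_le_mul_of_nonneg_left h1 hp1'.le
      have := mul_le_mul_of_nonneg_left h3 hp0
      linarith
  · rcases y with _ | y
    · rw [hs.zero]; exact mul_pos hp1' h.2
    · rw [hs.succ]
      exact add_pos_of_pos_of_nonneg (mul_pos hp1' h.2) (mul_nonneg hp0 (hg.nn _))

lemma Dn.le {p : ℝ} (hp0 : 0 ≤ p) {g g' : ℕ → ℝ}
    (hs : Stp p g g') {y : ℕ} (h : Dn g y) : g' y ≤ g y := by
  rcases y with _ | y
  · rw [hs.zero]
    have := mul_nonneg hp0 h.2.le
    linarith
  · rw [hs.succ]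
    have h1 := mul_le_mul_of_nonneg_left (h.1 y rfl) hp0
    linarith

lemma nDn_le {p : ℝ} (hp0 : 0 ≤ p) {g g' : ℕ → ℝ} (hg : PF g)
    (hs : Stp p g g') (hg' : ∀ y, 0 ≤ g' y) {y : ℕ} (h : ¬ Dn g y) : g y ≤ g' y := by
  by_cases h0 : 0 < g y
  · rcases y with _ | y
    · exact absurd ⟨fun x hx => by omega, h0⟩ h
    · have h1 : g (y + 1) < g y := by
        by_contra hcon
        push Not at hcon
        apply h
        refine ⟨?_, h0⟩
        intro x hx
        have : x = y := by omega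
        subst this
        exact hcon
      rw [hs.succ]
      have := mul_le_mul_of_nonneg_left h1.le hp0
      linarith
  · have : g y = 0 := le_antisymm (not_lt.1 h0) (hg.nn y)
    rw [this]
    exact hg' y

/-- total mass up to `y` -/
def Ph (g : ℕ → ℝ) (y : ℕ) : ℝ := ∑ x ∈ range (y + 1), g x

lemma Ph_step {p : ℝ} {g g' : ℕ → ℝ} (hs : Stp p g g') (y : ℕ) :
    Ph g' y = Ph g y - p * g y := by
  unfold Ph
  induction y with
  | zero => simp [hs.zero]; ring
  | succ y ih =>
    rw [Finset.sum_range_succ, ih, Finset.sum_range_succ (fun x => g x) (y + 1), hs.succ]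
    ring

/-! ### the two-parameter family -/

lemma bin_stp (θ : ℝ) (N : ℕ) : Stp θ (bin N θ) (bin (N + 1) θ) :=
  ⟨Pmf.bin_succ_zero θ N, fun y => Pmf.bin_succ_succ θ N y⟩

lemma cbin_stpN (q : ℝ) (N r : ℕ) :
    Stp (1 - q ^ 2) (cbin q N r) (cbin q (N + 1) r) := by
  refine ⟨?_, ?_⟩
  · simp only [cbin, zero_add, Finset.sum_range_one, Nat.sub_zero, Pmf.bin_succ_zero]
    ring
  · intro y
    unfold cbin
    rw [Finset.sum_range_succ, Finset.sum_range_succ
      (fun z => bin r (1 - q) z * bin N (1 - q ^ 2) (y + 1 - z)) (y + 1)]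
    rw [Nat.sub_self, Pmf.bin_succ_zero]
    have : ∑ z ∈ range (y + 1), bin r (1 - q) z * bin (N + 1) (1 - q ^ 2) (y + 1 - z)
        = (1 - (1 - q ^ 2)) * ∑ z ∈ range (y + 1), bin r (1 - q) z * bin N (1 - q ^ 2) (y + 1 - z)
          + (1 - q ^ 2) * ∑ z ∈ range (y + 1), bin r (1 - q) z * bin N (1 - q ^ 2) (y - z) := by
      rw [Finset.mul_sum, Finset.mul_sum, ← Finset.sum_add_distrib]
      apply Finset.sum_congr rfl
      intro z hz
      rw [Finset.mem_range] at hz
      rw [show y + 1 - z = (y - z) + 1 by omega, Pmf.bin_succ_succ]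
      ring
    rw [this]
    ring

lemma cbin_stpr (q : ℝ) (N r : ℕ) :
    Stp (1 - q) (cbin q N r) (cbin q N (r + 1)) := by
  refine ⟨?_, ?_⟩
  · simp only [cbin, zero_add, Finset.sum_range_one, Nat.sub_zero, Pmf.bin_succ_zero]
    ring
  · intro y
    unfold cbin
    rw [Finset.sum_range_succ' (fun z => bin (r + 1) (1 - q) z * bin N (1 - q ^ 2) (y + 1 - z))
      (y + 1), Finset.sum_range_succ'
      (fun z => bin r (1 - q) z * bin N (1 - q ^ 2) (y + 1 - z)) (y + 1)]
    have : ∑ z ∈ range (y + 1), bin (r + 1) (1 - q) (z + 1) * bin N (1 - q ^ 2) (y + 1 - (z + 1))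
        = (1 - (1 - q)) * ∑ z ∈ range (y + 1),
            bin r (1 - q) (z + 1) * bin N (1 - q ^ 2) (y + 1 - (z + 1))
          + (1 - q) * ∑ z ∈ range (y + 1), bin r (1 - q) z * bin N (1 - q ^ 2) (y - z) := by
      rw [Finset.mul_sum, Finset.mul_sum, ← Finset.sum_add_distrib]
      apply Finset.sum_congr rfl
      intro z hz
      rw [show y + 1 - (z + 1) = y - z by omega, Pmf.bin_succ_succ]
      ring
    rw [this, Pmf.bin_succ_zero]
    ring

lemma bin_zero_PF (θ : ℝ) : PF (bin 0 θ) := by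
  have h : ∀ y, bin 0 θ y = if y = 0 then 1 else 0 := by
    intro y
    rcases y with _ | y
    · simp [bin]
    · rw [Pmf.bin_eq_zero (by omega)]; simp
  refine ⟨fun y => by rw [h]; split_ifs <;> norm_num, ?_⟩
  intro i j _
  rw [h (j + 1), h j, h i, h (i + 1)]
  simp

lemma cbin_zero_r (q : ℝ) (N y : ℕ) : cbin q N 0 y = bin N (1 - q ^ 2) y := by
  unfold cbin
  rw [Finset.sum_range_succ']
  have : ∀ z ∈ range y, bin 0 (1 - q) (z + 1) * bin N (1 - q ^ 2) (y - (z + 1)) = 0 := by
    intro z _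
    rw [Pmf.bin_eq_zero (by omega)]; ring
  rw [Finset.sum_eq_zero this]
  simp [bin]

lemma cbin_PF {q : ℝ} (hq0 : 0 < q) (hq1 : q < 1) (N r : ℕ) : PF (cbin q N r) := by
  have h0 : ∀ N, PF (cbin q N 0) := by
    intro N
    have e : cbin q N 0 = bin N (1 - q ^ 2) := funext (cbin_zero_r q N)
    rw [e]
    induction N with
    | zero => exact bin_zero_PF _
    | succ N ih =>
      have e' : cbin q N 0 = bin N (1 - q ^ 2) := funext (cbin_zero_r q N)
      exact (ih e').step (by nlinarith) (by nlinarith) (bin_stp _ _)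
  induction r with
  | zero => exact h0 N
  | succ r ih => exact ih.step (by linarith) (by linarith) (cbin_stpr q N r)

lemma cbin_eq_zero {q : ℝ} {N r y : ℕ} (h : N + r < y) : cbin q N r y = 0 := by
  unfold cbin
  apply Finset.sum_eq_zero
  intro z hz
  rw [Finset.mem_range] at hz
  rcases lt_or_ge r z with h1 | h1
  · rw [Pmf.bin_eq_zero h1]; ring
  · rw [Pmf.bin_eq_zero (by omega : N < y - z)]; ring

/-- sum of the samples -/
def samp (f : ℕ → ℕ → ℝ) : ℕ → ℕ → List ℕ → ℝ
  | _, _, [] => 0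
  | N, r, n :: l => f (N + n) r + samp f (N + n) (r + 1) l

lemma samp_eq (f : ℕ → ℕ → ℝ) : ∀ (l : List ℕ) (N r : ℕ),
    samp f N r l = ∑ i ∈ range l.length, f (N + (l.take (i + 1)).sum) (r + i) := by
  intro l
  induction l with
  | nil => intro N r; simp [samp]
  | cons n l ih =>
    intro N r
    rw [samp, ih, List.length_cons, Finset.sum_range_succ']
    rw [add_comm]
    congr 1
    apply Finset.sum_congr rfl
    intro i _
    rw [List.take_succ_cons, List.sum_cons, add_assoc, add_assoc, add_comm 1 i]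

section path

variable {q : ℝ} (hq0 : 0 < q) (hq1 : q < 1)
include hq0 hq1

lemma th_pos : 0 < 1 - q ^ 2 := by nlinarith
lemma th_lt : 1 - q ^ 2 < 1 := by nlinarith [sq_pos_of_pos hq0]

lemma dnN (N r y i : ℕ) (h : Dn (cbin q N r) y) : Dn (cbin q (N + i) r) y := by
  induction i with
  | zero => exact h
  | succ i ih =>
    exact ih.step (th_pos hq0 hq1).le (th_lt hq0 hq1) (cbin_PF hq0 hq1 _ _) (cbin_stpN q (N + i) r)

lemma dnr (N r y : ℕ) (h : Dn (cbin q N r) y) : Dn (cbin q N (r + 1)) y :=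
  h.step (by linarith) (by linarith) (cbin_PF hq0 hq1 _ _) (cbin_stpr q N r)

lemma phN (N r y n : ℕ) :
    Ph (cbin q (N + n) r) y
      = Ph (cbin q N r) y - (1 - q ^ 2) * ∑ i ∈ range n, cbin q (N + i) r y := by
  induction n with
  | zero => simp
  | succ n ih =>
    have := Ph_step (cbin_stpN q (N + n) r) y
    rw [show N + (n + 1) = N + n + 1 by ring, this, ih, Finset.sum_range_succ]
    ring

lemma phr (N r y : ℕ) : Ph (cbin q N (r + 1)) y ≤ Ph (cbin q N r) y := by
  rw [Ph_step (cbin_stpr q N r) y]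
  have := mul_nonneg (by linarith : 0 ≤ 1 - q) ((cbin_PF hq0 hq1 N r).nn y)
  linarith

lemma ph_nn (N r y : ℕ) : 0 ≤ Ph (cbin q N r) y :=
  Finset.sum_nonneg (fun x _ => (cbin_PF hq0 hq1 N r).nn x)

/-- on the descending side -/
lemma anti (N r y i n : ℕ) (hi : i ≤ n) (h : Dn (cbin q N r) y) :
    cbin q (N + n) r y ≤ cbin q (N + i) r y := by
  obtain ⟨k, rfl⟩ := Nat.exists_eq_add_of_le hi
  clear hi
  induction k with
  | zero => exact le_refl _
  | succ k ih =>
    have h1 := dnN hq0 hq1 N r y (i + k) h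
    have h2 := h1.le (th_pos hq0 hq1).le (cbin_stpN q (N + (i + k)) r)
    rw [show N + (i + (k + 1)) = N + (i + k) + 1 by ring]
    exact h2.trans ih

/-- on the ascending side -/
lemma mono (N r y n : ℕ) (h : ¬ Dn (cbin q (N + n) r) y) :
    ∀ i, i ≤ n → cbin q N r y ≤ cbin q (N + i) r y := by
  intro i
  induction i with
  | zero => intro _; exact le_refl _
  | succ i ih =>
    intro hi
    have h1 : ¬ Dn (cbin q (N + i) r) y := by
      intro hd
      apply h
      obtain ⟨k, hk⟩ := Nat.exists_eq_add_of_le (by omega : i ≤ n)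
      rw [hk, ← add_assoc]
      exact dnN hq0 hq1 (N + i) r y k hd
    have h2 := nDn_le (th_pos hq0 hq1).le (cbin_PF hq0 hq1 _ _) (cbin_stpN q (N + i) r)
      (cbin_PF hq0 hq1 _ _).nn h1
    exact (ih (by omega)).trans h2

/-- descending phase -/
lemma phaseD (m y : ℕ) : ∀ (l : List ℕ) (N r : ℕ), (∀ n ∈ l, m ≤ n) → Dn (cbin q N r) y →
    (1 - q ^ 2) * (m * samp (fun N r => cbin q N r y) N r l) ≤ Ph (cbin q N r) y := by
  intro l
  induction l with
  | nil => intro N r _ _; simp [samp]; exact ph_nn hq0 hq1 N r y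
  | cons n l ih =>
    intro N r hl hd
    have hn : m ≤ n := hl n (by simp)
    have hd1 := dnN hq0 hq1 N r y n hd
    have hd2 := dnr hq0 hq1 (N + n) r y hd1
    have h1 := ih (N + n) (r + 1) (fun k hk => hl k (by simp [hk])) hd2
    have h2 := phr hq0 hq1 (N + n) r y
    have h3 := phN hq0 hq1 N r y n
    have h4 : (m : ℝ) * cbin q (N + n) r y ≤ ∑ i ∈ range n, cbin q (N + i) r y := by
      calc (m : ℝ) * cbin q (N + n) r y ≤ n * cbin q (N + n) r y := by
            apply mul_le_mul_of_nonneg_right _ ((cbin_PF hq0 hq1 _ _).nn y)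
            exact_mod_cast hn
        _ = ∑ i ∈ range n, cbin q (N + n) r y := by simp
        _ ≤ _ := Finset.sum_le_sum (fun i hi =>
            anti hq0 hq1 N r y i n (Finset.mem_range.1 hi).le hd)
    have h5 := mul_le_mul_of_nonneg_left h4 (th_pos hq0 hq1).le
    rw [samp]
    have e : (1 - q ^ 2) * ((m : ℝ) * (cbin q (N + n) r y
        + samp (fun N r => cbin q N r y) (N + n) (r + 1) l))
        = (1 - q ^ 2) * (m * cbin q (N + n) r y)
          + (1 - q ^ 2) * (m * samp (fun N r => cbin q N r y) (N + n) (r + 1) l) := by ring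
    rw [e]
    linarith

/-- general phase, with a pending sample value `v` -/
lemma phaseU (m y : ℕ) (B : ℝ) (hm : 1 ≤ m) (hB : ∀ N r, r ≤ N → cbin q N r y ≤ B) :
    ∀ (l : List ℕ) (N r : ℕ) (v : ℝ), (∀ n ∈ l, m ≤ n) → r ≤ N → v ≤ B →
    (¬ Dn (cbin q N r) y → v ≤ cbin q N r y) →
    (1 - q ^ 2) * (m * (v + samp (fun N r => cbin q N r y) N r l))
      ≤ Ph (cbin q N r) y + (1 - q ^ 2) * (m * (2 * B)) := by
  have hB0 : 0 ≤ B := ((cbin_PF hq0 hq1 0 0).nn y).trans (hB 0 0 le_rfl)
  have hth := (th_pos hq0 hq1).le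
  have hm0 : (0 : ℝ) ≤ m := by positivity
  intro l
  induction l with
  | nil =>
    intro N r v _ _ hv _
    have h1 := ph_nn hq0 hq1 N r y
    have h2 : (m : ℝ) * (v + 0) ≤ m * (2 * B) := mul_le_mul_of_nonneg_left (by linarith) hm0
    have h3 := mul_le_mul_of_nonneg_left h2 hth
    rw [samp]
    linarith
  | cons n l ih =>
    intro N r v hl hrN hv hdv
    have hn : m ≤ n := hl n (by simp)
    have hrest : ∀ k ∈ l, m ≤ k := fun k hk => hl k (by simp [hk])
    have h2 := phr hq0 hq1 (N + n) r y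
    have h3 := phN hq0 hq1 N r y n
    have hbd : cbin q (N + n) r y ≤ B := hB _ _ (by omega)
    rw [samp]
    by_cases hd : Dn (cbin q (N + n) r) y
    · have h1 := phaseD hq0 hq1 m y l (N + n) (r + 1) hrest (dnr hq0 hq1 (N + n) r y hd)
      have h4 : (m : ℝ) * (v + cbin q (N + n) r y) ≤ m * (2 * B) :=
        mul_le_mul_of_nonneg_left (by linarith) hm0
      have h5 := mul_le_mul_of_nonneg_left h4 hth
      have h6 : 0 ≤ (1 - q ^ 2) * ∑ i ∈ range n, cbin q (N + i) r y :=
        mul_nonneg hth (Finset.sum_nonneg fun i _ => (cbin_PF hq0 hq1 _ _).nn y)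
      have e : (1 - q ^ 2) * ((m : ℝ) * (v + (cbin q (N + n) r y
          + samp (fun N r => cbin q N r y) (N + n) (r + 1) l)))
          = (1 - q ^ 2) * (m * (v + cbin q (N + n) r y))
            + (1 - q ^ 2) * (m * samp (fun N r => cbin q N r y) (N + n) (r + 1) l) := by ring
      rw [e]
      linarith
    · have hd0 : ¬ Dn (cbin q N r) y := fun h => hd (dnN hq0 hq1 N r y n h)
      have hv' := hdv hd0
      have hstep : cbin q (N + n) r y ≤ cbin q (N + n) (r + 1) y :=
        nDn_le (by linarith) (cbin_PF hq0 hq1 _ _) (cbin_stpr q (N + n) r)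
          (cbin_PF hq0 hq1 _ _).nn hd
      have h1 := ih (N + n) (r + 1) (cbin q (N + n) r y) hrest (by omega) hbd (fun _ => hstep)
      have h4 : (m : ℝ) * v ≤ ∑ i ∈ range n, cbin q (N + i) r y := by
        calc (m : ℝ) * v ≤ m * cbin q N r y := mul_le_mul_of_nonneg_left hv' hm0
          _ ≤ n * cbin q N r y := by
              apply mul_le_mul_of_nonneg_right _ ((cbin_PF hq0 hq1 _ _).nn y)
              exact_mod_cast hn
          _ = ∑ i ∈ range n, cbin q N r y := by simp
          _ ≤ _ := Finset.sum_le_sum (fun i hi =>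
              mono hq0 hq1 N r y n hd i (Finset.mem_range.1 hi).le)
      have h5 := mul_le_mul_of_nonneg_left h4 hth
      have e : (1 - q ^ 2) * ((m : ℝ) * (v + (cbin q (N + n) r y
          + samp (fun N r => cbin q N r y) (N + n) (r + 1) l)))
          = (1 - q ^ 2) * (m * v) + (1 - q ^ 2) * (m * (cbin q (N + n) r y
            + samp (fun N r => cbin q N r y) (N + n) (r + 1) l)) := by ring
      rw [e]
      linarith

end path

end Renew

open Renew

/-- RENEW -/
theorem stRenew (hpmf : StPmf) : StRenew := by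
  intro q hq0 hq1
  obtain ⟨C₀, hC₀, hP⟩ := hpmf q hq0 hq1
  have hth := th_pos hq0 hq1
  refine ⟨2 * (Real.sqrt 2 * C₀) + 1 / (1 - q ^ 2), ?_, ?_⟩
  · have : 1 ≤ Real.sqrt 2 * C₀ := by
      have h2 : 1 ≤ Real.sqrt 2 := by
        rw [show (1 : ℝ) = Real.sqrt 1 by simp]
        exact Real.sqrt_le_sqrt (by norm_num)
      nlinarith
    have : 0 < 1 / (1 - q ^ 2) := by positivity
    linarith
  · intro m ns hm hns y
    set B := Real.sqrt 2 * C₀ / Real.sqrt ((y : ℝ) + 1) with hB
    have hy : (0 : ℝ) < (y : ℝ) + 1 := by positivity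
    have hB0 : 0 ≤ B := by rw [hB]; positivity
    have hBd : ∀ N r, r ≤ N → cbin q N r y ≤ B := by
      intro N r hr
      rcases lt_or_ge (N + r) y with h | h
      · rw [cbin_eq_zero h]; exact hB0
      · refine ((hP N r).2.1 y).trans ?_
        have hN : (0 : ℝ) < (N : ℝ) + 1 := by positivity
        rw [hB, div_le_div_iff₀ (Real.sqrt_pos.2 hN) (Real.sqrt_pos.2 hy)]
        have e : Real.sqrt 2 * C₀ * Real.sqrt ((N : ℝ) + 1)
            = C₀ * Real.sqrt (2 * ((N : ℝ) + 1)) := by
          rw [Real.sqrt_mul (by norm_num)]; ring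
        rw [e]
        apply mul_le_mul_of_nonneg_left _ (by linarith)
        apply Real.sqrt_le_sqrt
        have h1 : (y : ℝ) ≤ (N : ℝ) + r := by exact_mod_cast h
        have h2 : (r : ℝ) ≤ (N : ℝ) := by exact_mod_cast hr
        linarith
    have h1 := phaseU hq0 hq1 m y B hm hBd ns 0 0 0 hns le_rfl hB0
      (fun _ => (cbin_PF hq0 hq1 0 0).nn y)
    have h2 : Ph (cbin q 0 0) y ≤ 1 := by
      unfold Ph
      have : ∀ x ∈ range (y + 1), cbin q 0 0 x = bin 0 (1 - q ^ 2) x :=
        fun x _ => cbin_zero_r q 0 x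
      rw [Finset.sum_congr rfl this]
      exact Pmf.sum_bin_le hth.le (th_lt hq0 hq1).le 0 (y + 1)
    rw [samp_eq] at h1
    simp only [zero_add] at h1
    have hm0 : (0 : ℝ) < m := by exact_mod_cast hm
    have h3 : (1 - q ^ 2) * (m * ∑ i ∈ range ns.length, cbin q (ns.take (i + 1)).sum i y)
        ≤ 1 + (1 - q ^ 2) * (m * (2 * B)) := by linarith
    have h4 : ∑ i ∈ range ns.length, cbin q (ns.take (i + 1)).sum i y
        ≤ 1 / ((1 - q ^ 2) * m) + 2 * B := by
      have h5 : (1 - q ^ 2) * m * (∑ i ∈ range ns.length, cbin q (ns.take (i + 1)).sum i y)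
          ≤ (1 - q ^ 2) * m * (1 / ((1 - q ^ 2) * m) + 2 * B) := by
        have e : (1 - q ^ 2) * m * (1 / ((1 - q ^ 2) * m) + 2 * B)
            = 1 + (1 - q ^ 2) * (m * (2 * B)) := by
          field_simp
        rw [e]; linarith
      exact le_of_mul_le_mul_left h5 (by positivity)
    refine h4.trans ?_
    have e1 : 1 / ((1 - q ^ 2) * m) = 1 / (1 - q ^ 2) / m := by
      rw [div_div]
    have e2 : 2 * B = 2 * (Real.sqrt 2 * C₀) / Real.sqrt ((y : ℝ) + 1) := by rw [hB]; ring
    rw [e1, e2, add_comm]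
    apply add_le_add
    · apply div_le_div_of_nonneg_right _ (Real.sqrt_nonneg _)
      have : 0 < 1 / (1 - q ^ 2) := by positivity
      linarith
    · apply div_le_div_of_nonneg_right _ hm0.le
      have : 0 ≤ Real.sqrt 2 * C₀ := by positivity
      linarith

end Vale.P321S
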