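import Vale.Agent.P321S.BasicL2

/-! # P321: a mass zero feature in a homogeneous sea (module SMOOTH) -/

namespace Vale.P321S

open scoped BigOperators

namespace Smooth

/-- linear endomorphisms of the algebra -/
abbrev En := Module.End ℝ Alg

/-- operator bound relative to powers of `T`: raises the power by `d`, multiplies the norm by `C` -/
def OpB (T : Alg) (f : En) (d : ℕ) (C : ℝ) : Prop :=
  ∀ (Q : Alg) (n : ℕ) (s : ℝ), L2 Q (T ^ n) s → L2 (f Q) (T ^ (n + d)) (C * s)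

/-- operator bound in l1 -/
def OpL (f : En) (C : ℝ) : Prop := 0 ≤ C ∧ ∀ Q : Alg, l1 (f Q) ≤ C * l1 Q

/-- operator preserving mass zero -/
def OpM (f : En) : Prop := ∀ Q : Alg, mass Q = 0 → mass (f Q) = 0

section bounds

variable {T : Alg} (hT : Pr T)

theorem OpB_mono {f : En} {d : ℕ} {C C' : ℝ} (h : OpB T f d C) (hC : C ≤ C') :
    OpB T f d C' := by
  intro Q n s hQ
  exact L2_mono (h Q n s hQ) (mul_le_mul_of_nonneg_right hC hQ.1)

theorem OpB_one : OpB T 1 0 1 := by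
  intro Q n s hQ
  simpa using hQ

theorem OpB_mul {f g : En} {d e : ℕ} {C D : ℝ} (hf : OpB T f d C) (hg : OpB T g e D) :
    OpB T (f * g) (e + d) (C * D) := by
  intro Q n s hQ
  have := hf (g Q) (n + e) (D * s) (hg Q n s hQ)
  rw [Module.End.mul_apply, ← add_assoc, mul_assoc]
  exact this

theorem OpB_pow {f : En} {d : ℕ} {C : ℝ} (hf : OpB T f d C) :
    ∀ n : ℕ, OpB T (f ^ n) (d * n) (C ^ n) := by
  intro n
  induction n with
  | zero => simpa using (OpB_one (T := T))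
  | succ n ih =>
    have := OpB_mul ih hf
    rw [pow_succ, pow_succ]
    rw [show d * (n + 1) = d + d * n by ring]
    exact this

include hT in
theorem OpB_add {f g : En} {d : ℕ} {C D : ℝ} (hf : OpB T f d C) (hg : OpB T g d D) :
    OpB T (f + g) d (C + D) := by
  intro Q n s hQ
  rw [LinearMap.add_apply, add_mul]
  exact L2_add (Nn_pow hT.1 _) (hf Q n s hQ) (hg Q n s hQ)

theorem OpB_neg {f : En} {d : ℕ} {C : ℝ} (hf : OpB T f d C) : OpB T (-f) d C := by
  intro Q n s hQ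
  rw [LinearMap.neg_apply]
  exact L2_neg (hf Q n s hQ)

include hT in
theorem OpB_sub {f g : En} {d : ℕ} {C D : ℝ} (hf : OpB T f d C) (hg : OpB T g d D) :
    OpB T (f - g) d (C + D) := by
  rw [sub_eq_add_neg]
  exact OpB_add hT hf (OpB_neg hg)

theorem OpB_smul {f : En} {d : ℕ} {C : ℝ} (hf : OpB T f d C) {a : ℝ} (ha : 0 ≤ a) :
    OpB T (a • f) d (a * C) := by
  intro Q n s hQ
  have := L2_smul (hf Q n s hQ) a
  rw [abs_of_nonneg ha] at this
  rw [LinearMap.smul_apply, mul_assoc]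
  exact this

include hT in
theorem OpB_sum {ι : Type*} (S : Finset ι) {f : ι → En} {d : ℕ} {C : ι → ℝ}
    (hf : ∀ i ∈ S, OpB T (f i) d (C i)) : OpB T (∑ i ∈ S, f i) d (∑ i ∈ S, C i) := by
  intro Q n s hQ
  rw [LinearMap.sum_apply, Finset.sum_mul]
  exact L2_sum S (Nn_pow hT.1 _) (fun i hi => hf i hi Q n s hQ)

include hT in
theorem OpB_x : OpB T (LinearMap.mulLeft ℝ T) 1 1 := by
  intro Q n s hQ
  rw [LinearMap.mulLeft_apply, pow_succ']
  exact L2_mul hT.1 (Nn_pow hT.1 n) (L2_self hT) hQ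

include hT in
theorem OpB_y : OpB T (LinearMap.mulRight ℝ T) 1 1 := by
  intro Q n s hQ
  rw [LinearMap.mulRight_apply, pow_succ]
  have := L2_mul (Nn_pow hT.1 n) hT.1 hQ (L2_self hT)
  rw [mul_one] at this
  rw [one_mul]
  exact this

theorem OpL_one : OpL 1 1 := ⟨zero_le_one, fun Q => by simp⟩

theorem OpL_mul {f g : En} {C D : ℝ} (hf : OpL f C) (hg : OpL g D) : OpL (f * g) (C * D) := by
  refine ⟨mul_nonneg hf.1 hg.1, fun Q => ?_⟩
  rw [Module.End.mul_apply, mul_assoc]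
  exact (hf.2 _).trans (mul_le_mul_of_nonneg_left (hg.2 Q) hf.1)

theorem OpL_mono {f : En} {C C' : ℝ} (hf : OpL f C) (h : C ≤ C') : OpL f C' :=
  ⟨hf.1.trans h, fun Q => (hf.2 Q).trans (mul_le_mul_of_nonneg_right h (l1_nonneg _))⟩

theorem OpL_pow {f : En} {C : ℝ} (hf : OpL f C) : ∀ n : ℕ, OpL (f ^ n) (C ^ n) := by
  intro n
  induction n with
  | zero => simpa using OpL_one
  | succ n ih => rw [pow_succ, pow_succ]; exact OpL_mul ih hf

theorem OpL_add {f g : En} {C D : ℝ} (hf : OpL f C) (hg : OpL g D) : OpL (f + g) (C + D) := by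
  refine ⟨add_nonneg hf.1 hg.1, fun Q => ?_⟩
  rw [LinearMap.add_apply, add_mul]
  exact (l1_add _ _).trans (add_le_add (hf.2 Q) (hg.2 Q))

theorem OpL_neg {f : En} {C : ℝ} (hf : OpL f C) : OpL (-f) C := by
  refine ⟨hf.1, fun Q => ?_⟩
  rw [LinearMap.neg_apply, l1_neg]
  exact hf.2 Q

theorem OpL_sub {f g : En} {C D : ℝ} (hf : OpL f C) (hg : OpL g D) : OpL (f - g) (C + D) := by
  rw [sub_eq_add_neg]; exact OpL_add hf (OpL_neg hg)

theorem OpL_smul {f : En} {C : ℝ} (hf : OpL f C) {a : ℝ} (ha : 0 ≤ a) : OpL (a • f) (a * C) := by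
  refine ⟨mul_nonneg ha hf.1, fun Q => ?_⟩
  rw [LinearMap.smul_apply, l1_smul, abs_of_nonneg ha, mul_assoc]
  exact mul_le_mul_of_nonneg_left (hf.2 Q) ha

theorem OpL_sum {ι : Type*} (S : Finset ι) {f : ι → En} {C : ι → ℝ}
    (hf : ∀ i ∈ S, OpL (f i) (C i)) : OpL (∑ i ∈ S, f i) (∑ i ∈ S, C i) := by
  refine ⟨Finset.sum_nonneg (fun i hi => (hf i hi).1), fun Q => ?_⟩
  rw [LinearMap.sum_apply, Finset.sum_mul]
  exact (l1_sum _ _).trans (Finset.sum_le_sum (fun i hi => (hf i hi).2 Q))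

include hT in
theorem OpL_x : OpL (LinearMap.mulLeft ℝ T) 1 :=
  ⟨zero_le_one, fun Q => by rw [LinearMap.mulLeft_apply, one_mul]; exact l1_pr_mul hT⟩

include hT in
theorem OpL_y : OpL (LinearMap.mulRight ℝ T) 1 :=
  ⟨zero_le_one, fun Q => by rw [LinearMap.mulRight_apply, one_mul]; exact l1_mul_pr hT⟩

theorem OpM_x : OpM (LinearMap.mulLeft ℝ T) := by
  intro Q hQ
  rw [LinearMap.mulLeft_apply, mass_mul, hQ, mul_zero]

theorem OpM_y : OpM (LinearMap.mulRight ℝ T) := by
  intro Q hQ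
  rw [LinearMap.mulRight_apply, mass_mul, hQ, zero_mul]

theorem OpM_one : OpM 1 := fun Q hQ => by simpa using hQ

theorem OpM_mul {f g : En} (hf : OpM f) (hg : OpM g) : OpM (f * g) := by
  intro Q hQ
  rw [Module.End.mul_apply]
  exact hf _ (hg _ hQ)

theorem OpM_pow {f : En} (hf : OpM f) (n : ℕ) : OpM (f ^ n) := by
  induction n with
  | zero => simpa using OpM_one
  | succ n ih => rw [pow_succ]; exact OpM_mul ih hf

theorem OpM_sub {f g : En} (hf : OpM f) (hg : OpM g) : OpM (f - g) := by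
  intro Q hQ
  rw [LinearMap.sub_apply, mass_sub, hf Q hQ, hg Q hQ, sub_zero]

theorem OpM_smul {f : En} (hf : OpM f) (a : ℝ) : OpM (a • f) := by
  intro Q hQ
  rw [LinearMap.smul_apply, mass_smul, hf Q hQ, mul_zero]

theorem OpM_sum {ι : Type*} (S : Finset ι) {f : ι → En} (hf : ∀ i ∈ S, OpM (f i)) :
    OpM (∑ i ∈ S, f i) := by
  intro Q hQ
  rw [LinearMap.sum_apply, mass_sum]
  exact Finset.sum_eq_zero (fun i hi => hf i hi Q hQ)

end bounds

/-! ### the averaging operator -/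

/-- `(1/w) ∑_{i<w} x^i y^(w-i)` -/
noncomputable def Vop (x y : En) (w : ℕ) : En :=
  (1 / (w : ℝ)) • ((∑ i ∈ Finset.range w, x ^ i * y ^ (w - 1 - i)) * y)

theorem Vop_comm_x {x y : En} (h : Commute x y) (w : ℕ) : Commute x (Vop x y w) := by
  unfold Vop
  refine Commute.smul_right (Commute.mul_right ?_ h) _
  refine Commute.sum_right _ _ _ (fun i _ => ?_)
  exact Commute.mul_right ((Commute.refl x).pow_right i) (h.pow_right _)

theorem Vop_comm_y {x y : En} (h : Commute x y) (w : ℕ) : Commute y (Vop x y w) := by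
  unfold Vop
  refine Commute.smul_right (Commute.mul_right ?_ (Commute.refl y)) _
  refine Commute.sum_right _ _ _ (fun i _ => ?_)
  exact Commute.mul_right (h.symm.pow_right i) ((Commute.refl y).pow_right _)

theorem Vop_diff {x y : En} (h : Commute x y) (w : ℕ) :
    (x - y) * Vop x y w = (1 / (w : ℝ)) • ((x ^ w - y ^ w) * y) := by
  unfold Vop
  rw [mul_smul_comm, ← mul_assoc, h.mul_geom_sum₂]

theorem Vop_compl {x y : En} {w : ℕ} (hw : 1 ≤ w) :
    x ^ w - Vop x y w =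
      (1 / (w : ℝ)) • ∑ i ∈ Finset.range w, x ^ i * (x ^ (w - i) - y ^ (w - i)) := by
  unfold Vop
  have hw0 : (w : ℝ) ≠ 0 := by
    have : (1 : ℝ) ≤ w := by exact_mod_cast hw
    linarith
  have h1 : x ^ w = (1 / (w : ℝ)) • ∑ _i ∈ Finset.range w, x ^ w := by
    rw [Finset.sum_const, Finset.card_range, ← Nat.cast_smul_eq_nsmul ℝ, smul_smul,
      one_div_mul_cancel hw0, one_smul]
  have h2 : (∑ i ∈ Finset.range w, x ^ i * y ^ (w - 1 - i)) * y =
      ∑ i ∈ Finset.range w, x ^ i * y ^ (w - i) := by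
    rw [Finset.sum_mul]
    refine Finset.sum_congr rfl (fun i hi => ?_)
    rw [Finset.mem_range] at hi
    rw [mul_assoc, ← pow_succ]
    congr 2
    omega
  have h3 : ∑ i ∈ Finset.range w, x ^ i * (x ^ (w - i) - y ^ (w - i)) =
      (∑ _i ∈ Finset.range w, x ^ w) - ∑ i ∈ Finset.range w, x ^ i * y ^ (w - i) := by
    rw [← Finset.sum_sub_distrib]
    refine Finset.sum_congr rfl (fun i hi => ?_)
    rw [Finset.mem_range] at hi
    rw [mul_sub, ← pow_add]
    congr 2
    omega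
  rw [h2, h3, smul_sub, ← h1]

section main

variable {T : Alg} (hT : Pr T)

theorem comm_xy : Commute (LinearMap.mulLeft ℝ T : En) (LinearMap.mulRight ℝ T) :=
  LinearMap.commute_mulLeft_right T T

include hT in
theorem OpB_mono_xy (i j : ℕ) :
    OpB T ((LinearMap.mulLeft ℝ T : En) ^ i * (LinearMap.mulRight ℝ T) ^ j) (i + j) 1 := by
  have h := OpB_mul (OpB_pow (OpB_x hT) i) (OpB_pow (OpB_y hT) j)
  simp only [one_mul, one_pow, mul_one] at h
  rw [add_comm]
  exact h

include hT in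
theorem OpB_V {w : ℕ} (hw : 1 ≤ w) :
    OpB T (Vop (LinearMap.mulLeft ℝ T) (LinearMap.mulRight ℝ T) w) w 1 := by
  have hwR : (0 : ℝ) < w := by exact_mod_cast hw
  have h1 : OpB T (∑ i ∈ Finset.range w, (LinearMap.mulLeft ℝ T : En) ^ i *
      (LinearMap.mulRight ℝ T) ^ (w - 1 - i)) (w - 1) (∑ _i ∈ Finset.range w, (1 : ℝ)) := by
    refine OpB_sum hT _ (fun i hi => ?_)
    rw [Finset.mem_range] at hi
    have h := OpB_mono_xy hT i (w - 1 - i)
    rw [show i + (w - 1 - i) = w - 1 by omega] at h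
    exact h
  have h2 := OpB_smul (OpB_mul h1 (OpB_y hT)) (a := 1 / (w : ℝ)) (by positivity)
  rw [show 1 + (w - 1) = w by omega] at h2
  refine OpB_mono h2 ?_
  rw [Finset.sum_const, Finset.card_range, nsmul_eq_mul]
  field_simp
  exact le_refl _

include hT in
/-- the gain: averaging over `w` positions gains `w^(-1/2)` -/
theorem L2_V {ρ : Alg} {r : ℝ} (hρ : mass ρ = 0) (h : L2 ρ T r) {w : ℕ} (hw : 1 ≤ w) :
    L2 (Vop (LinearMap.mulLeft ℝ T) (LinearMap.mulRight ℝ T) w ρ) (T ^ (w + 1))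
      (Real.sqrt (1 / w) * r) := by
  have key : ∀ n : ℕ, L2 (((∑ i ∈ Finset.range n, (LinearMap.mulLeft ℝ T : En) ^ i *
      (LinearMap.mulRight ℝ T) ^ (n - 1 - i)) * LinearMap.mulRight ℝ T) ρ) (T ^ (n + 1))
      (Real.sqrt n * r) := by
    intro n
    induction n with
    | zero =>
      simp only [Finset.range_zero, Finset.sum_empty, zero_mul, LinearMap.zero_apply,
        Nat.cast_zero, Real.sqrt_zero]
      exact L2_zero _
    | succ n ih =>
      have e : ((∑ i ∈ Finset.range (n + 1), (LinearMap.mulLeft ℝ T : En) ^ i *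
          (LinearMap.mulRight ℝ T) ^ (n + 1 - 1 - i)) * LinearMap.mulRight ℝ T) ρ =
          ρ * T ^ (n + 1) + T * (((∑ i ∈ Finset.range n, (LinearMap.mulLeft ℝ T : En) ^ i *
          (LinearMap.mulRight ℝ T) ^ (n - 1 - i)) * LinearMap.mulRight ℝ T) ρ) := by
        rw [Finset.sum_range_succ', add_mul, LinearMap.add_apply]
        have e1 : (((LinearMap.mulLeft ℝ T : En) ^ 0 *
            (LinearMap.mulRight ℝ T) ^ (n + 1 - 1 - 0)) * LinearMap.mulRight ℝ T) ρ
            = ρ * T ^ (n + 1) := by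
          rw [pow_zero, one_mul, ← pow_succ, LinearMap.pow_mulRight, LinearMap.mulRight_apply]
          rfl
        have e2 : ((∑ k ∈ Finset.range n, (LinearMap.mulLeft ℝ T : En) ^ (k + 1) *
            (LinearMap.mulRight ℝ T) ^ (n + 1 - 1 - (k + 1))) * LinearMap.mulRight ℝ T) ρ
            = T * (((∑ i ∈ Finset.range n, (LinearMap.mulLeft ℝ T : En) ^ i *
          (LinearMap.mulRight ℝ T) ^ (n - 1 - i)) * LinearMap.mulRight ℝ T) ρ) := by
          have e3 : (∑ k ∈ Finset.range n, (LinearMap.mulLeft ℝ T : En) ^ (k + 1) *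
            (LinearMap.mulRight ℝ T) ^ (n + 1 - 1 - (k + 1))) =
            LinearMap.mulLeft ℝ T * ∑ i ∈ Finset.range n, (LinearMap.mulLeft ℝ T : En) ^ i *
          (LinearMap.mulRight ℝ T) ^ (n - 1 - i) := by
            rw [Finset.mul_sum]
            refine Finset.sum_congr rfl (fun i hi => ?_)
            rw [← mul_assoc, ← pow_succ']
            congr 2
            rw [Finset.mem_range] at hi
            omega
          rw [e3, mul_assoc, Module.End.mul_apply, LinearMap.mulLeft_apply]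
        rw [e1, e2, add_comm]
      rw [e]
      have h1 := L2_orth (ρ := ρ) (H := T ^ (n + 1)) (G := T) (G' := T ^ (n + 1)) hT
        (Pr_pow hT _) hρ h (L2_self (Pr_pow hT _)) ih
      rw [← pow_succ'] at h1
      refine L2_mono h1 (le_of_eq ?_)
      rw [mul_pow, Real.sq_sqrt (Nat.cast_nonneg _), one_pow, mul_one]
      rw [show r ^ 2 + (n : ℝ) * r ^ 2 = ((n + 1 : ℕ) : ℝ) * r ^ 2 by push_cast; ring]
      rw [Real.sqrt_mul (Nat.cast_nonneg _), Real.sqrt_sq h.1]
  have hwR : (0 : ℝ) < w := by exact_mod_cast hw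
  have h2 := L2_smul (key w) (1 / (w : ℝ))
  unfold Vop
  rw [LinearMap.smul_apply]
  refine L2_mono h2 (le_of_eq ?_)
  rw [abs_of_pos (by positivity), ← mul_assoc]
  congr 1
  rw [Real.sqrt_div zero_le_one, Real.sqrt_one]
  have h3 : Real.sqrt w ≠ 0 := (Real.sqrt_pos.mpr hwR).ne'
  have h4 : Real.sqrt w * Real.sqrt w = w := Real.mul_self_sqrt hwR.le
  rw [div_mul_eq_mul_div, one_mul, div_eq_div_iff hwR.ne' h3, h4, one_mul]

theorem dd_replicate (ρ : Alg) : ∀ j : ℕ, dd T (List.replicate j 1) ρ =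
    ((LinearMap.mulLeft ℝ T - LinearMap.mulRight ℝ T : En) ^ j) ρ := by
  intro j
  induction j with
  | zero => simp [dd]
  | succ j ih =>
    have e : ((LinearMap.mulLeft ℝ T - LinearMap.mulRight ℝ T : En) ^ (j + 1)) ρ =
        (LinearMap.mulLeft ℝ T - LinearMap.mulRight ℝ T : En)
          (((LinearMap.mulLeft ℝ T - LinearMap.mulRight ℝ T : En) ^ j) ρ) := by
      rw [pow_succ', Module.End.mul_apply]
    rw [List.replicate_succ, dd, ih, e, LinearMap.sub_apply,
      LinearMap.mulLeft_apply, LinearMap.mulRight_apply, pow_one]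

include hT in
/-- a shift by `a` costs `a D` after `M₀` powers -/
theorem OpL_shift_x {M₀ : ℕ} {D : ℝ} (hD : l1 (T ^ M₀ - T ^ (M₀ + 1)) ≤ D) (a : ℕ) :
    OpL ((LinearMap.mulLeft ℝ T : En) ^ M₀ * ((LinearMap.mulLeft ℝ T : En) ^ a - 1)) (a * D) := by
  have hD0 : 0 ≤ D := (l1_nonneg _).trans hD
  refine ⟨by positivity, fun Q => ?_⟩
  have e : ((LinearMap.mulLeft ℝ T : En) ^ M₀ * ((LinearMap.mulLeft ℝ T : En) ^ a - 1)) Q =
      -((T ^ M₀ - T ^ (M₀ + a)) * Q) := by
    rw [mul_sub, mul_one, ← pow_add, LinearMap.pow_mulLeft, LinearMap.pow_mulLeft,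
      LinearMap.sub_apply, LinearMap.mulLeft_apply, LinearMap.mulLeft_apply]
    noncomm_ring
  rw [e, l1_neg]
  refine l1_mul_le ?_ (le_refl _)
  exact (l1_mix_steps hT M₀ a).trans (mul_le_mul_of_nonneg_left hD (Nat.cast_nonneg _))

include hT in
theorem OpL_shift_y {M₀ : ℕ} {D : ℝ} (hD : l1 (T ^ M₀ - T ^ (M₀ + 1)) ≤ D) (a : ℕ) :
    OpL ((LinearMap.mulRight ℝ T : En) ^ M₀ * ((LinearMap.mulRight ℝ T : En) ^ a - 1))
      (a * D) := by
  have hD0 : 0 ≤ D := (l1_nonneg _).trans hD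
  refine ⟨by positivity, fun Q => ?_⟩
  have e : ((LinearMap.mulRight ℝ T : En) ^ M₀ * ((LinearMap.mulRight ℝ T : En) ^ a - 1)) Q =
      -(Q * (T ^ M₀ - T ^ (M₀ + a))) := by
    rw [mul_sub, mul_one, ← pow_add, LinearMap.pow_mulRight, LinearMap.pow_mulRight,
      LinearMap.sub_apply, LinearMap.mulRight_apply, LinearMap.mulRight_apply]
    noncomm_ring
  rw [e, l1_neg, mul_comm]
  refine l1_mul_le (le_refl _) ?_
  exact (l1_mix_steps hT M₀ a).trans (mul_le_mul_of_nonneg_left hD (Nat.cast_nonneg _))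

include hT in
/-- the complement of the average is small after `M₀` powers on both sides -/
theorem OpL_compl {M₀ w : ℕ} {D : ℝ} (hD : l1 (T ^ M₀ - T ^ (M₀ + 1)) ≤ D) (hw : 1 ≤ w) :
    OpL ((LinearMap.mulLeft ℝ T : En) ^ M₀ * (LinearMap.mulRight ℝ T) ^ M₀ *
      ((LinearMap.mulLeft ℝ T : En) ^ w -
        Vop (LinearMap.mulLeft ℝ T) (LinearMap.mulRight ℝ T) w)) (2 * w * D) := by
  have hD0 : 0 ≤ D := (l1_nonneg _).trans hD
  have hwR : (0 : ℝ) < w := by exact_mod_cast hw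
  have hc : Commute (LinearMap.mulLeft ℝ T : En) (LinearMap.mulRight ℝ T) := comm_xy
  rw [Vop_compl hw, mul_smul_comm, Finset.mul_sum]
  have h1 : OpL (∑ i ∈ Finset.range w, (LinearMap.mulLeft ℝ T : En) ^ M₀ *
      (LinearMap.mulRight ℝ T) ^ M₀ * ((LinearMap.mulLeft ℝ T : En) ^ i *
      ((LinearMap.mulLeft ℝ T : En) ^ (w - i) - (LinearMap.mulRight ℝ T) ^ (w - i))))
      (∑ _i ∈ Finset.range w, (2 * w * D)) := by
    refine OpL_sum _ (fun i hi => ?_)
    have hA := OpL_mul (OpL_pow (OpL_x hT) i)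
      (OpL_mul (OpL_pow (OpL_y hT) M₀) (OpL_shift_x hT hD (w - i)))
    have hB := OpL_mul (OpL_pow (OpL_x hT) i)
      (OpL_mul (OpL_pow (OpL_x hT) M₀) (OpL_shift_y hT hD (w - i)))
    have hAB := OpL_sub hA hB
    have e : (LinearMap.mulLeft ℝ T : En) ^ M₀ *
      (LinearMap.mulRight ℝ T) ^ M₀ * ((LinearMap.mulLeft ℝ T : En) ^ i *
      ((LinearMap.mulLeft ℝ T : En) ^ (w - i) - (LinearMap.mulRight ℝ T) ^ (w - i))) =
      (LinearMap.mulLeft ℝ T : En) ^ i * ((LinearMap.mulRight ℝ T) ^ M₀ *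
        ((LinearMap.mulLeft ℝ T : En) ^ M₀ * ((LinearMap.mulLeft ℝ T : En) ^ (w - i) - 1))) -
      (LinearMap.mulLeft ℝ T : En) ^ i * ((LinearMap.mulLeft ℝ T) ^ M₀ *
        ((LinearMap.mulRight ℝ T : En) ^ M₀ * ((LinearMap.mulRight ℝ T : En) ^ (w - i) - 1))) := by
      generalize (LinearMap.mulLeft ℝ T : En) = x at hc ⊢
      generalize (LinearMap.mulRight ℝ T : En) = y at hc ⊢
      have c1 : Commute (x ^ M₀ * y ^ M₀) (x ^ i) :=
        Commute.mul_left (Commute.pow_pow_self x _ _) (hc.symm.pow_pow _ _)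
      have c2 : x ^ M₀ * y ^ M₀ = y ^ M₀ * x ^ M₀ := (hc.pow_pow _ _).eq
      rw [← mul_assoc, c1.eq, mul_assoc, ← mul_sub]
      congr 1
      rw [← mul_assoc (y ^ M₀), ← c2]
      simp only [mul_sub, mul_one, mul_assoc]
      abel
    rw [e]
    refine OpL_mono hAB ?_
    have h2 : ((w - i : ℕ) : ℝ) ≤ w := by exact_mod_cast Nat.sub_le _ _
    have h3 : ((w - i : ℕ) : ℝ) * D ≤ w * D := mul_le_mul_of_nonneg_right h2 hD0
    simp only [one_pow, one_mul]
    linarith
  refine OpL_mono (OpL_smul h1 (a := 1 / (w : ℝ)) (by positivity)) ?_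
  rw [Finset.sum_const, Finset.card_range, nsmul_eq_mul]
  field_simp
  exact le_refl _

end main

end Smooth

open Smooth in
theorem stSmooth : StSmooth := by
  intro K j hK
  -- constants
  set H : ℝ := ∑ i ∈ Finset.range K, (2 : ℝ) ^ (K - 1 - i) with hH
  set H' : ℝ := ∑ i ∈ Finset.range (j + 1), H ^ (j + 1 - 1 - i) with hH'
  have hH0 : 0 ≤ H := Finset.sum_nonneg (fun i _ => by positivity)
  have hH'0 : 0 ≤ H' := Finset.sum_nonneg (fun i _ => by positivity)
  refine ⟨2 + 2 ^ j * H ^ (j + 1) + H' * 2 ^ j, ?_, ?_⟩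
  · have a1 : 0 ≤ 2 ^ j * H ^ (j + 1) := by positivity
    have a2 : 0 ≤ H' * 2 ^ j := by positivity
    linarith
  intro T ρ w c₀ X₀ X' M₀ r D hT hρ hr hw hc hX₀ hX' hD
  have hD0 : 0 ≤ D := (l1_nonneg _).trans hD
  have hwR : (0 : ℝ) < w := by exact_mod_cast hw
  have hcxy : Commute (LinearMap.mulLeft ℝ T : En) (LinearMap.mulRight ℝ T) := comm_xy
  set x : En := LinearMap.mulLeft ℝ T with hx
  set y : En := LinearMap.mulRight ℝ T with hy
  set V : En := Vop x y w with hV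
  set a : En := x ^ w with ha
  set b : En := a - V with hb
  have cxV : Commute x V := Vop_comm_x hcxy w
  have cyV : Commute y V := Vop_comm_y hcxy w
  have caV : Commute a V := cxV.pow_left w
  have cxa : Commute x a := (Commute.refl x).pow_right w
  have cya : Commute y a := hcxy.symm.pow_right w
  have cxb : Commute x b := cxa.sub_right cxV
  have cyb : Commute y b := cya.sub_right cyV
  have cab : Commute a b := (Commute.refl a).sub_right caV
  have cVb : Commute V b := caV.symm.sub_right (Commute.refl V)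
  -- the quotient operators
  set h : En := ∑ i ∈ Finset.range K, a ^ i * b ^ (K - 1 - i) with hh
  have hcomm_of : ∀ z : En, Commute z a → Commute z b → Commute z h := by
    intro z hza hzb
    refine Commute.sum_right _ _ _ (fun i _ => ?_)
    exact Commute.mul_right (hza.pow_right _) (hzb.pow_right _)
  have cVh : Commute V h := hcomm_of V caV.symm cVb
  have cxh : Commute x h := hcomm_of x cxa cxb
  have cyh : Commute y h := hcomm_of y cya cyb
  have cah : Commute a h := hcomm_of a (Commute.refl a) cab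
  have cbh : Commute b h := hcomm_of b cab.symm (Commute.refl b)
  have id1 : V * h = a ^ K - b ^ K := by
    have := cab.mul_geom_sum₂ K
    rw [show a - b = V by rw [hb]; abel] at this
    exact this
  set h' : En := ∑ i ∈ Finset.range (j + 1), (a ^ K) ^ i * (V * h) ^ (j + 1 - 1 - i) with hh'
  have id2 : (b ^ K) * h' = (a ^ K) ^ (j + 1) - (V * h) ^ (j + 1) := by
    have hcm : Commute (a ^ K) (V * h) := (caV.mul_right cah).pow_left K
    have := hcm.mul_geom_sum₂ (j + 1)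
    rw [show a ^ K - V * h = b ^ K by rw [id1]; abel] at this
    exact this
  -- the difference operator
  set δ : En := x - y with hδ
  have cδV : Commute δ V := cxV.sub_left cyV
  have cδh : Commute δ h := cxh.sub_left cyh
  have id3 : δ * V = (1 / (w : ℝ)) • ((x ^ w - y ^ w) * y) := Vop_diff hcxy w
  have id4 : (V * h) ^ (j + 1) * δ ^ j = (δ * V) ^ j * h ^ (j + 1) * V := by
    rw [cVh.mul_pow, cδV.mul_pow]
    have e1 : Commute (h ^ (j + 1)) (δ ^ j) := (cδh.symm).pow_pow _ _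
    have e2 : Commute (V ^ (j + 1)) (δ ^ j) := (cδV.symm).pow_pow _ _
    have e3 : Commute V (h ^ (j + 1)) := cVh.pow_right _
    calc V ^ (j + 1) * h ^ (j + 1) * δ ^ j
        = V ^ (j + 1) * (h ^ (j + 1) * δ ^ j) := by rw [mul_assoc]
      _ = V ^ (j + 1) * δ ^ j * h ^ (j + 1) := by rw [e1.eq, mul_assoc]
      _ = δ ^ j * V ^ j * V * h ^ (j + 1) := by rw [e2.eq, pow_succ V, ← mul_assoc]
      _ = δ ^ j * V ^ j * h ^ (j + 1) * V := by
          rw [mul_assoc _ V, e3.eq, ← mul_assoc]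
  -- operator bounds
  have bx := OpB_x hT
  have by_ := OpB_y hT
  have bV : OpB T V w 1 := OpB_V hT hw
  have ba : OpB T a w 1 := by
    have := OpB_pow bx w
    rwa [one_mul, one_pow] at this
  have bb : OpB T b w 2 := by
    have := OpB_sub hT ba bV
    rw [show (1 : ℝ) + 1 = 2 by norm_num] at this
    exact this
  have bh : OpB T h (w * (K - 1)) H := by
    refine OpB_sum hT _ (fun i hi => ?_)
    rw [Finset.mem_range] at hi
    have h1 := OpB_mul (OpB_pow ba i) (OpB_pow bb (K - 1 - i))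
    rw [one_pow, one_mul, ← mul_add, show K - 1 - i + i = K - 1 by omega] at h1
    exact h1
  have bδV : OpB T (δ * V) (1 + w) (2 / w) := by
    rw [id3]
    have h1 : OpB T (x ^ w - y ^ w) w 2 := by
      have h2 := OpB_pow bx w
      have h3 := OpB_pow by_ w
      rw [one_mul, one_pow] at h2 h3
      have := OpB_sub hT h2 h3
      rw [show (1 : ℝ) + 1 = 2 by norm_num] at this
      exact this
    have h4 := OpB_smul (OpB_mul h1 by_) (a := 1 / (w : ℝ)) (by positivity)
    refine OpB_mono h4 (le_of_eq ?_)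
    ring
  have hVρ : L2 (V ρ) (T ^ (w + 1)) (Real.sqrt (1 / w) * r) := L2_V hT hρ hr hw
  -- the good part
  set N : ℕ := K * ((j + 1) * w) with hN
  obtain ⟨e, he⟩ := Nat.exists_eq_add_of_le hc
  have hgood : L2 ((x ^ e * ((δ * V) ^ j * h ^ (j + 1))) (V ρ)) (T ^ (c₀ + j + 1))
      ((2 / w) ^ j * H ^ (j + 1) * (Real.sqrt (1 / w) * r)) := by
    have h1 := OpB_mul (OpB_pow bx e) (OpB_mul (OpB_pow bδV j) (OpB_pow bh (j + 1)))
    have h2 := h1 (V ρ) (w + 1) _ hVρ
    rw [one_pow, one_mul, one_mul] at h2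
    have e1 : w + 1 + (w * (K - 1) * (j + 1) + (1 + w) * j + e) = c₀ + j + 1 := by
      obtain ⟨K', rfl⟩ : ∃ K', K = K' + 1 := ⟨K - 1, by omega⟩
      rw [he, hN, Nat.add_sub_cancel]
      ring
    rw [e1] at h2
    exact h2
  -- l1 bounds
  have lx := OpL_x hT
  have ly := OpL_y hT
  have lδ : OpL (δ ^ j) (2 ^ j) := by
    have := OpL_sub lx ly
    rw [show (1 : ℝ) + 1 = 2 by norm_num] at this
    exact OpL_pow this j
  have la : OpL a 1 := by
    have := OpL_pow lx w
    rwa [one_pow] at this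
  have lV : OpL V 1 := by
    have h1 : OpL (∑ i ∈ Finset.range w, x ^ i * y ^ (w - 1 - i))
        (∑ _i ∈ Finset.range w, (1 : ℝ)) := by
      refine OpL_sum _ (fun i _ => ?_)
      have := OpL_mul (OpL_pow lx i) (OpL_pow ly (w - 1 - i))
      rwa [one_pow, one_pow, one_mul] at this
    have h2 := OpL_smul (OpL_mul h1 ly) (a := 1 / (w : ℝ)) (by positivity)
    refine OpL_mono h2 ?_
    rw [Finset.sum_const, Finset.card_range, nsmul_eq_mul]
    field_simp
    exact le_refl _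
  have lb : OpL b 2 := by
    have := OpL_sub la lV
    rwa [show (1 : ℝ) + 1 = 2 by norm_num] at this
  have lh : OpL h H := by
    refine OpL_sum _ (fun i _ => ?_)
    have h1 := OpL_mul (OpL_pow la i) (OpL_pow lb (K - 1 - i))
    rwa [one_pow, one_mul] at h1
  have lh' : OpL h' H' := by
    refine OpL_sum _ (fun i _ => ?_)
    have h1 := OpL_mul (OpL_pow (OpL_pow la K) i) (OpL_pow (OpL_mul lV lh) (j + 1 - 1 - i))
    rwa [one_pow, one_pow, one_mul, one_mul] at h1
  have lcompl : OpL (x ^ M₀ * y ^ M₀ * b) (2 * w * D) := OpL_compl hT hD hw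
  -- decomposition
  have hdd : dd T (List.replicate j 1) ρ = (δ ^ j) ρ := dd_replicate ρ j
  have hxN : x ^ N = (a ^ K) ^ (j + 1) := by
    rw [ha, ← pow_mul, ← pow_mul]
    congr 1
    rw [hN]; ring
  have hdec : x ^ c₀ * δ ^ j = x ^ e * ((δ * V) ^ j * h ^ (j + 1)) * V +
      x ^ e * (b ^ K * h' * δ ^ j) := by
    rw [he, pow_add, (Commute.pow_pow_self x N e).eq, hxN, mul_assoc, mul_assoc, ← mul_add]
    congr 1
    rw [← id4, id2, sub_mul]
    abel
  refine ⟨(x ^ e * ((δ * V) ^ j * h ^ (j + 1))) (V ρ),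
    T ^ X₀ * ((x ^ e * (b ^ K * h' * δ ^ j)) ρ) * T ^ X', ?_, ?_, ?_, ?_⟩
  · have e1 : T ^ c₀ * dd T (List.replicate j 1) ρ = (x ^ c₀ * δ ^ j) ρ := by
      rw [hdd, Module.End.mul_apply, hx, LinearMap.pow_mulLeft, LinearMap.mulLeft_apply]
    rw [pow_add, mul_assoc (T ^ X₀), e1, hdec, LinearMap.add_apply, mul_add, add_mul]
    rw [Module.End.mul_apply (x ^ e * ((δ * V) ^ j * h ^ (j + 1))) V]
  · -- mass
    have mx : OpM x := OpM_x
    have my : OpM y := OpM_y
    have mV : OpM V := by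
      refine OpM_smul (OpM_mul (OpM_sum _ (fun i _ => ?_)) my) _
      exact OpM_mul (OpM_pow mx _) (OpM_pow my _)
    have ma : OpM a := OpM_pow mx _
    have mb : OpM b := OpM_sub ma mV
    have mh : OpM h := OpM_sum _ (fun i _ => OpM_mul (OpM_pow ma _) (OpM_pow mb _))
    exact OpM_mul (OpM_pow mx e) (OpM_mul (OpM_pow (OpM_mul (OpM_sub mx my) mV) j)
      (OpM_pow mh _)) _ (mV ρ hρ)
  · refine L2_mono hgood ?_
    have hwj : 0 < (w : ℝ) ^ j := by positivity
    have hsw : 0 < Real.sqrt w := Real.sqrt_pos.mpr hwR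
    rw [Real.sqrt_div zero_le_one, Real.sqrt_one, div_pow]
    have hr0 : 0 ≤ r := hr.1
    have e1 : 2 ^ j / (w : ℝ) ^ j * H ^ (j + 1) * (1 / Real.sqrt w * r) =
        (2 ^ j * H ^ (j + 1)) / ((w : ℝ) ^ j * Real.sqrt w) * r := by
      field_simp
    rw [e1]
    refine mul_le_mul_of_nonneg_right ?_ hr0
    refine div_le_div_of_nonneg_right ?_ (by positivity)
    have a2 : 0 ≤ H' * 2 ^ j := by positivity
    linarith
  · -- residual
    obtain ⟨p, hp⟩ := Nat.exists_eq_add_of_le hX₀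
    obtain ⟨p', hp'⟩ := Nat.exists_eq_add_of_le hX'
    have hcb : Commute (x ^ M₀ * y ^ M₀) b :=
      Commute.mul_left (cxb.pow_left _) (cyb.pow_left _)
    have e1 : T ^ X₀ * ((x ^ e * (b ^ K * h' * δ ^ j)) ρ) * T ^ X' =
        (x ^ (p + e) * y ^ p' * ((x ^ M₀ * y ^ M₀ * b) ^ K * (h' * δ ^ j))) ρ := by
      have e2 : T ^ X₀ * ((x ^ e * (b ^ K * h' * δ ^ j)) ρ) * T ^ X' =
          (x ^ X₀ * y ^ X' * (x ^ e * (b ^ K * h' * δ ^ j))) ρ := by
        rw [Module.End.mul_apply (x ^ X₀ * y ^ X') (x ^ e * (b ^ K * h' * δ ^ j)),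
          Module.End.mul_apply (x ^ X₀) (y ^ X')]
        generalize (x ^ e * (b ^ K * h' * δ ^ j)) ρ = Q
        rw [hx, hy, LinearMap.pow_mulLeft, LinearMap.pow_mulRight, LinearMap.mulLeft_apply,
          LinearMap.mulRight_apply, mul_assoc]
      rw [e2]
      congr 1
      rw [hcb.mul_pow, (hcxy.pow_pow M₀ M₀).mul_pow, ← pow_mul, ← pow_mul, hp, hp']
      have c1 : Commute (x ^ (M₀ * K)) (y ^ p') := hcxy.pow_pow _ _
      have c2 : Commute (y ^ (K * M₀ + p')) (x ^ e) := hcxy.symm.pow_pow _ _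
      calc x ^ (K * M₀ + p) * y ^ (K * M₀ + p') * (x ^ e * (b ^ K * h' * δ ^ j))
          = x ^ (K * M₀ + p) * (y ^ (K * M₀ + p') * x ^ e) * (b ^ K * h' * δ ^ j) := by
            simp only [mul_assoc]
        _ = x ^ (K * M₀ + p) * x ^ e * y ^ (K * M₀ + p') * (b ^ K * h' * δ ^ j) := by
            rw [c2.eq]; simp only [mul_assoc]
        _ = x ^ (p + e) * x ^ (M₀ * K) * y ^ p' * y ^ (M₀ * K) * (b ^ K * h' * δ ^ j) := by
            rw [← pow_add x, ← pow_add x, mul_assoc _ (y ^ p'), ← pow_add y]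
            congr 3 <;> ring
        _ = _ := by
            rw [mul_assoc (x ^ (p + e)), c1.eq]
            simp only [mul_assoc]
    rw [e1]
    have h1 := OpL_mul (OpL_mul (OpL_pow lx (p + e)) (OpL_pow ly p'))
      (OpL_mul (OpL_pow lcompl K) (OpL_mul lh' lδ))
    refine (h1.2 ρ).trans ?_
    refine mul_le_mul_of_nonneg_right ?_ (l1_nonneg _)
    rw [one_pow, one_pow, one_mul, one_mul]
    have a1 : 0 ≤ 2 ^ j * H ^ (j + 1) := by positivity
    have a2 : 0 ≤ H' * 2 ^ j := by positivity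
    set C₁ := 2 + 2 ^ j * H ^ (j + 1) + H' * 2 ^ j with hC₁
    have a3 : 2 * (w : ℝ) * D ≤ C₁ * w * D := by
      refine mul_le_mul_of_nonneg_right ?_ hD0
      refine mul_le_mul_of_nonneg_right ?_ hwR.le
      linarith
    have a4 : (2 * (w : ℝ) * D) ^ K ≤ (C₁ * w * D) ^ K := pow_le_pow_left₀ (by positivity) a3 K
    rw [mul_comm]
    exact mul_le_mul (by linarith) a4 (by positivity) (by linarith)

end Vale.P321S
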