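import Vale.Agent.P321S.BasicL2
import Vale.Agent.P321S.Words

/-! # P321: from one level to the next (module STEP) -/

namespace Vale.P321S

open scoped BigOperators

theorem L2_val {Δ Y : Alg} {a : ℝ} (hY : Pr Y) (h : L2 Δ Y a) (u : List Bool) :
    L2 (val u Δ Y) (Y ^ u.length) (a ^ (u.count true)) := by
  induction u with
  | nil =>
    rw [val_nil, List.length_nil, pow_zero, List.count_nil, pow_zero]
    exact L2_self Pr_one
  | cons b u ih =>
    rw [List.length_cons, pow_succ']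
    cases b
    · rw [val_false]
      have := L2_mul hY.1 (Nn_pow hY.1 u.length) (L2_self hY) ih
      rw [one_mul] at this
      simpa using this
    · rw [val_true]
      have := L2_mul hY.1 (Nn_pow hY.1 u.length) h ih
      have e : (true :: u).count true = u.count true + 1 := by simp
      rw [e, pow_succ']
      exact this

theorem L2_words {Δ Y G : Alg} (hG : Nn G) {s : ℝ} (us : List (List Bool))
    (h : ∀ u ∈ us, L2 (val u Δ Y) G s) :
    L2 ((us.map (fun u => val u Δ Y)).sum) G (us.length * s) := by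
  induction us with
  | nil => simpa using L2_zero G
  | cons u us ih =>
    rw [List.map_cons, List.sum_cons, List.length_cons]
    have h1 := h u (by simp)
    have h2 := ih (fun v hv => h v (by simp [hv]))
    have := L2_add hG h1 h2
    refine L2_mono this (le_of_eq ?_)
    push_cast; ring

theorem Dec_words {Δ Y G A B : Alg} (hG : Nn G) {s τ : ℝ} (us : List (List Bool))
    (h : ∀ u ∈ us, Dec (A * val u Δ Y * B) G s τ) :
    Dec (A * (us.map (fun u => val u Δ Y)).sum * B) G (us.length * s) (us.length * τ) := by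
  induction us with
  | nil => simpa using Dec_zero G
  | cons u us ih =>
    rw [List.map_cons, List.sum_cons, List.length_cons, mul_add, add_mul]
    have h1 := h u (by simp)
    have h2 := ih (fun v hv => h v (by simp [hv]))
    have := Dec_add hG h1 h2
    refine Dec_mono this (le_of_eq ?_) (le_of_eq ?_)
    · push_cast; ring
    · push_cast; ring

/-- all words between two seas -/
theorem Dec_Sk {Δ Y G A B : Alg} (hG : Nn G) {s τ : ℝ} (hs : 0 ≤ s) (hτ : 0 ≤ τ) {n : ℕ}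
    (k : ℕ) (l : List Bool) (hl : l.length = n)
    (h : ∀ u : List Bool, u.length = n → k ≤ u.count true → Dec (A * val u Δ Y * B) G s τ) :
    Dec (A * Sk k l Δ Y * B) G (2 ^ n * s) (2 ^ n * τ) := by
  have h1 : ((subk k l).length : ℝ) ≤ 2 ^ n := by
    have := subk_length_le k l
    rw [hl] at this
    exact_mod_cast this
  refine Dec_mono (Dec_words hG (subk k l) ?_) (mul_le_mul_of_nonneg_right h1 hs)
    (mul_le_mul_of_nonneg_right h1 hτ)
  intro u hu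
  obtain ⟨h2, h3⟩ := subk_mem k l u hu
  exact h u (h2.trans hl) h3

theorem L2_Sk {Δ Y : Alg} {a : ℝ} (hY : Pr Y) {s : ℝ} (hs : 0 ≤ s) {n : ℕ}
    (h : L2 Δ Y a) (k : ℕ) (l : List Bool) (hl : l.length = n)
    (hbd : ∀ j : ℕ, k ≤ j → j ≤ n → a ^ j ≤ s) :
    L2 (Sk k l Δ Y) (Y ^ n) (2 ^ n * s) := by
  have h1 : ((subk k l).length : ℝ) ≤ 2 ^ n := by
    have := subk_length_le k l
    rw [hl] at this
    exact_mod_cast this
  refine L2_mono (L2_words (Nn_pow hY.1 n) (subk k l) ?_) (mul_le_mul_of_nonneg_right h1 hs)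
  intro u hu
  obtain ⟨h2, h3⟩ := subk_mem k l u hu
  have h4 : u.length = n := h2.trans hl
  have h5 : u.count true ≤ n := h4 ▸ List.count_le_length
  have := L2_val hY h u
  rw [h4] at this
  exact L2_mono this (hbd _ h3 h5)

/-- the bound of the iterated difference between two seas -/
theorem l1_dd_pows (hDD : StDD) {T Q : Alg} {K k N' ν : ℕ} {C₀ : ℝ} (hT : Pr T) (hK : 1 ≤ K)
    (hC₀ : 0 ≤ C₀) (hmix : Mix T k C₀) (hk : 1 ≤ k) (hN' : N' = ν * k) (hν : K ≤ ν) (hQ : l1 Q ≤ 1) :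
    l1 (T ^ N' * dd T (pows K) Q * T ^ N')
      ≤ ((2 ^ (K + 2) * K * C₀) / Real.sqrt ν) ^ K := by
  set M₀ := N' / K with hM₀
  have hNK : K ≤ N' := by
    rw [hN']
    calc K ≤ ν := hν
      _ = ν * 1 := (mul_one _).symm
      _ ≤ ν * k := Nat.mul_le_mul_left _ hk
  have hM₀1 : 1 ≤ M₀ := by
    rw [hM₀]
    exact (Nat.one_le_div_iff (by omega)).mpr hNK
  have hKM : K * M₀ ≤ N' := Nat.mul_div_le N' K
  have hlt : N' < K * (M₀ + 1) := by
    have := Nat.lt_mul_div_succ N' (show 0 < K by omega)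
    exact this
  have hνpos : (0 : ℝ) < ν := by
    have : 1 ≤ ν := hK.trans hν
    exact_mod_cast this
  have hkpos : (0 : ℝ) < k := by exact_mod_cast hk
  have hKpos : (0 : ℝ) < K := by exact_mod_cast hK
  have hM₀pos : (0 : ℝ) < M₀ := by exact_mod_cast hM₀1
  have hratio : (k : ℝ) / M₀ ≤ (2 * K) / ν := by
    rw [div_le_div_iff₀ hM₀pos hνpos]
    have h2 : N' ≤ K * (2 * M₀) := by
      calc N' ≤ K * (M₀ + 1) := hlt.le
        _ ≤ K * (2 * M₀) := Nat.mul_le_mul_left _ (by omega)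
    have h3 : (N' : ℝ) ≤ K * (2 * M₀) := by exact_mod_cast h2
    rw [hN'] at h3
    push_cast at h3
    nlinarith
  have hD : l1 (T ^ M₀ - T ^ (M₀ + 1)) ≤ C₀ * (2 * K / Real.sqrt ν) := by
    refine (hmix M₀ hM₀1).trans (mul_le_mul_of_nonneg_left ?_ hC₀)
    calc Real.sqrt ((k : ℝ) / M₀) ≤ Real.sqrt ((2 * K) / ν) := Real.sqrt_le_sqrt hratio
      _ ≤ 2 * K / Real.sqrt ν := by
          rw [Real.sqrt_div (by positivity)]
          apply div_le_div_of_nonneg_right _ (Real.sqrt_nonneg _)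
          rw [Real.sqrt_le_left (by positivity)]
          have : (1 : ℝ) ≤ 2 * K := by
            have : (1 : ℝ) ≤ K := by exact_mod_cast hK
            linarith
          nlinarith
  have hlen : (pows K).length = K := pows_length K
  have hmain := hDD T Q (pows K) (2 ^ K) M₀ N' N' (C₀ * (2 * K / Real.sqrt ν)) hT
    (pows_le K) hD (by rw [hlen]; exact hKM) (by rw [hlen]; exact hKM)
  rw [hlen] at hmain
  refine hmain.trans ?_
  have e : 2 * (((2 ^ K : ℕ) : ℝ) * (C₀ * (2 * K / Real.sqrt ν)))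
      = (2 ^ (K + 2) * K * C₀) / Real.sqrt ν := by
    push_cast
    ring
  rw [e]
  have hpos : 0 ≤ ((2 ^ (K + 2) * K * C₀) / Real.sqrt ν) ^ K := by positivity
  calc ((2 ^ (K + 2) * K * C₀) / Real.sqrt ν) ^ K * l1 Q
      ≤ ((2 ^ (K + 2) * K * C₀) / Real.sqrt ν) ^ K * 1 := mul_le_mul_of_nonneg_left hQ hpos
    _ = _ := mul_one _

theorem num_a {B Cm C₁ z : ℝ} (hB : 1 ≤ B) (hCm : 1 ≤ Cm) (ha : 4 * B * Cm ≤ C₁) (hz : 0 ≤ z) :
    B * (Cm * z) + B * (Cm * z) ≤ C₁ * z := by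
  have h1 : 0 ≤ B * Cm := by positivity
  have h2 : 2 * (B * Cm) * z ≤ C₁ * z := mul_le_mul_of_nonneg_right (by linarith) hz
  linarith

theorem num_a' {B Cm C₁ z : ℝ} (hB : 1 ≤ B) (hCm : 1 ≤ Cm) (ha : 4 * B * Cm ≤ C₁) (hz : 0 ≤ z) :
    B * (Cm * z) ≤ C₁ * z := by
  have h1 : 0 ≤ B * Cm := by positivity
  have h2 : 1 * (B * Cm) * z ≤ C₁ * z := mul_le_mul_of_nonneg_right (by linarith) hz
  linarith

theorem num_b {B Cm C₁ u p pm : ℝ} (hB : 1 ≤ B) (hCm : 1 ≤ Cm) (ha : 4 * B * Cm ≤ C₁)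
    (hu : 0 ≤ u) (hpm : 0 ≤ pm) (hp : pm ≤ p) :
    B * (Cm * (u + pm)) + B * (Cm * (u + pm)) ≤ C₁ * (u + p) := by
  have h1 := num_a hB hCm ha (show 0 ≤ u + pm by linarith)
  have h2 : 0 ≤ C₁ := by
    have : 0 ≤ 4 * B * Cm := by positivity
    linarith
  have h3 : C₁ * (u + pm) ≤ C₁ * (u + p) := mul_le_mul_of_nonneg_left (by linarith) h2
  linarith

theorem num_c {B Cm C₁ u p pm τ : ℝ} (hB : 1 ≤ B) (hCm : 1 ≤ Cm) (ha : 4 * B * Cm ≤ C₁)
    (hτ : 0 ≤ τ) (hu : τ ≤ u) (hpm : 0 ≤ pm) (hp : pm ≤ p) :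
    B * (Cm * (u + pm)) + B * (2 * τ) ≤ C₁ * (u + p) := by
  have hu0 : 0 ≤ u := hτ.trans hu
  have h0 : 0 ≤ B := by linarith
  have h2 : 0 ≤ C₁ := by
    have : 0 ≤ 4 * B * Cm := by positivity
    linarith
  have h3 : B * (Cm * (u + pm)) + B * (2 * τ) ≤ B * (Cm * (u + p)) + B * (2 * u) := by
    gcongr
  have h4 : B * (2 * u) ≤ 2 * (B * Cm) * (u + p) := by
    have h5 : B ≤ B * Cm := by nlinarith
    have h6 : B * (2 * u) ≤ (B * Cm) * (2 * u) := mul_le_mul_of_nonneg_right h5 (by linarith)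
    have h7 : (B * Cm) * (2 * u) ≤ (B * Cm) * (2 * (u + p)) :=
      mul_le_mul_of_nonneg_left (by linarith) (by positivity)
    linarith
  have h8 : (4 * B * Cm) * (u + p) ≤ C₁ * (u + p) := mul_le_mul_of_nonneg_right ha (by linarith)
  have h9 : 0 ≤ (B * Cm) * (u + p) := by
    have : 0 ≤ u + p := by linarith
    positivity
  linarith

theorem num_d {B C₁ u p τ x y z : ℝ} (hC : 1 ≤ C₁) (he : 4 * B ≤ C₁) (hτ : 0 ≤ τ) (hu : τ ≤ u)
    (hp : 0 ≤ p) (hx : x ≤ B * (2 * τ)) (hy : y ≤ B * (2 * τ)) (hz : z ≤ p) :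
    x + y + z ≤ C₁ * (u + p) := by
  have h4 : 4 * B * τ ≤ C₁ * u := by
    calc 4 * B * τ ≤ C₁ * τ := mul_le_mul_of_nonneg_right he hτ
      _ ≤ C₁ * u := mul_le_mul_of_nonneg_left hu (by linarith)
  have h5 : p ≤ C₁ * p := by nlinarith
  linarith

theorem num_e {Γ η : ℝ} (hΓ : 1 ≤ Γ) (hη0 : 0 ≤ η) (hη : η ≤ 1) {n j : ℕ} (hj2 : 2 ≤ j)
    (hjL : j ≤ n) : (Real.sqrt Γ * η) ^ j ≤ Γ ^ n * η ^ 2 := by
  rw [mul_pow]
  have h1 : Real.sqrt Γ ^ j ≤ Γ ^ n := by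
    have hs1 : 1 ≤ Real.sqrt Γ := by rw [Real.one_le_sqrt]; exact hΓ
    have hs2 : Real.sqrt Γ ≤ Γ := by
      rw [Real.sqrt_le_left (by linarith)]
      nlinarith
    calc Real.sqrt Γ ^ j ≤ Real.sqrt Γ ^ n := pow_le_pow_right₀ hs1 hjL
      _ ≤ Γ ^ n := pow_le_pow_left₀ (by linarith) hs2 _
  have h2 : η ^ j ≤ η ^ 2 := pow_le_pow_of_le_one hη0 hη hj2
  exact mul_le_mul h1 h2 (by positivity) (by positivity)

theorem num_f {B Γ' C₁ x : ℝ} (hB : 1 ≤ B) (hΓ : 1 ≤ Γ') (hb : 4 * B * Γ' ≤ C₁) (hx : 0 ≤ x) :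
    B * (Γ' * x) + B * (Γ' * x) ≤ C₁ * x := num_a hB hΓ hb hx

theorem sea_diff (S U U₁ V V₁ o o' Z : Alg) :
    S * U * S - S * V * S - S * ((U₁ - Z - o) - (V₁ - Z - o')) * S
      = S * (U - U₁) * S - S * (V - V₁) * S + S * (o - o') * S := by
  noncomm_ring

theorem sea_diff' (S V V₁ Z : Alg) :
    S * V * S - S * Z * S = S * (V₁ - Z) * S + S * (V - V₁) * S := by
  noncomm_ring

theorem Le_sea {S a b : Alg} (hS : Nn S) (ha : Nn a) (hb : Nn b) {c d : ℝ} (hcd : c ≤ d)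
    (h : Le a (c • b)) : Le (S * a * S) (d • (S * b * S)) := by
  have h2 : Le (S * a * S) (c • (S * b * S)) := by
    rw [← smul_mul_assoc, ← mul_smul_comm]
    exact Le_mul (Nn_mul hS ha) hS (Le_mul hS ha (Le_refl _) h) (Le_refl _)
  exact Le_smul_left (Nn_mul (Nn_mul hS hb) hS) h2 hcd

theorem stStep (hMono : StMono) (hDD : StDD) (hMS : StMixStep) : StStep := by
  intro K C₀ Γ hK hC₀ hΓ hOV
  obtain ⟨Cm, hCm1, hCm⟩ := hMono K C₀ Γ hK hC₀ hΓ
  have hL1 : 1 ≤ 2 ^ K := Nat.one_le_two_pow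
  have hB1 : (1 : ℝ) ≤ 2 ^ (2 ^ K) := one_le_pow₀ (by norm_num)
  have hΓL : (1 : ℝ) ≤ Γ ^ (2 ^ K) := one_le_pow₀ hΓ
  have hC₀0 : (0 : ℝ) ≤ C₀ := by linarith
  have hKR : (1 : ℝ) ≤ K := by exact_mod_cast hK
  have h2K : (1 : ℝ) ≤ 2 ^ (K + 2) := one_le_pow₀ (by norm_num)
  set B : ℝ := 2 ^ (2 ^ K) with hB
  have hta : 0 ≤ 4 * B * Cm := by positivity
  have htb : 0 ≤ 4 * B * Γ ^ (2 ^ K) := by positivity
  have htc : 0 ≤ 2 ^ (K + 2) * K * C₀ := by positivity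
  have htd : 0 ≤ 64 * C₀ ^ 2 := by positivity
  obtain ⟨C₁, hC₁⟩ : ∃ C₁ : ℝ, C₁ = 4 * B * Cm + 4 * B * Γ ^ (2 ^ K) + 2 ^ (K + 2) * K * C₀
      + 64 * C₀ ^ 2 := ⟨_, rfl⟩
  have ha : 4 * B * Cm ≤ C₁ := by rw [hC₁]; linarith
  have hb : 4 * B * Γ ^ (2 ^ K) ≤ C₁ := by rw [hC₁]; linarith
  have hc : 2 ^ (K + 2) * K * C₀ ≤ C₁ := by rw [hC₁]; linarith
  have hd : 64 * C₀ ^ 2 ≤ C₁ := by rw [hC₁]; linarith
  have he : 4 * B ≤ C₁ := by
    have : 4 * B * 1 ≤ 4 * B * Cm := mul_le_mul_of_nonneg_left hCm1 (by positivity)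
    linarith
  have hf : Cm ≤ C₁ := by
    have : 1 * Cm ≤ 4 * B * Cm := mul_le_mul_of_nonneg_right (by linarith) (by linarith)
    linarith
  have h1C : 1 ≤ C₁ := by linarith
  have hKC : (K : ℝ) ≤ C₁ := by
    have h1 : (1 : ℝ) * K * 1 ≤ 2 ^ (K + 2) * K * C₀ := by
      apply mul_le_mul _ (by linarith) (by norm_num) (by positivity)
      exact mul_le_mul_of_nonneg_right h2K (by positivity)
    linarith
  clear_value B
  clear hC₁
  refine ⟨C₁, h1C, ?_⟩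
  intro T X Y ρ N R kT k ν N' R' k' r η β τ r' η' β' τ' hLvl hkT hN hν hr hη hN' hR' hk'
    hβN hτN hr' hη' hβ' hτ' hkβ hkτ
  have hL := hLvl
  obtain ⟨prT, prX, prY, Req, massρ, l2ρ, dXY, dρ, dY, YX, XY, TY, YT, mixT, mixY, kbig⟩ := hLvl
  obtain ⟨Δ, f₂, hsum, hΔm, hΔ2, hf₂⟩ := dρ
  have hr0 : 0 ≤ r := l2ρ.1
  have hη0 : 0 ≤ η := hΔ2.1
  have hτ0 : 0 ≤ τ := (l1_nonneg _).trans dXY
  have hβ0 : 0 ≤ β := by
    obtain ⟨_, _, _, _, h, _⟩ := dY
    exact h.1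
  have hR1 : 1 ≤ R := by rw [Req]; omega
  have hk1 : 1 ≤ k := by
    calc 1 = 1 * 1 := rfl
      _ ≤ R * kT := Nat.mul_le_mul hR1 hkT
      _ ≤ k := kbig
  have hν1 : 1 ≤ ν := by
    have : (1 : ℝ) ≤ ν := h1C.trans hν
    exact_mod_cast this
  have hνpos : (0 : ℝ) < ν := by exact_mod_cast hν1
  have hN'1 : 1 ≤ N' := by
    rw [hN']
    calc 1 = 1 * 1 := rfl
      _ ≤ ν * k := Nat.mul_le_mul hν1 hk1
  have hN'R : (1 : ℝ) ≤ N' := by exact_mod_cast hN'1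
  have hNτ0 : 0 ≤ (N' : ℝ) * τ := by positivity
  have hτN' : τ ≤ N' * τ := by nlinarith
  have h2τ : 2 * τ ≤ 1 := by
    have h4 : 4 * (N' * τ) ≤ C₁ * (N' * τ) := mul_le_mul_of_nonneg_right (by linarith) hNτ0
    linarith
  have hΔdiff : l1 (T ^ N * ρ * T ^ N - Δ) ≤ τ := by
    have e : T ^ N * ρ * T ^ N - Δ = f₂ := by rw [hsum]; abel
    rw [e]; exact hf₂
  set X₁ : Alg := Y + Δ with hX₁
  have hXX₁ : l1 (X - X₁) ≤ 2 * τ := by
    have e : X - X₁ = (X - Y - T ^ N * ρ * T ^ N) + (T ^ N * ρ * T ^ N - Δ) := by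
      rw [hX₁]; abel
    rw [e]
    refine (l1_add _ _).trans ?_
    linarith
  have hl1X : l1 X ≤ 1 := le_of_eq (Pr_l1 prX)
  have hl1Y : l1 Y ≤ 1 := le_of_eq (Pr_l1 prY)
  have hl1X₁ : l1 X₁ ≤ 1 + 2 * τ := by
    have e : X₁ = X - (X - X₁) := by abel
    rw [e]
    refine (l1_sub _ _).trans ?_
    linarith
  have hrepl : ∀ b : Bool, l1 (val (tm K b) X Y - val (tm K b) X₁ Y) ≤ B * (2 * τ) := by
    intro b
    refine (l1_val_sub hl1X hl1X₁ hl1Y (by linarith) hXX₁ _).trans ?_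
    refine (one_add_pow_le (by linarith) h2τ _).trans (le_of_eq ?_)
    rw [tm_length, hB]
  -- the mono bound
  have hmono : ∀ (s : ℕ) (u : List Bool), 1 ≤ s → u.length = 2 ^ K → s ≤ u.count true →
      Dec (Y ^ N' * val u Δ Y * Y ^ N') (Y ^ R')
        (Cm * (Real.sqrt (1 / N) * r ^ s + Real.sqrt N' * β * η ^ s))
        (Cm * (N' * τ + (Cm / Real.sqrt ν) ^ K)) := by
    intro s u hs hu hsu
    have hCmβ : Cm * (((ν * k : ℕ) : ℝ) * β ^ 2) ≤ 1 := by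
      rw [← hN']
      have h0 : 0 ≤ (N' : ℝ) * β ^ 2 := by positivity
      exact (mul_le_mul_of_nonneg_right hf h0).trans hβN
    have hCmτ : Cm * (((ν * k : ℕ) : ℝ) * τ) ≤ 1 := by
      rw [← hN']
      exact (mul_le_mul_of_nonneg_right hf hNτ0).trans hτN
    have := hCm T Y ρ Δ N R kT k ν s r η β τ u prT prY Req massρ l2ρ hΔm hΔ2 hΔdiff dY TY YT
      mixT kbig hkT hN (hf.trans hν) hr hη hCmβ hCmτ hu hs hsu
    rw [← hN', ← hR'] at this
    exact this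
  have hpowle : (Cm / Real.sqrt ν) ^ K ≤ (C₁ / Real.sqrt ν) ^ K := by
    apply pow_le_pow_left₀ (by positivity)
    exact div_le_div_of_nonneg_right hf (Real.sqrt_nonneg _)
  have hpow0 : 0 ≤ (C₁ / Real.sqrt ν) ^ K := by positivity
  have hpowm0 : 0 ≤ (Cm / Real.sqrt ν) ^ K := by positivity
  have hYR' : Nn (Y ^ R') := Nn_pow prY.1 _
  -- the one-true part
  have hl1Δ : l1 Δ ≤ 1 := (L2_l1 (Pr_pow prT R) hΔ2).trans hη
  have hKν : K ≤ ν := by
    have : (K : ℝ) ≤ ν := hKC.trans hν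
    exact_mod_cast this
  have hone : l1 (Y ^ N' * (one1 (tm K true) Δ Y - one1 (tm K false) Δ Y) * Y ^ N')
      ≤ (C₁ / Real.sqrt ν) ^ K := by
    rw [l1_one1_tm]
    refine (l1_dd_pows hDD prY hK hC₀0 mixY hk1 hN' hKν hl1Δ).trans ?_
    apply pow_le_pow_left₀ (by positivity)
    exact div_le_div_of_nonneg_right hc (Real.sqrt_nonneg _)
  have hτ'0 : 0 ≤ τ' := by rw [hτ']; positivity
  -- abbreviations
  have hseaN : ∀ Q : Alg, l1 (Y ^ N' * Q * Y ^ N') ≤ l1 Q := fun Q =>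
    (l1_mul_pr (Pr_pow prY N')).trans (l1_pr_mul (Pr_pow prY N'))
  have prX' : Pr (Y ^ N' * val (tm K true) X Y * Y ^ N') :=
    Pr_mul (Pr_mul (Pr_pow prY N') (Pr_val prX prY _)) (Pr_pow prY N')
  have prY' : Pr (Y ^ N' * val (tm K false) X Y * Y ^ N') :=
    Pr_mul (Pr_mul (Pr_pow prY N') (Pr_val prX prY _)) (Pr_pow prY N')
  have hYRsplit : Y ^ R' = Y ^ N' * Y ^ (2 ^ K) * Y ^ N' := by
    rw [hR', ← pow_add, ← pow_add]
    congr 1
    ring
  have hΓpow : Γ ^ (2 ^ K) ≤ Γ ^ (2 ^ (K + 1)) :=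
    pow_le_pow_right₀ hΓ (Nat.pow_le_pow_right (by norm_num) (Nat.le_succ K))
  -- dY'
  have hdY : Dec (Y ^ N' * val (tm K false) X Y * Y ^ N' - Y ^ R') (Y ^ R') β' τ' := by
    have hs0 : 0 ≤ Cm * (Real.sqrt (1 / N) * r ^ 1 + Real.sqrt N' * β * η ^ 1) := by positivity
    have ht0 : 0 ≤ Cm * (N' * τ + (Cm / Real.sqrt ν) ^ K) := by positivity
    have h1 := Dec_Sk (A := Y ^ N') (B := Y ^ N') hYR' hs0 ht0 1 (tm K false) (tm_length K false)
      (fun u hu hcu => hmono 1 u (le_refl 1) hu hcu)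
    obtain ⟨g₁, g₂, hg, hg1, hg2, hg3⟩ := h1
    refine ⟨g₁, g₂ + Y ^ N' * (val (tm K false) X Y - val (tm K false) X₁ Y) * Y ^ N', ?_, hg1,
      L2_mono hg2 ?_, ?_⟩
    · rw [← add_assoc, ← hg, Sk_one, tm_length, ← hX₁, hYRsplit]
      exact sea_diff' _ _ _ _
    · rw [hβ', pow_one, pow_one, ← hB]
      exact num_a' hB1 hCm1 ha (by positivity)
    · refine (l1_add _ _).trans ?_
      have h3 := (hseaN _).trans (hrepl false)
      rw [← hB] at hg3
      rw [hτ']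
      exact (add_le_add hg3 h3).trans (num_c hB1 hCm1 ha hτ0 hτN' hpowm0 hpowle)
  -- the new feature
  refine ⟨Sk 2 (tm K true) Δ Y - Sk 2 (tm K false) Δ Y, ?_⟩
  refine
    { prT := prY
      prX := prX'
      prY := prY'
      Req := hR'
      massρ := ?_
      l2ρ := ?_
      dXY := ?_
      dρ := ?_
      dY := hdY
      YX := ?_
      XY := ?_
      TY := ?_
      YT := ?_
      mixT := mixY
      mixY := ?_
      kbig := ?_ }
  · rw [mass_sub, mass_Sk hΔm 2 (by norm_num), mass_Sk hΔm 2 (by norm_num), sub_zero]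
  · -- L2 bound
    have hΔY : L2 Δ Y (Real.sqrt Γ * η) := L2_ref (by linarith) (Nn_pow prT.1 R) prY.1 hΔ2 TY
    have hbd : ∀ j : ℕ, 2 ≤ j → j ≤ 2 ^ K → (Real.sqrt Γ * η) ^ j ≤ Γ ^ (2 ^ K) * η ^ 2 :=
      fun j hj2 hjL => num_e hΓ hη0 hη hj2 hjL
    have hs0 : 0 ≤ Γ ^ (2 ^ K) * η ^ 2 := by positivity
    have h1 := L2_Sk prY hs0 hΔY 2 (tm K true) (tm_length K true) hbd
    have h2 := L2_Sk prY hs0 hΔY 2 (tm K false) (tm_length K false) hbd
    have h3 := L2_add (Nn_pow prY.1 _) h1 (L2_neg h2)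
    rw [← sub_eq_add_neg] at h3
    refine L2_mono h3 ?_
    rw [hr', ← hB]
    exact num_f hB1 hΓL hb (by positivity)
  · -- dXY
    have e : Y ^ N' * val (tm K true) X Y * Y ^ N' - Y ^ N' * val (tm K false) X Y * Y ^ N'
        - Y ^ N' * (Sk 2 (tm K true) Δ Y - Sk 2 (tm K false) Δ Y) * Y ^ N'
        = Y ^ N' * (val (tm K true) X Y - val (tm K true) X₁ Y) * Y ^ N'
          - Y ^ N' * (val (tm K false) X Y - val (tm K false) X₁ Y) * Y ^ N'
          + Y ^ N' * (one1 (tm K true) Δ Y - one1 (tm K false) Δ Y) * Y ^ N' := by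
      rw [Sk_two, Sk_two, tm_length, tm_length, ← hX₁]
      exact sea_diff _ _ _ _ _ _ _ _
    rw [e]
    have h1 := (hseaN _).trans (hrepl true)
    have h2 := (hseaN _).trans (hrepl false)
    refine (l1_add _ _).trans ((add_le_add_left (l1_sub _ _) _).trans ?_)
    rw [hτ']
    exact num_d h1C he hτ0 hτN' hpow0 h1 h2 hone
  · -- dρ
    have hs0 : 0 ≤ Cm * (Real.sqrt (1 / N) * r ^ 2 + Real.sqrt N' * β * η ^ 2) := by positivity
    have ht0 : 0 ≤ Cm * (N' * τ + (Cm / Real.sqrt ν) ^ K) := by positivity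
    have h1 := Dec_Sk (A := Y ^ N') (B := Y ^ N') hYR' hs0 ht0 2 (tm K true) (tm_length K true)
      (fun u hu hcu => hmono 2 u (by norm_num) hu hcu)
    have h2 := Dec_Sk (A := Y ^ N') (B := Y ^ N') hYR' hs0 ht0 2 (tm K false)
      (tm_length K false) (fun u hu hcu => hmono 2 u (by norm_num) hu hcu)
    have h2' := Dec_smul h2 (-1)
    rw [neg_one_smul, abs_neg, abs_one, one_mul, one_mul] at h2'
    have h3 := Dec_add hYR' h1 h2'
    have e : Y ^ N' * Sk 2 (tm K true) Δ Y * Y ^ N' + -(Y ^ N' * Sk 2 (tm K false) Δ Y * Y ^ N')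
        = Y ^ N' * (Sk 2 (tm K true) Δ Y - Sk 2 (tm K false) Δ Y) * Y ^ N' := by
      rw [mul_sub, sub_mul, sub_eq_add_neg]
    rw [e] at h3
    refine Dec_mono h3 ?_ ?_
    · rw [hη', ← hB]
      exact num_a hB1 hCm1 ha (by positivity)
    · rw [hτ', ← hB]
      exact num_b hB1 hCm1 ha hNτ0 hpowm0 hpowle
  · -- YX
    have h1 := Le_val prX.1 prY.1 hΓ XY YX (tm K false) (tm K true)
      (by rw [tm_length, tm_length])
    rw [tm_length] at h1
    exact Le_sea (Nn_pow prY.1 _) (Nn_val prX.1 prY.1 _) (Nn_val prX.1 prY.1 _) hΓpow h1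
  · -- XY
    have h1 := Le_val prX.1 prY.1 hΓ XY YX (tm K true) (tm K false)
      (by rw [tm_length, tm_length])
    rw [tm_length] at h1
    exact Le_sea (Nn_pow prY.1 _) (Nn_val prX.1 prY.1 _) (Nn_val prX.1 prY.1 _) hΓpow h1
  · -- TY
    have h1 := Le_val prX.1 prY.1 hΓ XY YX (List.replicate (2 ^ K) false) (tm K false)
      (by rw [tm_length, List.length_replicate])
    rw [val_replicate_false, List.length_replicate] at h1
    rw [hYRsplit]
    exact Le_sea (Nn_pow prY.1 _) (Nn_pow prY.1 _) (Nn_val prX.1 prY.1 _) hΓpow h1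
  · -- YT
    have h1 := Le_val prX.1 prY.1 hΓ XY YX (tm K false) (List.replicate (2 ^ K) false)
      (by rw [tm_length, List.length_replicate])
    rw [val_replicate_false, tm_length] at h1
    rw [hYRsplit]
    exact Le_sea (Nn_pow prY.1 _) (Nn_val prX.1 prY.1 _) (Nn_pow prY.1 _) hΓpow h1
  · -- mixY
    have hR'1 : 1 ≤ R' := by rw [hR']; omega
    have hk'1 : 1 ≤ k' := by
      rw [hk']
      calc 1 = 1 * (1 * 1) := rfl
        _ ≤ ν * (R' * k) := Nat.mul_le_mul hν1 (Nat.mul_le_mul hR'1 hk1)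
    refine hOV _ k' prY' hk'1 ?_
    refine hMS Y _ R' k k' C₀ β' τ' prY prY' hC₀ hR'1 hk1 hτ'0 mixY hdY ?_ hkβ hkτ
    rw [hk']
    push_cast
    have h1 : 0 ≤ (R' : ℝ) * k := by positivity
    exact mul_le_mul_of_nonneg_right (hd.trans hν) h1
  · -- kbig
    rw [hk']
    calc R' * k = 1 * (R' * k) := (one_mul _).symm
      _ ≤ ν * (R' * k) := Nat.mul_le_mul_right _ hν1

end Vale.P321S
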