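import Vale.Agent.P321S.BasicL2

/-! # P321: comparison of `T^(R M)` and `Y^M` (module TM, section 5 of the plan) -/

namespace Vale.P321S

open scoped BigOperators

namespace TM

theorem l1_pow_sub_pow {a b : Alg} {x τ : ℝ} (hτ : 0 ≤ τ) (ha : l1 a ≤ 1) (hb : l1 b ≤ 1 + τ)
    (hx : l1 (a - b) ≤ x) (M : ℕ) : l1 (a ^ M - b ^ M) ≤ M * (1 + τ) ^ M * x := by
  have hx0 : 0 ≤ x := (l1_nonneg _).trans hx
  induction M with
  | zero => simp [l1_zero]
  | succ M ih =>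
    have e : a ^ (M + 1) - b ^ (M + 1) = a * (a ^ M - b ^ M) + (a - b) * b ^ M := by
      rw [pow_succ' a, pow_succ' b]; noncomm_ring
    rw [e]
    refine (l1_add _ _).trans ?_
    have h1 : l1 (a * (a ^ M - b ^ M)) ≤ M * (1 + τ) ^ M * x := by
      refine (l1_mul _ _).trans ?_
      calc l1 a * l1 (a ^ M - b ^ M) ≤ 1 * (M * (1 + τ) ^ M * x) :=
            mul_le_mul ha ih (l1_nonneg _) zero_le_one
        _ = _ := one_mul _
    have h2 : l1 ((a - b) * b ^ M) ≤ (1 + τ) ^ M * x := by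
      refine (l1_mul _ _).trans ?_
      calc l1 (a - b) * l1 (b ^ M) ≤ x * (1 + τ) ^ M :=
            mul_le_mul hx (l1_pow_le hb M) (l1_nonneg _) hx0
        _ = _ := mul_comm _ _
    have h3 : (1 + τ) ^ M ≤ (1 + τ) ^ (M + 1) := pow_le_pow_right₀ (by linarith) (by omega)
    have h4 : (M * (1 + τ) ^ M + (1 + τ) ^ M) * x ≤ ((M + 1 : ℕ) * (1 + τ) ^ (M + 1)) * x := by
      refine mul_le_mul_of_nonneg_right ?_ hx0
      push_cast
      have hM : (0 : ℝ) ≤ M := Nat.cast_nonneg M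
      nlinarith
    linarith

theorem one_add_pow_le {x : ℝ} (hx : 0 ≤ x) (M : ℕ) (h : (M : ℝ) * x ≤ 1) :
    (1 + x) ^ M ≤ 1 + 2 * (M * x) := by
  have h0 : 0 ≤ (M : ℝ) * x := by positivity
  have h1 : (1 + x) ^ M ≤ Real.exp (M * x) := by
    rw [Real.exp_nat_mul]
    refine pow_le_pow_left₀ (by linarith) ?_ M
    linarith [Real.add_one_le_exp x]
  have h2 := Real.abs_exp_sub_one_sub_id_le (x := (M : ℝ) * x) (by rw [abs_of_nonneg h0]; exact h)
  have h3 := (abs_le.mp h2).2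
  nlinarith

/-- common core: `Y = S + b + t`, `(S+b)^M` close to `S^M` -/
theorem l2_part {S b : Alg} {β : ℝ} (hS : Pr S) (hb : mass b = 0) (h : L2 b S β) {M : ℕ}
    (hM : (M : ℝ) * β ^ 2 ≤ 1) :
    L2 ((S + b) ^ M - S ^ M) (S ^ M) (2 * Real.sqrt (M * β ^ 2)) := by
  refine L2_mono (L2_pow_sub hS hb h M) ?_
  have h1 := one_add_pow_le (sq_nonneg β) M hM
  have h2 : 2 * Real.sqrt (M * β ^ 2) = Real.sqrt (4 * (M * β ^ 2)) := by
    have h4 : Real.sqrt 4 = 2 := by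
      rw [show (4 : ℝ) = 2 ^ 2 by norm_num, Real.sqrt_sq (by norm_num)]
    rw [Real.sqrt_mul (by norm_num : (0 : ℝ) ≤ 4), h4]
  rw [h2]
  apply Real.sqrt_le_sqrt
  have h3 : 0 ≤ (M : ℝ) * β ^ 2 := by positivity
  linarith

theorem tiny_part {S b t : Alg} {τ : ℝ} (hτ : 0 ≤ τ) {M : ℕ}
    (hM : (M : ℝ) * τ ≤ 1) (h1 : Pr S) (h2 : S - b = t) (h3 : l1 t ≤ τ) :
    l1 (S ^ M - b ^ M) ≤ 3 * M * τ := by
  have hb : l1 b ≤ 1 + τ := by
    have e : b = S - t := by rw [← h2]; abel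
    rw [e]
    refine (l1_sub _ _).trans ?_
    rw [Pr_l1 h1]
    linarith
  have h2' : l1 (S - b) ≤ τ := by rw [h2]; exact h3
  refine (l1_pow_sub_pow hτ (le_of_eq (Pr_l1 h1)) hb h2' M).trans ?_
  have h4 := one_add_pow_le hτ M hM
  have h5 : (1 + τ) ^ M ≤ 3 := by linarith
  have h6 : 0 ≤ (M : ℝ) * τ := by positivity
  have h7 := mul_le_mul_of_nonneg_left h5 h6
  linarith

end TM

theorem stTM : StTM := by
  intro T Y R M Γ β τ hT hY hΓ hτ hdec hTY hM1 hM2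
  obtain ⟨b, t, e, hb, hbL, ht⟩ := hdec
  have hβ0 : 0 ≤ β := hbL.1
  have hbY : L2 (-b) Y (Real.sqrt Γ * β) :=
    L2_neg (L2_ref (by linarith) (Pr_pow hT R).1 hY.1 hbL hTY)
  have hsq : (Real.sqrt Γ * β) ^ 2 = Γ * β ^ 2 := by
    rw [mul_pow, Real.sq_sqrt (by linarith)]
  have hb' : mass (-b) = 0 := by rw [mass_neg, hb, neg_zero]
  have h1 := TM.l2_part hY hb' hbY (M := M) (by rw [hsq]; exact hM1)
  have e2 : T ^ R - (Y + -b) = -t := by
    have : T ^ R = Y - (b + t) := by rw [← e]; abel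
    rw [this]; abel
  refine ⟨(Y + -b) ^ M - Y ^ M, T ^ (R * M) - (Y + -b) ^ M, ?_, ?_, ?_, ?_⟩
  · abel
  · rw [mass_sub, mass_pow, mass_pow, mass_add, hb', add_zero, sub_self]
  · refine L2_mono h1 ?_
    rw [hsq, show (M : ℝ) * (Γ * β ^ 2) = M * Γ * β ^ 2 by ring,
      Real.sqrt_mul (by positivity), Real.sqrt_sq hβ0, ← mul_assoc]
  · rw [pow_mul]
    exact TM.tiny_part hτ hM2 (Pr_pow hT R) e2 (by rw [l1_neg]; exact ht)

theorem stMixStep : StMixStep := by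
  intro T Y R kT k C₀ β τ hT hY hC₀ hR hkT hτ hmix hdec hk hβ hτk
  have hRr : (1 : ℝ) ≤ R := by exact_mod_cast hR
  have hkTr : (1 : ℝ) ≤ kT := by exact_mod_cast hkT
  have hRk1 : (1 : ℝ) ≤ R * kT := by nlinarith
  have hk256 : (256 : ℝ) ≤ k := by nlinarith
  have hk1 : 1 ≤ k := by
    have : (1 : ℝ) ≤ k := by linarith
    exact_mod_cast this
  have hl : l1 (Y - T ^ R) ≤ β + τ := Dec_l1 (Pr_pow hT R) hdec
  obtain ⟨b, t, e, hb, hbL, ht⟩ := hdec
  have hβ0 : 0 ≤ β := hbL.1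
  have hS : Pr (T ^ R) := Pr_pow hT R
  -- γ
  have g1 := TM.l2_part hS hb hbL (M := k) (by linarith)
  have g1' : l1 ((T ^ R + b) ^ k - (T ^ R) ^ k) ≤ 1 / 10 := by
    refine (L2_l1 (Pr_pow hS k) g1).trans ?_
    have : Real.sqrt (k * β ^ 2) ≤ 1 / 20 := by
      rw [Real.sqrt_le_left (by norm_num)]
      linarith
    linarith
  have e2 : Y - (T ^ R + b) = t := by
    have : Y = T ^ R + (b + t) := by rw [← e]; abel
    rw [this]; abel
  have g2 := TM.tiny_part hτ (M := k) (by linarith) hY e2 ht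
  have g3 : l1 (Y ^ k - (T ^ R) ^ k) ≤ 13 / 100 := by
    have e3 : Y ^ k - (T ^ R) ^ k = (Y ^ k - (T ^ R + b) ^ k) + ((T ^ R + b) ^ k - (T ^ R) ^ k) := by
      abel
    rw [e3]
    refine (l1_add _ _).trans ?_
    linarith
  -- the mixing of T
  have m1 : l1 (T ^ (R * k) - T ^ (R * k + R)) ≤ 1 / 8 := by
    refine (l1_mix_steps hT (R * k) R).trans ?_
    have h0 := hmix (R * k) (Nat.mul_pos hR hk1)
    have hC0 : 0 < C₀ := by linarith
    have hkpos : (0 : ℝ) < k := by linarith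
    have hRpos : (0 : ℝ) < R := by linarith
    have h1 : Real.sqrt ((kT : ℝ) / ((R * k : ℕ) : ℝ)) ≤ 1 / (8 * C₀ * R) := by
      rw [Real.sqrt_le_left (by positivity), div_pow, one_pow]
      rw [div_le_div_iff₀ (by push_cast; positivity) (by positivity)]
      push_cast
      have h2 := mul_le_mul_of_nonneg_left hk hRpos.le
      nlinarith
    calc (R : ℝ) * l1 (T ^ (R * k) - T ^ (R * k + 1))
        ≤ R * (C₀ * (1 / (8 * C₀ * R))) :=
          mul_le_mul_of_nonneg_left (h0.trans (mul_le_mul_of_nonneg_left h1 hC0.le)) hRpos.le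
      _ = 1 / 8 := by field_simp
  have b1 : β ≤ 1 / 10 := by
    have : (256 : ℝ) * β ^ 2 ≤ 1 / 1000 :=
      (mul_le_mul_of_nonneg_right hk256 (sq_nonneg β)).trans hβ
    nlinarith
  have t1 : τ ≤ 1 / 100 := by nlinarith
  have e4 : Y ^ k - Y ^ (k + 1) = (Y ^ k - (T ^ R) ^ k) - (Y ^ k - (T ^ R) ^ k) * Y
      + (T ^ (R * k) - T ^ (R * k + R)) - T ^ (R * k) * (Y - T ^ R) := by
    rw [pow_add T, pow_mul T, pow_succ Y]
    noncomm_ring
  rw [e4]
  have l1Y := Pr_l1 hY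
  have a1 := l1_sub ((Y ^ k - (T ^ R) ^ k) - (Y ^ k - (T ^ R) ^ k) * Y
      + (T ^ (R * k) - T ^ (R * k + R))) (T ^ (R * k) * (Y - T ^ R))
  have a2 := l1_add ((Y ^ k - (T ^ R) ^ k) - (Y ^ k - (T ^ R) ^ k) * Y)
    (T ^ (R * k) - T ^ (R * k + R))
  have a3 := l1_sub (Y ^ k - (T ^ R) ^ k) ((Y ^ k - (T ^ R) ^ k) * Y)
  have a4 : l1 ((Y ^ k - (T ^ R) ^ k) * Y) ≤ 13 / 100 := by
    refine (l1_mul _ _).trans ?_
    rw [l1Y, mul_one]; exact g3
  have a5 : l1 (T ^ (R * k) * (Y - T ^ R)) ≤ β + τ := by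
    refine (l1_mul _ _).trans ?_
    rw [Pr_l1 (Pr_pow hT _), one_mul]; exact hl
  linarith

end Vale.P321S
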