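import Vale.Agent.P321S.BasicL1

/-! # P321S: module TV (from genie laws of cells to bit strings) -/

namespace Vale.P321S

open scoped BigOperators

noncomputable section

namespace TVmod

/-- image of a genie symbol: `A ↦ [0]`, `Z ↦ q [1] + p [01]` -/
def gsym (q : ℝ) (b : Bool) : Alg :=
  if b then MonoidAlgebra.single (FreeMonoid.of false) 1
  else q • MonoidAlgebra.single (FreeMonoid.of true) 1
    + (1 - q) • MonoidAlgebra.single (FreeMonoid.of false * FreeMonoid.of true) 1

/-- the monoid hom -/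
def gm (q : ℝ) : Wd →* Alg := FreeMonoid.lift (gsym q)

/-- the algebra hom -/
def Ph (q : ℝ) : Alg →ₐ[ℝ] Alg := MonoidAlgebra.lift ℝ Alg Wd (gm q)

theorem Pr_single (w : Wd) : Pr (MonoidAlgebra.single w 1 : Alg) :=
  ⟨Nn_single zero_le_one, mass_single w 1⟩

theorem Pr_gsym {q : ℝ} (h0 : 0 ≤ q) (h1 : q ≤ 1) (b : Bool) : Pr (gsym q b) := by
  unfold gsym
  split_ifs
  · exact Pr_single _
  · exact Pr_convex (Pr_single _) (Pr_single _) h0 h1

theorem Pr_gm {q : ℝ} (h0 : 0 ≤ q) (h1 : q ≤ 1) (w : Wd) : Pr (gm q w) := by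
  induction w using FreeMonoid.inductionOn with
  | one => rw [map_one]; exact Pr_one
  | of x => unfold gm; rw [FreeMonoid.lift_eval_of]; exact Pr_gsym h0 h1 x
  | mul x y hx hy => rw [map_mul]; exact Pr_mul hx hy

theorem l1_Ph {q : ℝ} (h0 : 0 ≤ q) (h1 : q ≤ 1) (f : Alg) : l1 (Ph q f) ≤ l1 f := by
  unfold Ph
  rw [MonoidAlgebra.lift_apply]
  unfold Finsupp.sum
  refine (l1_sum _ _).trans ?_
  unfold l1
  apply Finset.sum_le_sum
  intro w _
  have h : l1 (f.coeff w • gm q w) = |f.coeff w| := by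
    rw [l1_smul, Pr_l1 (Pr_gm h0 h1 w), mul_one]
  exact h.le

theorem Ph_A (q : ℝ) : Ph q (MonoidAlgebra.single (FreeMonoid.of true) 1)
    = MonoidAlgebra.single (FreeMonoid.of false) 1 := by
  unfold Ph gm
  rw [MonoidAlgebra.lift_single, one_smul, FreeMonoid.lift_eval_of]
  simp [gsym]

theorem Ph_Z (q : ℝ) : Ph q (MonoidAlgebra.single (FreeMonoid.of false) 1)
    = q • MonoidAlgebra.single (FreeMonoid.of true) 1
      + (1 - q) • MonoidAlgebra.single (FreeMonoid.of false * FreeMonoid.of true) 1 := by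
  unfold Ph gm
  rw [MonoidAlgebra.lift_single, one_smul, FreeMonoid.lift_eval_of]
  simp [gsym]

theorem tr_nil (q : ℝ) : tr q [] = 1 := by simp [tr]

theorem tr_cons (q : ℝ) (b : Bool) (x : List Bool) : tr q (b :: x) = let1 q b * tr q x := by
  simp [tr]

theorem tr_append (q : ℝ) (x y : List Bool) : tr q (x ++ y) = tr q x * tr q y := by
  simp [tr]

theorem Pr_let1 {q : ℝ} (h0 : 0 ≤ q) (h1 : q ≤ 1) (b : Bool) : Pr (let1 q b) :=
  Pr_convex Pr_one (Pr_single _) h0 h1

theorem Pr_tr {q : ℝ} (h0 : 0 ≤ q) (h1 : q ≤ 1) (x : List Bool) : Pr (tr q x) := by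
  induction x with
  | nil => rw [tr_nil]; exact Pr_one
  | cons b x ih => rw [tr_cons]; exact Pr_mul (Pr_let1 h0 h1 b) ih

theorem Ph_uu (q : ℝ) : Ph q (uu q) = tr q [false, true] := by
  rw [tr_cons, tr_cons, tr_nil, mul_one]
  unfold uu
  rw [map_add, map_add, map_smul, map_smul, map_smul, Ph_A, Ph_Z, map_one]
  unfold let1
  have hprod : (MonoidAlgebra.single (FreeMonoid.of false * FreeMonoid.of true) 1 : Alg)
      = MonoidAlgebra.single (FreeMonoid.of false) 1 * MonoidAlgebra.single (FreeMonoid.of true) 1 := by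
    rw [MonoidAlgebra.single_mul_single, one_mul]
  rw [hprod]
  simp only [add_mul, mul_add, smul_mul_assoc, mul_smul_comm, one_mul, mul_one, smul_add, smul_smul]
  module

theorem Ph_aa (q : ℝ) : Ph q (aa q) = tr q [false] := by
  rw [tr_cons, tr_nil, mul_one]
  unfold aa let1
  rw [map_add, map_smul, map_smul, map_one, Ph_A]

/-- `n` copies of the block `01` -/
def blk : ℕ → List Bool
  | 0 => []
  | n + 1 => [false, true] ++ blk n

theorem blk_length (n : ℕ) : (blk n).length = 2 * n := by
  induction n with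
  | zero => rfl
  | succ n ih => simp only [blk, List.length_append, ih]; simp; omega

theorem tr_blk (q : ℝ) (n : ℕ) : tr q (blk n) = Ph q (uu q ^ n) := by
  induction n with
  | zero => rw [pow_zero, map_one]; exact tr_nil q
  | succ n ih => rw [blk, tr_append, ih, pow_succ', map_mul, Ph_uu]

/-- bits of a cell -/
def cb (m : ℕ) (d : Fin 3) : List Bool :=
  blk (m + d.val - 1) ++ ([false] ++ blk (m + 1 - d.val))

theorem cb_length {m : ℕ} (hm : 1 ≤ m) (d : Fin 3) : (cb m d).length = 4 * m + 1 := by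
  have hd := d.isLt
  simp only [cb, List.length_append, blk_length, List.length_singleton]
  omega

theorem tr_cb (q : ℝ) (m : ℕ) (d : Fin 3) : tr q (cb m d) = Ph q (cellN q m d) := by
  unfold cb cellN
  rw [tr_append, tr_append, tr_blk, tr_blk, map_mul, map_mul, Ph_aa, mul_assoc]

/-- bits of a list of cells -/
def bits (m : ℕ) : List (Fin 3) → List Bool
  | [] => []
  | d :: l => cb m d ++ bits m l

theorem bits_length {m : ℕ} (hm : 1 ≤ m) (l : List (Fin 3)) :
    (bits m l).length = (4 * m + 1) * l.length := by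
  induction l with
  | nil => simp [bits]
  | cons d l ih => simp only [bits, List.length_append, cb_length hm, ih, List.length_cons]; ring

theorem tr_bits (q : ℝ) (m : ℕ) (l : List (Fin 3)) :
    tr q (bits m l) = Ph q (ev (cellN q m) l) := by
  induction l with
  | nil => simp [bits, ev, tr_nil]
  | cons d l ih =>
    rw [bits, tr_append, ih, tr_cb, ← map_mul]
    simp [ev]

/-- the blocks `01` before the feature can be read off -/
theorem blk_inj {a b a' b' : ℕ} (h : blk a ++ ([false] ++ blk b) = blk a' ++ ([false] ++ blk b')) :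
    a = a' := by
  induction a generalizing a' with
  | zero =>
    cases a' with
    | zero => rfl
    | succ a' =>
      exfalso
      cases b with
      | zero => simp [blk] at h
      | succ b => simp [blk] at h
  | succ a ih =>
    cases a' with
    | zero =>
      exfalso
      cases b' with
      | zero => simp [blk] at h
      | succ b' => simp [blk] at h
    | succ a' =>
      simp only [blk, List.append_assoc, List.append_cancel_left_eq] at h
      have := ih h
      omega

theorem cb_inj {m : ℕ} (hm : 1 ≤ m) {d d' : Fin 3} (h : cb m d = cb m d') : d = d' := by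
  have := blk_inj h
  apply Fin.ext
  omega

theorem bits_inj {m : ℕ} (hm : 1 ≤ m) {l l' : List (Fin 3)} (hl : l.length = l'.length)
    (h : bits m l = bits m l') : l = l' := by
  induction l generalizing l' with
  | nil =>
    cases l' with
    | nil => rfl
    | cons d l' => simp at hl
  | cons d l ih =>
    cases l' with
    | nil => simp at hl
    | cons d' l' =>
      simp only [bits] at h
      have h2 := List.append_inj h (by rw [cb_length hm, cb_length hm])
      have h3 := cb_inj hm h2.1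
      have h4 := ih (by simpa using hl) h2.2
      rw [h3, h4]

end TVmod

open TVmod

theorem stTV (hL : StLevels) : StTV := by
  intro q hq0 hq1 A
  obtain ⟨J, hJ⟩ : ∃ J : ℕ, J = 32 * A + 32 := ⟨_, rfl⟩
  obtain ⟨c, hc⟩ := hL q hq0 hq1 J (by omega)
  obtain ⟨e, he⟩ : ∃ e : ℕ, e = c * (1 + A) + 1 + c := ⟨_, rfl⟩
  have hce : c ≤ e := by rw [he]; exact Nat.le_add_left _ _
  obtain ⟨ν₀, hν₀⟩ := hc e hce
  have hJ1 : 1 ≤ 2 ^ J := Nat.one_le_two_pow
  have he1 : 1 ≤ e := by rw [he]; exact le_trans (Nat.le_add_left _ _) (Nat.le_add_right _ _)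
  obtain ⟨E, hE⟩ : ∃ E : ℕ, E = c + 32 * e * 2 ^ J := ⟨_, rfl⟩
  have hE1 : 1 ≤ E := by
    have h1 : 1 ≤ 32 * e * 2 ^ J := Nat.one_le_iff_ne_zero.mpr (by positivity)
    rw [hE]; exact le_trans h1 (Nat.le_add_left _ _)
  obtain ⟨B, hB⟩ : ∃ B : ℕ, B = 5 ^ A * 2 ^ (E * A) := ⟨_, rfl⟩
  obtain ⟨N0, hN0⟩ : ∃ N0 : ℕ, N0 = ν₀ + B + 1 := ⟨_, rfl⟩
  refine ⟨5 * N0 ^ E, ?_⟩
  intro n hn
  -- the largest admissible ν
  have hex : ∃ ν : ℕ, N0 ≤ ν ∧ 5 * ν ^ E ≤ n ∧ n < 5 * (ν + 1) ^ E := by
    set P : ℕ → Prop := fun v => 5 * v ^ E ≤ n with hP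
    have hN0n : N0 ≤ n := by
      have h1 : N0 ≤ N0 ^ E := Nat.le_self_pow (by omega) _
      omega
    have hspec : P (Nat.findGreatest P n) := Nat.findGreatest_spec hN0n hn
    have hle : N0 ≤ Nat.findGreatest P n := Nat.le_findGreatest hN0n hn
    refine ⟨Nat.findGreatest P n, hle, hspec, ?_⟩
    by_contra hcon
    push Not at hcon
    have hb : Nat.findGreatest P n + 1 ≤ n := by
      have h1 : Nat.findGreatest P n + 1 ≤ (Nat.findGreatest P n + 1) ^ E :=
        Nat.le_self_pow (by omega) _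
      omega
    have := Nat.le_findGreatest (P := P) hb hcon
    omega
  obtain ⟨ν, hνN, hνle, hνlt⟩ := hex
  obtain ⟨wX, wY, hne, hlen, hlenle, hclose⟩ := hν₀ ν (by omega)
  obtain ⟨m, hm⟩ : ∃ m : ℕ, m = ν ^ (32 * e) := ⟨_, rfl⟩
  rw [← hm] at hclose
  have hν1 : 1 ≤ ν := by omega
  have hm1 : 1 ≤ m := by rw [hm]; exact Nat.one_le_pow _ _ hν1
  -- length of the bit strings
  have hbits : (4 * m + 1) * wX.length ≤ n := by
    have h1 : (4 * m + 1) * wX.length ≤ (5 * m) * ν ^ (c + 32 * e * (2 ^ J - 1)) :=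
      Nat.mul_le_mul (by omega) hlenle
    have h2 : (5 * m) * ν ^ (c + 32 * e * (2 ^ J - 1)) = 5 * ν ^ E := by
      rw [hm, mul_assoc, ← pow_add]
      have h4 : 32 * e * 2 ^ J = 32 * e * (2 ^ J - 1) + 32 * e := by
        conv_lhs => rw [← Nat.sub_add_cancel hJ1]
        ring
      have h5 : 32 * e + (c + 32 * e * (2 ^ J - 1)) = E := by rw [hE, h4]; ring
      rw [h5]
    omega
  have hlx : (bits m wX).length ≤ n := by rw [bits_length hm1]; exact hbits
  have hly : (bits m wY).length ≤ n := by rw [bits_length hm1, ← hlen]; exact hbits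
  have hlxy : (bits m wX).length = (bits m wY).length := by
    rw [bits_length hm1, bits_length hm1, hlen]
  set pad : List Bool := List.replicate (n - (bits m wX).length) false with hpad
  refine ⟨bits m wX ++ pad, bits m wY ++ pad, ?_, ?_, ?_, ?_⟩
  · rw [List.length_append, hpad, List.length_replicate]; omega
  · rw [List.length_append, hpad, List.length_replicate]; omega
  · intro h
    exact hne (bits_inj hm1 hlen (List.append_cancel_right h))
  · rw [tr_append, tr_append, ← sub_mul]
    refine (l1_mul_pr (Pr_tr hq0.le hq1.le pad)).trans ?_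
    rw [tr_bits, tr_bits, ← map_sub]
    refine (l1_Ph hq0.le hq1.le _).trans (hclose.trans ?_)
    -- arithmetic
    have hνpos : (0 : ℝ) < ν := by exact_mod_cast hν1
    have hnpos : (0 : ℝ) < n := by
      have : 0 < n := by
        have h1 : 0 < 5 * ν ^ E := by positivity
        omega
      exact_mod_cast this
    rw [div_le_div_iff₀ (by positivity) (by positivity), one_mul]
    have hnat : ν ^ c * n ^ A ≤ ν ^ (e * (2 ^ J * (32 + J))) := by
      have h1 : n ≤ 5 * 2 ^ E * ν ^ E := by
        have h2 : (ν + 1) ^ E ≤ (2 * ν) ^ E := Nat.pow_le_pow_left (by omega) _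
        rw [mul_pow] at h2
        have h3 : 5 * (ν + 1) ^ E ≤ 5 * (2 ^ E * ν ^ E) := Nat.mul_le_mul_left 5 h2
        calc n ≤ 5 * (ν + 1) ^ E := hνlt.le
          _ ≤ 5 * (2 ^ E * ν ^ E) := h3
          _ = 5 * 2 ^ E * ν ^ E := by ring
      have h4 : n ^ A ≤ B * ν ^ (E * A) := by
        calc n ^ A ≤ (5 * 2 ^ E * ν ^ E) ^ A := Nat.pow_le_pow_left h1 A
          _ = B * ν ^ (E * A) := by rw [hB, mul_pow, mul_pow, ← pow_mul, ← pow_mul]
      have h5 : B ≤ ν := by omega
      have h6 : c + E * A + 1 ≤ e * (2 ^ J * (32 + J)) := by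
        have h9 : 32 + J = 32 * A + 64 := by omega
        have h8 : e * (2 ^ J * (32 + J)) = 32 * A * (e * 2 ^ J) + 64 * (e * 2 ^ J) := by
          rw [h9]; ring
        have h10 : E * A = c * A + 32 * A * (e * 2 ^ J) := by rw [hE]; ring
        have h11 : e ≤ e * 2 ^ J := Nat.le_mul_of_pos_right e (by positivity)
        have h12 : c * A + c + 1 ≤ e := by
          have h13 : e = c * A + c + 1 + c := by rw [he]; ring
          rw [h13]; exact Nat.le_add_right _ _
        rw [h8, h10]
        generalize e * 2 ^ J = Y at h11 ⊢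
        generalize 32 * A * Y = Z
        generalize c * A = V at h12 ⊢
        omega
      calc ν ^ c * n ^ A ≤ ν ^ c * (ν * ν ^ (E * A)) :=
            Nat.mul_le_mul_left _ (h4.trans (Nat.mul_le_mul_right _ h5))
        _ = ν ^ (c + E * A + 1) := by ring
        _ ≤ ν ^ (e * (2 ^ J * (32 + J))) := Nat.pow_le_pow_right hν1 h6
    exact_mod_cast hnat

end

end Vale.P321S
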