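import Vale.Agent.P321S.OV
import Vale.Agent.P321S.Core
import Vale.Agent.P321S.TM
import Vale.Agent.P321S.Mono
import Vale.Agent.P321S.Step
import Vale.Agent.P321S.Level1
import Vale.Agent.P321S.OverlapC
import Vale.Agent.P321S.Ortho
import Vale.Agent.P321S.Pmf
import Vale.Agent.P321S.Renew
import Vale.Agent.P321S.Smooth
import Vale.Agent.P321S.TV
import Vale.Agent.P321S.Final
import Vale.Agent.P321S.Finite

namespace Vale.P321S

/-- assembly from the three remaining modules -/
theorem final_of
    (hIid : StPmf → StRenew → StOrtho → StIid)
    (hCells : StSmooth → StOV → StCells)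
    (hLevels : StStep → StLevel1 → StCells → StOverlap → StOV → StLevels) : StFinal := by
  have iid : StIid := hIid stPmf (stRenew stPmf) stOrtho
  have cells : StCells := hCells stSmooth stOV
  have step : StStep := stStep (stMono (stCore stDD) stTM) stDD stMixStep
  have lev1 : StLevel1 := stLevel1 stDD stMixStep
  have ovl : StOverlap := stOverlap iid stOV
  exact stFinal (stTV (hLevels step lev1 cells ovl stOV))

end Vale.P321S
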