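import Vale.Agent.P321S.DefsQ
import Vale.Agent.P321S.Levels

/-! # P321Q module LEVELSQ -/

namespace Vale.P321S.LQ

open Vale.P321S Vale.P321S.LV

noncomputable section

theorem zmle {v x y : ℝ} {m n : ℤ} (hv : 1 ≤ v) (hy0 : 0 ≤ y) (hx : x ≤ v ^ m)
    (hy : y ≤ v ^ n) : x * y ≤ v ^ (m + n) := by
  rw [← zmul hv]
  exact mul_le_mul hx hy hy0 (zpos hv m).le

/-- numerical bounds for the data of one level -/
structure BQ (v : ℝ) (a b c jj G : ℤ) (N k : ℕ) (r β η lam ζ : ℝ) : Prop where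
  Nlo : v ^ (16 * a) ≤ N
  klo : v ^ (32 * a) ≤ k
  khi : (k : ℝ) ≤ v ^ (64 * a + 2 * c)
  r0 : 0 ≤ r
  rle : r ≤ v ^ (1 - 255 * a - b)
  β0 : 0 ≤ β
  βle : β ≤ v ^ (-(127 * a))
  η0 : 0 ≤ η
  ηle : η ≤ v ^ (-(256 * a) - b)
  lam0 : 0 ≤ lam
  lamle : lam ≤ v ^ (-(260 * a) - b)
  ζ0 : 0 ≤ ζ
  ζle : ζ ≤ v ^ (jj - 32 * G)

/-- largeness of `v` -/
structure VB (v C₀ : ℝ) (K : ℕ) : Prop where
  v1000 : 1000 ≤ v
  vK : 5 * 2 ^ (4 * K + 8) ≤ v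
  vC : (2 ^ (2 * K + 10) * C₀) ^ 4 ≤ v
  vC2 : 64 * C₀ ^ 2 ≤ v

theorem two_pow_K (K : ℕ) : (1 : ℝ) ≤ 2 ^ K := one_le_pow₀ (by norm_num)

theorem VB.small {v C₀ : ℝ} {K : ℕ} (h : VB v C₀ K) (n : ℕ) (A : ℝ)
    (hA : A ≤ 1280) (hn : n ≤ 4) :
    A * (2 ^ K) ^ n ≤ v := by
  have h1 := h.vK
  have e1 : (5 : ℝ) * 2 ^ (4 * K + 8) = 1280 * (2 ^ K) ^ 4 := by
    rw [pow_add, pow_mul, pow_right_comm 2 4 K]
    norm_num
    ring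
  rw [e1] at h1
  have h2 : ((2 : ℝ) ^ K) ^ n ≤ (2 ^ K) ^ 4 := pow_le_pow_right₀ (two_pow_K K) hn
  have h3 : (0 : ℝ) ≤ (2 ^ K) ^ n := by positivity
  calc A * (2 ^ K) ^ n ≤ 1280 * (2 ^ K) ^ 4 := mul_le_mul hA h2 h3 (by norm_num)
    _ ≤ v := h1

theorem two_mul_le_two_pow {K : ℕ} (hK : 1 ≤ K) : 2 * K ≤ 2 ^ K := by
  induction K, hK using Nat.le_induction with
  | base => norm_num
  | succ n hn ih =>
    rw [pow_succ]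
    omega

/-- the choice of the averaging length -/
theorem exists_w {v C₀ : ℝ} {a : ℤ} {K L N : ℕ} (hV : VB v C₀ K) (ha : 1 ≤ a) (hK : 1 ≤ K)
    (hL : 1 ≤ L) (hL2 : L ≤ 2 ^ K) (hN : v ^ (16 * a) ≤ N) :
    ∃ w : ℕ, 1 ≤ w ∧ K * (w * L) ≤ N ∧ v ^ (8 * a) / 2 ^ K ≤ Real.sqrt w := by
  have hv : (1 : ℝ) ≤ v := by linarith [hV.v1000]
  have hKL : 0 < K * L := Nat.mul_pos hK hL
  have h2K := two_mul_le_two_pow hK
  have h2KR : (2 : ℝ) * K ≤ 2 ^ K := by exact_mod_cast h2K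
  have hLR : (L : ℝ) ≤ 2 ^ K := by exact_mod_cast hL2
  have hL1 : (1 : ℝ) ≤ L := by exact_mod_cast hL
  have hK1 : (1 : ℝ) ≤ K := by exact_mod_cast hK
  have hKLN : K * L ≤ N := by
    have h1 : ((K * L : ℕ) : ℝ) ≤ v := by
      push_cast
      have := hV.small 2 1 (by norm_num) (by norm_num)
      nlinarith
    have h2 : v ≤ v ^ (16 * a) := by
      calc v = v ^ (1 : ℤ) := (zpow_one v).symm
        _ ≤ v ^ (16 * a) := zle hv (by omega)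
    have h3 : ((K * L : ℕ) : ℝ) ≤ (N : ℝ) := h1.trans (h2.trans hN)
    exact_mod_cast h3
  refine ⟨N / (K * L), Nat.div_pos hKLN hKL, ?_, ?_⟩
  · have := Nat.div_mul_le_self N (K * L)
    calc K * (N / (K * L) * L) = N / (K * L) * (K * L) := by ring
      _ ≤ N := this
  · apply Real.le_sqrt_of_sq_le
    set w := N / (K * L) with hw
    have hw1 : 1 ≤ w := Nat.div_pos hKLN hKL
    have h1 : N < (w + 1) * (K * L) := by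
      rw [hw]
      exact (Nat.div_lt_iff_lt_mul hKL).1 (Nat.lt_succ_self _)
    have h2 : N ≤ 2 * w * (K * L) := by nlinarith
    have h3 : (N : ℝ) ≤ 2 * w * (K * L) := by exact_mod_cast h2
    have h4 : (N : ℝ) ≤ w * (2 ^ K) ^ 2 := by
      have hw0 : (0 : ℝ) ≤ w := Nat.cast_nonneg _
      calc (N : ℝ) ≤ 2 * w * (K * L) := h3
        _ = w * ((2 * K) * L) := by ring
        _ ≤ w * (2 ^ K * 2 ^ K) := by
            apply mul_le_mul_of_nonneg_left _ hw0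
            exact mul_le_mul h2KR hLR (by linarith) (by positivity)
        _ = w * (2 ^ K) ^ 2 := by ring
    rw [div_pow, div_le_iff₀ (by positivity), zsq]
    calc v ^ (2 * (8 * a)) = v ^ (16 * a) := by ring_nf
      _ ≤ N := hN
      _ ≤ w * (2 ^ K) ^ 2 := h4

theorem v_le_zpow {v : ℝ} {p : ℤ} (hv : 1 ≤ v) (hp : 1 ≤ p) : v ≤ v ^ p := by
  calc v = v ^ (1 : ℤ) := (zpow_one v).symm
    _ ≤ v ^ p := zle hv hp

theorem VB.hv {v C₀ : ℝ} {K : ℕ} (hV : VB v C₀ K) : 1 ≤ v := by linarith [hV.v1000]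

theorem VB.hz1 {v C₀ : ℝ} {K : ℕ} (hV : VB v C₀ K) : v ^ (-(1 : ℤ)) ≤ 1 / 1000 := by
  rw [zpow_neg, zpow_one, ← one_div]
  exact one_div_le_one_div_of_le (by norm_num) hV.v1000

theorem e4 (K : ℕ) : (4 : ℝ) ^ K = (2 ^ K) ^ 2 := by
  rw [← pow_mul, mul_comm, pow_mul]; norm_num

theorem e8 (K : ℕ) : (8 : ℝ) ^ K = (2 ^ K) ^ 3 := by
  rw [← pow_mul, mul_comm, pow_mul]; norm_num

theorem e38 (K : ℕ) : (2 : ℝ) ^ (3 * K + 8) = 256 * (2 ^ K) ^ 3 := by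
  rw [pow_add, ← pow_mul, mul_comm K 3]; norm_num; ring

/-- growth of the integers -/
theorem growth {v C₀ : ℝ} {p a c : ℤ} {ν k K N' R' k' : ℕ}
    (hV : VB v C₀ K) (hp : 1 ≤ p) (hν : (ν : ℝ) = v ^ p)
    (hN' : N' = ν * k) (hR' : R' = 2 * N' + 2 ^ K) (hk' : k' = ν * (R' * k))
    (hk1 : 1 ≤ k) (klo : v ^ (32 * a) ≤ k) (khi : (k : ℝ) ≤ v ^ (64 * a + 2 * c)) :
    2 ^ K ≤ ν ∧ (N' : ℝ) ≤ v ^ (p + (64 * a + 2 * c)) ∧ v ^ (32 * a) ≤ (N' : ℝ) ∧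
      (R' : ℝ) ≤ v ^ (1 + p + (64 * a + 2 * c)) ∧
      (k' : ℝ) ≤ v ^ (p + ((1 + p + (64 * a + 2 * c)) + (64 * a + 2 * c))) ∧
      v ^ (64 * a) ≤ (k' : ℝ) := by
  have hv := hV.hv
  have hvp := v_le_zpow hv hp
  have ht1 := two_pow_K K
  have f1R : (2 : ℝ) ^ K ≤ (ν : ℝ) := by
    rw [hν]
    have := hV.small 1 1 (by norm_num) (by norm_num)
    rw [pow_one, one_mul] at this
    exact this.trans hvp
  have f1 : 2 ^ K ≤ ν := by exact_mod_cast f1R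
  have hk0 : (1 : ℝ) ≤ k := by exact_mod_cast hk1
  have hN'R : (N' : ℝ) = v ^ p * k := by rw [hN']; push_cast; rw [hν]
  have hN'hi : (N' : ℝ) ≤ v ^ (p + (64 * a + 2 * c)) := by
    rw [hN'R]
    exact zmle hv (by linarith) le_rfl khi
  have hN'lo : (k : ℝ) ≤ N' := by
    rw [hN'R]
    have : 1 ≤ v ^ p := hv.trans hvp
    nlinarith
  have hνN' : (ν : ℝ) ≤ N' := by
    rw [hN']; push_cast
    have : (0 : ℝ) ≤ ν := Nat.cast_nonneg _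
    nlinarith
  have hR'R : (R' : ℝ) = 2 * N' + 2 ^ K := by rw [hR']; push_cast; ring
  have hR'3 : (R' : ℝ) ≤ 3 * N' := by rw [hR'R]; linarith
  have hR'hi : (R' : ℝ) ≤ v ^ (1 + p + (64 * a + 2 * c)) := by
    have h3v : (3 : ℝ) ≤ v ^ (1 : ℤ) := by rw [zpow_one]; linarith [hV.v1000]
    calc (R' : ℝ) ≤ 3 * N' := hR'3
      _ ≤ v ^ (1 + (p + (64 * a + 2 * c))) := zmle hv (Nat.cast_nonneg _) h3v hN'hi
      _ = v ^ (1 + p + (64 * a + 2 * c)) := by congr 1; ring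
  have hN'k : (N' : ℝ) ≤ R' := by rw [hR'R]; linarith [(Nat.cast_nonneg N' : (0 : ℝ) ≤ N')]
  have hk'R : (k' : ℝ) = ν * (R' * k) := by rw [hk']; push_cast; ring
  refine ⟨f1, hN'hi, klo.trans hN'lo, hR'hi, ?_, ?_⟩
  · rw [hk'R, hν]
    exact zmle hv (by positivity) le_rfl (zmle hv (by linarith) hR'hi khi)
  · have g1 : (k : ℝ) ≤ R' := hN'lo.trans hN'k
    have g2 : v ^ (32 * a) * v ^ (32 * a) ≤ R' * k :=
      mul_le_mul (klo.trans g1) klo (zpos hv _).le (Nat.cast_nonneg _)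
    have g3 : (R' : ℝ) * k ≤ ν * (R' * k) := by
      have : (1 : ℝ) ≤ ν := ht1.trans f1R
      have g4 : (0 : ℝ) ≤ R' * k := by positivity
      nlinarith
    rw [zmul hv] at g2
    rw [hk'R]
    refine le_trans (zle hv ?_) (g2.trans g3)
    omega

/-- the bound of the new difference -/
theorem eta_bound {v C₀ : ℝ} {p a b c jj G : ℤ} {N k K w N' : ℕ} {r β η lam ζ η' Θ : ℝ}
    (hV : VB v C₀ K) (hp : 1 ≤ p) (hb : 0 ≤ b) (hc : 0 ≤ c) (hca : c + p ≤ a)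
    (hw : v ^ (8 * a) / 2 ^ K ≤ Real.sqrt w)
    (hN'hi : (N' : ℝ) ≤ v ^ (p + (64 * a + 2 * c)))
    (hΘ0 : 0 ≤ Θ) (hΘz : Θ ≤ v ^ (-1 - 522 * a - 2 * b))
    (eη : η' = 2 ^ (3 * K + 8) * (lam * η + Real.sqrt N' * β * η ^ 2 + η ^ 3
            + r ^ 2 / Real.sqrt w + Θ))
    (h : BQ v a b c jj G N k r β η lam ζ) :
    0 ≤ η' ∧ Θ ≤ η' ∧ η' ≤ v ^ (-(256 * (2 * a)) - (2 * b + 2 * a)) := by
  have hv := hV.hv
  rw [e38] at eη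
  have ht1 := two_pow_K K
  have hs4 := hV.small 4 1280 (by norm_num) (by norm_num)
  set t : ℝ := 2 ^ K with ht
  have ht0 : 0 < t := by linarith
  have hηz : η ≤ v ^ (-(256 * a) - b) := h.ηle
  have hη2 : η ^ 2 ≤ v ^ ((-(256 * a) - b) + (-(256 * a) - b)) := by
    rw [pow_two]
    exact zmle hv h.η0 hηz hηz
  have hr2 : r ^ 2 ≤ v ^ ((1 - 255 * a - b) + (1 - 255 * a - b)) := by
    rw [pow_two]
    exact zmle hv h.r0 h.rle h.rle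
  have hsw : 0 < Real.sqrt w := lt_of_lt_of_le (div_pos (zpos hv _) ht0) hw
  -- the five terms
  set Q : ℝ := v ^ (-1 - 514 * a - 2 * b) with hQ
  have hQ0 : 0 < Q := zpos hv _
  have hQt : Q ≤ t * Q := by nlinarith
  have T1 : lam * η ≤ t * Q :=
    ((zmle hv h.η0 h.lamle hηz).trans (zle hv (by omega))).trans hQt
  have T1' : 0 ≤ lam * η := mul_nonneg h.lam0 h.η0
  have hsN : Real.sqrt N' ≤ v ^ (p + 32 * a + c) := by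
    rw [Real.sqrt_le_left (zpos hv _).le, zsq]
    exact hN'hi.trans (zle hv (by omega))
  have T2 : Real.sqrt N' * β * η ^ 2 ≤ t * Q := by
    refine ((zmle hv (pow_nonneg h.η0 2) (zmle hv h.β0 hsN h.βle) hη2).trans
      (zle hv ?_)).trans hQt
    omega
  have T2' : 0 ≤ Real.sqrt N' * β * η ^ 2 :=
    mul_nonneg (mul_nonneg (Real.sqrt_nonneg _) h.β0) (pow_nonneg h.η0 2)
  have T3 : η ^ 3 ≤ t * Q := by
    rw [pow_succ]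
    refine ((zmle hv h.η0 hη2 hηz).trans (zle hv ?_)).trans hQt
    omega
  have T3' : 0 ≤ η ^ 3 := pow_nonneg h.η0 3
  have T4 : r ^ 2 / Real.sqrt w ≤ t * Q := by
    rw [div_le_iff₀ hsw]
    have g1 : t * Q * (v ^ (8 * a) / t) ≤ t * Q * Real.sqrt w :=
      mul_le_mul_of_nonneg_left hw (mul_pos ht0 hQ0).le
    have g2 : t * Q * (v ^ (8 * a) / t) = Q * v ^ (8 * a) := by
      field_simp
    rw [g2, hQ, zmul hv] at g1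
    refine hr2.trans (le_trans (zle hv ?_) g1)
    omega
  have T4' : 0 ≤ r ^ 2 / Real.sqrt w := div_nonneg (sq_nonneg r) hsw.le
  have T5 : Θ ≤ t * Q := (hΘz.trans (zle hv (by omega))).trans hQt
  have hsum0 : 0 ≤ lam * η + Real.sqrt N' * β * η ^ 2 + η ^ 3 + r ^ 2 / Real.sqrt w + Θ := by
    linarith
  have g1 : lam * η + Real.sqrt N' * β * η ^ 2 + η ^ 3 + r ^ 2 / Real.sqrt w + Θ
      ≤ 5 * (t * Q) := by linarith
  have gΘ : Θ ≤ lam * η + Real.sqrt N' * β * η ^ 2 + η ^ 3 + r ^ 2 / Real.sqrt w + Θ := by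
    linarith
  set S : ℝ := lam * η + Real.sqrt N' * β * η ^ 2 + η ^ 3 + r ^ 2 / Real.sqrt w + Θ with hS
  have g0 : 1 ≤ 256 * t ^ 3 := by
    have : 1 ≤ t ^ 3 := one_le_pow₀ ht1
    linarith
  refine ⟨?_, ?_, ?_⟩
  · rw [eη]; positivity
  · rw [eη]
    have g2 := mul_le_mul_of_nonneg_right g0 hsum0
    linarith
  · have g2 : 256 * t ^ 3 * S ≤ 256 * t ^ 3 * (5 * (t * Q)) :=
      mul_le_mul_of_nonneg_left g1 (by positivity)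
    have g3 : 256 * t ^ 3 * (5 * (t * Q)) = (1280 * t ^ 4) * Q := by ring
    have g4 : 1280 * t ^ 4 ≤ v ^ (1 : ℤ) := by
      rw [zpow_one]
      exact hs4
    rw [g3] at g2
    rw [eη]
    refine g2.trans ((zmle hv hQ0.le g4 le_rfl).trans (zle hv ?_))
    omega

/-- the side conditions of one step -/
theorem side {v C₀ : ℝ} {p a b c jj G : ℤ} {ν N k K N' k' κ : ℕ}
    {r β η lam ζ β' Θ : ℝ}
    (hV : VB v C₀ K) (hC : 2 ≤ C₀) (hp : 1 ≤ p) (hb : 0 ≤ b) (hc : 0 ≤ c) (hca : c + p ≤ a)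
    (hj : jj + 1 ≤ G) (hG : 1 ≤ G)
    (hκ : 16 * κ ≤ K) (hν : (ν : ℝ) = v ^ p)
    (hN'hi : (N' : ℝ) ≤ v ^ (p + (64 * a + 2 * c)))
    (hk'hi : (k' : ℝ) ≤ v ^ (p + ((1 + p + (64 * a + 2 * c)) + (64 * a + 2 * c))))
    (hΘ : Θ = v ^ (-(p * κ)))
    (eβ : β' = 4 * 2 ^ K * η) (h : BQ v a b c jj G N k r β η lam ζ) :
    64 * C₀ ^ 2 ≤ (ν : ℝ) ∧ (N' : ℝ) * β ≤ 1 / 8 ∧ 1000 * 8 ^ K * η ≤ 1 ∧
      2 ^ (K + 1) * ζ ≤ v ^ (1 + (jj - 32 * G)) ∧ 2 ^ (K + 1) * ζ ≤ 1 ∧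
      (2 ^ (2 * K + 10) * C₀ / Real.sqrt ν) ^ K ≤ Θ ^ 4 ∧ 0 ≤ β' ∧
      β' ≤ v ^ (1 + (-(256 * a) - b)) ∧
      (k' : ℝ) * β' ^ 2 ≤ 1 / 1000 := by
  have hv := hV.hv
  have hvp := v_le_zpow hv hp
  have hz1 := hV.hz1
  have hz0 : v ^ (0 : ℤ) = 1 := zpow_zero v
  have e1 : (2 : ℝ) ^ (K + 1) = 2 * 2 ^ K := by rw [pow_succ]; ring
  have hηz : η ≤ v ^ (-(256 * a) - b) := h.ηle
  have f3 : (N' : ℝ) * β ≤ 1 / 8 := by
    calc (N' : ℝ) * β ≤ v ^ ((p + (64 * a + 2 * c)) + -(127 * a)) := zmle hv h.β0 hN'hi h.βle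
      _ ≤ v ^ (-(1 : ℤ)) := zle hv (by omega)
      _ ≤ 1 / 8 := by linarith
  have f4 : 1000 * 8 ^ K * η ≤ 1 := by
    have h1 : 1000 * (8 : ℝ) ^ K ≤ v ^ (1 : ℤ) := by
      rw [zpow_one, e8]
      exact hV.small 3 1000 (by norm_num) (by norm_num)
    calc 1000 * 8 ^ K * η ≤ v ^ (1 + (-(256 * a) - b)) := zmle hv h.η0 h1 hηz
      _ ≤ v ^ (0 : ℤ) := zle hv (by omega)
      _ = 1 := hz0
  have h2K : (2 : ℝ) ^ (K + 1) ≤ v ^ (1 : ℤ) := by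
    rw [zpow_one, e1]
    have := hV.small 1 2 (by norm_num) (by norm_num)
    rw [pow_one] at this
    exact this
  have f5' : 2 ^ (K + 1) * ζ ≤ v ^ (1 + (jj - 32 * G)) := zmle hv h.ζ0 h2K h.ζle
  have f5 : 2 ^ (K + 1) * ζ ≤ 1 := by
    calc 2 ^ (K + 1) * ζ ≤ v ^ (1 + (jj - 32 * G)) := f5'
      _ ≤ v ^ (0 : ℤ) := zle hv (by omega)
      _ = 1 := hz0
  have f7 : (2 ^ (2 * K + 10) * C₀ / Real.sqrt ν) ^ K ≤ Θ ^ 4 := by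
    have hC1 : 1 ≤ 2 ^ (2 * K + 10) * C₀ := by
      have : (1 : ℝ) ≤ 2 ^ (2 * K + 10) := one_le_pow₀ (by norm_num)
      nlinarith
    have hC4 : (2 ^ (2 * K + 10) * C₀) ^ 4 ≤ (ν : ℝ) := by rw [hν]; exact hV.vC.trans hvp
    refine (tiny_pow hC1 hC4 (n := 4 * κ) (by omega)).trans (le_of_eq ?_)
    rw [hν, hΘ, ← zpow_mul, ← zpow_natCast, ← zpow_mul]
    congr 1
    push_cast
    ring
  have hβ'0 : 0 ≤ β' := by rw [eβ]; have := h.η0; positivity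
  have hβ' : β' ≤ v ^ (1 + (-(256 * a) - b)) := by
    rw [eβ]
    apply zmle hv h.η0 _ hηz
    rw [zpow_one]
    have := hV.small 1 4 (by norm_num) (by norm_num)
    rw [pow_one] at this
    exact this
  have hβ'2 : β' ^ 2 ≤ v ^ ((1 + (-(256 * a) - b)) + (1 + (-(256 * a) - b))) := by
    rw [pow_two]
    exact zmle hv hβ'0 hβ' hβ'
  have f8 : (k' : ℝ) * β' ^ 2 ≤ 1 / 1000 := by
    refine (zmle hv (pow_nonneg hβ'0 2) hk'hi hβ'2).trans (le_trans (zle hv ?_) hz1)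
    omega
  exact ⟨by rw [hν]; exact hV.vC2.trans hvp, f3, f4, f5', f5, f7, hβ'0, hβ', f8⟩

/-- all numerical facts needed for one step -/
theorem BQ.step {v C₀ : ℝ} {p a b c jj G : ℤ} {ν N k K w N' R' k' κ : ℕ}
    {r β η lam ζ r' β' η' lam' ζ' Θ : ℝ}
    (hV : VB v C₀ K) (hC : 2 ≤ C₀) (hp : 1 ≤ p) (hb : 0 ≤ b) (hc : 0 ≤ c) (hca : c + p ≤ a)
    (hj : jj + 1 ≤ G) (hG : 1 ≤ G)
    (hκ : 16 * κ ≤ K) (hκ2 : 522 * a + 2 * b + 1 ≤ p * κ)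
    (hν : (ν : ℝ) = v ^ p) (hw : v ^ (8 * a) / 2 ^ K ≤ Real.sqrt w)
    (hN' : N' = ν * k) (hR' : R' = 2 * N' + 2 ^ K) (hk' : k' = ν * (R' * k))
    (hk1 : 1 ≤ k)
    (hΘ : Θ = v ^ (-(p * κ)))
    (er : r' = 10 * 4 ^ K * η ^ 2) (eβ : β' = 4 * 2 ^ K * η) (el : lam' = Θ)
    (eζ : ζ' = 2 ^ (K + 1) * ζ)
    (eη : η' = 2 ^ (3 * K + 8) * (lam * η + Real.sqrt N' * β * η ^ 2 + η ^ 3
            + r ^ 2 / Real.sqrt w + Θ))
    (h : BQ v a b c jj G N k r β η lam ζ) :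
    2 ^ K ≤ ν ∧ 64 * C₀ ^ 2 ≤ (ν : ℝ) ∧ (N' : ℝ) * β ≤ 1 / 8 ∧ 1000 * 8 ^ K * η ≤ 1 ∧
      2 ^ (K + 1) * ζ ≤ 1 ∧ 0 ≤ Θ ∧ (2 ^ (2 * K + 10) * C₀ / Real.sqrt ν) ^ K ≤ Θ ^ 4 ∧
      (k' : ℝ) * β' ^ 2 ≤ 1 / 1000 ∧ lam' ≤ η' ∧ (R' : ℝ) ≤ v ^ (1 + p + (64 * a + 2 * c)) ∧
      BQ v (2 * a) (2 * b + 2 * a) (2 * c + 2 * p) (jj + 1) G N' k' r' β' η' lam' ζ' := by
  have hv := hV.hv
  obtain ⟨f1, hN'hi, hN'lo, hR'hi, hk'hi, hk'lo⟩ :=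
    growth hV hp hν hN' hR' hk' hk1 h.klo h.khi
  obtain ⟨f2, f3, f4, f5', f5, f7, hβ'0, hβ', f8⟩ :=
    side hV hC hp hb hc hca hj hG hκ hν hN'hi hk'hi hΘ eβ h
  have f6 : 0 ≤ Θ := by rw [hΘ]; exact (zpos hv _).le
  have hΘz : Θ ≤ v ^ (-1 - 522 * a - 2 * b) := by
    rw [hΘ]
    exact zle hv (by linarith)
  obtain ⟨hη'0, hΘη', hη'le⟩ := eta_bound hV hp hb hc hca hw hN'hi f6 hΘz eη h
  refine ⟨f1, f2, f3, f4, f5, f6, f7, f8, by rw [el]; exact hΘη', hR'hi, ?_⟩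
  have hηz : η ≤ v ^ (-(256 * a) - b) := h.ηle
  have hη2 : η ^ 2 ≤ v ^ ((-(256 * a) - b) + (-(256 * a) - b)) := by
    rw [pow_two]
    exact zmle hv h.η0 hηz hηz
  refine ⟨?_, ?_, ?_, ?_, ?_, hβ'0, ?_, hη'0, hη'le, ?_, ?_, ?_, ?_⟩
  · exact le_trans (zle hv (by omega)) hN'lo
  · exact le_trans (zle hv (by omega)) hk'lo
  · exact hk'hi.trans (zle hv (by omega))
  · rw [er]; positivity
  · rw [er, e4]
    have g1 : 10 * (2 ^ K) ^ 2 ≤ v ^ (1 : ℤ) := by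
      rw [zpow_one]
      exact hV.small 2 10 (by norm_num) (by norm_num)
    exact (zmle hv (sq_nonneg η) g1 hη2).trans (zle hv (by omega))
  · exact hβ'.trans (zle hv (by omega))
  · rw [el]; exact f6
  · rw [el]
    exact hΘz.trans (zle hv (by omega))
  · rw [eζ]
    exact mul_nonneg (by positivity) h.ζ0
  · rw [eζ]
    exact f5'.trans (zle hv (by omega))

/-- the data at one level of the late phase -/
def PQ (C₀ : ℝ) (E : Fin 3 → Alg) (v K : ℕ) (a b c jj G : ℤ) : Prop :=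
  ∃ (T X Y U V ρ : Alg) (L N R kT k : ℕ) (r β η lam ζ : ℝ) (wX wY : List (Fin 3)),
    LvlQ T X Y U V ρ L N R kT k C₀ r β η lam ζ ∧ X = ev E wX ∧ Y = ev E wY ∧ wX ≠ wY ∧
    wX.length = wY.length ∧ (wY.length : ℝ) ≤ (v : ℝ) ^ (64 * G + 68 * a) ∧ 1 ≤ kT ∧ 1 ≤ L ∧
    L ≤ 2 ^ K ∧ lam ≤ η ∧ BQ v a b c jj G N k r β η lam ζ

theorem PQ.step (hS : StStepQ) {C₀ : ℝ} (hC : 2 ≤ C₀) (hOV : OVh C₀) {E : Fin 3 → Alg}
    {v K κ p : ℕ} {a b c jj G : ℤ} (hV : VB v C₀ K) (hp : 1 ≤ p) (hb : 0 ≤ b) (hc : 0 ≤ c)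
    (hca : c + p ≤ a) (hj : jj + 1 ≤ G) (hG : 1 ≤ G) (hκ : K = 16 * κ) (hK : 1 ≤ K)
    (hκ2 : 522 * a + 2 * b + 1 ≤ p * κ) (h : PQ C₀ E v K a b c jj G) :
    PQ C₀ E v K (2 * a) (2 * b + 2 * a) (2 * c + 2 * p) (jj + 1) G := by
  obtain ⟨T, X, Y, U, V, ρ, L, N, R, kT, k, r, β, η, lam, ζ, wX, wY, hlvl, eX, eY, hne, hlen,
    hle, hkT, hL, hLK, hlam, hB⟩ := h
  have hv := hV.hv
  have hpz : (1 : ℤ) ≤ p := by exact_mod_cast hp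
  have ha1 : 1 ≤ a := by omega
  have hz0 : (v : ℝ) ^ (0 : ℤ) = 1 := zpow_zero _
  have hk1 : 1 ≤ k := by
    have h1 : (1 : ℝ) ≤ (v : ℝ) ^ (32 * a) := by
      rw [← hz0]
      exact zle hv (by omega)
    have h2 : (1 : ℝ) ≤ (k : ℝ) := h1.trans hB.klo
    exact_mod_cast h2
  have hr1 : r ≤ 1 := by
    refine hB.rle.trans ?_
    rw [← hz0]
    exact zle hv (by omega)
  obtain ⟨w, hw1, hwN, hws⟩ := exists_w hV ha1 hK hL hLK hB.Nlo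
  have hν : (((v ^ p : ℕ)) : ℝ) = (v : ℝ) ^ (p : ℤ) := by
    rw [zpow_natCast]; push_cast; rfl
  obtain ⟨g1, g2, g3, g4, g5, g6, g7, g8, g9, g10, g11⟩ :=
    BQ.step (κ := κ) hV hC hpz hb hc hca hj hG (by omega) hκ2 hν hws rfl rfl rfl hk1 rfl rfl rfl
      rfl rfl rfl hB
  obtain ⟨ρ', hρ'⟩ := hS C₀ hC hOV T X Y U V ρ L N R kT k r β η lam ζ hlvl hkT hL hr1 hlam
    K w (v ^ p) _ _ _ _ _ _ _ _ _ hK hw1 hwN rfl rfl rfl g1 g2 g3 g4 g5 g6 g7 rfl rfl rfl rfl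
    rfl g8
  refine ⟨_, _, _, _, _, ρ', _, _, _, _, _, _, _, _, _, _, WW (v ^ p * k) wY wX wY (tm K true),
    WW (v ^ p * k) wY wX wY (tm K false), hρ', ?_, ?_, WW_ne hlen hne K, ?_, ?_, hk1,
    Nat.one_le_two_pow, le_rfl, g9, g11⟩
  · rw [ev_WW, eX, eY]
  · rw [ev_WW, eX, eY]
  · rw [WW_length hlen rfl, WW_length hlen rfl, tm_length, tm_length]
  · rw [WW_length hlen rfl, tm_length]
    have e1 : (((2 * (v ^ p * k) + 2 ^ K) * wY.length : ℕ) : ℝ)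
        = ((2 * (v ^ p * k) + 2 ^ K : ℕ) : ℝ) * (wY.length : ℝ) := by
      push_cast; ring
    rw [e1]
    refine (zmle hv (Nat.cast_nonneg _) g10 hle).trans (zle hv ?_)
    omega

theorem PQ.all (hS : StStepQ) {C₀ : ℝ} (hC : 2 ≤ C₀) (hOV : OVh C₀) {E : Fin 3 → Alg}
    {v K κ G J : ℕ} (hV : VB v C₀ K) (hJG : J ≤ G) (hG : 1 ≤ G) (hκ : K = 16 * κ)
    (hκ2 : 4 * (J + 300) * G ≤ κ) (h : PQ C₀ E v K G 0 0 0 G) :
    ∀ j : ℕ, j ≤ J → PQ C₀ E v K (2 ^ j * G) (2 ^ j * j * G) (2 ^ j * j) j G := by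
  have hK : 1 ≤ K := by
    have : 1 ≤ 4 * (J + 300) * G := Nat.mul_pos (by omega) hG
    omega
  intro j
  induction j with
  | zero => intro _; simpa using h
  | succ j ih =>
    intro hj
    have h1 := ih (by omega)
    have hp : 1 ≤ 2 ^ j := Nat.one_le_two_pow
    have hGz : (1 : ℤ) ≤ (G : ℤ) := by exact_mod_cast hG
    have hpz : (1 : ℤ) ≤ (2 : ℤ) ^ j := by exact_mod_cast hp
    have hjG : (j : ℤ) + 1 ≤ (G : ℤ) := by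
      have : j + 1 ≤ G := hj.trans hJG
      exact_mod_cast this
    have hjJ : (j : ℤ) ≤ (J : ℤ) := by exact_mod_cast (by omega : j ≤ J)
    have hκz : 4 * ((J : ℤ) + 300) * G ≤ κ := by exact_mod_cast hκ2
    have hjz : (0 : ℤ) ≤ j := Int.natCast_nonneg _
    have h2 := PQ.step hS hC hOV (p := 2 ^ j) hV hp (by positivity) (by positivity)
      (by push_cast; nlinarith) hjG hGz hκ hK
      (by
        push_cast
        have g1 : (2 : ℤ) ^ j * (4 * ((J : ℤ) + 300) * G) ≤ 2 ^ j * κ :=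
          mul_le_mul_of_nonneg_left hκz (by positivity)
        have g2 : (2 : ℤ) ^ j * (j * G) ≤ 2 ^ j * (J * G) :=
          mul_le_mul_of_nonneg_left (mul_le_mul_of_nonneg_right hjJ (by omega)) (by positivity)
        have g3 : (1 : ℤ) ≤ 2 ^ j * G := by nlinarith
        have g4 : (0 : ℤ) ≤ 2 ^ j * (J * G) := by positivity
        nlinarith) h1
    have e1 : (2 : ℤ) * (2 ^ j * G) = 2 ^ (j + 1) * G := by rw [pow_succ]; ring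
    have e2 : (2 : ℤ) * (2 ^ j * j * G) + 2 * (2 ^ j * G) = 2 ^ (j + 1) * ((j + 1 : ℕ) : ℤ) * G := by
      rw [pow_succ]; push_cast; ring
    have e3 : (2 : ℤ) * (2 ^ j * j) + 2 * ((2 ^ j : ℕ) : ℤ) = 2 ^ (j + 1) * ((j + 1 : ℕ) : ℤ) := by
      rw [pow_succ]; push_cast; ring
    have e4 : (j : ℤ) + 1 = ((j + 1 : ℕ) : ℤ) := by push_cast; ring
    rw [e2, e1, e3, e4] at h2
    exact h2

/-- the exponential gain beats the length -/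
theorem exp_gain {v Γ₀ c₀ : ℝ} {Z m : ℕ} (hv1 : 1 ≤ v) (hZ : (Z : ℝ) ≤ v ^ 4)
    (hm : v ^ 32 ≤ (m : ℝ)) (hc₀ : 0 < c₀) (hΓ₀ : 1 ≤ Γ₀) (hcv : 2 ≤ c₀ * v)
    (hΓv : 2 * Γ₀ ≤ v) : v ^ Z * (Γ₀ * Real.exp (-(c₀ * m))) ≤ 1 / 2 := by
  have h1 : v ≤ Real.exp v := by linarith [Real.add_one_le_exp v]
  have h2 : v ^ Z ≤ Real.exp (Z * v) := by
    rw [Real.exp_nat_mul]
    exact pow_le_pow_left₀ (by linarith) h1 Z
  have h3 : Z * v ≤ v ^ 5 := by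
    calc Z * v ≤ v ^ 4 * v := mul_le_mul_of_nonneg_right hZ (by linarith)
      _ = v ^ 5 := by ring
  have h4 : v + v ^ 5 ≤ c₀ * m := by
    have a1 : v ≤ v ^ 5 := by
      calc v = v ^ 1 := (pow_one v).symm
        _ ≤ v ^ 5 := pow_le_pow_right₀ hv1 (by norm_num)
    have a2 : v ^ 5 ≤ v ^ 31 := pow_le_pow_right₀ hv1 (by norm_num)
    have a3 : c₀ * v ^ 32 ≤ c₀ * m := mul_le_mul_of_nonneg_left hm hc₀.le
    have a4 : c₀ * v ^ 32 = (c₀ * v) * v ^ 31 := by ring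
    have a5 : 2 * v ^ 31 ≤ (c₀ * v) * v ^ 31 := mul_le_mul_of_nonneg_right hcv (by positivity)
    linarith
  have h5 : 2 * (v ^ Z * (Γ₀ * Real.exp (-(c₀ * m)))) ≤ 1 := by
    have b1 : v ^ Z * (2 * Γ₀) ≤ Real.exp (v ^ 5) * Real.exp v :=
      mul_le_mul (h2.trans (Real.exp_le_exp.2 h3)) (hΓv.trans h1) (by linarith)
        (Real.exp_pos _).le
    have b2 : v ^ Z * (2 * Γ₀) * Real.exp (-(c₀ * m))
        ≤ Real.exp (v ^ 5) * Real.exp v * Real.exp (-(c₀ * m)) :=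
      mul_le_mul_of_nonneg_right b1 (Real.exp_pos _).le
    rw [← Real.exp_add, ← Real.exp_add] at b2
    have b3 : Real.exp (v ^ 5 + v + -(c₀ * m)) ≤ 1 := by
      rw [← Real.exp_zero]
      exact Real.exp_le_exp.2 (by linarith)
    linarith
  linarith

theorem final_bound {q : ℝ} (h0 : 0 < q) (h1 : q < 1) {C₀ Γ₀ c₀ : ℝ} (hΓ₀ : 1 ≤ Γ₀)
    (hc₀ : 0 < c₀) {E : Fin 3 → Alg} {v K G J m : ℕ} (hE : ∀ d, Pr (E d))
    (hcl : ∀ d, l1 (E d - cellN q m d) ≤ Γ₀ * Real.exp (-(c₀ * (m : ℝ))))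
    (hv1 : (1 : ℝ) ≤ v)
    (hZ : ((132 * (2 ^ J * G) + 2 ^ J * (256 + J) * G : ℕ) : ℝ) ≤ (v : ℝ) ^ 4)
    (hm : (v : ℝ) ^ 32 ≤ (m : ℝ)) (hcv : 2 ≤ c₀ * v)
    (hΓv : 2 * Γ₀ ≤ v)
    (h : PQ C₀ E v K (2 ^ J * G) (2 ^ J * J * G) (2 ^ J * J) J G) :
    ∃ wX wY : List (Fin 3), wX ≠ wY ∧ wX.length = wY.length ∧
      wX.length ≤ v ^ (132 * (2 ^ J * G)) ∧
      l1 (ev (cellN q m) wX - ev (cellN q m) wY) ≤ 2 / (v : ℝ) ^ (2 ^ J * (256 + J) * G) := by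
  obtain ⟨T, X, Y, U, V, ρ, L, N, R, kT, k, r, β, η, lam, ζ, wX, wY, hlvl, eX, eY, hne, hlen,
    hle, hkT, hL, hLK, hlam, hB⟩ := h
  have hlenR : (wY.length : ℝ) ≤ (v : ℝ) ^ (132 * (2 ^ J * G)) := by
    refine hle.trans ?_
    rw [← zpow_natCast]
    apply zle hv1
    push_cast
    have : (1 : ℤ) ≤ (2 : ℤ) ^ J := one_le_pow₀ (by norm_num)
    have hG0 : (0 : ℤ) ≤ G := Int.natCast_nonneg _
    nlinarith
  have hlenN : wX.length ≤ v ^ (132 * (2 ^ J * G)) := by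
    rw [hlen]
    exact_mod_cast hlenR
  refine ⟨wX, wY, hne, hlen, hlenN, ?_⟩
  set D : ℕ := 2 ^ J * (256 + J) * G with hD
  have hvD : 0 < (v : ℝ) ^ D := by positivity
  have hgain := exp_gain (Z := 132 * (2 ^ J * G) + D) hv1 hZ hm hc₀ hΓ₀ hcv hΓv
  set δ : ℝ := Γ₀ * Real.exp (-(c₀ * (m : ℝ))) with hδ
  have hδ0 : 0 ≤ δ := by rw [hδ]; positivity
  have hF : ∀ d, Pr (cellN q m d) := fun d => Pr_cellN h0 h1 _ d
  have a1 := ev_close hE hF hcl wX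
  have a2 := ev_close hE hF hcl wY
  have hPY : Pr Y := by rw [eY]; exact ev_pr hE wY
  have a3 : l1 (X - Y) ≤ η := L2_l1 hPY hlvl.ΔY
  have hη : η ≤ 1 / (v : ℝ) ^ D := by
    refine hB.ηle.trans (le_of_eq ?_)
    rw [one_div, ← zpow_natCast, ← zpow_neg]
    congr 1
    rw [hD]
    push_cast
    ring
  have hlδ : (wY.length : ℝ) * δ ≤ 1 / 2 / (v : ℝ) ^ D := by
    rw [le_div_iff₀ hvD]
    calc (wY.length : ℝ) * δ * (v : ℝ) ^ D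
        ≤ (v : ℝ) ^ (132 * (2 ^ J * G)) * δ * (v : ℝ) ^ D := by
          apply mul_le_mul_of_nonneg_right _ hvD.le
          exact mul_le_mul_of_nonneg_right hlenR hδ0
      _ = (v : ℝ) ^ (132 * (2 ^ J * G) + D) * δ := by rw [pow_add]; ring
      _ ≤ 1 / 2 := hgain
  have hlX : (wX.length : ℝ) * δ ≤ 1 / 2 / (v : ℝ) ^ D := by rw [hlen]; exact hlδ
  have e1 : ev (cellN q m) wX - ev (cellN q m) wY
      = (X - Y) - (ev E wX - ev (cellN q m) wX) + (ev E wY - ev (cellN q m) wY) := by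
    rw [eX, eY]
    abel
  have b1 := l1_add ((X - Y) - (ev E wX - ev (cellN q m) wX)) (ev E wY - ev (cellN q m) wY)
  have b2 := l1_sub (X - Y) (ev E wX - ev (cellN q m) wX)
  rw [← e1] at b1
  have e2 : 2 / (v : ℝ) ^ D = 1 / (v : ℝ) ^ D + 1 / 2 / (v : ℝ) ^ D + 1 / 2 / (v : ℝ) ^ D := by
    ring
  rw [e2]
  linarith

theorem VB_of {C₀ : ℝ} {v K n₀ : ℕ} (hC : 2 ≤ C₀) (hn₀ : C₀ ≤ n₀)
    (h1 : 2 ^ 10 ≤ v) (h2 : 2 ^ (4 * K + 11) ≤ v) (h3 : 2 ^ (8 * K + 40 + 4 * n₀) ≤ v)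
    (h4 : 2 ^ (6 + 2 * n₀) ≤ v) : VB v C₀ K := by
  have hn : C₀ ≤ 2 ^ n₀ := by
    refine hn₀.trans ?_
    have : n₀ < 2 ^ n₀ := Nat.lt_two_pow_self
    exact_mod_cast this.le
  have h1N : 1024 ≤ v := by simpa using h1
  have h1R : (1024 : ℝ) ≤ v := by exact_mod_cast h1N
  have h2R : ((2 : ℝ) ^ (4 * K + 11)) ≤ v := by exact_mod_cast h2
  have h3R : ((2 : ℝ) ^ (8 * K + 40 + 4 * n₀)) ≤ v := by exact_mod_cast h3
  have h4R : ((2 : ℝ) ^ (6 + 2 * n₀)) ≤ v := by exact_mod_cast h4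
  refine ⟨?_, ?_, ?_, ?_⟩
  · linarith
  · refine le_trans ?_ h2R
    rw [show 4 * K + 11 = (4 * K + 8) + 3 by ring, pow_add _ (4 * K + 8) 3]
    have : (0 : ℝ) < 2 ^ (4 * K + 8) := by positivity
    norm_num
    linarith
  · refine le_trans ?_ h3R
    calc (2 ^ (2 * K + 10) * C₀) ^ 4 ≤ (2 ^ (2 * K + 10) * 2 ^ n₀) ^ 4 := by
          apply pow_le_pow_left₀ (by positivity)
          exact mul_le_mul_of_nonneg_left hn (by positivity)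
      _ = 2 ^ (8 * K + 40 + 4 * n₀) := by
          rw [← pow_add, ← pow_mul]
          congr 1
          ring
  · refine le_trans ?_ h4R
    calc 64 * C₀ ^ 2 ≤ 64 * (2 ^ n₀) ^ 2 := by
          have := pow_le_pow_left₀ (by linarith : (0 : ℝ) ≤ C₀) hn 2
          linarith
      _ = 2 ^ (6 + 2 * n₀) := by
          rw [pow_add, ← pow_mul, mul_comm n₀ 2]
          norm_num

theorem cast_inv_pow {v J F : ℕ} {G : ℕ} (n : ℕ) (hG : G = J * F) :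
    1 / ((v ^ J : ℕ) : ℝ) ^ (n * F) = (v : ℝ) ^ (-((n * G : ℕ) : ℤ)) := by
  rw [one_div, zpow_neg, zpow_natCast]
  push_cast
  rw [← pow_mul, hG]
  congr 2
  ring

theorem cast_pow' {v J F : ℕ} {G : ℕ} (n : ℕ) (hG : G = J * F) :
    (((v ^ J) ^ (n * F) : ℕ) : ℝ) = (v : ℝ) ^ ((n * G : ℕ) : ℤ) := by
  rw [zpow_natCast]
  push_cast
  rw [← pow_mul, hG]
  congr 1
  ring

theorem nums {C₀ : ℝ} {K₀ E₁ s₀ n₀ n₁ n₂ J v A B G κ : ℕ} (hC : 2 ≤ C₀) (hn₀ : C₀ ≤ n₀)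
    (hK₀ : 1 ≤ K₀) (hE₁ : 1 ≤ E₁) (hA : A = 19264 * E₁ * K₀)
    (hB : B = 8 * A + (40 + 4 * n₀ + s₀ + n₁ + n₂ + 400 + E₁)) (hJ : 1 ≤ J)
    (hv : 2 ^ (B * J ^ 2) ≤ v) (hG : G = J * E₁) (hκ : κ = 4 * (J + 300) * G * K₀) :
    VB v C₀ (16 * κ) ∧ s₀ ≤ v ^ J ∧ K₀ ≤ 16 * κ ∧ 4 * (J + 300) * G ≤ κ ∧ n₁ ≤ v ∧ n₂ ≤ v ∧
      132 * (2 ^ J * G) + 2 ^ J * (256 + J) * G ≤ v ^ 4 := by
  have hJ2 : 1 ≤ J ^ 2 := Nat.one_le_pow _ _ hJ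
  have hJJ : J ≤ J ^ 2 := by nlinarith
  have hpow : ∀ x : ℕ, x ≤ B * J ^ 2 → 2 ^ x ≤ v := fun x hx =>
    (Nat.pow_le_pow_right (by norm_num) hx).trans hv
  have hlin : ∀ x : ℕ, x ≤ B * J ^ 2 → x ≤ v := fun x hx =>
    (Nat.lt_two_pow_self (n := x)).le.trans (hpow x hx)
  have hG1 : 1 ≤ G := by rw [hG]; exact Nat.mul_pos hJ hE₁
  have hKA : 16 * κ ≤ A * J ^ 2 := by
    have g1 : J + 300 ≤ 301 * J := by omega
    calc 16 * κ = 64 * (E₁ * K₀ * J) * (J + 300) := by rw [hκ, hG]; ring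
      _ ≤ 64 * (E₁ * K₀ * J) * (301 * J) := Nat.mul_le_mul_left _ g1
      _ = A * J ^ 2 := by rw [hA]; ring
  have hκ2 : 4 * (J + 300) * G ≤ κ := by rw [hκ]; exact Nat.le_mul_of_pos_right _ hK₀
  have hK₀K : K₀ ≤ 16 * κ := by
    have : K₀ ≤ κ := by
      rw [hκ]
      exact Nat.le_mul_of_pos_left _ (Nat.mul_pos (by omega) hG1)
    omega
  have hBA : B * J ^ 2 = 8 * (A * J ^ 2) + (40 + 4 * n₀ + s₀ + n₁ + n₂ + 400 + E₁) * J ^ 2 := by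
    rw [hB]; ring
  have hrest : 40 + 4 * n₀ + s₀ + n₁ + n₂ + 400 + E₁
      ≤ (40 + 4 * n₀ + s₀ + n₁ + n₂ + 400 + E₁) * J ^ 2 := Nat.le_mul_of_pos_right _ hJ2
  have h400 : 400 * J ^ 2 ≤ B * J ^ 2 := Nat.mul_le_mul_right _ (by omega)
  generalize (40 + 4 * n₀ + s₀ + n₁ + n₂ + 400 + E₁) * J ^ 2 = R₁ at hBA hrest
  generalize A * J ^ 2 = R₂ at hBA hKA
  have hV : VB v C₀ (16 * κ) := by
    apply VB_of hC hn₀
    · exact hpow _ (by omega)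
    · exact hpow _ (by omega)
    · exact hpow _ (by omega)
    · exact hpow _ (by omega)
  have hs : s₀ ≤ v ^ J := by
    have g1 : s₀ ≤ v := hlin _ (by omega)
    exact g1.trans (Nat.le_self_pow (by omega) v)
  refine ⟨hV, hs, hK₀K, hκ2, hlin _ (by omega), hlin _ (by omega), ?_⟩
  have g1 : 2 ^ J ≤ v := hpow _ (by omega)
  have g2 : J ≤ v := hlin _ (by omega)
  have g3 : E₁ ≤ v := hlin _ (by omega)
  have g4 : 388 + J ≤ v := by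
    apply hlin
    omega
  calc 132 * (2 ^ J * G) + 2 ^ J * (256 + J) * G = 2 ^ J * J * E₁ * (388 + J) := by
        rw [hG]; ring
    _ ≤ v * v * v * v := Nat.mul_le_mul (Nat.mul_le_mul (Nat.mul_le_mul g1 g2) g3) g4
    _ = v ^ 4 := by ring

theorem init {C₀ : ℝ} {E : Fin 3 → Alg} {v J E₁ G K₀ K : ℕ} {T X Y U V ρ : Alg}
    {N R kT k : ℕ} {r β η lam ζ : ℝ} {wX wY : List (Fin 3)} (hv1 : (1 : ℝ) ≤ v)
    (hG : G = J * E₁) (hG1 : 1 ≤ G) (hK₀K : K₀ ≤ K)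
    (hlvl : LvlQ T X Y U V ρ (2 ^ K₀) N R kT k C₀ r β η lam ζ)
    (eX : X = ev E wX) (eY : Y = ev E wY) (hne : wX ≠ wY) (hlen : wX.length = wY.length)
    (hlenle : wY.length ≤ (v ^ J) ^ (64 * E₁)) (hkT : 1 ≤ kT) (hlam : lam ≤ η)
    (hN : (v ^ J) ^ (16 * E₁) ≤ N) (hk : (v ^ J) ^ (32 * E₁) ≤ k)
    (hk' : k ≤ (v ^ J) ^ (64 * E₁)) (hr : r ≤ 1 / ((v ^ J : ℕ) : ℝ) ^ (256 * E₁))
    (hβ : β ≤ 1 / ((v ^ J : ℕ) : ℝ) ^ (128 * E₁)) (hη : η ≤ 1 / ((v ^ J : ℕ) : ℝ) ^ (256 * E₁))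
    (hlam' : lam ≤ 1 / ((v ^ J : ℕ) : ℝ) ^ (260 * E₁))
    (hζ : ζ ≤ 1 / ((v ^ J : ℕ) : ℝ) ^ (32 * E₁)) : PQ C₀ E v K G 0 0 0 G := by
  have hNR : (v : ℝ) ^ ((16 * G : ℕ) : ℤ) ≤ N := by
    rw [← cast_pow' (F := E₁) 16 hG]; exact_mod_cast hN
  have hkR : (v : ℝ) ^ ((32 * G : ℕ) : ℤ) ≤ k := by
    rw [← cast_pow' (F := E₁) 32 hG]; exact_mod_cast hk
  have hk'R : (k : ℝ) ≤ (v : ℝ) ^ ((64 * G : ℕ) : ℤ) := by
    rw [← cast_pow' (F := E₁) 64 hG]; exact_mod_cast hk'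
  have hlR : (wY.length : ℝ) ≤ (v : ℝ) ^ ((64 * G : ℕ) : ℤ) := by
    rw [← cast_pow' (F := E₁) 64 hG]; exact_mod_cast hlenle
  rw [cast_inv_pow 256 hG] at hr hη
  rw [cast_inv_pow 128 hG] at hβ
  rw [cast_inv_pow 260 hG] at hlam'
  rw [cast_inv_pow 32 hG] at hζ
  have hBQ : BQ (v : ℝ) G 0 0 0 G N k r β η lam ζ := by
    refine ⟨?_, ?_, ?_, L2_nonneg hlvl.ρT, ?_, L2_nonneg hlvl.TU, ?_, L2_nonneg hlvl.ΔX, ?_,
      L2_nonneg hlvl.lamX, ?_, hlvl.ζX.1, ?_⟩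
    · exact (zle hv1 (by omega)).trans hNR
    · exact (zle hv1 (by omega)).trans hkR
    · exact hk'R.trans (zle hv1 (by omega))
    · exact hr.trans (zle hv1 (by omega))
    · exact hβ.trans (zle hv1 (by omega))
    · exact hη.trans (zle hv1 (by omega))
    · exact hlam'.trans (zle hv1 (by omega))
    · exact hζ.trans (zle hv1 (by omega))
  refine ⟨T, X, Y, U, V, ρ, 2 ^ K₀, N, R, kT, k, r, β, η, lam, ζ, wX, wY, hlvl, eX, eY, hne,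
    hlen, ?_, hkT, Nat.one_le_two_pow, Nat.pow_le_pow_right (by norm_num) hK₀K, hlam, hBQ⟩
  exact hlR.trans (zle hv1 (by omega))

end

end Vale.P321S.LQ

namespace Vale.P321S

open LQ LV

theorem stLevelsQ (hS : StStepQ) (hStart : StStartQ) : StLevelsQ := by
  intro q h0 h1
  obtain ⟨C₀, Γ₀, c₀, K₀, E₁, e, s₀, hC, hOV, hΓ₀, hc₀, hK₀, he, heE, hst⟩ := hStart q h0 h1
  obtain ⟨n₀, hn₀⟩ := exists_nat_ge C₀
  obtain ⟨n₁, hn₁⟩ := exists_nat_ge (2 * Γ₀)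
  obtain ⟨n₂, hn₂⟩ := exists_nat_ge (2 / c₀)
  refine ⟨8 * (19264 * E₁ * K₀) + (40 + 4 * n₀ + s₀ + n₁ + n₂ + 400 + E₁), E₁, e, he, heE, ?_⟩
  intro J v hJ hv
  have hE₁ : 1 ≤ E₁ := he.trans heE
  obtain ⟨hV, hs, hK₀K, hκ2, hn1, hn2, hZN⟩ :=
    nums (G := J * E₁) hC hn₀ hK₀ hE₁ rfl rfl hJ hv rfl rfl
  have hG1 : 1 ≤ J * E₁ := Nat.mul_pos hJ hE₁
  have hJG : J ≤ J * E₁ := Nat.le_mul_of_pos_right _ hE₁
  have hv1 := hV.hv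
  obtain ⟨E, T, X, Y, U, V, ρ, N, R, kT, k, r, β, η, lam, ζ, wX, wY, hE, hcl, hlvl, eX, eY,
    hne, hlen, hlenle, hkT, hlam, hN, hk, hk', hr, hβ, hη, hlam', hζ⟩ := hst (v ^ J) hs
  have em : (v ^ J) ^ (32 * e) = v ^ (32 * e * J) := by
    rw [← pow_mul]; congr 1; ring
  rw [em] at hcl
  have hP0 := init hv1 rfl hG1 hK₀K hlvl eX eY hne hlen hlenle hkT hlam hN hk hk' hr hβ hη
    hlam' hζ
  have hPJ := PQ.all hS hC hOV hV hJG hG1 rfl hκ2 hP0 J le_rfl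
  have hZ : ((132 * (2 ^ J * (J * E₁)) + 2 ^ J * (256 + J) * (J * E₁) : ℕ) : ℝ)
      ≤ (v : ℝ) ^ 4 := by exact_mod_cast hZN
  have hm : (v : ℝ) ^ 32 ≤ ((v ^ (32 * e * J) : ℕ) : ℝ) := by
    push_cast
    apply pow_le_pow_right₀ hv1
    have : 1 ≤ e * J := Nat.mul_pos he hJ
    nlinarith
  have hcv : 2 ≤ c₀ * v := by
    have g2 : (n₂ : ℝ) ≤ v := by exact_mod_cast hn2
    have g3 : 2 / c₀ ≤ v := hn₂.trans g2
    rw [div_le_iff₀ hc₀] at g3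
    linarith
  have hΓv : 2 * Γ₀ ≤ v := by
    have g2 : (n₁ : ℝ) ≤ v := by exact_mod_cast hn1
    exact hn₁.trans g2
  obtain ⟨wX', wY', h1', h2', h3', h4'⟩ :=
    final_bound h0 h1 hΓ₀ hc₀ hE hcl hv1 hZ hm hcv hΓv hPJ
  refine ⟨wX', wY', h1', h2', ?_, ?_⟩
  · have e1 : 2 ^ J * (132 * (J * E₁)) = 132 * (2 ^ J * (J * E₁)) := by ring
    rw [e1]
    exact h3'
  · have e1 : 2 ^ J * ((256 + J) * (J * E₁)) = 2 ^ J * (256 + J) * (J * E₁) := by ring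
    rw [e1]
    exact h4'

end Vale.P321S
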