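import Vale.Agent.P321S.AllQPre
import Vale.Agent.P321S.LevelsQ

namespace Vale.P321S

/-- The quantitative lower bound for the sample complexity of trace reconstruction. -/
theorem finalQ : StFinalQ := finalQ_of stLevelsQ

end Vale.P321S
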