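import Vale.Agent.P321S.DefsQ

/-! # P321Q: words of cells relative to words of cells (module BLOCKQ) -/

namespace Vale.P321S

open scoped BigOperators

namespace BlkQ

noncomputable section

/-- the letter of a Boolean -/
def dl (X Y : Alg) (b : Bool) : Alg := if b then X else Y

/-- the hypotheses on the two letters -/
structure Hy (X Y : Alg) (η ζ θ : ℝ) : Prop where
  prX : Pr X
  prY : Pr Y
  lX : L2 (X - Y) X η
  lY : L2 (X - Y) Y η
  zX : NP 4 (X - Y) X ζ
  zY : NP 4 (X - Y) Y ζ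
  tX : NP 3 (X - Y) X θ
  tY : NP 3 (X - Y) Y θ
  tc : θ ^ 3 ≤ η

variable {X Y : Alg} {η ζ θ : ℝ}

theorem NP_nonneg {p : ℕ} {f g : Alg} {t : ℝ} (h : NP p f g t) : 0 ≤ t := h.1

theorem pr_dl (h : Hy X Y η ζ θ) (c : Bool) : Pr (dl X Y c) := by
  cases c
  · simpa [dl] using h.prY
  · simpa [dl] using h.prX

theorem mass_dl (h : Hy X Y η ζ θ) (b c : Bool) : mass (dl X Y b - dl X Y c) = 0 := by
  rw [mass_sub, (pr_dl h b).2, (pr_dl h c).2, sub_self]

theorem l2_dl (h : Hy X Y η ζ θ) (b c : Bool) : L2 (dl X Y b - dl X Y c) (dl X Y c) η := by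
  have h0 : 0 ≤ η := h.lX.1
  cases b <;> cases c
  · simp only [dl, Bool.false_eq_true, if_false, sub_self]
    exact L2_mono (L2_zero _) h0
  · simp only [dl, Bool.false_eq_true, if_false, if_true]
    have := L2_neg h.lX
    rwa [neg_sub] at this
  · simp only [dl, Bool.false_eq_true, if_false, if_true]
    exact h.lY
  · simp only [dl, if_true, sub_self]
    exact L2_mono (L2_zero _) h0

theorem np4_dl (pw : LibPW) (h : Hy X Y η ζ θ) (b c : Bool) :
    NP 4 (dl X Y b - dl X Y c) (dl X Y c) ζ := by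
  have h0 : 0 ≤ ζ := h.zX.1
  cases b <;> cases c
  · simp only [dl, Bool.false_eq_true, if_false, sub_self]
    exact pw.mono _ _ _ _ _ (pw.zero 4 _ (by norm_num)) h0
  · simp only [dl, Bool.false_eq_true, if_false, if_true]
    have := pw.neg _ _ _ _ h.zX
    rwa [neg_sub] at this
  · simp only [dl, Bool.false_eq_true, if_false, if_true]
    exact h.zY
  · simp only [dl, if_true, sub_self]
    exact pw.mono _ _ _ _ _ (pw.zero 4 _ (by norm_num)) h0

theorem np3_dl (pw : LibPW) (h : Hy X Y η ζ θ) (b c : Bool) :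
    NP 3 (dl X Y b - dl X Y c) (dl X Y c) θ := by
  have h0 : 0 ≤ θ := h.tX.1
  cases b <;> cases c
  · simp only [dl, Bool.false_eq_true, if_false, sub_self]
    exact pw.mono _ _ _ _ _ (pw.zero 3 _ (by norm_num)) h0
  · simp only [dl, Bool.false_eq_true, if_false, if_true]
    have := pw.neg _ _ _ _ h.tX
    rwa [neg_sub] at this
  · simp only [dl, Bool.false_eq_true, if_false, if_true]
    exact h.tY
  · simp only [dl, if_true, sub_self]
    exact pw.mono _ _ _ _ _ (pw.zero 3 _ (by norm_num)) h0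

theorem np3_dl_one (pw : LibPW) (h : Hy X Y η ζ θ) (b c : Bool) :
    NP 3 (dl X Y b) (dl X Y c) (1 + η) := by
  have h0 : 0 ≤ η := h.lX.1
  have e : dl X Y c + (dl X Y b - dl X Y c) = dl X Y b := by abel
  have := pw.np3_one (dl X Y b - dl X Y c) (dl X Y c) η θ (1 + η) (pr_dl h c)
    (by rw [e]; exact (pr_dl h b).1) (mass_dl h b c) (l2_dl h b c) (np3_dl pw h b c)
    (by linarith) (by nlinarith [h.tc, mul_nonneg h0 h0, mul_nonneg h0 (mul_nonneg h0 h0)])
  rwa [e] at this

theorem l2_dl_one (pw : LibPW) (h : Hy X Y η ζ θ) (b c : Bool) :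
    L2 (dl X Y b) (dl X Y c) (Real.sqrt (1 + η ^ 2)) := by
  have e : dl X Y c + (dl X Y b - dl X Y c) = dl X Y b := by abel
  have := pw.l2_one (dl X Y b - dl X Y c) (dl X Y c) η (pr_dl h c) (mass_dl h b c)
    (l2_dl h b c)
  rwa [e] at this

/-- the list of pairs of letters -/
def ps (X Y : Alg) (l u : List Bool) : List (Alg × Alg) :=
  (l.map (dl X Y)).zip (u.map (dl X Y))

theorem ps_fst (X Y : Alg) {l u : List Bool} (h : l.length = u.length) :
    ((ps X Y l u).map Prod.fst).prod = val l X Y := by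
  unfold ps
  rw [List.map_fst_zip (by simp [h])]
  rfl

theorem ps_snd (X Y : Alg) {l u : List Bool} (h : l.length = u.length) :
    ((ps X Y l u).map Prod.snd).prod = val u X Y := by
  unfold ps
  rw [List.map_snd_zip (by simp [h])]
  rfl

theorem ps_length (X Y : Alg) {l u : List Bool} (h : l.length = u.length) :
    (ps X Y l u).length = u.length := by
  unfold ps
  simp [List.length_zip, h]

theorem ps_mem (X Y : Alg) (l u : List Bool) (p : Alg × Alg) (hp : p ∈ ps X Y l u) :
    ∃ b c : Bool, p.1 = dl X Y b ∧ p.2 = dl X Y c := by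
  unfold ps at hp
  obtain ⟨a, b⟩ := p
  obtain ⟨h1, h2⟩ := List.of_mem_zip hp
  rw [List.mem_map] at h1 h2
  obtain ⟨x, -, hx⟩ := h1
  obtain ⟨y, -, hy⟩ := h2
  exact ⟨x, y, hx.symm, hy.symm⟩

/-- first and second assertions, in general form -/
theorem l2_val (pw : LibPW) (h : Hy X Y η ζ θ) (l u : List Bool) (hl : l.length = u.length) :
    L2 (val l X Y - val u X Y) (val u X Y) (Real.sqrt ((1 + η ^ 2) ^ u.length - 1)) ∧
      L2 (val l X Y) (val u X Y) (Real.sqrt ((1 + η ^ 2) ^ u.length)) := by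
  have := pw.prod_l2 (ps X Y l u) η h.lX.1 (by
    intro p hp
    obtain ⟨b, c, h1, h2⟩ := ps_mem X Y l u p hp
    rw [h1, h2]
    exact ⟨pr_dl h c, mass_dl h b c, l2_dl h b c⟩)
  rwa [ps_fst X Y hl, ps_snd X Y hl, ps_length X Y hl] at this

theorem np3_val (pw : LibPW) (h : Hy X Y η ζ θ) (l u : List Bool) (hl : l.length = u.length) :
    NP 3 (val l X Y) (val u X Y) ((1 + η) ^ u.length) := by
  have h0 : 0 ≤ η := h.lX.1
  have := pw.prod_np 3 (ps X Y l u) (1 + η) (by norm_num) (by linarith) (by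
    intro p hp
    obtain ⟨b, c, h1, h2⟩ := ps_mem X Y l u p hp
    rw [h1, h2]
    exact ⟨pr_dl h c, np3_dl_one pw h b c⟩)
  rwa [ps_fst X Y hl, ps_snd X Y hl, ps_length X Y hl] at this

theorem np4_val_sub (pw : LibPW) (h : Hy X Y η ζ θ) (l u : List Bool)
    (hl : l.length = u.length) :
    NP 4 (val l X Y - val u X Y) (val u X Y) ((1 + ζ) ^ u.length - 1) := by
  have := pw.prod_npd 4 (ps X Y l u) ζ (by norm_num) h.zX.1 (by
    intro p hp
    obtain ⟨b, c, h1, h2⟩ := ps_mem X Y l u p hp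
    rw [h1, h2]
    exact ⟨pr_dl h c, np4_dl pw h b c⟩)
  rwa [ps_fst X Y hl, ps_snd X Y hl, ps_length X Y hl] at this

theorem np3_val_sub (pw : LibPW) (h : Hy X Y η ζ θ) (l u : List Bool)
    (hl : l.length = u.length) :
    NP 3 (val l X Y - val u X Y) (val u X Y) ((1 + θ) ^ u.length - 1) := by
  have := pw.prod_npd 3 (ps X Y l u) θ (by norm_num) h.tX.1 (by
    intro p hp
    obtain ⟨b, c, h1, h2⟩ := ps_mem X Y l u p hp
    rw [h1, h2]
    exact ⟨pr_dl h c, np3_dl pw h b c⟩)
  rwa [ps_fst X Y hl, ps_snd X Y hl, ps_length X Y hl] at this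

/-! ### numerical facts -/

theorem one_add_pow_le_two {x : ℝ} (h0 : 0 ≤ x) (m : ℕ) (h : (m : ℝ) * x ≤ 1) :
    (1 + x) ^ m ≤ 1 + 2 * m * x := by
  have h1 : (1 + x) ^ m ≤ Real.exp (m * x) := by
    calc (1 + x) ^ m ≤ (Real.exp x) ^ m := by
          apply pow_le_pow_left₀ (by linarith)
          linarith [Real.add_one_le_exp x]
      _ = Real.exp (m * x) := by rw [← Real.exp_nat_mul]
  have h2 : 0 ≤ (m : ℝ) * x := by positivity
  have h3 : Real.exp (m * x) ≤ 1 + (m * x) + (m * x) ^ 2 := by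
    have := Real.abs_exp_sub_one_sub_id_le (x := m * x) (by rw [abs_of_nonneg h2]; exact h)
    have := (abs_le.mp this).2
    linarith
  nlinarith [h1, h3, h2, mul_le_mul_of_nonneg_left h h2]

theorem dl_true (X Y : Alg) : dl X Y true = X := rfl

theorem dl_false (X Y : Alg) : dl X Y false = Y := rfl

theorem val_cons' (c : Bool) (u : List Bool) (X Y : Alg) :
    val (c :: u) X Y = dl X Y c * val u X Y := by
  rw [val_cons]; rfl

theorem l2_delta (h : Hy X Y η ζ θ) (c : Bool) : L2 (X - Y) (dl X Y c) η := by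
  cases c
  · exact h.lY
  · exact h.lX

theorem np3_delta (h : Hy X Y η ζ θ) (c : Bool) : NP 3 (X - Y) (dl X Y c) θ := by
  cases c
  · exact h.tY
  · exact h.tX

theorem Nn_dl (h : Hy X Y η ζ θ) (c : Bool) : Nn (dl X Y c) := (pr_dl h c).1

theorem Nn_val' (h : Hy X Y η ζ θ) (u : List Bool) : Nn (val u X Y) :=
  Nn_val h.prX.1 h.prY.1 u

/-- `Sk 1` in terms of words -/
theorem Sk1_eq (l : List Bool) (X Y : Alg) (u : List Bool) :
    Sk 1 l (X - Y) Y = (val l X Y - val u X Y)
      - (val (List.replicate l.length false) X Y - val u X Y) := by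
  rw [Sk_one, val_replicate_false]
  have e : Y + (X - Y) = X := by abel
  rw [e]
  abel

theorem Sk1_l2 (pw : LibPW) (h : Hy X Y η ζ θ) (l u : List Bool) (hl : l.length = u.length)
    (hn : (u.length : ℝ) * η ^ 2 ≤ 1) :
    L2 (Sk 1 l (X - Y) Y) (val u X Y) (4 * u.length * η) := by
  have h0 : 0 ≤ η := h.lX.1
  have hb : Real.sqrt ((1 + η ^ 2) ^ u.length - 1) ≤ 2 * u.length * η := by
    rw [Real.sqrt_le_left (by positivity)]
    have := one_add_pow_le_two (x := η ^ 2) (by positivity) u.length hn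
    have hu : (u.length : ℝ) ≤ (u.length : ℝ) ^ 2 := by
      rcases Nat.eq_zero_or_pos u.length with h1 | h1
      · rw [h1]; simp
      · have : (1 : ℝ) ≤ u.length := by exact_mod_cast h1
        nlinarith
    nlinarith [mul_nonneg h0 h0, mul_le_mul_of_nonneg_right hu (mul_nonneg h0 h0)]
  rw [Sk1_eq l X Y u]
  have h1 := L2_mono (l2_val pw h l u hl).1 hb
  have h2 := L2_mono (l2_val pw h (List.replicate l.length false) u
    (by simp [hl])).1 hb
  have h3 := L2_add (Nn_val' h u) h1 (L2_neg h2)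
  rw [← sub_eq_add_neg] at h3
  refine L2_mono h3 ?_
  linarith

theorem Sk2_l2 (pw : LibPW) (h : Hy X Y η ζ θ) (l u : List Bool) (hl : l.length = u.length)
    (hn : (u.length : ℝ) * η ^ 2 ≤ 1) :
    L2 (Sk 2 l (X - Y) Y) (val u X Y)
      (Real.sqrt (1 + η ^ 2) ^ u.length * (2 * (u.length : ℝ) ^ 2 * η ^ 2)) := by
  have h0 : 0 ≤ η := h.lX.1
  have ha : 1 ≤ Real.sqrt (1 + η ^ 2) := by
    rw [Real.one_le_sqrt]; nlinarith [mul_nonneg h0 h0]
  induction l generalizing u with
  | nil =>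
    have : u = [] := List.length_eq_zero_iff.mp (by simpa using hl.symm)
    subst this
    have e : Sk 2 [] (X - Y) Y = 0 := by simp [Sk, subk]
    rw [e]
    refine L2_mono (L2_zero _) ?_
    simp
  | cons b l ih =>
    cases u with
    | nil => simp at hl
    | cons c u =>
      have hl' : l.length = u.length := by simpa using hl
      have hn' : (u.length : ℝ) * η ^ 2 ≤ 1 := by
        rw [List.length_cons] at hn
        push_cast at hn
        nlinarith [mul_nonneg h0 h0]
      have ih' := ih u hl' hn'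
      have hY := L2_mul (Nn_dl h c) (Nn_val' h u) (l2_dl_one pw h false c) ih'
      rw [dl_false] at hY
      have hbd : Real.sqrt (1 + η ^ 2) * (Real.sqrt (1 + η ^ 2) ^ u.length *
          (2 * (u.length : ℝ) ^ 2 * η ^ 2)) + η * (4 * u.length * η) ≤
          Real.sqrt (1 + η ^ 2) ^ (c :: u).length * (2 * ((c :: u).length : ℝ) ^ 2 * η ^ 2) := by
        rw [List.length_cons, pow_succ (Real.sqrt (1 + η ^ 2))]
        push_cast
        have hp : 1 ≤ Real.sqrt (1 + η ^ 2) ^ u.length := one_le_pow₀ ha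
        set A := Real.sqrt (1 + η ^ 2)
        set B := A ^ u.length
        have hAB : 1 ≤ A * B := by nlinarith
        have h5 : 0 ≤ (4 * (u.length : ℝ) + 2) * η ^ 2 := by positivity
        nlinarith [mul_le_mul_of_nonneg_right hAB h5, mul_nonneg h0 h0]
      cases b
      · rw [Sk_false, val_cons']
        refine L2_mono hY (le_trans ?_ hbd)
        have : 0 ≤ η * (4 * u.length * η) := by positivity
        linarith
      · rw [Sk_succ_true, val_cons']
        have h1 := L2_mul (Nn_dl h c) (Nn_val' h u) (l2_delta h c) (Sk1_l2 pw h l u hl' hn')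
        have h2 := L2_add (Nn_mul (Nn_dl h c) (Nn_val' h u)) h1 hY
        refine L2_mono h2 (le_trans (le_of_eq ?_) hbd)
        ring

theorem Sk3_l2 (pw : LibPW) (h : Hy X Y η ζ θ) (l u : List Bool) (hl : l.length = u.length)
    (hn : (u.length : ℝ) * η ^ 2 ≤ 1) :
    L2 (Sk 3 l (X - Y) Y) (val u X Y)
      (Real.sqrt (1 + η ^ 2) ^ u.length * ((u.length : ℝ) ^ 3 * η ^ 3)) := by
  have h0 : 0 ≤ η := h.lX.1
  have ha : 1 ≤ Real.sqrt (1 + η ^ 2) := by
    rw [Real.one_le_sqrt]; nlinarith [mul_nonneg h0 h0]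
  induction l generalizing u with
  | nil =>
    have : u = [] := List.length_eq_zero_iff.mp (by simpa using hl.symm)
    subst this
    have e : Sk 3 [] (X - Y) Y = 0 := by simp [Sk, subk]
    rw [e]
    refine L2_mono (L2_zero _) ?_
    simp
  | cons b l ih =>
    cases u with
    | nil => simp at hl
    | cons c u =>
      have hl' : l.length = u.length := by simpa using hl
      have hn' : (u.length : ℝ) * η ^ 2 ≤ 1 := by
        rw [List.length_cons] at hn
        push_cast at hn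
        nlinarith [mul_nonneg h0 h0]
      have ih' := ih u hl' hn'
      have hY := L2_mul (Nn_dl h c) (Nn_val' h u) (l2_dl_one pw h false c) ih'
      rw [dl_false] at hY
      have hbd : Real.sqrt (1 + η ^ 2) * (Real.sqrt (1 + η ^ 2) ^ u.length *
          ((u.length : ℝ) ^ 3 * η ^ 3)) + η * (Real.sqrt (1 + η ^ 2) ^ u.length *
          (2 * (u.length : ℝ) ^ 2 * η ^ 2)) ≤
          Real.sqrt (1 + η ^ 2) ^ (c :: u).length * (((c :: u).length : ℝ) ^ 3 * η ^ 3) := by
        rw [List.length_cons, pow_succ (Real.sqrt (1 + η ^ 2))]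
        push_cast
        have hp : 1 ≤ Real.sqrt (1 + η ^ 2) ^ u.length := one_le_pow₀ ha
        set A := Real.sqrt (1 + η ^ 2)
        set B := A ^ u.length
        have hB : 0 ≤ B := by linarith
        have h5 : 0 ≤ B * (2 * (u.length : ℝ) ^ 2 * η ^ 3) := by positivity
        have h6 : 0 ≤ B * A * (((u.length : ℝ) ^ 2 + 3 * u.length + 1) * η ^ 3) := by positivity
        have h7 : B * (2 * (u.length : ℝ) ^ 2 * η ^ 3) ≤ A * (B * (2 * (u.length : ℝ) ^ 2 * η ^ 3)) := by
          nlinarith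
        nlinarith
      cases b
      · rw [Sk_false, val_cons']
        refine L2_mono hY (le_trans ?_ hbd)
        have : 0 ≤ η * (Real.sqrt (1 + η ^ 2) ^ u.length *
          (2 * (u.length : ℝ) ^ 2 * η ^ 2)) := by positivity
        linarith
      · rw [Sk_succ_true, val_cons']
        have h1 := L2_mul (Nn_dl h c) (Nn_val' h u) (l2_delta h c) (Sk2_l2 pw h l u hl' hn')
        have h2 := L2_add (Nn_mul (Nn_dl h c) (Nn_val' h u)) h1 hY
        refine L2_mono h2 (le_trans (le_of_eq ?_) hbd)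
        ring

theorem Sk1_np3 (pw : LibPW) (h : Hy X Y η ζ θ) (l u : List Bool) (hl : l.length = u.length)
    (hn : (u.length : ℝ) * θ ≤ 1) :
    NP 3 (Sk 1 l (X - Y) Y) (val u X Y) (4 * u.length * θ) := by
  have h0 : 0 ≤ θ := h.tX.1
  have hb : (1 + θ) ^ u.length - 1 ≤ 2 * u.length * θ := by
    have := one_add_pow_le_two h0 u.length hn
    linarith
  rw [Sk1_eq l X Y u]
  have h1 := pw.mono _ _ _ _ _ (np3_val_sub pw h l u hl) hb
  have h2 := pw.mono _ _ _ _ _ (np3_val_sub pw h (List.replicate l.length false) u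
    (by simp [hl])) hb
  have h3 := pw.sub 3 _ _ _ _ _ (by norm_num) (Nn_val' h u) h1 h2
  refine pw.mono _ _ _ _ _ h3 ?_
  linarith

theorem Sk2_np3 (pw : LibPW) (h : Hy X Y η ζ θ) (l u : List Bool) (hl : l.length = u.length)
    (hn : (u.length : ℝ) * θ ≤ 1) :
    NP 3 (Sk 2 l (X - Y) Y) (val u X Y)
      ((1 + η) ^ u.length * (2 * (u.length : ℝ) ^ 2 * θ ^ 2)) := by
  have h0 : 0 ≤ η := h.lX.1
  have hθ : 0 ≤ θ := h.tX.1
  have ha : 1 ≤ 1 + η := by linarith
  induction l generalizing u with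
  | nil =>
    have : u = [] := List.length_eq_zero_iff.mp (by simpa using hl.symm)
    subst this
    have e : Sk 2 [] (X - Y) Y = 0 := by simp [Sk, subk]
    rw [e]
    refine pw.mono _ _ _ _ _ (pw.zero 3 _ (by norm_num)) ?_
    simp
  | cons b l ih =>
    cases u with
    | nil => simp at hl
    | cons c u =>
      have hl' : l.length = u.length := by simpa using hl
      have hn' : (u.length : ℝ) * θ ≤ 1 := by
        rw [List.length_cons] at hn
        push_cast at hn
        nlinarith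
      have ih' := ih u hl' hn'
      have hY := pw.mul 3 _ _ _ _ _ _ (by norm_num) (Nn_dl h c) (Nn_val' h u)
        (np3_dl_one pw h false c) ih'
      rw [dl_false] at hY
      have hbd : (1 + η) * ((1 + η) ^ u.length *
          (2 * (u.length : ℝ) ^ 2 * θ ^ 2)) + θ * (4 * u.length * θ) ≤
          (1 + η) ^ (c :: u).length * (2 * ((c :: u).length : ℝ) ^ 2 * θ ^ 2) := by
        rw [List.length_cons, pow_succ (1 + η)]
        push_cast
        have hp : 1 ≤ (1 + η) ^ u.length := one_le_pow₀ ha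
        set A := 1 + η
        set B := A ^ u.length
        have hAB : 1 ≤ A * B := by nlinarith
        have h5 : 0 ≤ (4 * (u.length : ℝ) + 2) * θ ^ 2 := by positivity
        nlinarith [mul_le_mul_of_nonneg_right hAB h5, mul_nonneg hθ hθ]
      cases b
      · rw [Sk_false, val_cons']
        refine pw.mono _ _ _ _ _ hY (le_trans ?_ hbd)
        have : 0 ≤ θ * (4 * u.length * θ) := by positivity
        linarith
      · rw [Sk_succ_true, val_cons']
        have h1 := pw.mul 3 _ _ _ _ _ _ (by norm_num) (Nn_dl h c) (Nn_val' h u)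
          (np3_delta h c) (Sk1_np3 pw h l u hl' hn')
        have h2 := pw.add 3 _ _ _ _ _ (by norm_num) (Nn_mul (Nn_dl h c) (Nn_val' h u)) h1 hY
        refine pw.mono _ _ _ _ _ h2 (le_trans (le_of_eq ?_) hbd)
        ring

theorem one1_np3 (pw : LibPW) (h : Hy X Y η ζ θ) (l u : List Bool) (hl : l.length = u.length) :
    NP 3 (one1 l (X - Y) Y) (val u X Y)
      ((1 + η) ^ u.length * ((u.length : ℝ) * θ)) := by
  have h0 : 0 ≤ η := h.lX.1
  have hθ : 0 ≤ θ := h.tX.1
  have ha : 1 ≤ 1 + η := by linarith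
  induction l generalizing u with
  | nil =>
    have : u = [] := List.length_eq_zero_iff.mp (by simpa using hl.symm)
    subst this
    have e : one1 [] (X - Y) Y = 0 := rfl
    rw [e]
    refine pw.mono _ _ _ _ _ (pw.zero 3 _ (by norm_num)) ?_
    simp
  | cons b l ih =>
    cases u with
    | nil => simp at hl
    | cons c u =>
      have hl' : l.length = u.length := by simpa using hl
      have ih' := ih u hl'
      have hY := pw.mul 3 _ _ _ _ _ _ (by norm_num) (Nn_dl h c) (Nn_val' h u)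
        (np3_dl_one pw h false c) ih'
      rw [dl_false] at hY
      have hbd : θ * (1 + η) ^ u.length + (1 + η) * ((1 + η) ^ u.length * ((u.length : ℝ) * θ)) ≤
          (1 + η) ^ (c :: u).length * (((c :: u).length : ℝ) * θ) := by
        rw [List.length_cons, pow_succ (1 + η)]
        push_cast
        have hp : 1 ≤ (1 + η) ^ u.length := one_le_pow₀ ha
        set A := 1 + η
        set B := A ^ u.length
        have h5 : 0 ≤ B * θ := by positivity
        nlinarith
      cases b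
      · simp only [one1, Bool.false_eq_true, if_false, zero_add]
        rw [val_cons']
        refine pw.mono _ _ _ _ _ hY (le_trans ?_ hbd)
        have : 0 ≤ θ * (1 + η) ^ u.length := by positivity
        linarith
      · simp only [one1, if_true]
        rw [val_cons']
        have hp := np3_val pw h (List.replicate l.length false) u (by simp [hl'])
        rw [val_replicate_false] at hp
        have h1 := pw.mul 3 _ _ _ _ _ _ (by norm_num) (Nn_dl h c) (Nn_val' h u)
          (np3_delta h c) hp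
        exact pw.mono _ _ _ _ _
          (pw.add 3 _ _ _ _ _ (by norm_num) (Nn_mul (Nn_dl h c) (Nn_val' h u)) h1 hY) hbd

end

end BlkQ

open BlkQ in
theorem stBlockQ (pw : LibPW) : StBlockQ := by
  intro X Y n η ζ prX prY lX lY zX zY hn hη hζ l u hl hu
  have h0 : 0 ≤ η := lX.1
  have z0 : 0 ≤ ζ := zX.1
  have hn1 : (1 : ℝ) ≤ n := by exact_mod_cast hn
  have hn2 : (n : ℝ) ≤ (n : ℝ) ^ 2 := by nlinarith
  have hn3 : (n : ℝ) ≤ (n : ℝ) ^ 3 := by nlinarith [mul_le_mul_of_nonneg_left hn2 (by linarith : (0:ℝ) ≤ n)]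
  have hη1 : (n : ℝ) * η ≤ 1 / 1000 := by nlinarith [mul_le_mul_of_nonneg_right hn3 h0]
  have hηs : η ≤ 1 / 1000 := by nlinarith
  have hζ1 : ζ ≤ 1 / 2 := by nlinarith
  -- the cube root
  set θ : ℝ := (η * ζ ^ 2) ^ ((1 : ℝ) / 3) with hθ
  have hθ0 : 0 ≤ θ := Real.rpow_nonneg (by positivity) _
  have hθ3 : θ ^ 3 = η * ζ ^ 2 := by
    rw [hθ, ← Real.rpow_natCast, ← Real.rpow_mul (by positivity)]
    norm_num
  have hθη : θ ^ 3 ≤ η := by
    rw [hθ3]
    have hz2 : ζ ^ 2 ≤ 1 := by nlinarith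
    have := mul_le_mul_of_nonneg_left hz2 h0
    linarith
  have hθn : 10 * (n : ℝ) * θ ≤ 1 := by
    by_contra hcon
    push Not at hcon
    have h1 : 1 < (10 * (n : ℝ) * θ) ^ 3 := one_lt_pow₀ hcon (by norm_num)
    have h2 : (10 * (n : ℝ) * θ) ^ 3 = 1000 * (n : ℝ) ^ 3 * θ ^ 3 := by ring
    have h3 : 1000 * (n : ℝ) ^ 3 * θ ^ 3 ≤ 1000 * (n : ℝ) ^ 3 * η :=
      mul_le_mul_of_nonneg_left hθη (by positivity)
    linarith
  have H : Hy X Y η ζ θ :=
    { prX := prX, prY := prY, lX := lX, lY := lY, zX := zX, zY := zY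
      tX := pw.np3_of _ _ η ζ θ prX.1 lX zX hθ0 (le_of_eq hθ3.symm)
      tY := pw.np3_of _ _ η ζ θ prY.1 lY zY hθ0 (le_of_eq hθ3.symm)
      tc := hθη }
  have hlu : l.length = u.length := by rw [hl, hu]
  have hsq : (n : ℝ) * η ^ 2 ≤ 1 / 1000 := by nlinarith
  have e1 : (1 + η ^ 2) ^ n ≤ 1 + 2 * n * η ^ 2 :=
    one_add_pow_le_two (by positivity) n (by linarith)
  have e2 : (1 + η) ^ n ≤ 1 + 2 * n * η := one_add_pow_le_two h0 n (by linarith)
  have e3 : (1 + ζ) ^ n ≤ 1 + 2 * n * ζ := one_add_pow_le_two z0 n (by linarith)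
  have hA : Real.sqrt (1 + η ^ 2) ^ n ≤ 2 := by
    have hle : Real.sqrt (1 + η ^ 2) ≤ 1 + η := by
      rw [Real.sqrt_le_left (by linarith)]
      nlinarith
    calc Real.sqrt (1 + η ^ 2) ^ n ≤ (1 + η) ^ n := pow_le_pow_left₀ (Real.sqrt_nonneg _) hle n
      _ ≤ 2 := by linarith
  obtain ⟨a2, a1⟩ := l2_val pw H l u hlu
  have a3 := np3_val pw H l u hlu
  have a4 := np4_val_sub pw H l u hlu
  have a5 := Sk2_l2 pw H l u hlu (by rw [hu]; linarith)
  have a6 := Sk2_np3 pw H l u hlu (by rw [hu]; linarith)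
  have a7 := Sk3_l2 pw H l u hlu (by rw [hu]; linarith)
  have a8 := one1_np3 pw H l u hlu
  rw [hu] at a1 a2 a3 a4 a5 a6 a7 a8
  refine ⟨L2_mono a1 ?_, L2_mono a2 ?_, pw.mono _ _ _ _ _ a3 ?_, pw.mono _ _ _ _ _ a4 ?_,
    L2_mono a5 ?_, pw.mono _ _ _ _ _ a6 ?_, L2_mono a7 ?_, pw.mono _ _ _ _ _ a8 ?_⟩
  · rw [Real.sqrt_le_left (by norm_num)]
    linarith
  · rw [Real.sqrt_le_left (by positivity)]
    nlinarith [mul_le_mul_of_nonneg_right hn2 (mul_nonneg h0 h0)]
  · nlinarith
  · linarith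
  · have : Real.sqrt (1 + η ^ 2) ^ n * (2 * (n : ℝ) ^ 2 * η ^ 2) ≤
        2 * (2 * (n : ℝ) ^ 2 * η ^ 2) := mul_le_mul_of_nonneg_right hA (by positivity)
    nlinarith [show (0 : ℝ) ≤ (n : ℝ) ^ 2 * η ^ 2 by positivity]
  · have h1 : (1 + η) ^ n ≤ 2 := by linarith
    have h2 : (n : ℝ) ^ 2 * θ ^ 2 ≤ 1 / 100 := by
      have : ((n : ℝ) * θ) ^ 2 ≤ (1 / 10) ^ 2 :=
        pow_le_pow_left₀ (by positivity) (by linarith) 2
      nlinarith
    have h3 : (1 + η) ^ n * (2 * (n : ℝ) ^ 2 * θ ^ 2) ≤ 2 * (2 * (n : ℝ) ^ 2 * θ ^ 2) :=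
      mul_le_mul_of_nonneg_right h1 (by positivity)
    nlinarith
  · have : Real.sqrt (1 + η ^ 2) ^ n * ((n : ℝ) ^ 3 * η ^ 3) ≤
        2 * ((n : ℝ) ^ 3 * η ^ 3) := mul_le_mul_of_nonneg_right hA (by positivity)
    nlinarith [show (0 : ℝ) ≤ (n : ℝ) ^ 3 * η ^ 3 by positivity]
  · have h1 : (1 + η) ^ n ≤ 2 := by linarith
    have h3 : (1 + η) ^ n * ((n : ℝ) * θ) ≤ 2 * ((n : ℝ) * θ) :=
      mul_le_mul_of_nonneg_right h1 (by positivity)
    linarith

end Vale.P321S
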