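import Vale.Agent.P321S.DefsQ
import Vale.Agent.P321S.Final

/-! # P321Q: module FINALQ (the quantitative lower bound for the sample complexity) -/

namespace Vale.P321S

open scoped BigOperators

noncomputable section

theorem stFinalQ (hTV : StTVQ) : StFinalQ := by
  intro q hq0 hq1
  obtain ⟨n₀, hn₀⟩ := hTV q hq0 hq1
  refine ⟨n₀ + ⌈Real.exp 8000⌉₊, ?_⟩
  intro n hn m hr
  obtain ⟨x, y, hx, hy, hxy, hclose⟩ := hn₀ n (by omega)
  have h := sample_bound hq0.le hq1.le hx hy hxy hr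
  have hn1 : Real.exp 8000 ≤ n := by
    refine Nat.ceil_le.mp ?_
    omega
  have hnpos : (0 : ℝ) < n := lt_of_lt_of_le (Real.exp_pos _) hn1
  have hlog : 8000 ≤ Real.log n := (Real.le_log_iff_exp_le hnpos).mpr hn1
  obtain ⟨L, hL⟩ : ∃ L : ℝ, L = Real.log (Real.log n) := ⟨_, rfl⟩
  have hL1 : 1 ≤ L := by
    rw [hL, Real.le_log_iff_exp_le (by linarith)]
    have := Real.exp_one_lt_d9
    linarith
  rw [← hL] at hclose ⊢
  have h2 : (1 : ℝ) / 3 ≤ (m : ℝ) * (n : ℝ) ^ (-(L / 800)) :=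
    h.trans (mul_le_mul_of_nonneg_left hclose (Nat.cast_nonneg m))
  -- the two powers
  have h3 : (n : ℝ) ^ (L / 1000) ≤ (n : ℝ) ^ (L / 800) * (1 / 3) := by
    have e : (n : ℝ) ^ (L / 800) = (n : ℝ) ^ (L / 1000) * (n : ℝ) ^ (L / 4000) := by
      rw [← Real.rpow_add hnpos]
      congr 1
      ring
    have h4 : (3 : ℝ) ≤ (n : ℝ) ^ (L / 4000) := by
      rw [← Real.log_le_log_iff (by norm_num) (by positivity), Real.log_rpow hnpos]
      have h5 : Real.log 3 ≤ 2 := by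
        have := Real.log_le_sub_one_of_pos (show (0 : ℝ) < 3 by norm_num)
        linarith
      have h6 : 1 * 8000 ≤ L * Real.log n := mul_le_mul hL1 hlog (by norm_num) (by linarith)
      linarith
    have h7 : 0 < (n : ℝ) ^ (L / 1000) := by positivity
    rw [e]
    nlinarith
  have h8 : 0 < (n : ℝ) ^ (L / 800) := by positivity
  have h9 : (m : ℝ) * (n : ℝ) ^ (-(L / 800)) * (n : ℝ) ^ (L / 800) = m := by
    rw [mul_assoc, ← Real.rpow_add hnpos]
    simp
  calc (n : ℝ) ^ (L / 1000) ≤ (n : ℝ) ^ (L / 800) * (1 / 3) := h3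
    _ = (1 / 3) * (n : ℝ) ^ (L / 800) := by ring
    _ ≤ (m : ℝ) * (n : ℝ) ^ (-(L / 800)) * (n : ℝ) ^ (L / 800) :=
        mul_le_mul_of_nonneg_right h2 h8.le
    _ = m := h9

end

end Vale.P321S
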