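import Vale.Agent.P321S.LiftQ

/-! # P321Q: the difference of the two new cells (module GAINQ) -/

namespace Vale.P321S

open scoped BigOperators

theorem Sk_one_eq (l : List Bool) (Δ Y : Alg) : Sk 1 l Δ Y = one1 l Δ Y + Sk 2 l Δ Y := by
  rw [Sk_one, Sk_two]; abel

theorem Sk_two_eq (l : List Bool) (Δ Y : Alg) : Sk 2 l Δ Y = two1 l Δ Y + Sk 3 l Δ Y := by
  induction l with
  | nil => simp [Sk, subk, two1]
  | cons b l ih =>
    cases b
    · rw [Sk_false, Sk_false, two1, ih]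
      simp only [Bool.false_eq_true, if_false, zero_add]
      rw [mul_add]
    · rw [Sk_succ_true, Sk_succ_true, two1, Sk_one_eq]
      simp only [if_true]
      have e3 : Sk (2 + 1) l Δ Y = Sk 3 l Δ Y := rfl
      rw [e3, ih]
      noncomm_ring

/-- the second feature ranges over the word -/
theorem gain_one_sum {Δ Y G : Alg} {N' n : ℕ} {t : ℝ} (hG : Nn G) (ht : 0 ≤ t)
    (h : ∀ i g j : ℕ, i + 1 + g + 1 + j = n →
      L2 (Y ^ (N' + i) * Δ * Y ^ g * Δ * Y ^ (j + N')) G t) (i : ℕ) :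
    ∀ (l : List Bool) (g : ℕ), i + 1 + g + l.length = n →
      L2 (Y ^ (N' + i) * Δ * Y ^ g * one1 l Δ Y * Y ^ N') G (l.length * t) := by
  intro l
  induction l with
  | nil =>
    intro g _
    rw [one1, mul_zero, zero_mul, List.length_nil]
    simpa using L2_zero G
  | cons b l ih =>
    intro g hg
    rw [List.length_cons] at hg
    have h2 := ih (g + 1) (by omega)
    have h1 : L2 (if b then Y ^ (N' + i) * Δ * Y ^ g * Δ * Y ^ (l.length + N') else 0) G t := by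
      cases b
      · simpa using L2_mono (L2_zero G) ht
      · simpa using h i g l.length (by omega)
    have h3 := L2_add hG h1 h2
    have e : Y ^ (N' + i) * Δ * Y ^ g * one1 (b :: l) Δ Y * Y ^ N' =
        (if b then Y ^ (N' + i) * Δ * Y ^ g * Δ * Y ^ (l.length + N') else 0) +
          Y ^ (N' + i) * Δ * Y ^ (g + 1) * one1 l Δ Y * Y ^ N' := by
      rw [one1, pow_succ Y g, pow_add Y l.length N']
      cases b
      · simp only [Bool.false_eq_true, if_false, zero_add]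
        noncomm_ring
      · simp only [if_true]
        noncomm_ring
    rw [e]
    refine L2_mono h3 (le_of_eq ?_)
    rw [List.length_cons]
    push_cast
    ring

theorem gain_two_sum {Δ Y G : Alg} {N' n : ℕ} {t : ℝ} (hG : Nn G) (ht : 0 ≤ t)
    (h : ∀ i g j : ℕ, i + 1 + g + 1 + j = n →
      L2 (Y ^ (N' + i) * Δ * Y ^ g * Δ * Y ^ (j + N')) G t) :
    ∀ (l : List Bool) (i : ℕ), i + l.length = n →
      L2 (Y ^ (N' + i) * two1 l Δ Y * Y ^ N') G ((l.length : ℝ) ^ 2 * t) := by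
  intro l
  induction l with
  | nil =>
    intro i _
    rw [two1, mul_zero, zero_mul, List.length_nil]
    simpa using L2_zero G
  | cons b l ih =>
    intro i hi
    rw [List.length_cons] at hi
    have h2 := ih (i + 1) (by omega)
    have h1 : L2 (if b then Y ^ (N' + i) * Δ * Y ^ 0 * one1 l Δ Y * Y ^ N' else 0) G
        (l.length * t) := by
      cases b
      · simpa using L2_mono (L2_zero G) (by positivity : (0 : ℝ) ≤ l.length * t)
      · simpa using gain_one_sum hG ht h i l 0 (by omega)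
    have h3 := L2_add hG h1 h2
    have e : Y ^ (N' + i) * two1 (b :: l) Δ Y * Y ^ N' =
        (if b then Y ^ (N' + i) * Δ * Y ^ 0 * one1 l Δ Y * Y ^ N' else 0) +
          Y ^ (N' + (i + 1)) * two1 l Δ Y * Y ^ N' := by
      rw [two1, ← Nat.add_assoc, pow_succ Y (N' + i), pow_zero, mul_one]
      cases b
      · simp only [Bool.false_eq_true, if_false, zero_add]
        noncomm_ring
      · simp only [if_true]
        noncomm_ring
    rw [e]
    refine L2_mono h3 ?_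
    rw [List.length_cons]
    push_cast
    have hl : (0 : ℝ) ≤ l.length := Nat.cast_nonneg _
    nlinarith [mul_nonneg hl ht]

/-- numerical lemma -/
theorem gain_num {p q x y z v Θ : ℝ} (hp : 1 ≤ p) (hq : q ≤ p) (hx : 0 ≤ x) (hy : 0 ≤ y)
    (hz : 0 ≤ z) (hv : 0 ≤ v) (hΘ : 0 ≤ Θ) :
    Θ + (p ^ 2 * (6 * x + 48 * (2 * y + 2 * (q * z)) + 2 * p * v + Θ) + 6 * p ^ 3 * z) +
      (p ^ 2 * (6 * x + 48 * (2 * y + 2 * (q * z)) + 2 * p * v + Θ) + 6 * p ^ 3 * z) ≤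
      256 * p ^ 3 * (x + y + z + v + Θ) := by
  have h2 : 1 ≤ p ^ 2 := one_le_pow₀ hp
  have h3 : p ^ 2 ≤ p ^ 3 := pow_le_pow_right₀ hp (by norm_num)
  have a1 : p ^ 2 * x ≤ p ^ 3 * x := mul_le_mul_of_nonneg_right h3 hx
  have a2 : p ^ 2 * y ≤ p ^ 3 * y := mul_le_mul_of_nonneg_right h3 hy
  have a3 : p ^ 2 * (q * z) ≤ p ^ 3 * z := by
    have h4 : q * z ≤ p * z := mul_le_mul_of_nonneg_right hq hz
    calc p ^ 2 * (q * z) ≤ p ^ 2 * (p * z) := mul_le_mul_of_nonneg_left h4 (by positivity)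
      _ = p ^ 3 * z := by ring
  have a4 : p ^ 2 * Θ ≤ p ^ 3 * Θ := mul_le_mul_of_nonneg_right h3 hΘ
  have a5 : Θ ≤ p ^ 3 * Θ := by nlinarith
  have b1 : 0 ≤ p ^ 3 * x := by positivity
  have b2 : 0 ≤ p ^ 3 * y := by positivity
  have b3 : 0 ≤ p ^ 3 * z := by positivity
  have b4 : 0 ≤ p ^ 3 * Θ := by positivity
  have b5 : 0 ≤ p ^ 3 * v := by positivity
  have e : Θ + (p ^ 2 * (6 * x + 48 * (2 * y + 2 * (q * z)) + 2 * p * v + Θ) + 6 * p ^ 3 * z) +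
      (p ^ 2 * (6 * x + 48 * (2 * y + 2 * (q * z)) + 2 * p * v + Θ) + 6 * p ^ 3 * z) =
      12 * (p ^ 2 * x) + 192 * (p ^ 2 * y) + 192 * (p ^ 2 * (q * z)) + 4 * (p ^ 3 * v) +
        2 * (p ^ 2 * Θ) + 12 * (p ^ 3 * z) + Θ := by ring
  rw [e]
  have e2 : 256 * p ^ 3 * (x + y + z + v + Θ) = 256 * (p ^ 3 * x) + 256 * (p ^ 3 * y) +
    256 * (p ^ 3 * z) + 256 * (p ^ 3 * v) + 256 * (p ^ 3 * Θ) := by ring
  rw [e2]
  linarith

theorem gain_pows (K : ℕ) : (2 : ℝ) ^ (3 * K + 8) = 256 * ((2 : ℝ) ^ K) ^ 3 ∧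
    (2 : ℝ) ^ (K + 1) = 2 * 2 ^ K ∧ (8 : ℝ) ^ K = ((2 : ℝ) ^ K) ^ 3 := by
  refine ⟨?_, ?_, ?_⟩
  · rw [pow_add, mul_comm 3 K, pow_mul]; norm_num; ring
  · rw [pow_succ]; ring
  · rw [← pow_mul, mul_comm K 3, pow_mul]; norm_num

theorem stGainQ (pw : LibPW) (hM : StMonoQ) (hB : StBlockQ) (hDD : StDD) : StGainQ := by
  intro T X Y U V ρ L N R kT k C₀ r β η lam ζ hL hC hkT hL1 hr hlam K w ν N' Θ hK hw hwN hN' hν
    hNβ h1 h2 hΘ hpow u hu
  have prX : Pr X := by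
    rw [hL.Xdef]
    exact Pr_mul (Pr_mul (Pr_pow hL.prT N) hL.prU) (Pr_pow hL.prT N)
  have prY : Pr Y := by
    rw [hL.Ydef]
    exact Pr_mul (Pr_mul (Pr_pow hL.prT N) hL.prV) (Pr_pow hL.prT N)
  have hR1 : 1 ≤ R := by rw [hL.Req]; omega
  have hk1 : 1 ≤ k := by
    calc 1 = 1 * 1 := rfl
      _ ≤ R * kT := Nat.mul_le_mul hR1 hkT
      _ ≤ k := hL.kbig
  have hη0 : 0 ≤ η := hL.ΔX.1
  have hβ0 : 0 ≤ β := hL.TU.1
  have hlam0 : 0 ≤ lam := hL.lamX.1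
  have hr0 : 0 ≤ r := hL.ρT.1
  have hval : Nn (val u X Y) := Nn_val prX.1 prY.1 u
  have hG : Nn (Y ^ N' * val u X Y * Y ^ N') :=
    Nn_mul (Nn_mul (Nn_pow prY.1 N') hval) (Nn_pow prY.1 N')
  have hone := liftQ_one pw hB hDD hC prX prY hL.ΔX hL.ΔY hL.ζX hL.ζY hL.mixY hk1 hK hN' hν h1 h2
    hΘ hpow u hu
  refine ⟨hone, ?_⟩
  have hp1 : (1 : ℝ) ≤ 2 ^ K := one_le_pow₀ (by norm_num)
  obtain ⟨e1, e2, e3⟩ := gain_pows K
  -- monomials
  set t := 6 * (lam * η) + 48 * ((2 * Real.sqrt ((ν * k : ℕ) : ℝ) * β +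
    2 * Real.sqrt ((2 ^ K : ℕ) : ℝ) * η) * η ^ 2) + 2 ^ (K + 1) * r ^ 2 / Real.sqrt w + Θ with ht
  have ht0 : 0 ≤ t := by rw [ht]; positivity
  have h8 : 8 * ((2 ^ K : ℕ) : ℝ) * η ≤ 1 := by
    rw [liftQ_cast]
    refine le_trans ?_ h1
    rw [e3]
    have h9 : (2 : ℝ) ^ K ≤ ((2 : ℝ) ^ K) ^ 3 := by
      calc (2 : ℝ) ^ K = ((2 : ℝ) ^ K) ^ 1 := (pow_one _).symm
        _ ≤ ((2 : ℝ) ^ K) ^ 3 := pow_le_pow_right₀ hp1 (by norm_num)
    have h10 : (0 : ℝ) ≤ ((2 : ℝ) ^ K) ^ 3 := by positivity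
    apply mul_le_mul_of_nonneg_right _ hη0
    linarith
  have hmono : ∀ i g j : ℕ, i + 1 + g + 1 + j = 2 ^ K →
      L2 (Y ^ (N' + i) * (X - Y) * Y ^ g * (X - Y) * Y ^ (j + N'))
        (Y ^ N' * val u X Y * Y ^ N') t := by
    intro i g j hij
    have := hM T X Y U V ρ L N R kT k C₀ r β η lam ζ hL hC hkT hL1 hr hlam K w ν (2 ^ K) Θ hK hw
      hwN (hν.trans (Nat.le_mul_of_pos_right ν (by omega)))
      (le_trans (Nat.lt_two_pow_self (n := K)).le hν) (by rw [← hN']; exact hNβ) h8 hΘ hpow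
      i g j u hij hu
    rw [← hN'] at this
    rw [ht]
    rw [← hN']
    exact this
  have htwo : ∀ b : Bool, L2 (Y ^ N' * two1 (tm K b) (X - Y) Y * Y ^ N')
      (Y ^ N' * val u X Y * Y ^ N') (((2 : ℝ) ^ K) ^ 2 * t) := by
    intro b
    have := gain_two_sum hG ht0 hmono (tm K b) 0 (by rw [tm_length]; omega)
    rw [tm_length, liftQ_cast] at this
    simpa using this
  have hthree : ∀ b : Bool, L2 (Y ^ N' * Sk 3 (tm K b) (X - Y) Y * Y ^ N')
      (Y ^ N' * val u X Y * Y ^ N') (6 * ((2 : ℝ) ^ K) ^ 3 * η ^ 3) := by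
    intro b
    have hb := (hB X Y (2 ^ K) η ζ prX prY hL.ΔX hL.ΔY hL.ζX hL.ζY Nat.one_le_two_pow
      (liftQ_n3 h1) (liftQ_nz h2) (tm K b) u (tm_length K b) hu).2.2.2.2.2.2.1
    rw [liftQ_cast] at hb
    exact liftQ_seaL prY hval hb
  have hXY : Y + (X - Y) = X := by abel
  have hsk : ∀ b : Bool, L2 (Y ^ N' * Sk 2 (tm K b) (X - Y) Y * Y ^ N')
      (Y ^ N' * val u X Y * Y ^ N')
      (((2 : ℝ) ^ K) ^ 2 * t + 6 * ((2 : ℝ) ^ K) ^ 3 * η ^ 3) := by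
    intro b
    rw [Sk_two_eq, mul_add, add_mul]
    exact L2_add hG (htwo b) (hthree b)
  have hfin := L2_add hG (L2_add hG hone (hsk true)) (L2_neg (hsk false))
  have e : Y ^ N' * (val (tm K true) X Y - val (tm K false) X Y) * Y ^ N' =
      Y ^ N' * (one1 (tm K true) (X - Y) Y - one1 (tm K false) (X - Y) Y) * Y ^ N' +
        Y ^ N' * Sk 2 (tm K true) (X - Y) Y * Y ^ N' +
        -(Y ^ N' * Sk 2 (tm K false) (X - Y) Y * Y ^ N') := by
    rw [Sk_two, Sk_two, hXY, tm_length, tm_length]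
    noncomm_ring
  rw [e]
  refine L2_mono hfin ?_
  have hq : Real.sqrt ((2 ^ K : ℕ) : ℝ) ≤ 2 ^ K := by
    rw [liftQ_cast, Real.sqrt_le_left (by positivity)]
    nlinarith
  have hnum := gain_num (p := 2 ^ K) (q := Real.sqrt ((2 ^ K : ℕ) : ℝ)) (x := lam * η)
    (y := Real.sqrt N' * β * η ^ 2) (z := η ^ 3) (v := r ^ 2 / Real.sqrt w) (Θ := Θ) hp1 hq
    (by positivity) (by positivity) (by positivity) (by positivity) hΘ
  rw [e1]
  refine le_trans (le_of_eq ?_) hnum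
  rw [ht, ← hN', e2]
  ring

end Vale.P321S
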