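import Vale.Agent.P321S.DefsQ
import Vale.Agent.P321S.Step

/-! # P321Q: the block data of the next level (module LIFTQ) -/

namespace Vale.P321S

open scoped BigOperators

theorem liftQ_cast (K : ℕ) : ((2 ^ K : ℕ) : ℝ) = 2 ^ K := by push_cast; rfl

theorem liftQ_n3 {K : ℕ} {η : ℝ} (h : 1000 * 8 ^ K * η ≤ 1) :
    1000 * ((2 ^ K : ℕ) : ℝ) ^ 3 * η ≤ 1 := by
  have e : ((2 ^ K : ℕ) : ℝ) ^ 3 = 8 ^ K := by
    push_cast
    rw [← pow_mul, mul_comm K 3, pow_mul]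
    norm_num
  rw [e]; exact h

theorem liftQ_nz {K : ℕ} {ζ : ℝ} (h : 2 ^ (K + 1) * ζ ≤ 1) :
    2 * ((2 ^ K : ℕ) : ℝ) * ζ ≤ 1 := by
  have e : 2 * ((2 ^ K : ℕ) : ℝ) = 2 ^ (K + 1) := by
    push_cast
    rw [pow_succ]; ring
  rw [e]; exact h

theorem liftQ_eta {K : ℕ} {η : ℝ} (h0 : 0 ≤ η) (h : 1000 * 8 ^ K * η ≤ 1) : η ≤ 1 := by
  have h1 : (1 : ℝ) ≤ 8 ^ K := one_le_pow₀ (by norm_num)
  nlinarith

theorem liftQ_pow {K ν : ℕ} {C₀ Θ : ℝ} (hC : 0 ≤ C₀)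
    (h : (2 ^ (2 * K + 10) * C₀ / Real.sqrt ν) ^ K ≤ Θ ^ 4) :
    ((2 ^ (K + 2) * K * C₀) / Real.sqrt ν) ^ K ≤ Θ ^ 4 := by
  refine le_trans ?_ h
  apply pow_le_pow_left₀ (by positivity)
  apply div_le_div_of_nonneg_right _ (Real.sqrt_nonneg _)
  apply mul_le_mul_of_nonneg_right _ hC
  have h1 : (K : ℝ) ≤ 2 ^ K := by
    have := (Nat.lt_two_pow_self (n := K)).le
    exact_mod_cast this
  have h2 : (0 : ℝ) ≤ 2 ^ (K + 2) := by positivity
  calc (2 : ℝ) ^ (K + 2) * K ≤ 2 ^ (K + 2) * 2 ^ K := mul_le_mul_of_nonneg_left h1 h2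
    _ = 2 ^ (2 * K + 2) := by rw [← pow_add]; congr 1; ring
    _ ≤ 2 ^ (2 * K + 10) := pow_le_pow_right₀ (by norm_num) (by omega)

/-- conjugation by the sea, general `p` -/
theorem liftQ_sea (pw : LibPW) {p : ℕ} (hp : 1 ≤ p) {Y f g : Alg} {N' : ℕ} {t : ℝ} (hY : Pr Y)
    (hg : Nn g) (h : NP p f g t) : NP p (Y ^ N' * f * Y ^ N') (Y ^ N' * g * Y ^ N') t := by
  have hs : NP p (Y ^ N') (Y ^ N') 1 := pw.self p _ hp (Pr_pow hY N')
  have h1 := pw.mul p _ _ _ _ _ _ hp (Nn_pow hY.1 N') hg hs h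
  have h2 := pw.mul p _ _ _ _ _ _ hp (Nn_mul (Nn_pow hY.1 N') hg) (Nn_pow hY.1 N') h1 hs
  rwa [one_mul, mul_one] at h2

theorem liftQ_seaL {Y f g : Alg} {N' : ℕ} {t : ℝ} (hY : Pr Y)
    (hg : Nn g) (h : L2 f g t) : L2 (Y ^ N' * f * Y ^ N') (Y ^ N' * g * Y ^ N') t := by
  have hs : L2 (Y ^ N') (Y ^ N') 1 := L2_self (Pr_pow hY N')
  have h1 := L2_mul (Nn_pow hY.1 N') hg hs h
  have h2 := L2_mul (Nn_mul (Nn_pow hY.1 N') hg) (Nn_pow hY.1 N') h1 hs
  rwa [one_mul, mul_one] at h2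

/-- the one-feature part -/
theorem liftQ_one (pw : LibPW) (hB : StBlockQ) (hDD : StDD) {X Y : Alg} {k K ν N' : ℕ}
    {C₀ η ζ Θ : ℝ} (hC : 2 ≤ C₀) (prX : Pr X) (prY : Pr Y)
    (hX : L2 (X - Y) X η) (hY : L2 (X - Y) Y η) (hζX : NP 4 (X - Y) X ζ) (hζY : NP 4 (X - Y) Y ζ)
    (hmix : Mix Y k C₀) (hk : 1 ≤ k) (hK : 1 ≤ K) (hN' : N' = ν * k) (hν : 2 ^ K ≤ ν)
    (h1 : 1000 * 8 ^ K * η ≤ 1) (h2 : 2 ^ (K + 1) * ζ ≤ 1) (hΘ : 0 ≤ Θ)
    (hpow : (2 ^ (2 * K + 10) * C₀ / Real.sqrt ν) ^ K ≤ Θ ^ 4)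
    (u : List Bool) (hu : u.length = 2 ^ K) :
    L2 (Y ^ N' * (one1 (tm K true) (X - Y) Y - one1 (tm K false) (X - Y) Y) * Y ^ N')
      (Y ^ N' * val u X Y * Y ^ N') Θ := by
  have hη0 : 0 ≤ η := hX.1
  have hη1 : η ≤ 1 := liftQ_eta hη0 h1
  have hb := fun l hl => (hB X Y (2 ^ K) η ζ prX prY hX hY hζX hζY Nat.one_le_two_pow
    (liftQ_n3 h1) (liftQ_nz h2) l u hl hu)
  have ha3 := (hb (tm K true) (tm_length K true)).2.2.2.2.2.2.2
  have hb3 := (hb (tm K false) (tm_length K false)).2.2.2.2.2.2.2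
  have hval : Nn (val u X Y) := Nn_val prX.1 prY.1 u
  have h3 : NP 3 (one1 (tm K true) (X - Y) Y - one1 (tm K false) (X - Y) Y) (val u X Y)
      (1 / 2 + 1 / 2) := pw.sub 3 _ _ _ _ _ (by norm_num) hval ha3 hb3
  have h4 := liftQ_sea pw (p := 3) (by norm_num) (N' := N') prY hval h3
  have hKν : K ≤ ν := le_trans (Nat.lt_two_pow_self (n := K)).le hν
  have hl1 : l1 (X - Y) ≤ 1 := (L2_l1 prX hX).trans hη1
  have h5 : l1 (Y ^ N' * (one1 (tm K true) (X - Y) Y - one1 (tm K false) (X - Y) Y) * Y ^ N')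
      ≤ ((2 ^ (K + 2) * K * C₀) / Real.sqrt ν) ^ K := by
    rw [l1_one1_tm]
    exact l1_dd_pows hDD prY hK (by linarith) hmix hk hN' hKν hl1
  refine pw.l2_of _ _ _ _ _ ?_ h5 h4 hΘ ?_
  · exact Nn_mul (Nn_mul (Nn_pow prY.1 N') hval) (Nn_pow prY.1 N')
  · have e : ((1 : ℝ) / 2 + 1 / 2) ^ 3 = 1 := by norm_num
    rw [e, mul_one]
    exact liftQ_pow (by linarith) hpow

theorem liftQ_four {K : ℕ} {η : ℝ} : 5 * ((2 ^ K : ℕ) : ℝ) ^ 2 * η ^ 2 + 5 * ((2 ^ K : ℕ) : ℝ) ^ 2 * η ^ 2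
    = 10 * 4 ^ K * η ^ 2 := by
  have e : ((2 ^ K : ℕ) : ℝ) ^ 2 = 4 ^ K := by
    push_cast
    rw [← pow_mul, mul_comm K 2, pow_mul]
    norm_num
  rw [e]; ring

theorem stLiftQ (pw : LibPW) (hB : StBlockQ) (hDD : StDD) : StLiftQ := by
  intro C₀ hC X Y k η ζ prX prY hX hY hζX hζY hmix hk K ν N' R' k' r' β' η' lam' ζ' Θ hK hN' hR'
    hk' hν h1 h2 hΘ hpow hr' hβ' hlam' hζ' hdX hdY hmix'
  have hη0 : 0 ≤ η := hX.1
  have hζ0 : 0 ≤ ζ := hζX.1
  have hb : ∀ l u : List Bool, l.length = 2 ^ K → u.length = 2 ^ K → _ := fun l u hl hu =>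
    (hB X Y (2 ^ K) η ζ prX prY hX hY hζX hζY Nat.one_le_two_pow (liftQ_n3 h1) (liftQ_nz h2) l u
      hl hu)
  have hone := fun u hu => liftQ_one pw hB hDD hC prX prY hX hY hζX hζY hmix hk hK hN' hν h1 h2 hΘ
    hpow u hu
  have hrep : (List.replicate (2 ^ K) false).length = 2 ^ K := List.length_replicate
  have hvr : val (List.replicate (2 ^ K) false) X Y = Y ^ 2 ^ K := val_replicate_false _ X Y
  have hNn : ∀ u, Nn (val u X Y) := fun u => Nn_val prX.1 prY.1 u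
  have hmX : mass (X - Y) = 0 := by rw [mass_sub, prX.2, prY.2, sub_self]
  have hn1 : (1 : ℝ) ≤ ((2 ^ K : ℕ) : ℝ) := by
    have : 1 ≤ 2 ^ K := Nat.one_le_two_pow
    exact_mod_cast this
  have hXY : Y + (X - Y) = X := by abel
  -- the new feature
  have hρ : ∀ u : List Bool, u.length = 2 ^ K →
      L2 (Sk 2 (tm K true) (X - Y) Y - Sk 2 (tm K false) (X - Y) Y) (val u X Y) r' := by
    intro u hu
    have ha := (hb (tm K true) u (tm_length K true) hu).2.2.2.2.1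
    have hc := (hb (tm K false) u (tm_length K false) hu).2.2.2.2.1
    have h3 := L2_add (hNn u) ha (L2_neg hc)
    rw [← sub_eq_add_neg] at h3
    refine L2_mono h3 (le_of_eq ?_)
    rw [hr']
    exact liftQ_four
  have hρ3 : ∀ u : List Bool, u.length = 2 ^ K →
      NP 3 (Sk 2 (tm K true) (X - Y) Y - Sk 2 (tm K false) (X - Y) Y) (val u X Y) 1 := by
    intro u hu
    have ha := (hb (tm K true) u (tm_length K true) hu).2.2.2.2.2.1
    have hc := (hb (tm K false) u (tm_length K false) hu).2.2.2.2.2.1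
    have h3 := pw.sub 3 _ _ _ _ _ (by norm_num) (hNn u) ha hc
    refine pw.mono 3 _ _ _ _ h3 (le_of_eq ?_)
    norm_num
  have hβle : 2 * ((2 ^ K : ℕ) : ℝ) * η ≤ β' := by
    rw [hβ', liftQ_cast]
    have : (0 : ℝ) ≤ 2 ^ K * η := by positivity
    linarith
  have hβ3 : 1 + 3 * ((2 ^ K : ℕ) : ℝ) * η ≤ 1 + β' := by
    rw [hβ', liftQ_cast]
    have : (0 : ℝ) ≤ 2 ^ K * η := by positivity
    linarith
  have hdiff : ∀ l u : List Bool, l.length = 2 ^ K → u.length = 2 ^ K →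
      L2 (val l X Y - val u X Y) (val u X Y) β' := fun l u hl hu =>
    L2_mono (hb l u hl hu).2.1 hβle
  have hnp3 : ∀ l u : List Bool, l.length = 2 ^ K → u.length = 2 ^ K →
      NP 3 (val l X Y) (val u X Y) (1 + β') := fun l u hl hu =>
    pw.mono 3 _ _ _ _ (hb l u hl hu).2.2.1 hβ3
  have hζeq : 2 * ((2 ^ K : ℕ) : ℝ) * ζ = ζ' := by
    rw [hζ', liftQ_cast, pow_succ]; ring
  have hnp4 : ∀ l u : List Bool, l.length = 2 ^ K → u.length = 2 ^ K →
      NP 4 (Y ^ N' * (val l X Y - val u X Y) * Y ^ N') (Y ^ N' * val u X Y * Y ^ N') ζ' := by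
    intro l u hl hu
    rw [← hζeq]
    exact liftQ_sea pw (p := 4) (by norm_num) prY (hNn u) (hb l u hl hu).2.2.2.1
  have hlam : ∀ u : List Bool, u.length = 2 ^ K →
      L2 (Y ^ N' * val (tm K true) X Y * Y ^ N' - Y ^ N' * val (tm K false) X Y * Y ^ N'
        - Y ^ N' * (Sk 2 (tm K true) (X - Y) Y - Sk 2 (tm K false) (X - Y) Y) * Y ^ N')
        (Y ^ N' * val u X Y * Y ^ N') lam' := by
    intro u hu
    have e : Y ^ N' * val (tm K true) X Y * Y ^ N' - Y ^ N' * val (tm K false) X Y * Y ^ N'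
        - Y ^ N' * (Sk 2 (tm K true) (X - Y) Y - Sk 2 (tm K false) (X - Y) Y) * Y ^ N'
        = Y ^ N' * (one1 (tm K true) (X - Y) Y - one1 (tm K false) (X - Y) Y) * Y ^ N' := by
      rw [Sk_two, Sk_two, hXY, tm_length, tm_length]
      noncomm_ring
    rw [e, hlam']
    exact hone u hu
  refine ⟨Sk 2 (tm K true) (X - Y) Y - Sk 2 (tm K false) (X - Y) Y, ?_⟩
  refine
    { prT := prY
      prU := Pr_val prX prY _
      prV := Pr_val prX prY _
      Xdef := rfl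
      Ydef := rfl
      Req := hR'
      massρ := ?_
      ρT := ?_
      ρU := hρ _ (tm_length K true)
      ρV := hρ _ (tm_length K false)
      ρT3 := ?_
      ρU3 := hρ3 _ (tm_length K true)
      ρV3 := hρ3 _ (tm_length K false)
      TU := ?_
      TV := ?_
      VT := ?_
      TU3 := ?_
      TV3 := ?_
      ΔX := hdX
      ΔY := hdY
      lamX := hlam _ (tm_length K true)
      lamY := hlam _ (tm_length K false)
      ζX := ?_
      ζY := ?_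
      mixT := hmix
      mixY := hmix'
      kbig := ?_ }
  · rw [mass_sub, mass_Sk hmX 2 (by norm_num), mass_Sk hmX 2 (by norm_num), sub_zero]
  · have := hρ _ hrep
    rwa [hvr] at this
  · have := hρ3 _ hrep
    rwa [hvr] at this
  · have := hdiff _ _ hrep (tm_length K true)
    rwa [hvr] at this
  · have := hdiff _ _ hrep (tm_length K false)
    rwa [hvr] at this
  · have := hdiff _ _ (tm_length K false) hrep
    rwa [hvr] at this
  · have := hnp3 _ _ hrep (tm_length K true)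
    rwa [hvr] at this
  · have := hnp3 _ _ hrep (tm_length K false)
    rwa [hvr] at this
  · have h5 := pw.neg 4 _ _ _ (hnp4 (tm K false) (tm K true) (tm_length K false)
      (tm_length K true))
    have e : -(Y ^ N' * (val (tm K false) X Y - val (tm K true) X Y) * Y ^ N') =
        Y ^ N' * val (tm K true) X Y * Y ^ N' - Y ^ N' * val (tm K false) X Y * Y ^ N' := by
      noncomm_ring
    rwa [e] at h5
  · have h5 := hnp4 (tm K true) (tm K false) (tm_length K true) (tm_length K false)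
    have e : Y ^ N' * (val (tm K true) X Y - val (tm K false) X Y) * Y ^ N' =
        Y ^ N' * val (tm K true) X Y * Y ^ N' - Y ^ N' * val (tm K false) X Y * Y ^ N' := by
      noncomm_ring
    rwa [e] at h5
  · have hν1 : 1 ≤ ν := (Nat.one_le_two_pow).trans hν
    rw [hk']
    calc R' * k = 1 * (R' * k) := (one_mul _).symm
      _ ≤ ν * (R' * k) := Nat.mul_le_mul_right _ hν1

end Vale.P321S
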