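import Vale.Agent.P321S.MonoQ

/-! # P321Q module MONOQ, part 2 -/

namespace Vale.P321S.MQ

open Vale.P321S
open scoped BigOperators

noncomputable section

/-- the block `T^(N-aL) ρ T^((a-1)L) T^L T^N` relative to the cell `T^N B T^N` -/
theorem block_l2 {T ρ B : Alg} {N L a : ℕ} {r b : ℝ} (hT : Pr T) (hB : Pr B)
    (hρ : L2 ρ (T ^ L) r) (hTB : L2 (T ^ L) B b) (ha : 1 ≤ a) (haL : a * L ≤ N) :
    L2 (T ^ (N - a * L) * ρ * T ^ ((a - 1) * L) * T ^ L * T ^ N) (T ^ N * B * T ^ N) (r * b) := by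
  have p1 := Pr_pow hT (N - a * L)
  have p2 := Pr_pow hT L
  have p3 := Pr_pow hT ((a - 1) * L)
  have p4 := Pr_pow hT N
  have key := L2five p1 p2 p3 hB p4 (L2_self p1) hρ (L2_self p3) hTB (L2_self p4)
  refine L2c key rfl ?_ (by linarith)
  congr 2
  rw [← pow_add, ← pow_add]
  congr 1
  obtain ⟨c, rfl⟩ : ∃ c, a = c + 1 := ⟨a - 1, by omega⟩
  rw [Nat.add_sub_cancel]
  have h1 : (c + 1) * L = c * L + L := by ring
  rw [h1] at haL ⊢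
  omega

theorem NPfive (pw : LibPW) {a b c d e A B C D E : Alg} {x1 x2 x3 x4 x5 : ℝ} (hA : Pr A)
    (hB : Pr B) (hC : Pr C) (hD : Pr D) (hE : Pr E) (h1 : NP 3 a A x1) (h2 : NP 3 b B x2)
    (h3 : NP 3 c C x3) (h4 : NP 3 d D x4) (h5 : NP 3 e E x5) :
    NP 3 (a * b * c * d * e) (A * B * C * D * E) (x1 * x2 * x3 * x4 * x5) :=
  pw.mul 3 _ _ _ _ _ _ (by norm_num) (Pr_mul (Pr_mul (Pr_mul hA hB) hC) hD).1 hE.1
    (pw.mul 3 _ _ _ _ _ _ (by norm_num) (Pr_mul (Pr_mul hA hB) hC).1 hD.1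
      (pw.mul 3 _ _ _ _ _ _ (by norm_num) (Pr_mul hA hB).1 hC.1
        (pw.mul 3 _ _ _ _ _ _ (by norm_num) hA.1 hB.1 h1 h2) h3) h4) h5

theorem block_np (pw : LibPW) {T ρ B : Alg} {N L a : ℕ} {b : ℝ} (hT : Pr T) (hB : Pr B)
    (hρ : NP 3 ρ (T ^ L) 1) (hTB : NP 3 (T ^ L) B b) (ha : 1 ≤ a) (haL : a * L ≤ N) :
    NP 3 (T ^ (N - a * L) * ρ * T ^ ((a - 1) * L) * T ^ L * T ^ N) (T ^ N * B * T ^ N) b := by
  have p1 := Pr_pow hT (N - a * L)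
  have p2 := Pr_pow hT L
  have p3 := Pr_pow hT ((a - 1) * L)
  have p4 := Pr_pow hT N
  have hs := fun (f : Alg) (hf : Pr f) => pw.self 3 f (by norm_num) hf
  have key := NPfive pw p1 p2 p3 hB p4 (hs _ p1) hρ (hs _ p3) hTB (hs _ p4)
  refine NPc pw key rfl ?_ (by linarith)
  congr 2
  rw [← pow_add, ← pow_add]
  congr 1
  obtain ⟨c, rfl⟩ : ∃ c, a = c + 1 := ⟨a - 1, by omega⟩
  rw [Nat.add_sub_cancel]
  have h1 : (c + 1) * L = c * L + L := by ring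
  rw [h1] at haL ⊢
  omega

/-- the shifted product -/
def FF (T ρ : Alg) (X0 X' m L a : ℕ) : Alg :=
  T ^ (X0 - a * L) * (ρ * (T ^ m * ρ)) * T ^ (X' + a * L)

theorem FF_eq {T ρ : Alg} {N L R n1 g n3 n a : ℕ} (ha : 1 ≤ a) (han : a ≤ n)
    (hn : n * L ≤ N) :
    FF T ρ (R * n1 + N) (N + R * n3) (2 * N + R * g) L a
      = T ^ (R * n1) * T ^ (N - n * L) * (T ^ ((n - a) * L) * ρ * T ^ ((a - 1) * L)
        * (T ^ L * T ^ N * T ^ (R * g) * (T ^ (N - a * L) * ρ * T ^ ((a - 1) * L) * T ^ L * T ^ N)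
          * T ^ (R * n3))) := by
  obtain ⟨c, rfl⟩ : ∃ c, a = c + 1 := ⟨a - 1, by omega⟩
  obtain ⟨d, rfl⟩ : ∃ d, n = c + 1 + d := ⟨n - (c + 1), by omega⟩
  obtain ⟨M, rfl⟩ : ∃ M, N = (c + 1 + d) * L + M := ⟨N - (c + 1 + d) * L, by omega⟩
  unfold FF
  have e1 : R * n1 + ((c + 1 + d) * L + M) - (c + 1) * L = R * n1 + M + d * L := by
    have : (c + 1 + d) * L = (c + 1) * L + d * L := by ring
    omega
  have e2 : (c + 1 + d) * L + M - (c + 1 + d) * L = M := by omega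
  have e3 : (c + 1 + d - (c + 1)) * L = d * L := by congr 1; omega
  have e4 : (c + 1 - 1) * L = c * L := by congr 1
  have e5 : (c + 1 + d) * L + M - (c + 1) * L = d * L + M := by
    have : (c + 1 + d) * L = (c + 1) * L + d * L := by ring
    omega
  rw [e1, e2, e3, e4, e5]
  have f1 : T ^ (2 * ((c + 1 + d) * L + M) + R * g)
      = T ^ (c * L) * (T ^ L * T ^ ((c + 1 + d) * L + M) * T ^ (R * g) * T ^ (d * L + M)) := by
    rw [← pow_add, ← pow_add, ← pow_add, ← pow_add]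
    congr 1
    ring
  have f2 : T ^ ((c + 1 + d) * L + M + R * n3 + (c + 1) * L)
      = T ^ (c * L) * T ^ L * T ^ ((c + 1 + d) * L + M) * T ^ (R * n3) := by
    rw [← pow_add, ← pow_add, ← pow_add]
    congr 1
    ring
  have f3 : T ^ (R * n1 + M + d * L) = T ^ (R * n1) * T ^ M * T ^ (d * L) := by
    rw [← pow_add, ← pow_add]
  rw [f1, f2, f3]
  simp only [mul_assoc]

/-- the good part -/
theorem good_l2 (hO : StOrthSum) {T ρ A M2 A3 B1 B2 : Alg} {N L R n1 g n3 n : ℕ} {r : ℝ}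
    (hT : Pr T) (hA : Pr A) (hM : Pr M2) (hA3 : Pr A3) (hB1 : Pr B1) (hB2 : Pr B2)
    (hρ0 : mass ρ = 0) (hρ : L2 ρ (T ^ L) r)
    (h1 : L2 (T ^ (R * n1)) A (9 / 8)) (h2 : L2 (T ^ (R * g)) M2 (9 / 8))
    (h3 : L2 (T ^ (R * n3)) A3 (9 / 8)) (hb1 : L2 (T ^ L) B1 (9 / 8))
    (hb2 : L2 (T ^ L) B2 (9 / 8)) (hn : n * L ≤ N) (W : ℕ → ℝ) :
    L2 (∑ a ∈ Finset.Icc 1 n, W a • FF T ρ (R * n1 + N) (N + R * n3) (2 * N + R * g) L a)
      (A * (T ^ N * B1 * T ^ N) * M2 * (T ^ N * B2 * T ^ N) * A3)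
      (2 * (Real.sqrt (∑ a ∈ Finset.Icc 1 n, W a ^ 2) * r ^ 2)) := by
  have hr := hρ.1
  have pN := Pr_pow hT N
  have pNn := Pr_pow hT (N - n * L)
  have pn := Pr_pow hT (n * L)
  set F : ℕ → Alg := fun a => T ^ L * T ^ N * T ^ (R * g)
    * (T ^ (N - a * L) * ρ * T ^ ((a - 1) * L) * T ^ L * T ^ N) * T ^ (R * n3) with hF
  set G' : Alg := B1 * T ^ N * M2 * (T ^ N * B2 * T ^ N) * A3 with hG'
  have pG' : Pr G' := Pr_mul (Pr_mul (Pr_mul (Pr_mul hB1 pN) hM)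
    (Pr_mul (Pr_mul pN hB2) pN)) hA3
  have hFa : ∀ a ∈ Finset.Icc 1 n, L2 (F a) G' (9 / 8 * 1 * (9 / 8) * (r * (9 / 8)) * (9 / 8)) := by
    intro a ha
    obtain ⟨ha1, ha2⟩ := Finset.mem_Icc.1 ha
    have haL : a * L ≤ N := (Nat.mul_le_mul_right L ha2).trans hn
    exact L2five hB1 pN hM (Pr_mul (Pr_mul pN hB2) pN) hA3 hb1 (L2_self pN) h2
      (block_l2 hT hB2 hρ hb2 ha1 haL) h3
  have hS := hO T ρ G' L n W F r _ hT pG' hρ0 hρ (by positivity) hFa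
  have key := L2m (Pr_mul hA pNn) (Pr_mul pn pG') (L2m hA pNn h1 (L2_self pNn)) hS
  refine L2c key ?_ ?_ ?_
  · rw [Finset.mul_sum]
    apply Finset.sum_congr rfl
    intro a ha
    obtain ⟨ha1, ha2⟩ := Finset.mem_Icc.1 ha
    rw [mul_smul_comm, FF_eq ha1 ha2 hn, hF]
  · rw [hG']
    have e : T ^ N = T ^ (N - n * L) * T ^ (n * L) := by
      rw [← pow_add]
      congr 1
      omega
    calc A * T ^ (N - n * L) * (T ^ (n * L) * (B1 * T ^ N * M2 * (T ^ N * B2 * T ^ N) * A3))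
        = A * ((T ^ (N - n * L) * T ^ (n * L)) * B1 * T ^ N) * M2 * (T ^ N * B2 * T ^ N) * A3 := by
          simp only [mul_assoc]
      _ = _ := by rw [← e]
  · have hs := Real.sqrt_nonneg (∑ a ∈ Finset.Icc 1 n, W a ^ 2)
    have hp : 0 ≤ Real.sqrt (∑ a ∈ Finset.Icc 1 n, W a ^ 2) * r ^ 2 := by positivity
    nlinarith

/-- the `NP 3` bound of the shifted products -/
theorem FF_np (pw : LibPW) {T ρ A M2 A3 B1 B2 : Alg} {N L R n1 g n3 n a : ℕ} {t1 t2 t3 b : ℝ}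
    (hT : Pr T) (hA : Pr A) (hM : Pr M2) (hA3 : Pr A3) (hB1 : Pr B1) (hB2 : Pr B2)
    (hρ : NP 3 ρ (T ^ L) 1)
    (h1 : NP 3 (T ^ (R * n1)) A t1) (h2 : NP 3 (T ^ (R * g)) M2 t2)
    (h3 : NP 3 (T ^ (R * n3)) A3 t3) (hb1 : NP 3 (T ^ L) B1 b)
    (hb2 : NP 3 (T ^ L) B2 b) (hn : n * L ≤ N) (ha1 : 1 ≤ a) (ha2 : a ≤ n) :
    NP 3 (FF T ρ (R * n1 + N) (N + R * n3) (2 * N + R * g) L a)
      (A * (T ^ N * B1 * T ^ N) * M2 * (T ^ N * B2 * T ^ N) * A3)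
      (t1 * b * t2 * b * t3) := by
  have pN := Pr_pow hT N
  have haL : a * L ≤ N := (Nat.mul_le_mul_right L ha2).trans hn
  have pc1 : Pr (T ^ N * B1 * T ^ N) := Pr_mul (Pr_mul pN hB1) pN
  have pc2 : Pr (T ^ N * B2 * T ^ N) := Pr_mul (Pr_mul pN hB2) pN
  have key := NPfive pw hA pc1 hM pc2 hA3 h1 (block_np pw hT hB1 hρ hb1 ha1 haL) h2
    (block_np pw hT hB2 hρ hb2 ha1 haL) h3
  refine NPc pw key ?_ rfl le_rfl
  rw [FF_eq ha1 ha2 hn]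
  have e : T ^ (N - n * L) * T ^ ((n - a) * L) = T ^ (N - a * L) := by
    rw [← pow_add]
    congr 1
    obtain ⟨d, rfl⟩ : ∃ d, n = a + d := ⟨n - a, by omega⟩
    have h5 : (a + d) * L = a * L + d * L := by ring
    rw [Nat.add_sub_cancel_left, h5]
    rw [h5] at hn
    omega
  calc T ^ (R * n1) * (T ^ (N - a * L) * ρ * T ^ ((a - 1) * L) * T ^ L * T ^ N) * T ^ (R * g)
        * (T ^ (N - a * L) * ρ * T ^ ((a - 1) * L) * T ^ L * T ^ N) * T ^ (R * n3)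
      = T ^ (R * n1) * (T ^ (N - n * L) * T ^ ((n - a) * L)) * ρ * T ^ ((a - 1) * L) * T ^ L * T ^ N
        * T ^ (R * g)
        * (T ^ (N - a * L) * ρ * T ^ ((a - 1) * L) * T ^ L * T ^ N) * T ^ (R * n3) := by
        rw [e]; simp only [mul_assoc]
    _ = _ := by simp only [mul_assoc]

/-- the product before the shift -/
theorem PB_np (pw : LibPW) {T ρ A M2 A3 B1 B2 : Alg} {N R n1 g n3 : ℕ} {t1 t2 t3 : ℝ}
    (hT : Pr T) (hA : Pr A) (hM : Pr M2) (hA3 : Pr A3) (hB1 : Pr B1) (hB2 : Pr B2)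
    (hρ1 : NP 3 ρ B1 1) (hρ2 : NP 3 ρ B2 1)
    (h1 : NP 3 (T ^ (R * n1)) A t1) (h2 : NP 3 (T ^ (R * g)) M2 t2)
    (h3 : NP 3 (T ^ (R * n3)) A3 t3) :
    NP 3 (T ^ (R * n1) * (T ^ N * ρ * T ^ N) * T ^ (R * g) * (T ^ N * ρ * T ^ N) * T ^ (R * n3))
      (A * (T ^ N * B1 * T ^ N) * M2 * (T ^ N * B2 * T ^ N) * A3)
      (t1 * t2 * t3) := by
  have pN := Pr_pow hT N
  have hs := pw.self 3 (T ^ N) (by norm_num) pN
  have pc1 : Pr (T ^ N * B1 * T ^ N) := Pr_mul (Pr_mul pN hB1) pN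
  have pc2 : Pr (T ^ N * B2 * T ^ N) := Pr_mul (Pr_mul pN hB2) pN
  have k1 := pw.mul 3 _ _ _ _ _ _ (by norm_num) (Pr_mul pN hB1).1 pN.1
    (pw.mul 3 _ _ _ _ _ _ (by norm_num) pN.1 hB1.1 hs hρ1) hs
  have k2 := pw.mul 3 _ _ _ _ _ _ (by norm_num) (Pr_mul pN hB2).1 pN.1
    (pw.mul 3 _ _ _ _ _ _ (by norm_num) pN.1 hB2.1 hs hρ2) hs
  exact NPc pw (NPfive pw hA pc1 hM pc2 hA3 h1 k1 h2 k2 h3) rfl rfl (by linarith)

theorem PB_eq {T ρ : Alg} {N R n1 g n3 : ℕ} :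
    T ^ (R * n1) * (T ^ N * ρ * T ^ N) * T ^ (R * g) * (T ^ N * ρ * T ^ N) * T ^ (R * n3)
      = T ^ (R * n1 + N) * (ρ * (T ^ (2 * N + R * g) * ρ)) * T ^ (N + R * n3) := by
  have f1 : T ^ (2 * N + R * g) = T ^ N * T ^ (R * g) * T ^ N := by
    rw [← pow_add, ← pow_add]; congr 1; ring
  rw [f1, pow_add, pow_add]
  simp only [mul_assoc]

/-- the mixing scale -/
theorem scale {K w L N R kT k ν N' : ℕ} {C₀ : ℝ} (hC₀ : 0 ≤ C₀) (hK : 1 ≤ K) (hw : 1 ≤ w)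
    (hL : 1 ≤ L) (hkT : 1 ≤ kT) (hN : K * (w * L) ≤ N) (hR : R = 2 * N + L) (hk : R * kT ≤ k)
    (hN' : N' = ν * k) (hν : K ≤ ν) :
    1 ≤ R * N' / K ∧ K * (R * N' / K) ≤ R * N' ∧
      2 * (((w * L : ℕ) : ℝ) * (C₀ * Real.sqrt ((kT : ℝ) / ((R * N' / K : ℕ) : ℝ))))
        ≤ 2 * C₀ / Real.sqrt ν := by
  have hR1 : 1 ≤ R := by omega
  have hk1 : 1 ≤ k := le_trans (Nat.mul_pos hR1 hkT) hk
  have hN'K : K ≤ N' := by
    rw [hN']
    calc K ≤ ν := hν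
      _ = ν * 1 := (mul_one _).symm
      _ ≤ ν * k := Nat.mul_le_mul_left _ hk1
  have hRN' : K ≤ R * N' := hN'K.trans (Nat.le_mul_of_pos_left _ hR1)
  set M₀ := R * N' / K with hM₀
  have hM1 : 1 ≤ M₀ := (Nat.one_le_div_iff (by omega)).mpr hRN'
  have hKM : K * M₀ ≤ R * N' := Nat.mul_div_le _ _
  have hlt : R * N' < K * (M₀ + 1) := Nat.lt_mul_div_succ (R * N') (show 0 < K by omega)
  refine ⟨hM1, hKM, ?_⟩
  have hM2 : R * N' ≤ K * (2 * M₀) :=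
    hlt.le.trans (Nat.mul_le_mul_left _ (by omega))
  have hνpos : (0 : ℝ) < ν := by
    have : 1 ≤ ν := hK.trans hν
    exact_mod_cast this
  have hMpos : (0 : ℝ) < M₀ := by exact_mod_cast hM1
  -- natural number inequality (wL)² kT ν ≤ M₀
  have hKR : 2 * (K * (w * L)) ≤ R := by omega
  have hnat : (w * L) ^ 2 * kT * ν ≤ M₀ := by
    have a1 : (2 * (K * (w * L))) * (2 * (K * (w * L))) * (kT * ν) ≤ R * R * (kT * ν) :=
      Nat.mul_le_mul_right _ (Nat.mul_le_mul hKR hKR)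
    have a2 : R * R * (kT * ν) ≤ R * N' := by
      calc R * R * (kT * ν) = R * ν * (R * kT) := by ring
        _ ≤ R * ν * k := Nat.mul_le_mul_left _ hk
        _ = R * N' := by rw [hN']; ring
    have a3 : (2 * (K * (w * L))) * (2 * (K * (w * L))) * (kT * ν) ≤ K * (2 * M₀) :=
      (a1.trans a2).trans hM2
    have a4 : (2 * K) * (2 * (K * ((w * L) ^ 2 * kT * ν))) ≤ (2 * K) * M₀ := by
      calc (2 * K) * (2 * (K * ((w * L) ^ 2 * kT * ν)))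
          = (2 * (K * (w * L))) * (2 * (K * (w * L))) * (kT * ν) := by ring
        _ ≤ K * (2 * M₀) := a3
        _ = (2 * K) * M₀ := by ring
    have a5 : 2 * (K * ((w * L) ^ 2 * kT * ν)) ≤ M₀ := Nat.le_of_mul_le_mul_left a4 (by omega)
    calc (w * L) ^ 2 * kT * ν ≤ K * ((w * L) ^ 2 * kT * ν) :=
          Nat.le_mul_of_pos_left _ (by omega)
      _ ≤ 2 * (K * ((w * L) ^ 2 * kT * ν)) := Nat.le_mul_of_pos_left _ (by norm_num)
      _ ≤ M₀ := a5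
  have hreal : (((w * L : ℕ) : ℝ)) * Real.sqrt ((kT : ℝ) / (M₀ : ℝ)) ≤ 1 / Real.sqrt ν := by
    have h0 : 0 ≤ ((w * L : ℕ) : ℝ) := Nat.cast_nonneg _
    rw [le_div_iff₀ (Real.sqrt_pos.2 hνpos)]
    have e : ((w * L : ℕ) : ℝ) = Real.sqrt (((w * L : ℕ) : ℝ) ^ 2) := (Real.sqrt_sq h0).symm
    rw [e, ← Real.sqrt_mul (sq_nonneg _), ← Real.sqrt_mul (by positivity)]
    apply Real.sqrt_le_one.2
    have h2 : (((w * L : ℕ) : ℝ)) ^ 2 * kT * ν ≤ M₀ := by exact_mod_cast hnat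
    rw [mul_div_assoc', div_mul_eq_mul_div, div_le_one hMpos]
    linarith
  calc 2 * (((w * L : ℕ) : ℝ) * (C₀ * Real.sqrt ((kT : ℝ) / (M₀ : ℝ))))
      = 2 * C₀ * ((((w * L : ℕ) : ℝ)) * Real.sqrt ((kT : ℝ) / (M₀ : ℝ))) := by ring
    _ ≤ 2 * C₀ * (1 / Real.sqrt ν) := mul_le_mul_of_nonneg_left hreal (by linarith)
    _ = 2 * C₀ / Real.sqrt ν := by ring

theorem word_split {u : List Bool} {i g j L' : ℕ} (hijg : i + 1 + g + 1 + j = L')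
    (hu : u.length = L') : ∃ (u1 : List Bool) (b1 : Bool)
      (u2 : List Bool) (b2 : Bool) (u3 : List Bool), u = u1 ++ b1 :: (u2 ++ b2 :: u3) ∧
      u1.length = i ∧ u2.length = g ∧ u3.length = j := by
  have e1 : u = u.take i ++ u.drop i := (List.take_append_drop i u).symm
  have l1 : (u.drop i).length = 1 + g + 1 + j := by rw [List.length_drop]; omega
  obtain ⟨b1, v, hv⟩ : ∃ b v, u.drop i = b :: v := by
    cases hd : u.drop i with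
    | nil => rw [hd] at l1; simp at l1; omega
    | cons b v => exact ⟨b, v, rfl⟩
  rw [hv, List.length_cons] at l1
  have e2 : v = v.take g ++ v.drop g := (List.take_append_drop g v).symm
  have l2 : (v.drop g).length = 1 + j := by rw [List.length_drop]; omega
  obtain ⟨b2, u3, hu3⟩ : ∃ b v', v.drop g = b :: v' := by
    cases hd : v.drop g with
    | nil => rw [hd] at l2; simp at l2; omega
    | cons b v' => exact ⟨b, v', rfl⟩
  rw [hu3, List.length_cons] at l2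
  refine ⟨u.take i, b1, v.take g, b2, u3, ?_, ?_, ?_, ?_⟩
  · rw [← hu3, ← e2, ← hv, ← e1]
  · rw [List.length_take]; omega
  · rw [List.length_take]; omega
  · omega

theorem num_eps {N' L' : ℕ} {β η : ℝ} (hβ0 : 0 ≤ β) (hη0 : 0 ≤ η) :
    Real.sqrt (2 * ((2 * N' : ℕ) * β ^ 2)) + Real.sqrt (2 * (L' * η ^ 2))
      ≤ 2 * Real.sqrt ((N' : ℕ) : ℝ) * β + 2 * Real.sqrt L' * η := by
  have e1 : Real.sqrt (2 * ((2 * N' : ℕ) * β ^ 2)) = 2 * Real.sqrt (N' : ℝ) * β := by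
    have : (2 * (((2 * N' : ℕ) : ℝ) * β ^ 2)) = (N' : ℝ) * (2 * β) ^ 2 := by push_cast; ring
    rw [this, Real.sqrt_mul (Nat.cast_nonneg _), Real.sqrt_sq (by linarith)]
    ring
  have e2 : Real.sqrt (2 * ((L' : ℝ) * η ^ 2)) ≤ 2 * Real.sqrt (L' : ℝ) * η := by
    have : 2 * Real.sqrt (L' : ℝ) * η = Real.sqrt ((L' : ℝ) * (2 * η) ^ 2) := by
      rw [Real.sqrt_mul (Nat.cast_nonneg _), Real.sqrt_sq (by linarith)]
      ring
    rw [this]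
    apply Real.sqrt_le_sqrt
    have : 0 ≤ (L' : ℝ) * η ^ 2 := by positivity
    nlinarith
  rw [e1]
  linarith

theorem num_pow {N' L' : ℕ} {β : ℝ} (hβ0 : 0 ≤ β) (hNβ : (N' : ℝ) * β ≤ 1 / 8)
    (hN'L : L' ≤ N') : (1 + β) ^ (2 * N' + L') ≤ 2 := by
  have h1 : (1 + β) ^ (2 * N' + L') ≤ Real.exp (((2 * N' + L' : ℕ) : ℝ) * β) := by
    rw [Real.exp_nat_mul]
    refine pow_le_pow_left₀ (by linarith) ?_ _
    linarith [Real.add_one_le_exp β]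
  have h2 : ((2 * N' + L' : ℕ) : ℝ) * β ≤ 3 / 8 := by
    have : ((2 * N' + L' : ℕ) : ℝ) ≤ 3 * N' := by
      have : 2 * N' + L' ≤ 3 * N' := by omega
      exact_mod_cast this
    nlinarith
  have h3 : Real.exp (((2 * N' + L' : ℕ) : ℝ) * β) ≤ Real.exp (1 / 2) :=
    Real.exp_le_exp.2 (by linarith)
  have h4 : Real.exp (1 / 2) ≤ 2 := by
    have h5 : Real.exp (1 / 2) ^ 2 = Real.exp 1 := by
      rw [← Real.exp_nat_mul]; norm_num
    have h6 := Real.exp_one_lt_d9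
    have h7 := Real.exp_pos (1 / 2)
    nlinarith
  exact h1.trans (h3.trans h4)

theorem num_res {K ν : ℕ} {C₀ : ℝ} (hC₀ : 0 ≤ C₀) (hK : 1 ≤ K) (hν : 1 ≤ ν) :
    (2 * C₀ / Real.sqrt ν) ^ K * (2 ^ (K + 2)) ^ 3
      ≤ (2 ^ (2 * K + 10) * C₀ / Real.sqrt ν) ^ K := by
  have hνpos : (0 : ℝ) < ν := by exact_mod_cast hν
  have hsp := Real.sqrt_pos.2 hνpos
  have e : (2 * C₀ / Real.sqrt ν) ^ K * (2 ^ (K + 2)) ^ 3
      = (2 * C₀ / Real.sqrt ν * 8) ^ K * 64 := by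
    rw [mul_pow (2 * C₀ / Real.sqrt ν) 8 K]
    have : ((2 : ℝ) ^ (K + 2)) ^ 3 = 8 ^ K * 64 := by
      rw [pow_add, mul_pow, ← pow_mul, mul_comm K 3, pow_mul]
      norm_num
    rw [this]
    ring
  have e2 : (2 * C₀ / Real.sqrt ν * 8) ^ K * 64 ≤ (2 * C₀ / Real.sqrt ν * 8) ^ K * 64 ^ K := by
    refine mul_le_mul_of_nonneg_left ?_ (by positivity)
    calc (64 : ℝ) = 64 ^ 1 := (pow_one _).symm
      _ ≤ 64 ^ K := pow_le_pow_right₀ (by norm_num) hK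
  rw [e]
  refine e2.trans ?_
  rw [← mul_pow]
  refine pow_le_pow_left₀ (by positivity) ?_ K
  have e3 : 2 * C₀ / Real.sqrt ν * 8 * 64 = 2 ^ 10 * C₀ / Real.sqrt ν := by ring
  rw [e3]
  apply div_le_div_of_nonneg_right _ hsp.le
  refine mul_le_mul_of_nonneg_right ?_ hC₀
  exact pow_le_pow_right₀ (by norm_num) (by omega)

theorem num_W {K w : ℕ} {S : ℝ} (h : S ≤ 4 ^ K / w) : Real.sqrt S ≤ 2 ^ K / Real.sqrt w := by
  have : Real.sqrt (4 ^ K / (w : ℝ)) = 2 ^ K / Real.sqrt w := by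
    rw [Real.sqrt_div (by positivity)]
    congr 1
    rw [show (4 : ℝ) = 2 ^ 2 by norm_num, ← pow_mul, mul_comm 2 K, pow_mul]
    exact Real.sqrt_sq (by positivity)
  rw [← this]
  exact Real.sqrt_le_sqrt h

/-- steps C and D: the homogeneous product -/
theorem stepCD (pw : LibPW) (hW : StWei) (hO : StOrthSum) {T ρ A A0 M2 M0 B0 A3 c1 c2 B1 B2
      X Y : Alg} {N L R kT k K w ν N' L' i g j : ℕ} {C₀ r β η lam ε Θ : ℝ}
    (hT : Pr T) (hR : R = 2 * N + L) (hC₀ : 2 ≤ C₀) (hkT : 1 ≤ kT) (hL : 1 ≤ L) (hr : r ≤ 1)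
    (hkb : R * kT ≤ k) (hmix : Mix T kT C₀) (hmρ : mass ρ = 0) (hρT : L2 ρ (T ^ L) r)
    (hρT3 : NP 3 ρ (T ^ L) 1)
    (hF1 : CellF T X Y ρ c1 B1 N L R r β η lam) (hF2 : CellF T X Y ρ c2 B2 N L R r β η lam)
    (S1 : Sea A A0 (T ^ (R * (N' + i))) ε ((1 + β) ^ (N' + i)))
    (S2 : Sea M2 M0 (T ^ (R * g)) ε ((1 + β) ^ g))
    (S3 : Sea A3 B0 (T ^ (R * (j + N'))) ε ((1 + β) ^ (j + N')))
    (hK : 1 ≤ K) (hw : 1 ≤ w) (hKN : K * (w * L) ≤ N) (hN' : N' = ν * k) (hKν : K ≤ ν)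
    (hNβ : (N' : ℝ) * β ≤ 1 / 8) (hβ8 : β ≤ 1 / 8) (hL' : L' ≤ N')
    (hijg : i + 1 + g + 1 + j = L') (hΘ0 : 0 ≤ Θ)
    (hΘ : (2 ^ (2 * K + 10) * C₀ / Real.sqrt ν) ^ K ≤ Θ ^ 4) :
    L2 (T ^ (R * (N' + i)) * (T ^ N * ρ * T ^ N) * T ^ (R * g) * (T ^ N * ρ * T ^ N)
        * T ^ (R * (j + N'))) (A * c1 * M2 * c2 * A3)
      (Θ + 2 ^ (K + 1) * r ^ 2 / Real.sqrt w) := by
  obtain ⟨W, hW1, hW2, hWei⟩ := hW K w hw
  have hβ0 : 0 ≤ β := hF1.TB.1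
  have pB1 := hF1.prB
  have pB2 := hF2.prB
  have pc1 := hF1.prc hT
  have pc2 := hF2.prc hT
  have hsb : Real.sqrt (1 + β ^ 2) ≤ 9 / 8 := by
    rw [Real.sqrt_le_left (by norm_num)]
    nlinarith
  have hb1 := L2_mono (TL_B pw hT pB1 hF1.TB) hsb
  have hb2 := L2_mono (TL_B pw hT pB2 hF2.TB) hsb
  have hnL : K * w * L ≤ N := by rw [mul_assoc]; exact hKN
  have hgood := good_l2 (n := K * w) hO hT S1.prA S2.prA S3.prA pB1 pB2 hmρ hρT S1.s1 S2.s1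
    S3.s1 hb1 hb2 hnL W
  rw [← hF1.eqc, ← hF2.eqc] at hgood
  obtain ⟨hM1, hKM, hsc⟩ := scale (C₀ := C₀) (by linarith) hK hw hL hkT hKN hR hkb hN' hKν
  set M₀ := R * N' / K with hM₀
  have hD := hmix M₀ hM1
  set D := C₀ * Real.sqrt ((kT : ℝ) / (M₀ : ℝ)) with hDdef
  have hX0 : R * (N' + i) + N - K * w * L + K * w * L = R * (N' + i) + N :=
    Nat.sub_add_cancel (hnL.trans (Nat.le_add_left _ _))
  have hRN : R * N' ≤ R * (N' + i) := Nat.mul_le_mul_left _ (by omega)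
  have hRN3 : R * N' ≤ R * (j + N') := Nat.mul_le_mul_left _ (by omega)
  have hres := hWei T (ρ * (T ^ (2 * N + R * g) * ρ)) L (R * (N' + i) + N - K * w * L)
    (N + R * (j + N')) M₀ D hT (by omega) (by omega) hD
  rw [hX0] at hres
  have hl1 : l1 (ρ * (T ^ (2 * N + R * g) * ρ)) ≤ 1 := by
    have hρ1 : l1 ρ ≤ 1 := (L2_l1 (Pr_pow hT L) hρT).trans hr
    have h1 := l1_mul_le hρ1 ((l1_pr_mul (f := T ^ (2 * N + R * g)) (g := ρ)
      (Pr_pow hT _)).trans hρ1)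
    linarith
  set PB := T ^ (R * (N' + i)) * (T ^ N * ρ * T ^ N) * T ^ (R * g) * (T ^ N * ρ * T ^ N)
    * T ^ (R * (j + N')) with hPB
  set GG := ∑ a ∈ Finset.Icc 1 (K * w),
    W a • FF T ρ (R * (N' + i) + N) (N + R * (j + N')) (2 * N + R * g) L a with hGG
  set REF := A * c1 * M2 * c2 * A3 with hREF
  have pREF : Pr REF := Pr_mul (Pr_mul (Pr_mul (Pr_mul S1.prA pc1) S2.prA) pc2) S3.prA
  have hresl : l1 (PB - GG) ≤ (2 * C₀ / Real.sqrt ν) ^ K := by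
    have e : PB - GG = T ^ (R * (N' + i) + N) * (ρ * (T ^ (2 * N + R * g) * ρ))
        * T ^ (N + R * (j + N'))
          - ∑ a ∈ Finset.Icc 1 (K * w), W a • (T ^ (R * (N' + i) + N - a * L)
            * (ρ * (T ^ (2 * N + R * g) * ρ)) * T ^ (N + R * (j + N') + a * L)) := by
      rw [hPB, PB_eq, hGG]
      rfl
    rw [e]
    have hDpos : 0 ≤ D := by rw [hDdef]; positivity
    calc _ ≤ (2 * ((w * L : ℕ) * D)) ^ K * l1 (ρ * (T ^ (2 * N + R * g) * ρ)) := hres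
      _ ≤ (2 * ((w * L : ℕ) * D)) ^ K * 1 := mul_le_mul_of_nonneg_left hl1 (by positivity)
      _ ≤ (2 * C₀ / Real.sqrt ν) ^ K := by
          rw [mul_one]
          exact pow_le_pow_left₀ (by positivity) hsc K
  have hpow := num_pow hβ0 hNβ hL'
  have h1β : 1 ≤ 1 + β := by linarith
  have hFFn : ∀ a ∈ Finset.Icc 1 (K * w),
      NP 3 (W a • FF T ρ (R * (N' + i) + N) (N + R * (j + N')) (2 * N + R * g) L a) REF
        (|W a| * 2) := by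
    intro a ha
    obtain ⟨ha1', ha2'⟩ := Finset.mem_Icc.1 ha
    have := FF_np (n := K * w) pw hT S1.prA S2.prA S3.prA pB1 pB2 hρT3 S1.s3 S2.s3 S3.s3
      hF1.TB3 hF2.TB3 hnL ha1' ha2'
    rw [← hF1.eqc, ← hF2.eqc] at this
    apply pw.smul
    refine NPc pw this rfl rfl ?_
    calc (1 + β) ^ (N' + i) * (1 + β) * (1 + β) ^ g * (1 + β) * (1 + β) ^ (j + N')
        = (1 + β) ^ (2 * N' + L') := by
          rw [← pow_succ, ← pow_add, ← pow_succ, ← pow_add]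
          congr 1
          omega
      _ ≤ 2 := hpow
  have hPBn : NP 3 PB REF 2 := by
    have := PB_np pw (T := T) (ρ := ρ) (N := N) (R := R) (n1 := N' + i) (g := g) (n3 := j + N')
      hT S1.prA S2.prA S3.prA pB1 pB2 hF1.ρB3 hF2.ρB3 S1.s3 S2.s3 S3.s3
    rw [← hF1.eqc, ← hF2.eqc] at this
    refine NPc pw this rfl rfl ?_
    calc (1 + β) ^ (N' + i) * (1 + β) ^ g * (1 + β) ^ (j + N')
        = (1 + β) ^ (N' + i + g + (j + N')) := by rw [← pow_add, ← pow_add]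
      _ ≤ (1 + β) ^ (2 * N' + L') := pow_le_pow_right₀ h1β (by omega)
      _ ≤ 2 := hpow
  have hRESn : NP 3 (PB - GG) REF (2 ^ (K + 2)) := by
    have h1 := pw.sum 3 (Finset.Icc 1 (K * w)) _ REF (fun a => |W a| * 2) (by norm_num) pREF.1 hFFn
    have h2 := pw.sub 3 _ _ _ _ _ (by norm_num) pREF.1 hPBn h1
    refine NPc pw h2 rfl rfl ?_
    rw [← Finset.sum_mul]
    have : (1 : ℝ) ≤ 2 ^ K := one_le_pow₀ (by norm_num)
    rw [pow_add]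
    linarith
  have hRES : L2 (PB - GG) REF Θ :=
    pw.l2_of _ _ _ _ _ pREF.1 hresl hRESn hΘ0
      (le_trans (num_res (by linarith) hK (hK.trans hKν)) hΘ)
  have hsW := num_W hW2
  have key := L2_add pREF.1 hRES hgood
  refine L2c key ?_ rfl ?_
  · abel
  · have : 2 * (Real.sqrt (∑ a ∈ Finset.Icc 1 (K * w), W a ^ 2) * r ^ 2)
        ≤ 2 ^ (K + 1) * r ^ 2 / Real.sqrt w := by
      calc 2 * (Real.sqrt (∑ a ∈ Finset.Icc 1 (K * w), W a ^ 2) * r ^ 2)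
          ≤ 2 * (2 ^ K / Real.sqrt w * r ^ 2) := by
            have := mul_le_mul_of_nonneg_right hsW (sq_nonneg r)
            linarith
        _ = 2 ^ (K + 1) * r ^ 2 / Real.sqrt w := by rw [pow_succ]; ring
    linarith

/-- the seas of actual cells -/
theorem sea_Y (pw : LibPW) {X Y : Alg} {L' : ℕ} {η : ℝ} (hXp : Pr X) (hYp : Pr Y)
    (hYX : L2 (Y - X) X η) (hYY : L2 (Y - Y) Y η) (hη2 : (L' : ℝ) * η ^ 2 ≤ 1 / 16)
    (v : List Bool) (hv : v.length ≤ L') :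
      L2 (Y ^ v.length) (val v X Y) (9 / 8) ∧
      L2 (Y ^ v.length - val v X Y) (val v X Y) (Real.sqrt (2 * (L' * η ^ 2))) := by
  obtain ⟨k1, k2⟩ := sea_l2 pw hYp hXp hYp hYX hYY v
  have hvr : (v.length : ℝ) * η ^ 2 ≤ (L' : ℝ) * η ^ 2 :=
    mul_le_mul_of_nonneg_right (by exact_mod_cast hv) (sq_nonneg _)
  obtain ⟨s1, s2⟩ := sq_bd (hvr.trans hη2)
  refine ⟨L2_mono k2 s1, L2_mono k1 (s2.trans ?_)⟩
  apply Real.sqrt_le_sqrt
  linarith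

/-- (MONOQ) -/
theorem stMonoQ (pw : LibPW) (hW : StWei) (hO : StOrthSum) : StMonoQ := by
  intro T X Y U V ρ L N R kT k C₀ r β η lam ζ h hC₀ hkT hL hr hlam K w ν L' Θ hK hw hKN hL' hKν
    hNβ hLη hΘ0 hΘ i g j u hijg hu
  have hT := h.prT
  obtain ⟨N', hN'⟩ : ∃ N', N' = ν * k := ⟨_, rfl⟩
  rw [← hN'] at hL' hNβ ⊢
  have hR := h.Req
  have hR1 : 1 ≤ R := by omega
  have hk1 : 1 ≤ k := le_trans (Nat.mul_pos hR1 hkT) h.kbig
  have hN'1 : 1 ≤ N' := by rw [hN']; exact Nat.mul_pos (by omega) hk1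
  have hβ0 : 0 ≤ β := h.TU.1
  have hη0 : 0 ≤ η := h.ΔX.1
  have hN'r : (1 : ℝ) ≤ (N' : ℝ) := by exact_mod_cast hN'1
  have hL'1 : 2 ≤ L' := by omega
  have hL'r : (2 : ℝ) ≤ (L' : ℝ) := by exact_mod_cast hL'1
  have hβ8 : β ≤ 1 / 8 := by nlinarith
  have hη16 : η ≤ 1 / 16 := by nlinarith
  have hFX := cellF_true h
  have hFY := cellF_false h
  have hXp := hFX.prc hT
  have hYp := hFY.prc hT
  obtain ⟨u1, b1, u2, b2, u3, rfl, hu1, hu2, hu3⟩ := word_split hijg hu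
  obtain ⟨c1, B1, hc1, hF1⟩ : ∃ c B, (if b1 then X else Y) = c ∧
      CellF T X Y ρ c B N L R r β η lam := by
    cases b1
    · exact ⟨Y, V, rfl, hFY⟩
    · exact ⟨X, U, rfl, hFX⟩
  obtain ⟨c2, B2, hc2, hF2⟩ : ∃ c B, (if b2 then X else Y) = c ∧
      CellF T X Y ρ c B N L R r β η lam := by
    cases b2
    · exact ⟨Y, V, rfl, hFY⟩
    · exact ⟨X, U, rfl, hFX⟩
  have pc1 := hF1.prc hT
  have pc2 := hF2.prc hT
  obtain ⟨a1, ha1⟩ : ∃ a1, a1 = List.replicate N' false ++ u1 := ⟨_, rfl⟩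
  obtain ⟨a3, ha3⟩ : ∃ a3, a3 = u3 ++ List.replicate N' false := ⟨_, rfl⟩
  have la1 : a1.length = N' + i := by rw [ha1, List.length_append, List.length_replicate, hu1]
  have la3 : a3.length = j + N' := by rw [ha3, List.length_append, List.length_replicate, hu3]
  have va1 : val a1 X Y = Y ^ N' * val u1 X Y := by rw [ha1, val_append, val_replicate_false]
  have va3 : val a3 X Y = val u3 X Y * Y ^ N' := by rw [ha3, val_append, val_replicate_false]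
  have href : Y ^ N' * val (u1 ++ b1 :: (u2 ++ b2 :: u3)) X Y * Y ^ N'
      = val a1 X Y * c1 * val u2 X Y * c2 * val a3 X Y := by
    rw [va1, va3, val_append, Vale.P321S.val_cons, val_append, Vale.P321S.val_cons, hc1, hc2]
    simp only [mul_assoc]
  have hβ2 : ((2 * N' : ℕ) : ℝ) * β ^ 2 ≤ 1 / 16 := by
    push_cast
    have : (N' : ℝ) * β * β ≤ 1 / 8 * (1 / 8) := mul_le_mul hNβ hβ8 hβ0 (by norm_num)
    nlinarith
  have hη2 : (L' : ℝ) * η ^ 2 ≤ 1 / 16 := by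
    have h1 : (L' : ℝ) * η ≤ 1 / 8 := by linarith
    have : (L' : ℝ) * η * η ≤ 1 / 8 * (1 / 16) := mul_le_mul h1 hη16 hη0 (by norm_num)
    nlinarith
  have hεle := num_eps (N' := N') (L' := L') hβ0 hη0
  have hYsea := sea_Y pw hXp hYp hFX.Yc hFY.Yc hη2
  have hsY : Pr (Y ^ N') := Pr_pow hYp N'
  have hv : ∀ v : List Bool, Pr (val v X Y) := Pr_val hXp hYp
  obtain ⟨y1, y1'⟩ := hYsea u1 (by omega)
  obtain ⟨y2, y2'⟩ := hYsea u2 (by omega)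
  obtain ⟨y3, y3'⟩ := hYsea u3 (by omega)
  rw [hu1] at y1 y1'
  rw [hu2] at y2 y2'
  rw [hu3] at y3 y3'
  have S1 := sea_make pw hT hR hFX hFY a1 (by rw [la1]; omega) hβ2 hη2 hεle (Y ^ (N' + i))
      (by rw [va1, pow_add]; exact L2c (L2m hsY (hv u1) (L2_self hsY) y1) rfl rfl (by linarith))
      (by rw [va1, pow_add, ← mul_sub]
          exact L2c (L2m hsY (hv u1) (L2_self hsY) y1') rfl rfl (by linarith))
  rw [la1] at S1
  have S2 := sea_make pw hT hR hFX hFY u2 (by omega) hβ2 hη2 hεle (Y ^ g) y2 y2'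
  rw [hu2] at S2
  have S3 := sea_make pw hT hR hFX hFY a3 (by rw [la3]; omega) hβ2 hη2 hεle (Y ^ (j + N'))
      (by rw [va3, pow_add]; exact L2c (L2m (hv u3) hsY y3 (L2_self hsY)) rfl rfl (by linarith))
      (by rw [va3, pow_add, ← sub_mul]
          exact L2c (L2m (hv u3) hsY y3' (L2_self hsY)) rfl rfl (by linarith))
  rw [la3] at S3
  have hA := stepA S1 S2 S3 pc1 pc2 hF1.Δc hF2.Δc (hF1.Δ₁c hT hlam) (hF2.Δ₁c hT hlam)
    hF1.lamc hF2.lamc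
  have hB := stepB S1 S2 S3 pc1 pc2 hη0 (hF1.Δ₁c hT hlam) (hF2.Δ₁c hT hlam)
  have hCD := stepCD pw hW hO hT hR hC₀ hkT hL hr h.kbig h.mixT h.massρ h.ρT h.ρT3 hF1 hF2
    S1 S2 S3 hK hw hKN hN' hKν hNβ hβ8 hL' hijg hΘ0 hΘ
  have pREF : Pr (val a1 X Y * c1 * val u2 X Y * c2 * val a3 X Y) :=
    Pr_mul (Pr_mul (Pr_mul (Pr_mul S1.prA pc1) S2.prA) pc2) S3.prA
  have key := L2_add pREF.1 (L2_add pREF.1 hA hB) hCD
  refine L2c key ?_ href.symm ?_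
  · abel
  · linarith

end

end Vale.P321S.MQ
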