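import Vale.Agent.P321S.DefsQ
import Vale.Agent.P321S.Core

/-! # P321Q module ORTHSUM -/

namespace Vale.P321S

open scoped BigOperators

theorem stOrthSum : StOrthSum := by
  intro T ρ G' L n W F r κ hT hG' hρ h1 hκ hF
  have hr := h1.1
  induction n with
  | zero =>
    simp only [Nat.zero_lt_one, Finset.Icc_eq_empty_of_lt, Finset.sum_empty, Real.sqrt_zero,
      zero_mul]
    exact L2_zero _
  | succ n ih =>
    have ih' := ih (fun a ha => hF a (by
      rw [Finset.mem_Icc] at ha ⊢
      omega))
    have e : (∑ a ∈ Finset.Icc 1 (n + 1),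
        W a • (T ^ ((n + 1 - a) * L) * ρ * T ^ ((a - 1) * L) * F a))
        = ρ * (W (n + 1) • (T ^ (n * L) * F (n + 1)))
          + T ^ L * (∑ a ∈ Finset.Icc 1 n,
            W a • (T ^ ((n - a) * L) * ρ * T ^ ((a - 1) * L) * F a)) := by
      rw [Finset.sum_Icc_succ_top (by omega), add_comm, Finset.mul_sum]
      congr 1
      · simp [mul_assoc]
      · apply Finset.sum_congr rfl
        intro a ha
        obtain ⟨ha1, ha2⟩ := Finset.mem_Icc.mp ha
        rw [mul_smul_comm]
        congr 1
        have e0 : (n + 1 - a) * L = L + (n - a) * L := by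
          have : n + 1 - a = 1 + (n - a) := by omega
          rw [this]; ring
        have e1 : T ^ ((n + 1 - a) * L) = T ^ L * T ^ ((n - a) * L) := by
          rw [e0, pow_add]
        rw [e1]
        simp only [mul_assoc]
    rw [e]
    have pn := Pr_pow hT (n * L)
    have hz : L2 (W (n + 1) • (T ^ (n * L) * F (n + 1))) (T ^ (n * L) * G')
        (|W (n + 1)| * (1 * κ)) :=
      L2_smul (L2_mul pn.1 hG'.1 (L2_self pn) (hF (n + 1) (by rw [Finset.mem_Icc]; omega))) _
    have h4 := L2_orth (Pr_pow hT L) (Pr_mul pn hG') hρ h1 hz ih'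
    refine L2_congr h4 rfl ?_ ?_
    · rw [← mul_assoc, ← pow_add]
      congr 2
      ring
    · rw [Finset.sum_Icc_succ_top (by omega)]
      have hS : 0 ≤ ∑ a ∈ Finset.Icc 1 n, W a ^ 2 := Finset.sum_nonneg (fun _ _ => sq_nonneg _)
      rw [mul_assoc (Real.sqrt (_ + _)), ← sqrt_step (W (n + 1)) (r * κ) _ hS (by positivity)]
      congr 1
      ring

end Vale.P321S
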