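import Vale.Agent.P321S.DefsQ

/-! # P321Q: the library PW (weighted `L^p` norms) -/

namespace Vale.P321S

open scoped BigOperators

/-- support independent form -/
theorem np_eq_of_subset (p : ℕ) (hp : 1 ≤ p) (f g : Alg) {S : Finset Wd}
    (h : f.coeff.support ⊆ S) :
    ∑ w ∈ f.coeff.support, |f.coeff w| ^ p / (g.coeff w) ^ (p - 1)
      = ∑ w ∈ S, |f.coeff w| ^ p / (g.coeff w) ^ (p - 1) := by
  apply Finset.sum_subset h
  intro w _ hw
  rw [Finsupp.notMem_support_iff.mp hw, abs_zero, zero_pow (by omega), zero_div]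

/-- the canonical majorant -/
noncomputable def mjp (p : ℕ) (f g : Alg) : Alg :=
  ∑ w ∈ f.coeff.support, MonoidAlgebra.single w (|f.coeff w| ^ p / (g.coeff w) ^ (p - 1))

theorem mjp_coeff (p : ℕ) (hp : 1 ≤ p) (f g : Alg) (w : Wd) :
    (mjp p f g).coeff w = |f.coeff w| ^ p / (g.coeff w) ^ (p - 1) := by
  classical
  unfold mjp
  rw [MonoidAlgebra.coeff_sum, Finsupp.finsetSum_apply]
  simp_rw [MonoidAlgebra.coeff_single, Finsupp.single_apply]
  rw [Finset.sum_ite_eq']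
  split_ifs with h
  · rfl
  · rw [Finsupp.notMem_support_iff.mp h, abs_zero, zero_pow (by omega), zero_div]

theorem mjp_Nn (p : ℕ) (hp : 1 ≤ p) (f : Alg) {g : Alg} (hg : Nn g) : Nn (mjp p f g) := by
  intro w
  rw [mjp_coeff p hp]
  exact div_nonneg (pow_nonneg (abs_nonneg _) _) (pow_nonneg (hg w) _)

theorem mjp_mass (p : ℕ) (f g : Alg) :
    mass (mjp p f g) = ∑ w ∈ f.coeff.support, |f.coeff w| ^ p / (g.coeff w) ^ (p - 1) := by
  unfold mjp
  rw [mass_sum]
  simp_rw [mass_single]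

theorem mjp_mul {p : ℕ} (hp : 1 ≤ p) {f g : Alg} {s : ℝ} (h : NP p f g s) (w : Wd) :
    (mjp p f g).coeff w * (g.coeff w) ^ (p - 1) = |f.coeff w| ^ p := by
  rw [mjp_coeff p hp]
  by_cases h0 : g.coeff w = 0
  · rw [h0, h.2.1 w h0, abs_zero, zero_pow (by omega)]; simp
  · field_simp

/-- majorant form -/
theorem NP_of_maj {p : ℕ} (hp : 1 ≤ p) {f g c : Alg} {t : ℝ} (ht : 0 ≤ t) (hg : Nn g) (hc : Nn c)
    (hac : ∀ w, g.coeff w = 0 → f.coeff w = 0)
    (h : ∀ w, |f.coeff w| ^ p ≤ c.coeff w * (g.coeff w) ^ (p - 1)) (hm : mass c ≤ t ^ p) :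
    NP p f g t := by
  classical
  refine ⟨ht, hac, ?_⟩
  refine le_trans ?_ hm
  have h1 : f.coeff.support ⊆ f.coeff.support ∪ c.coeff.support := Finset.subset_union_left
  have h2 : c.coeff.support ⊆ f.coeff.support ∪ c.coeff.support := Finset.subset_union_right
  rw [np_eq_of_subset p hp f g h1, mass_eq_of_subset c h2]
  apply Finset.sum_le_sum
  intro w _
  rcases (hg w).eq_or_lt with h0 | h0
  · rw [hac w h0.symm, abs_zero, zero_pow (by omega), zero_div]; exact hc w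
  · rw [div_le_iff₀ (pow_pos h0 _)]; exact h w

theorem NP_two (f g : Alg) (t : ℝ) : NP 2 f g t ↔ L2 f g t := by
  unfold NP L2
  simp only [sq_abs, show (2 - 1 : ℕ) = 1 from rfl, pow_one]

theorem NP_mono (p : ℕ) (f g : Alg) (s t : ℝ) (h : NP p f g s) (hs : s ≤ t) : NP p f g t :=
  ⟨h.1.trans hs, h.2.1, h.2.2.trans (pow_le_pow_left₀ h.1 hs p)⟩

theorem NP_zero (p : ℕ) (g : Alg) (hp : 1 ≤ p) : NP p 0 g 0 := by
  refine ⟨le_refl _, by simp, ?_⟩
  simp [zero_pow (by omega : p ≠ 0)]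

theorem NP_smul (p : ℕ) (f g : Alg) (t a : ℝ) (h : NP p f g t) : NP p (a • f) g (|a| * t) := by
  refine ⟨mul_nonneg (abs_nonneg _) h.1, ?_, ?_⟩
  · intro w hw
    rw [MonoidAlgebra.coeff_smul, Finsupp.smul_apply, h.2.1 w hw, smul_zero]
  · have hsub : (a • f).coeff.support ⊆ f.coeff.support := by
      rw [MonoidAlgebra.coeff_smul]; exact Finsupp.support_smul
    rcases Nat.eq_zero_or_pos p with hp | hp
    · subst hp
      refine le_trans ?_ (h.2.2.trans (by simp))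
      simp only [pow_zero, show (0 - 1 : ℕ) = 0 from rfl]
      exact Finset.sum_le_sum_of_subset_of_nonneg hsub (fun _ _ _ => by norm_num)
    · rw [np_eq_of_subset p hp _ _ hsub, mul_pow]
      have : ∑ w ∈ f.coeff.support, |(a • f).coeff w| ^ p / (g.coeff w) ^ (p - 1)
          = |a| ^ p * ∑ w ∈ f.coeff.support, |f.coeff w| ^ p / (g.coeff w) ^ (p - 1) := by
        rw [Finset.mul_sum]
        apply Finset.sum_congr rfl
        intro w _
        rw [MonoidAlgebra.coeff_smul, Finsupp.smul_apply, smul_eq_mul, abs_mul, mul_pow,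
          mul_div_assoc]
      rw [this]
      exact mul_le_mul_of_nonneg_left h.2.2 (pow_nonneg (abs_nonneg _) _)

theorem NP_neg (p : ℕ) (f g : Alg) (t : ℝ) (h : NP p f g t) : NP p (-f) g t := by
  have := NP_smul p f g t (-1) h
  rwa [neg_one_smul, abs_neg, abs_one, one_mul] at this

/-- two term convexity -/
theorem pow_add_le_weighted (p : ℕ) (hp : 1 ≤ p) (a b x y : ℝ) (ha : 0 < a) (hb : 0 < b)
    (hx : 0 ≤ x) (hy : 0 ≤ y) :
    (x + y) ^ p ≤ ((a + b) / a) ^ (p - 1) * x ^ p + ((a + b) / b) ^ (p - 1) * y ^ p := by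
  have hab : 0 < a + b := by linarith
  have hx' : x * ((a + b) / a) ∈ Set.Ici (0 : ℝ) := Set.mem_Ici.mpr (by positivity)
  have hy' : y * ((a + b) / b) ∈ Set.Ici (0 : ℝ) := Set.mem_Ici.mpr (by positivity)
  have ha' : 0 ≤ a / (a + b) := by positivity
  have hb' : 0 ≤ b / (a + b) := by positivity
  have hab' : a / (a + b) + b / (a + b) = 1 := by field_simp
  have hconv := (convexOn_pow p).2 hx' hy' ha' hb' hab'
  simp only [smul_eq_mul] at hconv
  have e1 : a / (a + b) * (x * ((a + b) / a)) + b / (a + b) * (y * ((a + b) / b)) = x + y := by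
    field_simp
  rw [e1] at hconv
  refine hconv.trans (le_of_eq ?_)
  obtain ⟨q, rfl⟩ : ∃ q, p = q + 1 := ⟨p - 1, by omega⟩
  simp only [Nat.add_sub_cancel]
  rw [mul_pow, mul_pow]
  have e2 : a / (a + b) * (x ^ (q + 1) * ((a + b) / a) ^ (q + 1))
      = ((a + b) / a) ^ q * x ^ (q + 1) := by
    rw [pow_succ ((a + b) / a) q]
    field_simp
  have e3 : b / (a + b) * (y ^ (q + 1) * ((a + b) / b) ^ (q + 1))
      = ((a + b) / b) ^ q * y ^ (q + 1) := by
    rw [pow_succ ((a + b) / b) q]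
    field_simp
  rw [e2, e3]

theorem NP_add (p : ℕ) (f f' g : Alg) (s t : ℝ) (hp : 1 ≤ p) (hg : Nn g) (h : NP p f g s)
    (h' : NP p f' g t) : NP p (f + f') g (s + t) := by
  have hs := h.1
  have ht := h'.1
  have hac : ∀ w, g.coeff w = 0 → (f + f').coeff w = 0 := by
    intro w hw
    rw [MonoidAlgebra.coeff_add, Finsupp.add_apply, h.2.1 w hw, h'.2.1 w hw, add_zero]
  have key : ∀ a b : ℝ, s < a → t < b → NP p (f + f') g (a + b) := by
    intro a b ha hb
    have ha0 : 0 < a := lt_of_le_of_lt hs ha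
    have hb0 : 0 < b := lt_of_le_of_lt ht hb
    have hca : 0 ≤ ((a + b) / a) ^ (p - 1) := by positivity
    have hcb : 0 ≤ ((a + b) / b) ^ (p - 1) := by positivity
    refine NP_of_maj hp (c := ((a + b) / a) ^ (p - 1) • mjp p f g
        + ((a + b) / b) ^ (p - 1) • mjp p f' g) (by positivity) hg
      (Nn_add (Nn_smul hca (mjp_Nn p hp f hg)) (Nn_smul hcb (mjp_Nn p hp f' hg))) hac ?_ ?_
    · intro w
      rw [MonoidAlgebra.coeff_add, MonoidAlgebra.coeff_add, Finsupp.add_apply, Finsupp.add_apply,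
        MonoidAlgebra.coeff_smul, MonoidAlgebra.coeff_smul, Finsupp.smul_apply,
        Finsupp.smul_apply, smul_eq_mul, smul_eq_mul, add_mul, mul_assoc, mul_assoc,
        mjp_mul hp h, mjp_mul hp h']
      refine le_trans (pow_le_pow_left₀ (abs_nonneg _) (abs_add_le _ _) p) ?_
      exact pow_add_le_weighted p hp a b _ _ ha0 hb0 (abs_nonneg _) (abs_nonneg _)
    · rw [mass_add, mass_smul, mass_smul, mjp_mass, mjp_mass]
      have h1 := h.2.2
      have h2 := h'.2.2
      have h3 : s ^ p ≤ a ^ p := pow_le_pow_left₀ hs ha.le p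
      have h4 : t ^ p ≤ b ^ p := pow_le_pow_left₀ ht hb.le p
      refine (add_le_add (mul_le_mul_of_nonneg_left (h1.trans h3) hca)
        (mul_le_mul_of_nonneg_left (h2.trans h4) hcb)).trans (le_of_eq ?_)
      obtain ⟨q, rfl⟩ : ∃ q, p = q + 1 := ⟨p - 1, by omega⟩
      simp only [Nat.add_sub_cancel]
      rw [div_pow, div_pow, pow_succ a, pow_succ b, pow_succ (a + b)]
      have e1 : (a + b) ^ q / a ^ q * (a ^ q * a) = (a + b) ^ q * a := by
        field_simp
      have e2 : (a + b) ^ q / b ^ q * (b ^ q * b) = (a + b) ^ q * b := by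
        field_simp
      rw [e1, e2]; ring
  refine ⟨by positivity, hac, ?_⟩
  have hlim : Filter.Tendsto (fun δ : ℝ => (s + δ + (t + δ)) ^ p)
      (nhdsWithin 0 (Set.Ioi 0)) (nhds ((s + 0 + (t + 0)) ^ p)) := by
    apply Filter.Tendsto.mono_left _ nhdsWithin_le_nhds
    have : Continuous (fun δ : ℝ => (s + δ + (t + δ)) ^ p) := by fun_prop
    exact this.tendsto 0
  rw [add_zero, add_zero] at hlim
  refine ge_of_tendsto hlim ?_
  filter_upwards [self_mem_nhdsWithin] with δ hδ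
  have hδ' : (0 : ℝ) < δ := hδ
  exact (key (s + δ) (t + δ) (by linarith) (by linarith)).2.2

theorem NP_sub (p : ℕ) (f f' g : Alg) (s t : ℝ) (hp : 1 ≤ p) (hg : Nn g) (h : NP p f g s)
    (h' : NP p f' g t) : NP p (f - f') g (s + t) := by
  rw [sub_eq_add_neg]
  exact NP_add p f (-f') g s t hp hg h (NP_neg p f' g t h')

theorem NP_sum (p : ℕ) (S : Finset ℕ) (f : ℕ → Alg) (g : Alg) (s : ℕ → ℝ) (hp : 1 ≤ p)
    (hg : Nn g) (h : ∀ i ∈ S, NP p (f i) g (s i)) :
    NP p (∑ i ∈ S, f i) g (∑ i ∈ S, s i) := by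
  classical
  induction S using Finset.induction_on with
  | empty => simpa using NP_zero p g hp
  | insert a S ha ih =>
    rw [Finset.sum_insert ha, Finset.sum_insert ha]
    exact NP_add p _ _ g _ _ hp hg (h a (Finset.mem_insert_self _ _))
      (ih (fun i hi => h i (Finset.mem_insert_of_mem hi)))

/-- Hölder for sums -/
theorem holder_sum {ι : Type*} (A : Finset ι) (p : ℕ) (hp : 1 ≤ p) (φ c g : ι → ℝ)
    (hg : ∀ i ∈ A, 0 ≤ g i) (hc : ∀ i ∈ A, 0 ≤ c i) (hac : ∀ i ∈ A, g i = 0 → φ i = 0)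
    (h : ∀ i ∈ A, |φ i| ^ p ≤ c i * g i ^ (p - 1)) :
    |∑ i ∈ A, φ i| ^ p ≤ (∑ i ∈ A, c i) * (∑ i ∈ A, g i) ^ (p - 1) := by
  have hG0 : 0 ≤ ∑ i ∈ A, g i := Finset.sum_nonneg hg
  have hC0 : 0 ≤ ∑ i ∈ A, c i := Finset.sum_nonneg hc
  rcases hG0.eq_or_lt with hG | hG
  · have hz : ∀ i ∈ A, g i = 0 := (Finset.sum_eq_zero_iff_of_nonneg hg).mp hG.symm
    have : ∑ i ∈ A, φ i = 0 := Finset.sum_eq_zero (fun i hi => hac i hi (hz i hi))
    rw [this, abs_zero, zero_pow (by omega)]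
    exact mul_nonneg hC0 (pow_nonneg hG0 _)
  · set G := ∑ i ∈ A, g i with hGdef
    have hj := Real.pow_arith_mean_le_arith_mean_pow A (fun i => g i / G)
      (fun i => |φ i| / g i) (fun i hi => div_nonneg (hg i hi) hG0)
      (by rw [← Finset.sum_div, ← hGdef, div_self hG.ne'])
      (fun i hi => div_nonneg (abs_nonneg _) (hg i hi)) p
    have e1 : ∑ i ∈ A, g i / G * (|φ i| / g i) = (∑ i ∈ A, |φ i|) / G := by
      rw [Finset.sum_div]
      apply Finset.sum_congr rfl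
      intro i hi
      by_cases h0 : g i = 0
      · rw [h0, hac i hi h0]; simp
      · field_simp
    rw [e1] at hj
    have e2 : ∑ i ∈ A, g i / G * (|φ i| / g i) ^ p ≤ (∑ i ∈ A, c i) / G := by
      rw [Finset.sum_div]
      apply Finset.sum_le_sum
      intro i hi
      rcases (hg i hi).eq_or_lt with h0 | h0
      · rw [← h0]; simp only [zero_div, zero_mul]; exact div_nonneg (hc i hi) hG0
      · rw [div_pow, div_mul_div_comm, div_le_div_iff₀ (by positivity) hG]
        have h1 := h i hi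
        obtain ⟨q, rfl⟩ : ∃ q, p = q + 1 := ⟨p - 1, by omega⟩
        simp only [Nat.add_sub_cancel] at h1
        calc g i * |φ i| ^ (q + 1) * G ≤ g i * (c i * g i ^ q) * G := by
              apply mul_le_mul_of_nonneg_right _ hG0
              exact mul_le_mul_of_nonneg_left h1 h0.le
          _ = c i * (G * g i ^ (q + 1)) := by ring
    have h3 : (∑ i ∈ A, |φ i|) ^ p ≤ (∑ i ∈ A, c i) * G ^ (p - 1) := by
      have h4 := hj.trans e2
      rw [div_pow, div_le_div_iff₀ (pow_pos hG _) hG] at h4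
      obtain ⟨q, rfl⟩ : ∃ q, p = q + 1 := ⟨p - 1, by omega⟩
      simp only [Nat.add_sub_cancel]
      rw [pow_succ G q, ← mul_assoc] at h4
      exact le_of_mul_le_mul_right h4 hG
    exact (pow_le_pow_left₀ (abs_nonneg _) (Finset.abs_sum_le_sum_abs _ _) p).trans h3

theorem NP_mul (p : ℕ) (f f' g g' : Alg) (s t : ℝ) (hp : 1 ≤ p) (hg : Nn g) (hg' : Nn g')
    (h : NP p f g s) (h' : NP p f' g' t) : NP p (f * f') (g * g') (s * t) := by
  classical
  set S := f.coeff.support ∪ g.coeff.support ∪ (mjp p f g).coeff.support with hSdef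
  set T := f'.coeff.support ∪ g'.coeff.support ∪ (mjp p f' g').coeff.support with hTdef
  have a1 : f.coeff.support ⊆ S := by
    intro x hx; simp only [S, Finset.mem_union]; tauto
  have a2 : g.coeff.support ⊆ S := by
    intro x hx; simp only [S, Finset.mem_union]; tauto
  have a3 : (mjp p f g).coeff.support ⊆ S := by
    intro x hx; simp only [S, Finset.mem_union]; tauto
  have b1 : f'.coeff.support ⊆ T := by
    intro x hx; simp only [T, Finset.mem_union]; tauto
  have b2 : g'.coeff.support ⊆ T := by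
    intro x hx; simp only [T, Finset.mem_union]; tauto
  have b3 : (mjp p f' g').coeff.support ⊆ T := by
    intro x hx; simp only [T, Finset.mem_union]; tauto
  have hac1 : ∀ q : Wd × Wd, g.coeff q.1 * g'.coeff q.2 = 0 → f.coeff q.1 * f'.coeff q.2 = 0 := by
    intro q hq
    rcases mul_eq_zero.mp hq with h0 | h0
    · rw [h.2.1 _ h0, zero_mul]
    · rw [h'.2.1 _ h0, mul_zero]
  have hpt : ∀ q : Wd × Wd, |f.coeff q.1 * f'.coeff q.2| ^ p
      ≤ ((mjp p f g).coeff q.1 * (mjp p f' g').coeff q.2)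
        * (g.coeff q.1 * g'.coeff q.2) ^ (p - 1) := by
    intro q
    rw [abs_mul, mul_pow, ← mjp_mul hp h, ← mjp_mul hp h', mul_pow]
    apply le_of_eq; ring
  refine NP_of_maj hp (c := mjp p f g * mjp p f' g') (mul_nonneg h.1 h'.1) (Nn_mul hg hg')
    (Nn_mul (mjp_Nn p hp f hg) (mjp_Nn p hp f' hg')) ?_ ?_ ?_
  · intro w hw
    rw [coeff_mul_of_subset g g' a2 b2 w] at hw
    rw [coeff_mul_of_subset f f' a1 b1 w]
    have hz := (Finset.sum_eq_zero_iff_of_nonneg
      (fun q _ => mul_nonneg (hg q.1) (hg' q.2))).mp hw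
    exact Finset.sum_eq_zero (fun q hq => hac1 q (hz q hq))
  · intro w
    rw [coeff_mul_of_subset f f' a1 b1 w, coeff_mul_of_subset g g' a2 b2 w,
      coeff_mul_of_subset (mjp p f g) (mjp p f' g') a3 b3 w]
    exact holder_sum _ p hp _ _ _ (fun q _ => mul_nonneg (hg q.1) (hg' q.2))
      (fun q _ => mul_nonneg (mjp_Nn p hp f hg _) (mjp_Nn p hp f' hg' _))
      (fun q _ => hac1 q) (fun q _ => hpt q)
  · rw [mass_mul, mjp_mass, mjp_mass, mul_pow]
    exact mul_le_mul h.2.2 h'.2.2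
      (Finset.sum_nonneg (fun w _ => div_nonneg (pow_nonneg (abs_nonneg _) _)
        (pow_nonneg (hg' w) _))) (pow_nonneg h.1 _)

theorem NP_self (p : ℕ) (g : Alg) (hp : 1 ≤ p) (hg : Pr g) : NP p g g 1 := by
  refine NP_of_maj hp (c := g) zero_le_one hg.1 hg.1 (fun w hw => hw) ?_ ?_
  · intro w
    rw [abs_of_nonneg (hg.1 w)]
    obtain ⟨q, rfl⟩ : ∃ q, p = q + 1 := ⟨p - 1, by omega⟩
    simp only [Nat.add_sub_cancel]
    apply le_of_eq; ring
  · rw [hg.2, one_pow]

theorem NP_l2_of (f g : Alg) (τ B t : ℝ) (hg : Nn g) (hτ : l1 f ≤ τ) (h : NP 3 f g B)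
    (ht : 0 ≤ t) (hB : τ * B ^ 3 ≤ t ^ 4) : L2 f g t := by
  refine ⟨ht, h.2.1, ?_⟩
  have key := Finset.sum_sq_le_sum_mul_sum_of_sq_le_mul f.coeff.support
    (r := fun w => (f.coeff w) ^ 2 / g.coeff w)
    (f := fun w => |f.coeff w|) (g := fun w => |f.coeff w| ^ 3 / (g.coeff w) ^ 2)
    (fun w _ => abs_nonneg _)
    (fun w _ => div_nonneg (pow_nonneg (abs_nonneg _) _) (sq_nonneg _))
    (fun w _ => by
      rw [div_pow, ← mul_div_assoc]
      apply le_of_eq
      congr 1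
      rw [← sq_abs (f.coeff w)]; ring)
  have h3 := h.2.2
  simp only [show (3 - 1 : ℕ) = 2 from rfl] at h3
  have h0 : 0 ≤ l1 f := l1_nonneg f
  have h4 : (∑ w ∈ f.coeff.support, (f.coeff w) ^ 2 / g.coeff w) ^ 2 ≤ (t ^ 2) ^ 2 := by
    refine key.trans ?_
    have h5 : (∑ w ∈ f.coeff.support, |f.coeff w|)
        * (∑ w ∈ f.coeff.support, |f.coeff w| ^ 3 / (g.coeff w) ^ 2) ≤ τ * B ^ 3 :=
      mul_le_mul hτ h3 (Finset.sum_nonneg
        (fun w _ => div_nonneg (pow_nonneg (abs_nonneg _) _) (sq_nonneg _))) (h0.trans hτ)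
    refine h5.trans (hB.trans (le_of_eq ?_))
    ring
  exact abs_le_of_sq_le_sq' h4 (sq_nonneg _) |>.2

theorem NP_np3_of (f g : Alg) (η ζ t : ℝ) (hg : Nn g) (h2 : L2 f g η) (h4 : NP 4 f g ζ)
    (ht : 0 ≤ t) (h : η * ζ ^ 2 ≤ t ^ 3) : NP 3 f g t := by
  refine ⟨ht, h2.2.1, ?_⟩
  simp only [show (3 - 1 : ℕ) = 2 from rfl]
  have key := Finset.sum_sq_le_sum_mul_sum_of_sq_le_mul f.coeff.support
    (r := fun w => |f.coeff w| ^ 3 / (g.coeff w) ^ 2)
    (f := fun w => (f.coeff w) ^ 2 / g.coeff w)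
    (g := fun w => |f.coeff w| ^ 4 / (g.coeff w) ^ 3)
    (fun w _ => div_nonneg (sq_nonneg _) (hg w))
    (fun w _ => div_nonneg (pow_nonneg (abs_nonneg _) _) (pow_nonneg (hg w) _))
    (fun w _ => by
      rw [div_pow, div_mul_div_comm]
      apply le_of_eq
      rw [← sq_abs (f.coeff w)]
      congr 1
      · ring
      · ring)
  have h4' := h4.2.2
  simp only [show (4 - 1 : ℕ) = 3 from rfl] at h4'
  have h5 : (∑ w ∈ f.coeff.support, |f.coeff w| ^ 3 / (g.coeff w) ^ 2) ^ 2 ≤ (t ^ 3) ^ 2 := by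
    refine key.trans ?_
    have h6 : (∑ w ∈ f.coeff.support, (f.coeff w) ^ 2 / g.coeff w)
        * (∑ w ∈ f.coeff.support, |f.coeff w| ^ 4 / (g.coeff w) ^ 3) ≤ η ^ 2 * ζ ^ 4 :=
      mul_le_mul h2.2.2 h4' (Finset.sum_nonneg
        (fun w _ => div_nonneg (pow_nonneg (abs_nonneg _) _) (pow_nonneg (hg w) _)))
        (sq_nonneg _)
    refine h6.trans ?_
    have h7 : 0 ≤ η * ζ ^ 2 := mul_nonneg h2.1 (sq_nonneg _)
    calc η ^ 2 * ζ ^ 4 = (η * ζ ^ 2) ^ 2 := by ring
      _ ≤ (t ^ 3) ^ 2 := pow_le_pow_left₀ h7 h 2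
  exact abs_le_of_sq_le_sq' h5 (pow_nonneg ht _) |>.2

theorem NP_l2_one (x g : Alg) (η : ℝ) (hg : Pr g) (hx : mass x = 0) (h : L2 x g η) :
    L2 (g + x) g (Real.sqrt (1 + η ^ 2)) := by
  have := L2_orth hg Pr_one hx h (L2_self Pr_one) (L2_self Pr_one)
  rw [mul_one, mul_one] at this
  rw [add_comm g x]
  convert this using 2
  ring

theorem NP_np3_one (x g : Alg) (η θ t : ℝ) (hg : Pr g) (hn : Nn (g + x)) (hx : mass x = 0)
    (h2 : L2 x g η) (h3 : NP 3 x g θ) (ht : 0 ≤ t) (h : 1 + 3 * η ^ 2 + θ ^ 3 ≤ t ^ 3) :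
    NP 3 (g + x) g t := by
  classical
  have hac : ∀ w, g.coeff w = 0 → (g + x).coeff w = 0 := by
    intro w hw
    rw [MonoidAlgebra.coeff_add, Finsupp.add_apply, hw, h2.2.1 w hw, add_zero]
  refine ⟨ht, hac, ?_⟩
  refine le_trans ?_ h
  set S := (g + x).coeff.support ∪ g.coeff.support ∪ x.coeff.support with hS
  have a1 : (g + x).coeff.support ⊆ S := by
    intro w hw; simp only [S, Finset.mem_union]; tauto
  have a2 : g.coeff.support ⊆ S := by
    intro w hw; simp only [S, Finset.mem_union]; tauto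
  have a3 : x.coeff.support ⊆ S := by
    intro w hw; simp only [S, Finset.mem_union]; tauto
  rw [np_eq_of_subset 3 (by norm_num) _ _ a1]
  have e0 : ∀ w ∈ S, |(g + x).coeff w| ^ 3 / (g.coeff w) ^ (3 - 1)
      ≤ g.coeff w + 3 * x.coeff w + 3 * ((x.coeff w) ^ 2 / g.coeff w)
        + |x.coeff w| ^ 3 / (g.coeff w) ^ (3 - 1) := by
    intro w _
    have hgx : (g + x).coeff w = g.coeff w + x.coeff w := by
      rw [MonoidAlgebra.coeff_add, Finsupp.add_apply]
    rw [abs_of_nonneg (hn w), hgx]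
    simp only [show (3 - 1 : ℕ) = 2 from rfl]
    rcases (hg.1 w).eq_or_lt with h0 | h0
    · rw [← h0, h2.2.1 w h0.symm]; simp
    · have e1 : (g.coeff w + x.coeff w) ^ 3 / (g.coeff w) ^ 2
          = g.coeff w + 3 * x.coeff w + 3 * ((x.coeff w) ^ 2 / g.coeff w)
            + (x.coeff w) ^ 3 / (g.coeff w) ^ 2 := by
        field_simp
        ring
      rw [e1]
      have : (x.coeff w) ^ 3 / (g.coeff w) ^ 2 ≤ |x.coeff w| ^ 3 / (g.coeff w) ^ 2 := by
        apply div_le_div_of_nonneg_right _ (sq_nonneg _)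
        rw [← abs_pow]; exact le_abs_self _
      linarith
  refine (Finset.sum_le_sum e0).trans ?_
  rw [Finset.sum_add_distrib, Finset.sum_add_distrib, Finset.sum_add_distrib,
    ← Finset.mul_sum, ← Finset.mul_sum, ← mass_eq_of_subset g a2, ← mass_eq_of_subset x a3,
    ← chi_eq_of_subset x g a3, ← np_eq_of_subset 3 (by norm_num) x g a3, hg.2, hx]
  have := h2.2.2
  have := h3.2.2
  linarith

theorem NP_prod_l2 (l : List (Alg × Alg)) (η : ℝ) (hη : 0 ≤ η)
    (h : ∀ p ∈ l, Pr p.2 ∧ mass (p.1 - p.2) = 0 ∧ L2 (p.1 - p.2) p.2 η) :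
    L2 ((l.map Prod.fst).prod - (l.map Prod.snd).prod) ((l.map Prod.snd).prod)
        (Real.sqrt ((1 + η ^ 2) ^ l.length - 1)) ∧
      L2 ((l.map Prod.fst).prod) ((l.map Prod.snd).prod)
        (Real.sqrt ((1 + η ^ 2) ^ l.length)) := by
  induction l with
  | nil =>
    constructor
    · simpa using L2_zero (1 : Alg)
    · simpa using L2_self Pr_one
  | cons p l ih =>
    obtain ⟨ih1, ih2⟩ := ih (fun q hq => h q (by simp [hq]))
    obtain ⟨hp1, hp2, hp3⟩ := h p (by simp)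
    have hPr : Pr ((l.map Prod.snd).prod) := by
      apply Pr_prod
      intro f hf
      obtain ⟨q, hq, rfl⟩ := List.mem_map.mp hf
      exact (h q (by simp [hq])).1
    simp only [List.map_cons, List.prod_cons, List.length_cons]
    set A := (l.map Prod.fst).prod
    set B := (l.map Prod.snd).prod
    have h1 : (1 : ℝ) ≤ (1 + η ^ 2) ^ l.length := one_le_pow₀ (by nlinarith [sq_nonneg η])
    constructor
    · have e : p.1 * A - p.2 * B = (p.1 - p.2) * A + p.2 * (A - B) := by noncomm_ring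
      rw [e]
      have := L2_orth hp1 hPr hp2 hp3 ih2 ih1
      rw [Real.sq_sqrt (by positivity), Real.sq_sqrt (by linarith)] at this
      convert this using 2
      ring
    · have e : p.1 * A = (p.1 - p.2) * A + p.2 * A := by noncomm_ring
      rw [e]
      have := L2_orth hp1 hPr hp2 hp3 ih2 ih2
      rw [Real.sq_sqrt (by positivity)] at this
      convert this using 2
      ring

theorem NP_prod_np (p : ℕ) (l : List (Alg × Alg)) (t : ℝ) (hp : 1 ≤ p) (ht : 0 ≤ t)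
    (h : ∀ x ∈ l, Pr x.2 ∧ NP p x.1 x.2 t) :
    NP p ((l.map Prod.fst).prod) ((l.map Prod.snd).prod) (t ^ l.length) := by
  induction l with
  | nil => simpa using NP_self p 1 hp Pr_one
  | cons q l ih =>
    have hPr : Pr ((l.map Prod.snd).prod) := by
      apply Pr_prod
      intro f hf
      obtain ⟨q, hq, rfl⟩ := List.mem_map.mp hf
      exact (h q (by simp [hq])).1
    simp only [List.map_cons, List.prod_cons, List.length_cons, pow_succ']
    exact NP_mul p _ _ _ _ _ _ hp (h q (by simp)).1.1 hPr.1 (h q (by simp)).2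
      (ih (fun x hx => h x (by simp [hx])))

theorem NP_prod_npd (p : ℕ) (l : List (Alg × Alg)) (ζ : ℝ) (hp : 1 ≤ p) (hζ : 0 ≤ ζ)
    (h : ∀ x ∈ l, Pr x.2 ∧ NP p (x.1 - x.2) x.2 ζ) :
    NP p ((l.map Prod.fst).prod - (l.map Prod.snd).prod) ((l.map Prod.snd).prod)
      ((1 + ζ) ^ l.length - 1) := by
  have hfull : ∀ x ∈ l, Pr x.2 ∧ NP p x.1 x.2 (1 + ζ) := by
    intro x hx
    obtain ⟨h1, h2⟩ := h x hx
    refine ⟨h1, ?_⟩
    have := NP_add p x.2 (x.1 - x.2) x.2 1 ζ hp h1.1 (NP_self p x.2 hp h1) h2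
    rwa [add_sub_cancel] at this
  induction l with
  | nil => simpa using NP_zero p 1 hp
  | cons q l ih =>
    have ih' := ih (fun x hx => h x (by simp [hx])) (fun x hx => hfull x (by simp [hx]))
    have hA := NP_prod_np p l (1 + ζ) hp (by linarith) (fun x hx => hfull x (by simp [hx]))
    obtain ⟨hq1, hq2⟩ := h q (by simp)
    have hPr : Pr ((l.map Prod.snd).prod) := by
      apply Pr_prod
      intro f hf
      obtain ⟨q, hq, rfl⟩ := List.mem_map.mp hf
      exact (h q (by simp [hq])).1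
    simp only [List.map_cons, List.prod_cons, List.length_cons]
    set A := (l.map Prod.fst).prod
    set B := (l.map Prod.snd).prod
    have e : q.1 * A - q.2 * B = (q.1 - q.2) * A + q.2 * (A - B) := by noncomm_ring
    rw [e]
    have h1 := NP_mul p _ _ _ _ _ _ hp hq1.1 hPr.1 hq2 hA
    have h2 := NP_mul p _ _ _ _ _ _ hp hq1.1 hPr.1 (NP_self p q.2 hp hq1) ih'
    have h3 := NP_add p _ _ _ _ _ hp (Nn_mul hq1.1 hPr.1) h1 h2
    convert h3 using 1
    ring

/-- absolute value as an element of the algebra -/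
noncomputable def absA (f : Alg) : Alg :=
  ∑ w ∈ f.coeff.support, MonoidAlgebra.single w |f.coeff w|

theorem absA_coeff (f : Alg) (w : Wd) : (absA f).coeff w = |f.coeff w| := by
  classical
  unfold absA
  rw [MonoidAlgebra.coeff_sum, Finsupp.finsetSum_apply]
  simp_rw [MonoidAlgebra.coeff_single, Finsupp.single_apply]
  rw [Finset.sum_ite_eq']
  split_ifs with h
  · rfl
  · rw [Finsupp.notMem_support_iff.mp h, abs_zero]

theorem absA_mass (f : Alg) : mass (absA f) = l1 f := by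
  unfold absA l1
  rw [mass_sum]
  simp_rw [mass_single]

theorem NP_np4_sup (f g : Alg) (Γ η t : ℝ) (hg : Nn g) (hΓ : 0 ≤ Γ)
    (hf : ∀ w, |f.coeff w| ≤ Γ * g.coeff w) (h2 : L2 f g η) (ht : 0 ≤ t)
    (h : Γ ^ 2 * η ^ 2 ≤ t ^ 4) : NP 4 f g t := by
  refine NP_of_maj (by norm_num) (c := Γ ^ 2 • maj f g) ht hg
    (Nn_smul (sq_nonneg _) (maj_Nn f hg)) h2.2.1 ?_ ?_
  · intro w
    simp only [show (4 - 1 : ℕ) = 3 from rfl]
    rw [MonoidAlgebra.coeff_smul, Finsupp.smul_apply, smul_eq_mul]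
    have e := maj_mul h2 w
    have h3 : |f.coeff w| ^ 2 ≤ (Γ * g.coeff w) ^ 2 := pow_le_pow_left₀ (abs_nonneg _) (hf w) 2
    calc |f.coeff w| ^ 4 = |f.coeff w| ^ 2 * (f.coeff w) ^ 2 := by
          rw [← sq_abs (f.coeff w)]; ring
      _ ≤ (Γ * g.coeff w) ^ 2 * (f.coeff w) ^ 2 := mul_le_mul_of_nonneg_right h3 (sq_nonneg _)
      _ = Γ ^ 2 * (maj f g).coeff w * g.coeff w ^ 3 := by rw [← e]; ring
  · rw [mass_smul, maj_mass]
    exact (mul_le_mul_of_nonneg_left h2.2.2 (sq_nonneg _)).trans h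

theorem NP_l2_sup (f f₁ f₂ g : Alg) (Γ η τ t : ℝ) (hg : Nn g) (hΓ : 0 ≤ Γ)
    (hf : ∀ w, |f.coeff w| ≤ Γ * g.coeff w) (hdec : f = f₁ + f₂) (h1 : L2 f₁ g η)
    (h2 : l1 f₂ ≤ τ) (ht : 0 ≤ t) (h : 4 * η ^ 2 + 2 * Γ * τ ≤ t ^ 2) : L2 f g t := by
  refine L2_of_maj (c := (4 : ℝ) • maj f₁ g + (2 * Γ) • absA f₂) ht hg
    (Nn_add (Nn_smul (by norm_num) (maj_Nn f₁ hg)) (Nn_smul (by positivity)
      (fun w => by rw [absA_coeff]; exact abs_nonneg _))) ?_ ?_
  · intro w
    rw [MonoidAlgebra.coeff_add, Finsupp.add_apply, MonoidAlgebra.coeff_smul,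
      MonoidAlgebra.coeff_smul, Finsupp.smul_apply, Finsupp.smul_apply, smul_eq_mul,
      smul_eq_mul, absA_coeff, add_mul, mul_assoc 4, maj_mul h1 w]
    have hw : f.coeff w = f₁.coeff w + f₂.coeff w := by
      rw [hdec, MonoidAlgebra.coeff_add, Finsupp.add_apply]
    have hb := hf w
    have hgw := hg w
    have habs : |f.coeff w| ≤ |f₁.coeff w| + |f₂.coeff w| := by rw [hw]; exact abs_add_le _ _
    rcases le_total |f.coeff w| (2 * |f₁.coeff w|) with hc | hc
    · have h3 : (f.coeff w) ^ 2 ≤ 4 * (f₁.coeff w) ^ 2 := by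
        rw [← sq_abs (f.coeff w), ← sq_abs (f₁.coeff w)]
        nlinarith [abs_nonneg (f.coeff w), abs_nonneg (f₁.coeff w)]
      have h4 : 0 ≤ 2 * Γ * |f₂.coeff w| * g.coeff w := by positivity
      linarith
    · have h3 : |f.coeff w| ≤ 2 * |f₂.coeff w| := by linarith
      have h4 : (f.coeff w) ^ 2 ≤ 2 * |f₂.coeff w| * (Γ * g.coeff w) := by
        rw [← sq_abs (f.coeff w), sq]
        exact mul_le_mul h3 hb (abs_nonneg _) (by positivity)
      nlinarith [sq_nonneg (f₁.coeff w)]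
  · rw [mass_add, mass_smul, mass_smul, maj_mass, absA_mass]
    have h3 := h1.2.2
    have h4 : 2 * Γ * l1 f₂ ≤ 2 * Γ * τ := mul_le_mul_of_nonneg_left h2 (by positivity)
    linarith

/-- (PW) -/
theorem libPW : LibPW where
  two := NP_two
  mono := NP_mono
  zero := NP_zero
  smul := NP_smul
  neg := NP_neg
  add := NP_add
  sub := NP_sub
  sum := NP_sum
  mul := NP_mul
  self := NP_self
  l2_of := NP_l2_of
  np3_of := NP_np3_of
  l2_one := NP_l2_one
  np3_one := NP_np3_one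
  prod_l2 := NP_prod_l2
  prod_np := NP_prod_np
  prod_npd := NP_prod_npd
  np4_sup := NP_np4_sup
  l2_sup := NP_l2_sup

end Vale.P321S
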