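import Vale.Agent.P321S.DefsQ
import Vale.Agent.P321S.Levels

/-! # P321Q module STARTQ -/

namespace Vale.P321S.SQ

open Vale.P321S Vale.P321S.LV

noncomputable section

theorem sup_of_le {X Y Z : Alg} {Γ : ℝ} (hX : Nn X) (hY : Nn Y) (h1 : Le X (Γ • Z))
    (h2 : Le Y (Γ • Z)) : ∀ w, |(X - Y).coeff w| ≤ Γ * Z.coeff w := by
  intro w
  have a1 := h1 w
  have a2 := h2 w
  have b1 := hX w
  have b2 := hY w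
  rw [MonoidAlgebra.coeff_smul, Finsupp.smul_apply, smul_eq_mul] at a1 a2
  have e : (X - Y).coeff w = X.coeff w - Y.coeff w := by
    rw [MonoidAlgebra.coeff_sub, Finsupp.sub_apply]
  rw [e, abs_le]
  constructor <;> linarith

/-- from the qualitative level data to pure weighted norms -/
theorem conv (pw : LibPW) {K : ℕ} {T X Y ρ : Alg} {N R kT k : ℕ} {C₀ Γ r η β τ x ζ : ℝ}
    (h : Lvl K T X Y ρ N R kT k C₀ Γ r η β τ) (hΓ : 1 ≤ Γ) (hx : 0 ≤ x) (hζ : 0 ≤ ζ)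
    (h1 : 4 * Γ ^ 2 * (η ^ 2 + τ) ≤ x ^ 2) (h2 : Γ ^ 2 * x ^ 2 ≤ ζ ^ 4) :
    L2 (X - Y) X x ∧ L2 (X - Y) Y x ∧ NP 4 (X - Y) X ζ ∧ NP 4 (X - Y) Y ζ := by
  have hΓ0 : 0 ≤ Γ := by linarith
  have hX := h.prX
  have hY := h.prY
  have hXX : Le X (Γ • X) := Le_self_smul hX.1 hΓ
  have hYY : Le Y (Γ • Y) := Le_self_smul hY.1 hΓ
  have sY := sup_of_le hX.1 hY.1 h.XY hYY
  have sX := sup_of_le hX.1 hY.1 hXX h.YX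
  obtain ⟨f₁, f₂, hf, _, hf1, hf2⟩ := h.dρ
  have hτ0 : 0 ≤ τ := (l1_nonneg _).trans hf2
  have e1 : X - Y = f₁ + (f₂ + (X - Y - T ^ N * ρ * T ^ N)) := by
    rw [hf]; abel
  have l2 : l1 (f₂ + (X - Y - T ^ N * ρ * T ^ N)) ≤ 2 * τ := by
    have := l1_add f₂ (X - Y - T ^ N * ρ * T ^ N)
    have := h.dXY
    linarith
  have hf1Y := L2_ref hΓ0 (Pr_pow h.prT R).1 hY.1 hf1 h.TY
  -- relative to Y
  set x₁ : ℝ := Real.sqrt (4 * Γ * η ^ 2 + 4 * Γ * τ) with hx₁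
  have hin : 0 ≤ 4 * Γ * η ^ 2 + 4 * Γ * τ := by positivity
  have hx₁sq : x₁ ^ 2 = 4 * Γ * η ^ 2 + 4 * Γ * τ := Real.sq_sqrt hin
  have hYx : L2 (X - Y) Y x₁ := by
    refine pw.l2_sup (X - Y) f₁ _ Y Γ (Real.sqrt Γ * η) (2 * τ) x₁ hY.1 hΓ0 sY e1 hf1Y l2
      (Real.sqrt_nonneg _) ?_
    rw [hx₁sq, mul_pow, Real.sq_sqrt hΓ0]
    linarith
  have hXx := L2_ref hΓ0 hY.1 hX.1 hYx h.YX
  have hs : Real.sqrt Γ * x₁ ≤ x := by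
    rw [hx₁, ← Real.sqrt_mul hΓ0, Real.sqrt_le_left hx]
    nlinarith
  have hs1 : 1 ≤ Real.sqrt Γ := by
    rw [Real.one_le_sqrt]
    exact hΓ
  have hs2 : x₁ ≤ x := by
    have h0 : 0 ≤ x₁ := Real.sqrt_nonneg _
    nlinarith
  have r1 := L2_mono hXx hs
  have r2 := L2_mono hYx hs2
  exact ⟨r1, r2, pw.np4_sup _ _ Γ x ζ hX.1 hΓ0 sX r1 hζ h2,
    pw.np4_sup _ _ Γ x ζ hY.1 hΓ0 sY r2 hζ h2⟩

/-- numerical part of `conv` -/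
theorem num_conv {v Γ η τ : ℝ} {a : ℤ} (hv : 1 ≤ v) (hΓ : 1 ≤ Γ) (hΓv : 8 * Γ ^ 2 ≤ v)
    (hη0 : 0 ≤ η) (hη : η ≤ v ^ a) (hτ : τ ≤ v ^ (2 * a)) :
    4 * Γ ^ 2 * (η ^ 2 + τ) ≤ (v ^ (a + 1)) ^ 2 := by
  have h1 : η ^ 2 ≤ v ^ (2 * a) := by
    rw [← zsq]
    exact pow_le_pow_left₀ hη0 hη 2
  have h2 : 0 < v ^ (2 * a) := zpos hv _
  rw [zsq]
  calc 4 * Γ ^ 2 * (η ^ 2 + τ) ≤ 4 * Γ ^ 2 * (2 * v ^ (2 * a)) := by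
        apply mul_le_mul_of_nonneg_left _ (by positivity)
        linarith
    _ = (8 * Γ ^ 2) * v ^ (2 * a) := by ring
    _ ≤ v * v ^ (2 * a) := mul_le_mul_of_nonneg_right hΓv h2.le
    _ ≤ (v ^ (2 : ℤ)) * v ^ (2 * a) := by
        apply mul_le_mul_of_nonneg_right _ h2.le
        calc v = v ^ (1 : ℤ) := (zpow_one v).symm
          _ ≤ v ^ (2 : ℤ) := zle hv (by norm_num)
    _ = v ^ (2 * (a + 1)) := by rw [zmul hv]; congr 1; ring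

/-- two consecutive qualitative levels -/
theorem two_levels (hstep : StStep) {q Γ₀ c₀ C₀ : ℝ} (hC₀ : 2 ≤ C₀)
    (hmix : ∀ (T : Alg) (k : ℕ), Pr T → 1 ≤ k → l1 (T ^ k - T ^ (k + 1)) ≤ 1 → Mix T k C₀)
    {j c : ℕ} (hj1 : 1 ≤ j) (hc : 1 ≤ c) (hP : PJ q Γ₀ c₀ C₀ j c) (e : ℕ)
    (he : 4 * c + 3 ≤ e) (D' : ℕ) :
    ∃ K₀' : ℕ, 1 ≤ K₀' ∧ ∀ K : ℕ, K₀' ≤ K → ∃ Γ Γ' : ℝ, 1 ≤ Γ ∧ 1 ≤ Γ' ∧ ∃ ν₀ : ℕ, ∀ ν : ℕ,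
      ν₀ ≤ ν → ∃ (E : Fin 3 → Alg) (T X Y ρ ρ' : Alg) (N R kT k : ℕ)
        (r η β τ r' η' β' τ' : ℝ) (wX wY : List (Fin 3)),
        (∀ d, Pr (E d)) ∧
        (∀ d, l1 (E d - cellN q (ν ^ (32 * e)) d)
          ≤ Γ₀ * Real.exp (-(c₀ * ((ν ^ (32 * e) : ℕ) : ℝ)))) ∧
        Lvl K T X Y ρ N R kT k C₀ Γ r η β τ ∧ X = ev E wX ∧ Y = ev E wY ∧ wX ≠ wY ∧
        wX.length = wY.length ∧ wY.length ≤ ν ^ (c + 32 * e * (2 ^ j - 1)) ∧ 1 ≤ k ∧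
        0 ≤ η ∧ η ≤ (ν : ℝ) ^ ((c : ℤ) - (e * ah j : ℕ)) ∧ τ ≤ (ν : ℝ) ^ (-(D' : ℤ)) ∧
        Lvl K Y (Y ^ (ν * k) * val (tm K true) X Y * Y ^ (ν * k))
          (Y ^ (ν * k) * val (tm K false) X Y * Y ^ (ν * k)) ρ' (ν * k) (2 * (ν * k) + 2 ^ K) k
          (ν * ((2 * (ν * k) + 2 ^ K) * k)) C₀ Γ' r' η' β' τ' ∧
        0 ≤ η' ∧ η' ≤ (ν : ℝ) ^ (((4 * c + 3 : ℕ) : ℤ) - (e * ah (j + 1) : ℕ)) ∧
        τ' ≤ (ν : ℝ) ^ (-(D' : ℤ)) ∧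
        ν ^ (16 * (2 * (2 ^ j * e))) ≤ ν * k ∧
        ν ^ (32 * (2 * (2 ^ j * e))) ≤ ν * ((2 * (ν * k) + 2 ^ K) * k) ∧
        ν * ((2 * (ν * k) + 2 ^ K) * k) ≤ ν ^ (4 * c + 3 + 32 * (2 * (2 ^ j * e))) ∧
        2 * (ν * k) + 2 ^ K ≤ ν ^ (c + 2 + 32 * (2 ^ j * e)) := by
  obtain ⟨K₀', hK₀', hK⟩ := hP e (by omega) (D' + (3 * c + 7 + 96 * (2 ^ j * e)))
  refine ⟨max K₀' (4 * (D' + (3 * c + 7 + 96 * (2 ^ j * e)))), le_max_of_le_left hK₀', ?_⟩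
  intro K hKK
  have hKK₀ : K₀' ≤ K := (le_max_left _ _).trans hKK
  have hKD : 4 * (D' + (3 * c + 7 + 96 * (2 ^ j * e))) ≤ K := (le_max_right _ _).trans hKK
  have hK1 : 1 ≤ K := hK₀'.trans hKK₀
  obtain ⟨Γ, hΓ, ν₀, hν₀⟩ := hK K hKK₀
  obtain ⟨C₁, hC₁, hS⟩ := hstep K C₀ Γ hK1 hC₀ hΓ hmix
  refine ⟨Γ, Γ ^ (2 ^ (K + 1)), hΓ, one_le_pow₀ hΓ,
    max ν₀ (max ⌈C₁ ^ 4⌉₊ (max 1000 (2 ^ K))), ?_⟩
  intro ν hν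
  simp only [max_le_iff] at hν
  obtain ⟨hν1, hν2, hν5, hν6⟩ := hν
  have hνC : C₁ ^ 4 ≤ ν := (Nat.le_ceil _).trans (by exact_mod_cast hν2)
  have hνpos : 1 ≤ ν := by omega
  obtain ⟨E, T, X, Y, ρ, N, R, kT, k, r, η, β, τ, wX, wY, hE, hcl, hlvl, eX, eY, hne, hlen,
    hlenle, hkT, hB⟩ := hν₀ ν hν1
  obtain ⟨F1, F2, F3, F4, F5, F6, F7, F8, F9⟩ := facts_e hj1 e
  have key := Bd.step (N' := ν * k) (R' := 2 * (ν * k) + 2 ^ K)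
    (k' := ν * ((2 * (ν * k) + 2 ^ K) * k)) (K := K) (e := e) (D' := D')
    (Ar' := e * ar (j + 1)) (Ah' := e * ah (j + 1)) (Ab' := e * xb (j + 1))
    hB hC₁ hνC hν5 hν6 hc he
    F1 F2 F3 F4 F5 F6 F7 F8 F9 le_rfl hKD
    rfl rfl rfl rfl rfl rfl rfl
  obtain ⟨hB', hr1, hη1, c1, c2, c3, c4, hR'⟩ := key
  have hN1 : 1 ≤ N := le_trans (Nat.one_le_pow _ _ hνpos) hB.Nlo
  have hC₁ν : C₁ ≤ ν := by
    have : C₁ ≤ C₁ ^ 4 := by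
      calc C₁ = C₁ ^ 1 := (pow_one _).symm
        _ ≤ C₁ ^ 4 := pow_le_pow_right₀ hC₁ (by norm_num)
    linarith
  obtain ⟨ρ', hL'⟩ := hS T X Y ρ N R kT k ν (ν * k) (2 * (ν * k) + 2 ^ K)
    (ν * ((2 * (ν * k) + 2 ^ K) * k)) r η β τ _ _ _ _ hlvl hkT hN1 hC₁ν hr1 hη1 rfl rfl rfl
    c1 c2 rfl rfl rfl rfl c3 c4
  have hk1 : 1 ≤ k := le_trans (Nat.one_le_pow _ _ hνpos) hB.klo
  have hv : (1 : ℝ) ≤ ν := by exact_mod_cast hνpos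
  refine ⟨E, T, X, Y, ρ, ρ', N, R, kT, k, r, η, β, τ, _, _, _, _, wX, wY, hE, hcl, hlvl, eX, eY,
    hne, hlen, hlenle, hk1, hB.η0, hB.ηle, ?_, hL', hB'.η0, hB'.ηle, hB'.τle, hB'.Nlo,
    hB'.klo, hB'.khi, hR'⟩
  refine hB.τle.trans (zle hv ?_)
  have : D' ≤ D' + (3 * c + 7 + 96 * (2 ^ j * e)) := Nat.le_add_right _ _
  have h2 : (D' : ℤ) ≤ ((D' + (3 * c + 7 + 96 * (2 ^ j * e)) : ℕ) : ℤ) := by exact_mod_cast this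
  linarith

/-- all numerical facts -/
theorem numQ {v : ℝ} {c E₁ A A' : ℤ} (hv : 1 ≤ v) (hc : 0 ≤ c) (hAE : 144 * E₁ ≤ A)
    (hAE' : 289 * E₁ ≤ A') (hcE : c * 8 + 6 ≤ E₁) :
    (∀ Γ : ℝ, 1 ≤ Γ → 8 * Γ ^ 2 ≤ v →
      Γ ^ 2 * (v ^ (c - A + 1)) ^ 2 ≤ (v ^ (-(34 * E₁))) ^ 4) ∧
    (∀ t : ℝ, t ≤ v → t * (v ^ (c - A + 1)) ≤ 1) ∧
    (∀ t : ℝ, t ≤ v → t * (v ^ (-(34 * E₁))) ≤ 1) ∧
    (∀ t : ℝ, t ≤ v → t * (v ^ (c - A + 1)) ^ 2 ≤ v ^ (-(256 * E₁))) ∧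
    (∀ t : ℝ, t ≤ v → t * (v ^ (c - A + 1)) ≤ v ^ (-(128 * E₁))) ∧
    v ^ (4 * c + 3 - A' + 1) ≤ v ^ (-(256 * E₁)) ∧
    v ^ (-(260 * E₁)) ≤ v ^ (-(256 * E₁)) ∧
    (∀ t : ℝ, t ≤ v → t * (v ^ (-(34 * E₁))) ≤ v ^ (-(32 * E₁))) ∧
    (v ^ (-(260 * E₁))) ^ 4 = v ^ (-(1040 * E₁)) := by
  have hvabs : ∀ (t : ℝ) (a : ℤ), t ≤ v → t * v ^ a ≤ v ^ (1 + a) := by
    intro t a ht
    calc t * v ^ a ≤ v * v ^ a := mul_le_mul_of_nonneg_right ht (zpos hv _).le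
      _ = v ^ (1 : ℤ) * v ^ a := by rw [zpow_one]
      _ = v ^ (1 + a) := zmul hv _ _
  have hone : ∀ a : ℤ, a ≤ 0 → v ^ a ≤ 1 := by
    intro a ha
    calc v ^ a ≤ v ^ (0 : ℤ) := zle hv ha
      _ = 1 := zpow_zero _
  have p4 : ∀ a : ℤ, (v ^ a) ^ 4 = v ^ (4 * a) := by
    intro a
    rw [show (4 : ℕ) = 2 * 2 by norm_num, pow_mul, zsq, zsq]
    congr 1
    ring
  refine ⟨?_, ?_, ?_, ?_, ?_, ?_, ?_, ?_, ?_⟩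
  · intro Γ hΓ hΓv
    rw [p4, zsq]
    refine (hvabs _ _ (by nlinarith)).trans (zle hv (by linarith))
  · intro t ht
    exact (hvabs _ _ ht).trans (hone _ (by linarith))
  · intro t ht
    exact (hvabs _ _ ht).trans (hone _ (by linarith))
  · intro t ht
    rw [zsq]
    exact (hvabs _ _ ht).trans (zle hv (by linarith))
  · intro t ht
    exact (hvabs _ _ ht).trans (zle hv (by linarith))
  · exact zle hv (by linarith)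
  · exact zle hv (by linarith)
  · intro t ht
    exact (hvabs _ _ ht).trans (zle hv (by linarith))
  · rw [p4]
    congr 1
    ring

/-- the exponents `ah` -/
theorem ah_facts {j e P E₁ : ℕ} (hj : 256 ≤ j) (hP : P = 2 ^ j) (hE₁ : E₁ = 2 * (P * e)) :
    144 * E₁ ≤ e * ah j ∧ 289 * E₁ ≤ e * ah (j + 1) := by
  have eah : ah j = P * (32 + j) := by
    unfold ah
    rw [if_neg (by omega), hP]
  have eah' : ah (j + 1) = 2 * P * (32 + (j + 1)) := by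
    unfold ah
    rw [if_neg (by omega), pow_succ', hP]
  constructor
  · rw [eah, hE₁]
    calc 144 * (2 * (P * e)) = e * (P * 288) := by ring
      _ ≤ e * (P * (32 + j)) := Nat.mul_le_mul_left _ (Nat.mul_le_mul_left _ (by omega))
  · rw [eah', hE₁]
    calc 289 * (2 * (P * e)) = e * (2 * P * 289) := by ring
      _ ≤ e * (2 * P * (32 + (j + 1))) := Nat.mul_le_mul_left _ (Nat.mul_le_mul_left _ (by omega))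

theorem start_final (pw : LibPW) (hLift : StLiftQ) (hstep : StStep) {q Γ₀ c₀ C₀ : ℝ}
    (hC₀ : 2 ≤ C₀)
    (hmix : ∀ (T : Alg) (k : ℕ), Pr T → 1 ≤ k → l1 (T ^ k - T ^ (k + 1)) ≤ 1 → Mix T k C₀)
    {j c : ℕ} (hj : 256 ≤ j) (hc : 1 ≤ c) (hP : PJ q Γ₀ c₀ C₀ j c) :
    ∃ (K₀ E₁ e s₀ : ℕ), 1 ≤ K₀ ∧ 1 ≤ e ∧ e ≤ E₁ ∧ ∀ s : ℕ, s₀ ≤ s →
    ∃ (E : Fin 3 → Alg) (T X Y U V ρ : Alg) (N R kT k : ℕ) (r β η lam ζ : ℝ)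
      (wX wY : List (Fin 3)),
      (∀ d, Pr (E d)) ∧
      (∀ d, l1 (E d - cellN q (s ^ (32 * e)) d)
        ≤ Γ₀ * Real.exp (-(c₀ * ((s ^ (32 * e) : ℕ) : ℝ)))) ∧
      LvlQ T X Y U V ρ (2 ^ K₀) N R kT k C₀ r β η lam ζ ∧ X = ev E wX ∧ Y = ev E wY ∧
      wX ≠ wY ∧ wX.length = wY.length ∧ wY.length ≤ s ^ (64 * E₁) ∧ 1 ≤ kT ∧ lam ≤ η ∧
      s ^ (16 * E₁) ≤ N ∧ s ^ (32 * E₁) ≤ k ∧ k ≤ s ^ (64 * E₁) ∧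
      r ≤ 1 / (s : ℝ) ^ (256 * E₁) ∧ β ≤ 1 / (s : ℝ) ^ (128 * E₁) ∧
      η ≤ 1 / (s : ℝ) ^ (256 * E₁) ∧ lam ≤ 1 / (s : ℝ) ^ (260 * E₁) ∧
      ζ ≤ 1 / (s : ℝ) ^ (32 * E₁) := by
  obtain ⟨e, he⟩ : ∃ e : ℕ, e = 4 * c + 3 := ⟨_, rfl⟩
  obtain ⟨P, hPdef⟩ : ∃ P, P = 2 ^ j := ⟨_, rfl⟩
  have hP1 : 1 ≤ P := by rw [hPdef]; exact Nat.one_le_two_pow
  obtain ⟨E₁, hE₁⟩ : ∃ E₁, E₁ = 2 * (P * e) := ⟨_, rfl⟩
  have heE : 2 * e ≤ E₁ := by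
    rw [hE₁]
    exact Nat.mul_le_mul_left _ (Nat.le_mul_of_pos_left _ hP1)
  obtain ⟨hah1, hah2⟩ := ah_facts hj hPdef hE₁
  obtain ⟨D', hD'⟩ : ∃ D' : ℕ, D' = 2 * (e * ah (j + 1)) + 2 * (e * ah j) := ⟨_, rfl⟩
  obtain ⟨K₀', hK₀', hK⟩ := two_levels hstep hC₀ hmix (show 1 ≤ j by omega) hc hP e he.ge D'
  obtain ⟨K, hKdef⟩ : ∃ K : ℕ, K = max K₀' (4 * (1040 * E₁)) := ⟨_, rfl⟩
  have hKK₀ : K₀' ≤ K := by rw [hKdef]; exact le_max_left _ _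
  have hKE : 4 * (1040 * E₁) ≤ K := by rw [hKdef]; exact le_max_right _ _
  have hK1 : 1 ≤ K := hK₀'.trans hKK₀
  obtain ⟨Γ, Γ', hΓ, hΓ', ν₀, hν₀⟩ := hK K hKK₀
  clear hK hP hstep hmix
  refine ⟨K, E₁, e, max ν₀ (max (1000 * 8 ^ K) (max ⌈8 * Γ ^ 2⌉₊
    (max ⌈8 * Γ' ^ 2⌉₊ ⌈(2 ^ (2 * K + 10) * C₀) ^ 4⌉₊))), hK1, by omega, by omega, ?_⟩
  intro ν hν
  simp only [max_le_iff] at hν
  obtain ⟨hν1, hν3, hν4, hν5, hν6⟩ := hν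
  have hνΓ : 8 * Γ ^ 2 ≤ (ν : ℝ) := (Nat.le_ceil _).trans (by exact_mod_cast hν4)
  have hνΓ' : 8 * Γ' ^ 2 ≤ (ν : ℝ) := (Nat.le_ceil _).trans (by exact_mod_cast hν5)
  have hνK : (2 ^ (2 * K + 10) * C₀) ^ 4 ≤ (ν : ℝ) :=
    (Nat.le_ceil _).trans (by exact_mod_cast hν6)
  have h8K : 1 ≤ 8 ^ K := Nat.one_le_pow _ _ (by norm_num)
  have h28 : 2 ^ K ≤ 8 ^ K := Nat.pow_le_pow_left (by norm_num) K
  have hνpos : 1 ≤ ν := by omega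
  have hν2K : 2 ^ K ≤ ν := by omega
  have hν3r : (1000 : ℝ) * 8 ^ K ≤ (ν : ℝ) := by exact_mod_cast hν3
  obtain ⟨E, T, X, Y, ρ, ρ', N, R, kT, k, r, η, β, τ, r', η', β', τ', wX, wY, hE, hcl, hlvl, eX,
    eY, hne, hlen, hlenle, hk1, hη0, hηle, hτle, hL', hη'0, hη'le, hτ'le, hNlo, hklo, hkhi, hR'⟩
    := hν₀ ν hν1
  clear hν₀
  have hv : (1 : ℝ) ≤ (ν : ℝ) := by exact_mod_cast hνpos
  obtain ⟨v, hvdef⟩ : ∃ v : ℝ, v = (ν : ℝ) := ⟨_, rfl⟩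
  rw [← hvdef] at hνΓ hνΓ' hνK hν3r hηle hτle hη'le hτ'le hv
  obtain ⟨A, hA⟩ : ∃ A : ℤ, A = ((e * ah j : ℕ) : ℤ) := ⟨_, rfl⟩
  obtain ⟨A', hA'⟩ : ∃ A' : ℤ, A' = ((e * ah (j + 1) : ℕ) : ℤ) := ⟨_, rfl⟩
  have hAE : 144 * (E₁ : ℤ) ≤ A := by rw [hA]; exact_mod_cast hah1
  have hAE' : 289 * (E₁ : ℤ) ≤ A' := by rw [hA']; exact_mod_cast hah2
  have hDA : 2 * A + 2 * A' ≤ (D' : ℤ) := by
    rw [hA, hA', hD']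
    push_cast
    linarith
  have hcE : (c : ℤ) * 8 + 6 ≤ E₁ := by
    have : c * 8 + 6 ≤ E₁ := by omega
    exact_mod_cast this
  have hcpos : (0 : ℤ) ≤ c := Int.natCast_nonneg c
  have hEpos : (0 : ℤ) ≤ E₁ := Int.natCast_nonneg E₁
  have hc4 : ((4 * c + 3 : ℕ) : ℤ) = 4 * (c : ℤ) + 3 := by push_cast; ring
  rw [← hA] at hηle
  rw [← hA', hc4] at hη'le
  clear hah1 hah2 hD' hA hA'
  have ht1 : τ ≤ v ^ (2 * ((c : ℤ) - A)) := hτle.trans (zle hv (by linarith))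
  have ht2 : τ' ≤ v ^ (2 * (4 * (c : ℤ) + 3 - A')) := hτ'le.trans (zle hv (by linarith))
  have n1 := num_conv hv hΓ hνΓ hη0 hηle ht1
  have n2 := num_conv hv hΓ' hνΓ' hη'0 hη'le ht2
  obtain ⟨u1, u2, u3, u4, u5, u6, u7, u8, u9⟩ := numQ hv hcpos hAE hAE' hcE
  obtain ⟨q1, q2, q3, q4⟩ := conv pw hlvl hΓ (zpos hv _).le (zpos hv _).le n1 (u1 Γ hΓ hνΓ)
  obtain ⟨z', hz'0, hz'⟩ : ∃ z' : ℝ, 0 ≤ z' ∧
      Γ' ^ 2 * (v ^ (4 * (c : ℤ) + 3 - A' + 1)) ^ 2 ≤ z' ^ 4 := by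
    refine ⟨max 1 (Γ' ^ 2 * (v ^ (4 * (c : ℤ) + 3 - A' + 1)) ^ 2),
      le_trans zero_le_one (le_max_left _ _), ?_⟩
    have h1 : (1 : ℝ) ≤ max 1 (Γ' ^ 2 * (v ^ (4 * (c : ℤ) + 3 - A' + 1)) ^ 2) := le_max_left _ _
    calc Γ' ^ 2 * (v ^ (4 * (c : ℤ) + 3 - A' + 1)) ^ 2
        ≤ max 1 (Γ' ^ 2 * (v ^ (4 * (c : ℤ) + 3 - A' + 1)) ^ 2) := le_max_right _ _
      _ = (max 1 (Γ' ^ 2 * (v ^ (4 * (c : ℤ) + 3 - A' + 1)) ^ 2)) ^ 1 := (pow_one _).symm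
      _ ≤ (max 1 (Γ' ^ 2 * (v ^ (4 * (c : ℤ) + 3 - A' + 1)) ^ 2)) ^ 4 :=
          pow_le_pow_right₀ h1 (by norm_num)
  obtain ⟨p1, p2, _, _⟩ := conv pw hL' hΓ' (zpos hv _).le hz'0 n2 hz'
  have hΘ : (2 ^ (2 * K + 10) * C₀ / Real.sqrt ν) ^ K ≤ (v ^ (-(260 * (E₁ : ℤ)))) ^ 4 := by
    have h1 : (1 : ℝ) ≤ 2 ^ (2 * K + 10) * C₀ := by
      have : (1 : ℝ) ≤ 2 ^ (2 * K + 10) := one_le_pow₀ (by norm_num)
      nlinarith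
    rw [hvdef] at hνK
    refine (tiny_pow h1 hνK hKE).trans ?_
    rw [u9, hvdef]
    push_cast
    exact le_rfl
  have h2Kr : (2 : ℝ) ^ K ≤ 8 ^ K := pow_le_pow_left₀ (by norm_num) (by norm_num) K
  have h4Kr : (4 : ℝ) ^ K ≤ 8 ^ K := pow_le_pow_left₀ (by norm_num) (by norm_num) K
  have h8Kr : (0 : ℝ) < 8 ^ K := by positivity
  have m1 : (2 : ℝ) ^ (K + 1) ≤ v := by rw [pow_succ]; linarith
  have m2 : (10 : ℝ) * 4 ^ K ≤ v := by linarith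
  have m3 : (4 : ℝ) * 2 ^ K ≤ v := by linarith
  have hinv : ∀ n : ℕ, 1 / (ν : ℝ) ^ n = v ^ (-(n : ℤ)) := by
    intro n
    rw [zpow_neg, zpow_natCast, one_div, hvdef]
  obtain ⟨ρ'', hQ⟩ := hLift C₀ hC₀ X Y k _ _ hlvl.prX hlvl.prY q1 q2 q3 q4 hlvl.mixY hk1
    K ν (ν * k) (2 * (ν * k) + 2 ^ K) (ν * ((2 * (ν * k) + 2 ^ K) * k)) _ _
    (max (v ^ (4 * (c : ℤ) + 3 - A' + 1)) (v ^ (-(260 * (E₁ : ℤ))))) _ _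
    (v ^ (-(260 * (E₁ : ℤ)))) hK1 rfl rfl rfl hν2K
    (u2 _ hν3r) (u3 _ m1) (zpos hv _).le hΘ rfl rfl rfl rfl
    (L2_mono p1 (le_max_left _ _)) (L2_mono p2 (le_max_left _ _)) hL'.mixY
  refine ⟨E, Y, _, _, _, _, ρ'', ν * k, 2 * (ν * k) + 2 ^ K, k,
    ν * ((2 * (ν * k) + 2 ^ K) * k), _, _, _, _, _,
    WW (ν * k) wY wX wY (tm K true), WW (ν * k) wY wX wY (tm K false), hE, hcl, hQ,
    ?_, ?_, WW_ne hlen hne K, ?_, ?_, hk1, le_max_right _ _, ?_, ?_, ?_, ?_, ?_, ?_, ?_, ?_⟩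
  · rw [ev_WW, eX, eY]
  · rw [ev_WW, eX, eY]
  · rw [WW_length hlen rfl, WW_length hlen rfl, tm_length, tm_length]
  · rw [WW_length hlen rfl, tm_length]
    calc (2 * (ν * k) + 2 ^ K) * wY.length
        ≤ ν ^ (c + 2 + 32 * (2 ^ j * e)) * ν ^ (c + 32 * e * (2 ^ j - 1)) :=
          Nat.mul_le_mul hR' hlenle
      _ = ν ^ (c + 2 + 32 * (2 ^ j * e) + (c + 32 * e * (2 ^ j - 1))) := by rw [← pow_add]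
      _ ≤ _ := by
          apply Nat.pow_le_pow_right hνpos
          rw [← hPdef]
          have h1 : 32 * e * (P - 1) ≤ 32 * (P * e) := by
            calc 32 * e * (P - 1) ≤ 32 * e * P := Nat.mul_le_mul_left _ (by omega)
              _ = 32 * (P * e) := by ring
          omega
  · rwa [← hPdef, ← hE₁] at hNlo
  · rwa [← hPdef, ← hE₁] at hklo
  · refine hkhi.trans (Nat.pow_le_pow_right hνpos ?_)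
    rw [← hPdef, ← hE₁]
    omega
  · rw [hinv]
    refine (u4 _ m2).trans (le_of_eq ?_)
    push_cast
    rfl
  · rw [hinv]
    refine (u5 _ m3).trans (le_of_eq ?_)
    push_cast
    rfl
  · rw [hinv]
    apply max_le
    · refine u6.trans (le_of_eq ?_)
      push_cast
      rfl
    · refine u7.trans (le_of_eq ?_)
      push_cast
      rfl
  · rw [hinv]
    apply le_of_eq
    push_cast
    rfl
  · rw [hinv]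
    refine (u8 _ m1).trans (le_of_eq ?_)
    push_cast
    rfl

end

end Vale.P321S.SQ

namespace Vale.P321S

open LV

theorem stStartQ (pw : LibPW) (hLift : StLiftQ) (hstep : StStep) (hL1 : StLevel1)
    (hcells : StCells) (hover : StOverlap) (hOV : StOV) : StStartQ := by
  intro q h0 h1
  obtain ⟨Γ₀, c₀, m₀, hΓ₀, hc₀, hcl⟩ := hcells q h0 h1
  obtain ⟨s, Cn, m₁, hs, hs1, hCn, hov⟩ := hover q h0 h1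
  obtain ⟨Ca, hCa2, hCa⟩ := hOV (s / 2) (by linarith) (by linarith)
  obtain ⟨Cb, hCb2, hCb⟩ := hOV (1 / 2) (by norm_num) (by norm_num)
  have hmixa : ∀ (T : Alg) (k : ℕ), Pr T → 1 ≤ k →
      l1 (T ^ k - T ^ (k + 1)) ≤ 2 * (1 - s / 2) → Mix T k (max Ca Cb) := fun T k hT hk h =>
    Mix_mono (by linarith) (hCa T k hT hk h) le_rfl (le_max_left _ _)
  have hmix : ∀ (T : Alg) (k : ℕ), Pr T → 1 ≤ k →
      l1 (T ^ k - T ^ (k + 1)) ≤ 1 → Mix T k (max Ca Cb) := fun T k hT hk h =>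
    Mix_mono (by linarith) (hCb T k hT hk (by linarith)) le_rfl (le_max_right _ _)
  have hC₀ : 2 ≤ max Ca Cb := hCa2.trans (le_max_left _ _)
  have hall : ∀ j, 1 ≤ j → ∃ c, 1 ≤ c ∧ PJ q Γ₀ c₀ (max Ca Cb) j c := by
    intro j hj
    induction j, hj using Nat.le_induction with
    | base => exact ⟨11, by norm_num, PJ_base hL1 h0 h1 hΓ₀ hc₀ hcl hs hCn hov hmixa hC₀ hmix⟩
    | succ j hj ih =>
      obtain ⟨c, hc, hP⟩ := ih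
      exact ⟨4 * c + 3, by omega, PJ_step hstep hC₀ hmix hj hc hP⟩
  obtain ⟨c, hc, hP⟩ := hall 256 (by norm_num)
  obtain ⟨K₀, E₁, e, s₀, g1, g2, g3, g4⟩ :=
    SQ.start_final pw hLift hstep hC₀ hmix (j := 256) (by norm_num) hc hP
  exact ⟨max Ca Cb, Γ₀, c₀, K₀, E₁, e, s₀, hC₀, hmix, hΓ₀, hc₀, g1, g2, g3, g4⟩

end Vale.P321S
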