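import Vale.Agent.P321S.DefsQ

/-! # P321Q: from one level to the next (module STEPQ) -/

namespace Vale.P321S

open scoped BigOperators

theorem stepQ_sub (S A B : Alg) : S * A * S - S * B * S = S * (A - B) * S := by
  rw [mul_sub, sub_mul]

/-- the decomposition of the new cell relative to the old sea -/
theorem stepQ_dec (hB : StBlockQ) {X Y : Alg} {K N' R' : ℕ} {η ζ β' : ℝ} (prX : Pr X) (prY : Pr Y)
    (hX : L2 (X - Y) X η) (hY : L2 (X - Y) Y η) (hζX : NP 4 (X - Y) X ζ) (hζY : NP 4 (X - Y) Y ζ)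
    (h1 : 1000 * 8 ^ K * η ≤ 1) (h2 : 2 ^ (K + 1) * ζ ≤ 1) (hR' : R' = 2 * N' + 2 ^ K)
    (hβ' : β' = 4 * 2 ^ K * η) :
    Dec (Y ^ N' * val (tm K false) X Y * Y ^ N' - Y ^ R') (Y ^ R') β' 0 := by
  have hη0 : 0 ≤ η := hX.1
  have hn1 : 1 ≤ 2 ^ K := Nat.one_le_two_pow
  have e1 : 1000 * (((2 ^ K : ℕ) : ℝ)) ^ 3 * η ≤ 1 := by
    have e : (((2 ^ K : ℕ) : ℝ)) ^ 3 = 8 ^ K := by
      push_cast
      rw [← pow_mul, mul_comm K 3, pow_mul]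
      norm_num
    rw [e]; exact h1
  have e2 : 2 * (((2 ^ K : ℕ) : ℝ)) * ζ ≤ 1 := by
    have e : 2 * (((2 ^ K : ℕ) : ℝ)) = 2 ^ (K + 1) := by
      push_cast
      rw [pow_succ]; ring
    rw [e]; exact h2
  have hb := (hB X Y (2 ^ K) η ζ prX prY hX hY hζX hζY hn1 e1 e2 (tm K false)
    (List.replicate (2 ^ K) false) (tm_length K false) (List.length_replicate)).2.1
  rw [val_replicate_false] at hb
  have hYRsplit : Y ^ R' = Y ^ N' * Y ^ (2 ^ K) * Y ^ N' := by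
    rw [hR', ← pow_add, ← pow_add]
    congr 1
    ring
  have hself : L2 (Y ^ N') (Y ^ N') 1 := L2_self (Pr_pow prY N')
  have hc := L2_mul (Nn_mul (Nn_pow prY.1 N') (Nn_pow prY.1 (2 ^ K))) (Nn_pow prY.1 N')
    (L2_mul (Nn_pow prY.1 N') (Nn_pow prY.1 (2 ^ K)) hself hb) hself
  refine ⟨Y ^ N' * val (tm K false) X Y * Y ^ N' - Y ^ R', 0, by rw [add_zero], ?_, ?_, ?_⟩
  · rw [mass_sub, (Pr_mul (Pr_mul (Pr_pow prY N') (Pr_val prX prY (tm K false)))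
      (Pr_pow prY N')).2, (Pr_pow prY R').2, sub_self]
  · rw [hYRsplit, stepQ_sub]
    refine L2_mono hc ?_
    rw [hβ', one_mul, mul_one]
    push_cast
    have h3 : 0 ≤ (2 : ℝ) ^ K * η := by positivity
    nlinarith
  · rw [l1_zero]

theorem stStepQ (_pw : LibPW) (hG : StGainQ) (hL : StLiftQ) (hB : StBlockQ) (hMS : StMixStep) :
    StStepQ := by
  intro C₀ hC₀ hOV T X Y U V ρ L N R kT k r β η lam ζ hLvl hkT hL1 hr hlam K w ν N' R' k' r' β'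
    η' lam' ζ' Θ hK hw hwN hN' hR' hk' h2ν hCν hNβ hη hζ hΘ hpow hr' hβ' hlam' hζ' hη' hkβ
  have prX : Pr X := by
    rw [hLvl.Xdef]
    exact Pr_mul (Pr_mul (Pr_pow hLvl.prT N) hLvl.prU) (Pr_pow hLvl.prT N)
  have prY : Pr Y := by
    rw [hLvl.Ydef]
    exact Pr_mul (Pr_mul (Pr_pow hLvl.prT N) hLvl.prV) (Pr_pow hLvl.prT N)
  have hR1 : 1 ≤ R := by rw [hLvl.Req]; omega
  have hk1 : 1 ≤ k := by
    calc 1 = 1 * 1 := rfl
      _ ≤ R * kT := Nat.mul_le_mul hR1 hkT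
      _ ≤ k := hLvl.kbig
  have hν1 : 1 ≤ ν := (Nat.one_le_two_pow).trans h2ν
  have hR'1 : 1 ≤ R' := by
    have : 1 ≤ 2 ^ K := Nat.one_le_two_pow
    rw [hR']; omega
  have hk'1 : 1 ≤ k' := by
    rw [hk']
    calc 1 = 1 * (1 * 1) := rfl
      _ ≤ ν * (R' * k) := Nat.mul_le_mul hν1 (Nat.mul_le_mul hR'1 hk1)
  have hgain : ∀ u : List Bool, u.length = 2 ^ K →
      L2 (Y ^ N' * val (tm K true) X Y * Y ^ N' - Y ^ N' * val (tm K false) X Y * Y ^ N')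
        (Y ^ N' * val u X Y * Y ^ N') η' := by
    intro u hu
    have h := (hG T X Y U V ρ L N R kT k C₀ r β η lam ζ hLvl hC₀ hkT hL1 hr hlam K w ν N' Θ hK hw
      hwN hN' h2ν hNβ hη hζ hΘ hpow u hu).2
    rw [stepQ_sub, hη']
    exact h
  refine hL C₀ hC₀ X Y k η ζ prX prY hLvl.ΔX hLvl.ΔY hLvl.ζX hLvl.ζY hLvl.mixY hk1 K ν N' R' k'
    r' β' η' lam' ζ' Θ hK hN' hR' hk' h2ν hη hζ hΘ hpow hr' hβ' hlam' hζ' (hgain _ (tm_length K true))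
    (hgain _ (tm_length K false)) ?_
  have prY' : Pr (Y ^ N' * val (tm K false) X Y * Y ^ N') :=
    Pr_mul (Pr_mul (Pr_pow prY N') (Pr_val prX prY _)) (Pr_pow prY N')
  refine hOV _ k' prY' hk'1 ?_
  refine hMS Y _ R' k k' C₀ β' 0 prY prY' hC₀ hR'1 hk1 (le_refl 0) hLvl.mixY
    (stepQ_dec hB prX prY hLvl.ΔX hLvl.ΔY hLvl.ζX hLvl.ζY hη hζ hR' hβ') ?_ hkβ ?_
  · rw [hk']
    push_cast
    have h1 : 0 ≤ (R' : ℝ) * k := by positivity
    exact mul_le_mul_of_nonneg_right hCν h1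
  · rw [mul_zero]; norm_num

end Vale.P321S
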