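import Vale.Agent.P321S.DefsQ
import Vale.Agent.P321S.TV

/-! # P321Q: module TVQ (pairs of bit strings with very close trace laws) -/

namespace Vale.P321S

open scoped BigOperators

noncomputable section

namespace TVQmod

/-- elementary: `2 + K s ≤ s²` for `s ≥ K + 2` -/
theorem quad {K s : ℝ} (hK : 0 ≤ K) (hs : K + 2 ≤ s) : 2 + K * s ≤ s ^ 2 := by
  nlinarith

theorem two_pow_le_exp (J : ℕ) : (2 : ℝ) ^ J ≤ Real.exp J := by
  have h1 : (2 : ℝ) ≤ Real.exp 1 := by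
    have := Real.add_one_le_exp (1 : ℝ)
    linarith
  have h2 : Real.exp (J : ℝ) = Real.exp 1 ^ J := by
    rw [← Real.exp_nat_mul, mul_one]
  rw [h2]
  exact pow_le_pow_left₀ (by norm_num) h1 J

theorem cube_le_exp (J : ℕ) : (J : ℝ) ^ 3 ≤ 6 * Real.exp J := by
  have h := Real.pow_div_factorial_le_exp (J : ℝ) (Nat.cast_nonneg J) 3
  have h3 : ((3 : ℕ).factorial : ℝ) = 6 := by norm_num [Nat.factorial]
  rw [h3, div_le_iff₀ (by norm_num)] at h
  linarith

/-- the exponent of the length is at most a constant times the square root of `log n` -/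
theorem expo_bound (B E₁ J : ℕ) (hJ : 1 ≤ J) {x : ℝ} (hx : 0 < x) (hJx : (J : ℝ) ≤ Real.log x / 4) :
    ((148 * (2 ^ J * (J * E₁)) * (B * J ^ 2 + 10) : ℕ) : ℝ) ≤
      ((888 * (E₁ * (B + 10)) : ℕ) : ℝ) * Real.sqrt x := by
  have hJ1 : (1 : ℝ) ≤ J := by exact_mod_cast hJ
  have h1 := two_pow_le_exp J
  have h2 := cube_le_exp J
  have hE : (0 : ℝ) ≤ E₁ := Nat.cast_nonneg _
  have hB : (0 : ℝ) ≤ B := Nat.cast_nonneg _
  -- the square root
  have h3 : Real.exp J * Real.exp J ≤ Real.sqrt x := by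
    apply Real.le_sqrt_of_sq_le
    rw [← Real.exp_add, ← Real.exp_nat_mul, ← Real.le_log_iff_exp_le hx]
    push_cast
    linarith
  have h4 : (2 : ℝ) ^ J * (J : ℝ) ^ 3 ≤ 6 * Real.sqrt x := by
    calc (2 : ℝ) ^ J * (J : ℝ) ^ 3 ≤ Real.exp J * (6 * Real.exp J) :=
          mul_le_mul h1 h2 (by positivity) (by positivity)
      _ = 6 * (Real.exp J * Real.exp J) := by ring
      _ ≤ 6 * Real.sqrt x := by linarith
  have h5 : (J : ℝ) * ((B : ℝ) * (J : ℝ) ^ 2 + 10) ≤ ((B : ℝ) + 10) * (J : ℝ) ^ 3 := by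
    have h6 : (J : ℝ) ≤ (J : ℝ) ^ 3 := by nlinarith [mul_nonneg (sub_nonneg.mpr hJ1) (sub_nonneg.mpr hJ1), sq_nonneg ((J : ℝ) - 1)]
    nlinarith
  push_cast
  calc (148 : ℝ) * (2 ^ J * (J * E₁)) * (B * J ^ 2 + 10)
      = 148 * E₁ * 2 ^ J * ((J : ℝ) * ((B : ℝ) * (J : ℝ) ^ 2 + 10)) := by ring
    _ ≤ 148 * E₁ * 2 ^ J * (((B : ℝ) + 10) * (J : ℝ) ^ 3) :=
        mul_le_mul_of_nonneg_left h5 (by positivity)
    _ = 148 * E₁ * ((B : ℝ) + 10) * ((2 : ℝ) ^ J * (J : ℝ) ^ 3) := by ring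
    _ ≤ 148 * E₁ * ((B : ℝ) + 10) * (6 * Real.sqrt x) :=
        mul_le_mul_of_nonneg_left h4 (by positivity)
    _ = 888 * (E₁ * (B + 10)) * Real.sqrt x := by ring

theorem exp_four : Real.exp 4 ≤ 81 := by
  have h := Real.exp_one_lt_d9
  have h2 : Real.exp 4 = Real.exp 1 ^ 4 := by
    rw [← Real.exp_nat_mul]
    norm_num
  rw [h2]
  calc Real.exp 1 ^ 4 ≤ 3 ^ 4 := pow_le_pow_left₀ (Real.exp_pos 1).le (by linarith) 4
    _ = 81 := by norm_num

/-- choice of the parameters -/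
theorem choice (B E₁ : ℕ) (hE : 1 ≤ E₁) : ∃ n₀ : ℕ, ∀ n : ℕ, n₀ ≤ n → ∃ J v : ℕ, 1 ≤ J ∧
    Real.log (Real.log n) / 4 - 1 ≤ J ∧ 1024 ≤ v ∧ 2 ^ (B * J ^ 2) ≤ v ∧
    5 * v ^ (148 * (2 ^ J * (J * E₁))) ≤ n ∧ n < 5 * (v + 1) ^ (148 * (2 ^ J * (J * E₁))) ∧
    81 ≤ Real.log n := by
  obtain ⟨K₁, hK₁⟩ : ∃ K₁ : ℕ, K₁ = 888 * (E₁ * (B + 10)) := ⟨_, rfl⟩
  refine ⟨⌈Real.exp (((K₁ : ℝ) + 2) ^ 2 + 81)⌉₊, ?_⟩
  intro n hn
  have hn1 : Real.exp (((K₁ : ℝ) + 2) ^ 2 + 81) ≤ n := Nat.ceil_le.mp hn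
  have hnpos : (0 : ℝ) < n := lt_of_lt_of_le (Real.exp_pos _) hn1
  obtain ⟨x, hx⟩ : ∃ x : ℝ, x = Real.log n := ⟨_, rfl⟩
  have hxl : ((K₁ : ℝ) + 2) ^ 2 + 81 ≤ x := by
    rw [hx]
    exact (Real.le_log_iff_exp_le hnpos).mpr hn1
  have hx81 : (81 : ℝ) ≤ x := by nlinarith [sq_nonneg ((K₁ : ℝ) + 2)]
  have hxpos : 0 < x := by linarith
  have hlx : 4 ≤ Real.log x := by
    rw [Real.le_log_iff_exp_le hxpos]
    exact exp_four.trans hx81
  obtain ⟨J, hJ⟩ : ∃ J : ℕ, J = ⌊Real.log x / 4⌋₊ := ⟨_, rfl⟩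
  have hJ1 : 1 ≤ J := by
    rw [hJ]
    apply Nat.le_floor
    push_cast
    linarith
  have hJle : (J : ℝ) ≤ Real.log x / 4 := by
    rw [hJ]
    exact Nat.floor_le (by linarith)
  have hJge : Real.log x / 4 - 1 ≤ J := by
    have := Nat.lt_floor_add_one (Real.log x / 4)
    rw [← hJ] at this
    linarith
  have hb := expo_bound B E₁ J hJ1 hxpos hJle
  rw [← hK₁] at hb
  obtain ⟨E, hEdef⟩ : ∃ E : ℕ, E = 148 * (2 ^ J * (J * E₁)) := ⟨_, rfl⟩
  rw [← hEdef] at hb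
  have hE1 : 1 ≤ E := by
    rw [hEdef]
    have h1 : 1 ≤ 2 ^ J := Nat.one_le_two_pow
    have h2 : 1 ≤ J * E₁ := Nat.one_le_iff_ne_zero.mpr (by positivity)
    have h3 : 1 ≤ 2 ^ J * (J * E₁) := Nat.one_le_iff_ne_zero.mpr (by positivity)
    omega
  obtain ⟨N0, hN0⟩ : ∃ N0 : ℕ, N0 = 2 ^ (B * J ^ 2 + 10) := ⟨_, rfl⟩
  have hsq : 2 + (K₁ : ℝ) * Real.sqrt x ≤ x := by
    have h1 : (K₁ : ℝ) + 2 ≤ Real.sqrt x := by
      apply Real.le_sqrt_of_sq_le
      linarith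
    have h2 := quad (Nat.cast_nonneg K₁) h1
    rwa [Real.sq_sqrt hxpos.le] at h2
  -- the smallest value is admissible
  have hstart : 5 * N0 ^ E ≤ n := by
    have h1 : (5 : ℝ) * (N0 : ℝ) ^ E ≤ n := by
      rw [← Real.log_le_log_iff (by rw [hN0]; positivity) hnpos, ← hx, hN0]
      push_cast
      rw [Real.log_mul (by norm_num) (by positivity), ← pow_mul, Real.log_pow]
      have h5 : Real.log 5 ≤ 2 := by
        rw [Real.log_le_iff_le_exp (by norm_num)]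
        have := Real.exp_one_gt_d9
        have h2 : Real.exp 2 = Real.exp 1 ^ 2 := by
          rw [← Real.exp_nat_mul]
          norm_num
        rw [h2]
        nlinarith
      have h2 : Real.log 2 ≤ 1 := by
        have := Real.log_two_lt_d9
        linarith
      have h3 : (((B * J ^ 2 + 10) * E : ℕ) : ℝ) * Real.log 2 ≤ (((B * J ^ 2 + 10) * E : ℕ) : ℝ) :=
        mul_le_of_le_one_right (Nat.cast_nonneg _) h2
      have h4 : (((B * J ^ 2 + 10) * E : ℕ) : ℝ) = ((E * (B * J ^ 2 + 10) : ℕ) : ℝ) := by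
        rw [mul_comm]
      rw [h4] at h3
      rw [mul_comm E] at h3 hb
      linarith
    exact_mod_cast h1
  have hN0a : 1024 ≤ N0 := by
    rw [hN0, pow_add]
    have : 1 ≤ 2 ^ (B * J ^ 2) := Nat.one_le_two_pow
    omega
  have hN0b : 2 ^ (B * J ^ 2) ≤ N0 := by
    rw [hN0]
    exact Nat.pow_le_pow_right (by norm_num) (by omega)
  -- the largest admissible value
  set P : ℕ → Prop := fun v => 5 * v ^ E ≤ n with hP
  have hN0n : N0 ≤ n := by
    have h1 : N0 ≤ N0 ^ E := Nat.le_self_pow (by omega) _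
    omega
  have hspec : P (Nat.findGreatest P n) := Nat.findGreatest_spec hN0n hstart
  have hle : N0 ≤ Nat.findGreatest P n := Nat.le_findGreatest hN0n hstart
  refine ⟨J, Nat.findGreatest P n, hJ1, ?_, hN0a.trans hle, hN0b.trans hle, ?_, ?_, ?_⟩
  · rw [← hx]
    exact hJge
  · rw [← hEdef]
    exact hspec
  · rw [← hEdef]
    by_contra hcon
    push Not at hcon
    have hb2 : Nat.findGreatest P n + 1 ≤ n := by
      have h1 : Nat.findGreatest P n + 1 ≤ (Nat.findGreatest P n + 1) ^ E :=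
        Nat.le_self_pow (by omega) _
      omega
    have := Nat.le_findGreatest (P := P) hb2 hcon
    omega
  · rw [← hx]
    exact hx81

/-- the logarithm of the length -/
theorem log_len {n v M : ℕ} (hM : 1 ≤ M) (hv : 1024 ≤ v) (hn0 : 1 ≤ n)
    (hn : n < 5 * (v + 1) ^ (148 * M)) : Real.log n ≤ 149 * (M * Real.log v) := by
  have hv0 : (1024 : ℝ) ≤ v := by exact_mod_cast hv
  have hM0 : (1 : ℝ) ≤ M := by exact_mod_cast hM
  have hvpos : (0 : ℝ) < v := by linarith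
  have hnpos : (0 : ℝ) < n := by exact_mod_cast hn0
  have h1 : (n : ℝ) ≤ 5 * ((v : ℝ) + 1) ^ (148 * M) := by exact_mod_cast hn.le
  have h2 : Real.log n ≤ Real.log 5 + ((148 * M : ℕ) : ℝ) * Real.log ((v : ℝ) + 1) := by
    have h3 := Real.log_le_log hnpos h1
    rwa [Real.log_mul (by norm_num) (by positivity), Real.log_pow] at h3
  have h5 : Real.log 5 ≤ 4 := by
    have := Real.log_le_sub_one_of_pos (show (0 : ℝ) < 5 by norm_num)
    linarith
  have h6 : Real.log ((v : ℝ) + 1) ≤ Real.log v + 1 / 1024 := by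
    have e : (v : ℝ) + 1 = v * (1 + 1 / v) := by field_simp
    rw [e, Real.log_mul hvpos.ne' (by positivity)]
    have h7 := Real.log_le_sub_one_of_pos (show (0 : ℝ) < 1 + 1 / v by positivity)
    have h8 : (1 : ℝ) / v ≤ 1 / 1024 := one_div_le_one_div_of_le (by norm_num) hv0
    linarith
  have h9 : (6 : ℝ) ≤ Real.log v := by
    have h10 : Real.log 1024 ≤ Real.log v := Real.log_le_log (by norm_num) hv0
    have h11 : Real.log 1024 = 10 * Real.log 2 := by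
      have : (1024 : ℝ) = 2 ^ 10 := by norm_num
      rw [this, Real.log_pow]
      norm_num
    have := Real.log_two_gt_d9
    linarith
  have h12 : ((148 * M : ℕ) : ℝ) * Real.log ((v : ℝ) + 1) ≤
      148 * M * (Real.log v + 1 / 1024) := by
    push_cast
    exact mul_le_mul_of_nonneg_left h6 (by positivity)
  have h13 : (M : ℝ) * 6 ≤ M * Real.log v := mul_le_mul_of_nonneg_left h9 (by linarith)
  linarith

/-- the final estimate -/
theorem final_num {n v J M E : ℕ} (hM : 1 ≤ M) (hv : 1024 ≤ v)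
    (hn : n < 5 * (v + 1) ^ (148 * M)) (hx : 81 ≤ Real.log n)
    (hJ : Real.log (Real.log n) / 4 - 1 ≤ J) (hE : E = (256 + J) * M) :
    2 / (v : ℝ) ^ E ≤ (n : ℝ) ^ (-(Real.log (Real.log n) / 800)) := by
  have hn0 : 1 ≤ n := by
    by_contra h
    have : n = 0 := by omega
    rw [this] at hx
    norm_num at hx
  have hnpos : (0 : ℝ) < n := by exact_mod_cast hn0
  have hvpos : (0 : ℝ) < v := by
    have : 0 < v := by omega
    exact_mod_cast this
  have hlen := log_len hM hv hn0 hn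
  rw [← Real.log_le_log_iff (by positivity) (by positivity), Real.log_rpow hnpos,
    Real.log_div (by norm_num) (by positivity), Real.log_pow, hE]
  obtain ⟨x, hxd⟩ : ∃ x : ℝ, x = Real.log n := ⟨_, rfl⟩
  rw [← hxd] at hx hJ hlen ⊢
  obtain ⟨y, hy⟩ : ∃ y : ℝ, y = M * Real.log v := ⟨_, rfl⟩
  rw [← hy] at hlen
  push_cast
  have e : (256 + (J : ℝ)) * M * Real.log v = (256 + J) * y := by rw [hy]; ring
  rw [e]
  have hL : 0 ≤ Real.log x := Real.log_nonneg (by linarith)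
  obtain ⟨L, hLd⟩ : ∃ L : ℝ, L = Real.log x := ⟨_, rfl⟩
  rw [← hLd] at hJ hL ⊢
  have h2 : Real.log 2 ≤ 1 := by
    have := Real.log_two_lt_d9
    linarith
  have hypos : x / 149 ≤ y := by linarith
  have h3 : (255 + L / 4) * (x / 149) ≤ (256 + (J : ℝ)) * y := by
    apply mul_le_mul (by linarith) hypos (by positivity)
    have : (0 : ℝ) ≤ J := Nat.cast_nonneg _
    linarith
  have h4 : 0 ≤ L * x := mul_nonneg hL (by linarith)
  nlinarith

end TVQmod

open TVmod TVQmod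

theorem stTVQ (hL : StLevelsQ) : StTVQ := by
  intro q hq0 hq1
  obtain ⟨B, E₁, e, he1, heE, hJ⟩ := hL q hq0 hq1
  obtain ⟨n₀, hn₀⟩ := choice B E₁ (he1.trans heE)
  refine ⟨n₀, ?_⟩
  intro n hn
  obtain ⟨J, v, hJ1, hJL, hv, hBv, hle, hlt, hx⟩ := hn₀ n hn
  obtain ⟨wX, wY, hne, hlen, hlenle, hclose⟩ := hJ J v hJ1 hBv
  obtain ⟨m, hm⟩ : ∃ m : ℕ, m = v ^ (32 * e * J) := ⟨_, rfl⟩
  rw [← hm] at hclose
  have hv1 : 1 ≤ v := by omega
  have hm1 : 1 ≤ m := by rw [hm]; exact Nat.one_le_pow _ _ hv1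
  obtain ⟨M, hM⟩ : ∃ M : ℕ, M = 2 ^ J * (J * E₁) := ⟨_, rfl⟩
  have hE1 : 1 ≤ E₁ := he1.trans heE
  have h2J : 2 ≤ 2 ^ J := by
    calc 2 = 2 ^ 1 := rfl
      _ ≤ 2 ^ J := Nat.pow_le_pow_right (by norm_num) hJ1
  have hM1 : 1 ≤ M := by
    rw [hM]
    exact Nat.one_le_iff_ne_zero.mpr (by positivity)
  rw [← hM] at hle hlt
  have hbits : (4 * m + 1) * wX.length ≤ n := by
    have h1 : (4 * m + 1) * wX.length ≤ (5 * m) * v ^ (2 ^ J * (132 * (J * E₁))) :=
      Nat.mul_le_mul (by omega) hlenle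
    have h2 : (5 * m) * v ^ (2 ^ J * (132 * (J * E₁))) =
        5 * v ^ (32 * e * J + 2 ^ J * (132 * (J * E₁))) := by
      rw [hm, mul_assoc, ← pow_add]
    have h3 : 32 * e * J + 2 ^ J * (132 * (J * E₁)) ≤ 148 * M := by
      have h4 : e * J ≤ J * E₁ := by rw [mul_comm]; exact Nat.mul_le_mul_left J heE
      have h5 : 2 * (J * E₁) ≤ M := by rw [hM]; exact Nat.mul_le_mul_right _ h2J
      have h6 : 2 ^ J * (132 * (J * E₁)) = 132 * M := by rw [hM]; ring
      have h7 : 32 * e * J = 32 * (e * J) := by ring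
      rw [h6, h7]
      omega
    have h4 : 5 * v ^ (32 * e * J + 2 ^ J * (132 * (J * E₁))) ≤ 5 * v ^ (148 * M) :=
      Nat.mul_le_mul_left 5 (Nat.pow_le_pow_right hv1 h3)
    omega
  have hlx : (bits m wX).length ≤ n := by rw [bits_length hm1]; exact hbits
  have hlxy : (bits m wX).length = (bits m wY).length := by
    rw [bits_length hm1, bits_length hm1, hlen]
  set pad : List Bool := List.replicate (n - (bits m wX).length) false with hpad
  refine ⟨bits m wX ++ pad, bits m wY ++ pad, ?_, ?_, ?_, ?_⟩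
  · rw [List.length_append, hpad, List.length_replicate]; omega
  · rw [List.length_append, hpad, List.length_replicate]; omega
  · intro h
    exact hne (bits_inj hm1 hlen (List.append_cancel_right h))
  · rw [tr_append, tr_append, ← sub_mul]
    refine (l1_mul_pr (Pr_tr hq0.le hq1.le pad)).trans ?_
    rw [tr_bits, tr_bits, ← map_sub]
    refine (l1_Ph hq0.le hq1.le _).trans (hclose.trans ?_)
    refine final_num hM1 hv hlt hx hJL ?_
    rw [hM]
    ring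

end

end Vale.P321S
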