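import Vale.Agent.P321S.DefsQ
import Vale.Agent.P321S.DD

/-! # P321Q module WEI -/

namespace Vale.P321S.WE

open Vale.P321S
open scoped BigOperators

noncomputable section

/-- coefficients of `(1 - A)^K`, `A = (1/w) ∑_{i=1}^w z^i` -/
def rr (w : ℕ) : ℕ → ℕ → ℝ
  | 0, a => if a = 0 then 1 else 0
  | K + 1, a => rr w K a - (1 / (w : ℝ)) * ∑ i ∈ Finset.Icc 1 w,
      (if i ≤ a then rr w K (a - i) else 0)

theorem rr_supp (w K : ℕ) : ∀ a, K * w < a → rr w K a = 0 := by
  induction K with
  | zero =>
    intro a ha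
    have : a ≠ 0 := by omega
    simp [rr, this]
  | succ K ih =>
    intro a ha
    have e : (K + 1) * w = K * w + w := by ring
    rw [e] at ha
    rw [rr, ih a (by omega), Finset.sum_eq_zero]
    · ring
    · intro i hi
      obtain ⟨_, hi2⟩ := Finset.mem_Icc.1 hi
      split_ifs
      · exact ih _ (by omega)
      · rfl

theorem rr_zero (w K : ℕ) : rr w K 0 = 1 := by
  induction K with
  | zero => simp [rr]
  | succ K ih =>
    rw [rr, ih, Finset.sum_eq_zero]
    · ring
    · intro i hi
      obtain ⟨hi1, _⟩ := Finset.mem_Icc.1 hi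
      rw [if_neg (by omega)]

theorem shift_sum {A : Type*} [AddCommMonoid A] (n i M : ℕ) (h : ℕ → A) (hM : n + 1 + i ≤ M)
    (hz : ∀ b, n < b → h b = 0) (g : ℕ → A) (hg : ∀ a, i ≤ a → g a = h (a - i))
    (hg' : ∀ a, a < i → g a = 0) :
    ∑ a ∈ Finset.range M, g a = ∑ b ∈ Finset.range (n + 1), h b := by
  have e1 : ∑ a ∈ Finset.range M, g a
      = ∑ a ∈ Finset.Ico 0 i, g a + ∑ a ∈ Finset.Ico i M, g a := by
    rw [Finset.range_eq_Ico]
    exact (Finset.sum_Ico_consecutive g (Nat.zero_le i) (by omega)).symm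
  have e2 : ∑ a ∈ Finset.Ico 0 i, g a = 0 :=
    Finset.sum_eq_zero (fun a ha => hg' a (Finset.mem_Ico.1 ha).2)
  rw [e1, e2, zero_add, Finset.sum_Ico_eq_sum_range]
  have e3 : ∑ b ∈ Finset.range (M - i), g (i + b) = ∑ b ∈ Finset.range (M - i), h b := by
    apply Finset.sum_congr rfl
    intro b _
    rw [hg _ (by omega), Nat.add_sub_cancel_left]
  rw [e3]
  symm
  apply Finset.sum_subset
  · intro b hb
    rw [Finset.mem_range] at hb ⊢
    omega
  · intro b _ hb
    rw [Finset.mem_range, not_lt] at hb
    exact hz b (by omega)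

theorem rr_l1 (w K : ℕ) (hw : 1 ≤ w) :
    ∑ a ∈ Finset.range (K * w + 1), |rr w K a| ≤ 2 ^ K := by
  have hw0 : (0 : ℝ) < w := by exact_mod_cast hw
  induction K with
  | zero => simp [rr]
  | succ K ih =>
    have b1 : ∑ a ∈ Finset.range ((K + 1) * w + 1), |rr w (K + 1) a|
        ≤ ∑ a ∈ Finset.range ((K + 1) * w + 1), |rr w K a|
          + (1 / (w : ℝ)) * ∑ i ∈ Finset.Icc 1 w, ∑ a ∈ Finset.range ((K + 1) * w + 1),
            (if i ≤ a then |rr w K (a - i)| else 0) := by
      rw [Finset.sum_comm, Finset.mul_sum, ← Finset.sum_add_distrib]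
      apply Finset.sum_le_sum
      intro a _
      rw [rr]
      refine (abs_sub _ _).trans ?_
      rw [abs_mul, abs_of_pos (show 0 < 1 / (w : ℝ) by positivity)]
      refine add_le_add le_rfl (mul_le_mul_of_nonneg_left ?_ (by positivity))
      refine (Finset.abs_sum_le_sum_abs _ _).trans (Finset.sum_le_sum ?_)
      intro i _
      split_ifs
      · exact le_rfl
      · simp
    have c1 : ∑ a ∈ Finset.range ((K + 1) * w + 1), |rr w K a| ≤ 2 ^ K := by
      have key := shift_sum (K * w) 0 ((K + 1) * w + 1) (fun b => |rr w K b|)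
        (by have : (K + 1) * w = K * w + w := by ring
            omega)
        (fun b hb => by rw [rr_supp w K b hb, abs_zero]) (fun b => |rr w K b|) (fun a _ => rfl)
        (fun a ha => absurd ha (by omega))
      rw [key]
      exact ih
    have c2 : ∀ i ∈ Finset.Icc 1 w, ∑ a ∈ Finset.range ((K + 1) * w + 1),
        (if i ≤ a then |rr w K (a - i)| else 0) ≤ 2 ^ K := by
      intro i hi
      obtain ⟨_, hi2⟩ := Finset.mem_Icc.1 hi
      have key := shift_sum (K * w) i ((K + 1) * w + 1) (fun b => |rr w K b|)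
        (by have : (K + 1) * w = K * w + w := by ring
            omega)
        (fun b hb => by rw [rr_supp w K b hb, abs_zero])
        (fun a => if i ≤ a then |rr w K (a - i)| else 0)
        (fun a ha => by simp only [if_pos ha]) (fun a ha => by
          have : ¬ i ≤ a := by omega
          simp only [if_neg this])
      rw [key]
      exact ih
    have c3 : (1 / (w : ℝ)) * ∑ i ∈ Finset.Icc 1 w, ∑ a ∈ Finset.range ((K + 1) * w + 1),
            (if i ≤ a then |rr w K (a - i)| else 0) ≤ 2 ^ K := by
      calc _ ≤ (1 / (w : ℝ)) * ∑ i ∈ Finset.Icc 1 w, (2 : ℝ) ^ K :=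
            mul_le_mul_of_nonneg_left (Finset.sum_le_sum c2) (by positivity)
        _ = 2 ^ K := by
            rw [Finset.sum_const, Nat.card_Icc, nsmul_eq_mul]
            simp only [Nat.add_sub_cancel]
            field_simp
    calc _ ≤ _ := b1
      _ ≤ 2 ^ K + 2 ^ K := add_le_add c1 c3
      _ = 2 ^ (K + 1) := by ring

theorem rr_sup (w K : ℕ) (hw : 1 ≤ w) : ∀ a, 1 ≤ a → |rr w K a| ≤ (2 ^ K - 1) / w := by
  have hw0 : (0 : ℝ) < w := by exact_mod_cast hw
  induction K with
  | zero =>
    intro a ha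
    have : a ≠ 0 := by omega
    simp [rr, this]
  | succ K ih =>
    intro a ha
    rw [rr]
    refine (abs_sub _ _).trans ?_
    rw [abs_mul, abs_of_pos (show 0 < 1 / (w : ℝ) by positivity)]
    have c1 : |∑ i ∈ Finset.Icc 1 w, (if i ≤ a then rr w K (a - i) else 0)| ≤ 2 ^ K := by
      refine (Finset.abs_sum_le_sum_abs _ _).trans ?_
      -- injective reindexing
      have h1 : ∑ i ∈ Finset.Icc 1 w, |(if i ≤ a then rr w K (a - i) else 0)|
          = ∑ i ∈ (Finset.Icc 1 w).filter (fun i => i ≤ a), |rr w K (a - i)| := by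
        rw [Finset.sum_filter]
        apply Finset.sum_congr rfl
        intro i _
        split_ifs
        · rfl
        · simp
      rw [h1]
      have h2 : ∑ i ∈ (Finset.Icc 1 w).filter (fun i => i ≤ a), |rr w K (a - i)|
          = ∑ b ∈ ((Finset.Icc 1 w).filter (fun i => i ≤ a)).image (fun i => a - i), |rr w K b| := by
        rw [Finset.sum_image]
        intro x hx y hy hxy
        simp only [Finset.coe_filter, Set.mem_ofPred_eq] at hx hy
        simp only at hxy
        omega
      rw [h2]
      calc ∑ b ∈ ((Finset.Icc 1 w).filter (fun i => i ≤ a)).image (fun i => a - i), |rr w K b|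
          ≤ ∑ b ∈ Finset.range (a + (K * w + 1)), |rr w K b| := by
            apply Finset.sum_le_sum_of_subset_of_nonneg
            · intro b hb
              obtain ⟨i, _, rfl⟩ := Finset.mem_image.1 hb
              rw [Finset.mem_range]
              omega
            · intro b _ _
              exact abs_nonneg _
        _ = ∑ b ∈ Finset.range (K * w + 1), |rr w K b| := by
            exact shift_sum (K * w) 0 _ (fun b => |rr w K b|) (by omega)
              (fun b hb => by rw [rr_supp w K b hb, abs_zero]) _ (fun a _ => rfl)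
              (fun a ha => absurd ha (by omega))
        _ ≤ 2 ^ K := rr_l1 w K hw
    calc |rr w K a| + 1 / (w : ℝ) * |∑ i ∈ Finset.Icc 1 w, (if i ≤ a then rr w K (a - i) else 0)|
        ≤ (2 ^ K - 1) / w + 1 / (w : ℝ) * 2 ^ K :=
          add_le_add (ih a ha) (mul_le_mul_of_nonneg_left c1 (by positivity))
      _ = (2 ^ (K + 1) - 1) / w := by
          field_simp
          ring

/-- the recursion for the weighted sums -/
theorem rr_rec (w K : ℕ) (hw : 1 ≤ w) (G : ℕ → Alg) :
    ∑ a ∈ Finset.range ((K + 1) * w + 1), rr w (K + 1) a • G a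
      = (1 / (w : ℝ)) • ∑ i ∈ Finset.Icc 1 w, ∑ a ∈ Finset.range (K * w + 1),
          rr w K a • (G a - G (a + i)) := by
  have hw0 : (w : ℝ) ≠ 0 := by positivity
  have e1 : ∑ a ∈ Finset.range ((K + 1) * w + 1), rr w (K + 1) a • G a
      = ∑ a ∈ Finset.range ((K + 1) * w + 1), rr w K a • G a
        - (1 / (w : ℝ)) • ∑ i ∈ Finset.Icc 1 w, ∑ a ∈ Finset.range ((K + 1) * w + 1),
          (if i ≤ a then rr w K (a - i) else 0) • G a := by
    rw [Finset.sum_comm, Finset.smul_sum, ← Finset.sum_sub_distrib]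
    apply Finset.sum_congr rfl
    intro a _
    rw [rr, sub_smul, mul_smul, Finset.sum_smul]
  have e2 : ∑ a ∈ Finset.range ((K + 1) * w + 1), rr w K a • G a
      = ∑ a ∈ Finset.range (K * w + 1), rr w K a • G a := by
    exact shift_sum (K * w) 0 _ (fun b => rr w K b • G b)
      (by have : (K + 1) * w = K * w + w := by ring
          omega)
      (fun b hb => by rw [rr_supp w K b hb, zero_smul]) _ (fun a _ => rfl)
      (fun a ha => absurd ha (by omega))
  have e3 : ∀ i ∈ Finset.Icc 1 w, ∑ a ∈ Finset.range ((K + 1) * w + 1),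
          (if i ≤ a then rr w K (a - i) else 0) • G a
        = ∑ a ∈ Finset.range (K * w + 1), rr w K a • G (a + i) := by
    intro i hi
    obtain ⟨_, hi2⟩ := Finset.mem_Icc.1 hi
    exact shift_sum (K * w) i _ (fun b => rr w K b • G (b + i))
      (by have : (K + 1) * w = K * w + w := by ring
          omega)
      (fun b hb => by rw [rr_supp w K b hb, zero_smul]) _
      (fun a ha => by rw [if_pos ha, Nat.sub_add_cancel ha])
      (fun a ha => by rw [if_neg (by omega), zero_smul])
  rw [e1, e2, Finset.sum_congr rfl e3]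
  have e4 : ∑ a ∈ Finset.range (K * w + 1), rr w K a • G a
      = (1 / (w : ℝ)) • ∑ i ∈ Finset.Icc 1 w, ∑ a ∈ Finset.range (K * w + 1), rr w K a • G a := by
    rw [Finset.sum_const, Nat.card_Icc, Nat.add_sub_cancel, ← Nat.cast_smul_eq_nsmul ℝ, smul_smul,
      one_div, inv_mul_cancel₀ hw0, one_smul]
  rw [e4, ← smul_sub, ← Finset.sum_sub_distrib]
  congr 1
  apply Finset.sum_congr rfl
  intro i _
  rw [← Finset.sum_sub_distrib]
  apply Finset.sum_congr rfl
  intro a _
  rw [smul_sub]

theorem main (hDD : StDD) (T P : Alg) (L w M₀ X' : ℕ) (D : ℝ) (hT : Pr T) (hw : 1 ≤ w)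
    (hD : l1 (T ^ M₀ - T ^ (M₀ + 1)) ≤ D) (K : ℕ) :
    ∀ (l : List ℕ) (X : ℕ), (∀ a ∈ l, a ≤ w * L) → (K + l.length) * M₀ + K * w * L ≤ X →
      (K + l.length) * M₀ ≤ X' →
      l1 (∑ a ∈ Finset.range (K * w + 1),
          rr w K a • (T ^ (X - a * L) * dd T l P * T ^ (X' + a * L)))
        ≤ (2 * ((w * L : ℕ) * D)) ^ (K + l.length) * l1 P := by
  have hw0 : (w : ℝ) ≠ 0 := by positivity
  induction K with
  | zero =>
    intro l X hl hX hX'
    have := hDD T P l (w * L) M₀ X X' D hT hl hD (by simpa using hX) (by simpa using hX')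
    simpa [rr] using this
  | succ K ih =>
    intro l X hl hX hX'
    rw [rr_rec w K hw, l1_smul, abs_of_nonneg (by positivity)]
    have eK : (K + 1) * w * L = K * w * L + w * L := by ring
    have hb : ∀ i ∈ Finset.Icc 1 w, l1 (∑ a ∈ Finset.range (K * w + 1),
        rr w K a • (T ^ (X - a * L) * dd T l P * T ^ (X' + a * L)
          - T ^ (X - (a + i) * L) * dd T l P * T ^ (X' + (a + i) * L)))
        ≤ (2 * ((w * L : ℕ) * D)) ^ (K + 1 + l.length) * l1 P := by
      intro i hi
      obtain ⟨hi1, hi2⟩ := Finset.mem_Icc.1 hi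
      have hiL : i * L ≤ w * L := Nat.mul_le_mul_right L hi2
      have h2 := ih (i * L :: l) (X - i * L) (by
        intro b hb
        rcases List.mem_cons.mp hb with hb | hb
        · rw [hb]; exact hiL
        · exact hl b hb) (by
          rw [List.length_cons]
          have : (K + (l.length + 1)) * M₀ = (K + 1 + l.length) * M₀ := by ring
          omega) (by
          rw [List.length_cons]
          have : (K + (l.length + 1)) * M₀ = (K + 1 + l.length) * M₀ := by ring
          omega)
      rw [List.length_cons] at h2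
      have e5 : K + (l.length + 1) = K + 1 + l.length := by omega
      rw [e5] at h2
      refine le_trans (le_of_eq ?_) h2
      congr 1
      apply Finset.sum_congr rfl
      intro a ha
      have ha' : a ≤ K * w := by
        have := Finset.mem_range.mp ha
        omega
      have haL : a * L ≤ K * w * L := Nat.mul_le_mul_right L ha'
      congr 1
      have p1 : T ^ (X - a * L) = T ^ (X - i * L - a * L) * T ^ (i * L) := by
        rw [← pow_add]; congr 1; omega
      have p2 : X - (a + i) * L = X - i * L - a * L := by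
        have : (a + i) * L = a * L + i * L := by ring
        omega
      have p3 : T ^ (X' + (a + i) * L) = T ^ (i * L) * T ^ (X' + a * L) := by
        rw [← pow_add]; congr 1; ring
      rw [p1, p2, p3]
      simp only [dd]
      generalize dd T l P = Q
      generalize T ^ (X - i * L - a * L) = A1
      generalize T ^ (i * L) = A2
      generalize T ^ (X' + a * L) = A4
      noncomm_ring
    calc (1 / (w : ℝ)) * l1 (∑ i ∈ Finset.Icc 1 w, ∑ a ∈ Finset.range (K * w + 1),
        rr w K a • (T ^ (X - a * L) * dd T l P * T ^ (X' + a * L)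
          - T ^ (X - (a + i) * L) * dd T l P * T ^ (X' + (a + i) * L)))
        ≤ (1 / (w : ℝ)) * ∑ i ∈ Finset.Icc 1 w,
            ((2 * ((w * L : ℕ) * D)) ^ (K + 1 + l.length) * l1 P) :=
          mul_le_mul_of_nonneg_left ((l1_sum _ _).trans (Finset.sum_le_sum hb)) (by positivity)
      _ = (2 * ((w * L : ℕ) * D)) ^ (K + 1 + l.length) * l1 P := by
          rw [Finset.sum_const, Nat.card_Icc, nsmul_eq_mul, Nat.add_sub_cancel, ← mul_assoc,
            one_div, inv_mul_cancel₀ hw0, one_mul]

end

end Vale.P321S.WE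

namespace Vale.P321S

open WE

theorem stWei (hDD : StDD) : StWei := by
  intro K w hw
  have hw0 : (0 : ℝ) < w := by exact_mod_cast hw
  have hsplit : ∀ f : ℕ → ℝ, (∀ a, 0 ≤ f a) →
      ∑ a ∈ Finset.Icc 1 (K * w), f a ≤ ∑ a ∈ Finset.range (K * w + 1), f a := by
    intro f hf
    apply Finset.sum_le_sum_of_subset_of_nonneg
    · intro a ha
      rw [Finset.mem_range]
      have := (Finset.mem_Icc.1 ha).2
      omega
    · intro a _ _
      exact hf a
  have hl1 := rr_l1 w K hw
  refine ⟨fun a => - rr w K a, ?_, ?_, ?_⟩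
  · simp only [abs_neg]
    exact (hsplit _ (fun a => abs_nonneg _)).trans hl1
  · have h1 : ∀ a ∈ Finset.Icc 1 (K * w), (- rr w K a) ^ 2 ≤ (2 ^ K / w) * |rr w K a| := by
      intro a ha
      have h2 := rr_sup w K hw a (Finset.mem_Icc.1 ha).1
      have h3 : |rr w K a| ≤ 2 ^ K / w :=
        h2.trans (div_le_div_of_nonneg_right (by linarith) hw0.le)
      rw [neg_sq, ← sq_abs, sq]
      exact mul_le_mul_of_nonneg_right h3 (abs_nonneg _)
    calc ∑ a ∈ Finset.Icc 1 (K * w), (- rr w K a) ^ 2
        ≤ ∑ a ∈ Finset.Icc 1 (K * w), (2 ^ K / w) * |rr w K a| := Finset.sum_le_sum h1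
      _ = (2 ^ K / w) * ∑ a ∈ Finset.Icc 1 (K * w), |rr w K a| := by rw [Finset.mul_sum]
      _ ≤ (2 ^ K / w) * 2 ^ K :=
          mul_le_mul_of_nonneg_left ((hsplit _ (fun a => abs_nonneg _)).trans hl1) (by positivity)
      _ = 4 ^ K / w := by
          rw [div_mul_eq_mul_div, ← mul_pow]
          norm_num
  · intro T P L X₀ X' M₀ D hT hX₀ hX' hD
    have := main hDD T P L w M₀ X' D hT hw hD K [] (X₀ + K * w * L) (by simp)
      (by simp only [List.length_nil, add_zero]; omega) (by simpa using hX')
    simp only [List.length_nil, add_zero, dd] at this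
    refine le_trans (le_of_eq ?_) this
    congr 1
    rw [Finset.sum_range_succ']
    simp only [rr_zero, zero_mul, Nat.sub_zero, add_zero, one_smul, neg_smul,
      Finset.sum_neg_distrib, sub_neg_eq_add]
    rw [add_comm]
    congr 1
    rw [Finset.range_eq_Ico, Finset.sum_Ico_add' (fun a => rr w K a
      • (T ^ (X₀ + K * w * L - a * L) * P * T ^ (X' + a * L))) 0 (K * w) 1]
    rfl

end Vale.P321S
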