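import Vale.Agent.P321S.All
import Vale.Agent.P321S.PW
import Vale.Agent.P321S.Wei
import Vale.Agent.P321S.OrthSum
import Vale.Agent.P321S.MonoQ2
import Vale.Agent.P321S.BlockQ
import Vale.Agent.P321S.GainQ
import Vale.Agent.P321S.LiftQ
import Vale.Agent.P321S.StepQ
import Vale.Agent.P321S.StartQ
import Vale.Agent.P321S.TVQ
import Vale.Agent.P321S.FinalQ

namespace Vale.P321S

/-- assembly of the quantitative version from the parameter module -/
theorem finalQ_of (hLevels : StStepQ → StStartQ → StLevelsQ) : StFinalQ := by
  have iid : StIid := stIid stPmf (stRenew stPmf) stOrtho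
  have cells : StCells := stCells stSmooth stOV
  have step : StStep := stStep (stMono (stCore stDD) stTM) stDD stMixStep
  have lev1 : StLevel1 := stLevel1 stDD stMixStep
  have ovl : StOverlap := stOverlap iid stOV
  have hB : StBlockQ := stBlockQ libPW
  have hM : StMonoQ := MQ.stMonoQ libPW (stWei stDD) stOrthSum
  have hG : StGainQ := stGainQ libPW hM hB stDD
  have hL : StLiftQ := stLiftQ libPW hB stDD
  have hS : StStepQ := stStepQ libPW hG hL hB stMixStep
  have hStart : StStartQ := stStartQ libPW hL step lev1 cells ovl stOV
  exact stFinalQ (stTVQ (hLevels hS hStart))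

end Vale.P321S
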