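import Vale.Agent.P321S.Defs

/-! # P321: basic l1 / mass / order lemmas (module BL1) -/

namespace Vale.P321S

open scoped BigOperators

/-! ### support independent forms -/

theorem l1_eq_of_subset (f : Alg) {S : Finset Wd} (h : f.coeff.support ⊆ S) :
    l1 f = ∑ w ∈ S, |f.coeff w| := by
  unfold l1
  apply Finset.sum_subset h
  intro w _ hw
  rw [Finsupp.notMem_support_iff.mp hw, abs_zero]

theorem mass_eq_of_subset (f : Alg) {S : Finset Wd} (h : f.coeff.support ⊆ S) :
    mass f = ∑ w ∈ S, f.coeff w := by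
  unfold mass
  apply Finset.sum_subset h
  intro w _ hw
  exact Finsupp.notMem_support_iff.mp hw

theorem l1_nonneg (f : Alg) : 0 ≤ l1 f := Finset.sum_nonneg (fun _ _ => abs_nonneg _)

theorem l1_zero : l1 0 = 0 := by simp [l1]

theorem l1_neg (f : Alg) : l1 (-f) = l1 f := by
  unfold l1
  rw [MonoidAlgebra.coeff_neg, Finsupp.support_neg]
  simp

theorem l1_smul (a : ℝ) (f : Alg) : l1 (a • f) = |a| * l1 f := by
  have h : (a • f).coeff.support ⊆ f.coeff.support := by
    rw [MonoidAlgebra.coeff_smul]; exact Finsupp.support_smul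
  rw [l1_eq_of_subset _ h, l1, Finset.mul_sum]
  apply Finset.sum_congr rfl
  intro w _
  rw [MonoidAlgebra.coeff_smul, Finsupp.smul_apply, smul_eq_mul, abs_mul]

theorem l1_add (f g : Alg) : l1 (f + g) ≤ l1 f + l1 g := by
  classical
  have h1 : f.coeff.support ⊆ f.coeff.support ∪ g.coeff.support := Finset.subset_union_left
  have h2 : g.coeff.support ⊆ f.coeff.support ∪ g.coeff.support := Finset.subset_union_right
  have h3 : (f + g).coeff.support ⊆ f.coeff.support ∪ g.coeff.support := by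
    rw [MonoidAlgebra.coeff_add]; exact Finsupp.support_add
  rw [l1_eq_of_subset _ h1, l1_eq_of_subset _ h2, l1_eq_of_subset _ h3, ← Finset.sum_add_distrib]
  apply Finset.sum_le_sum
  intro w _
  rw [MonoidAlgebra.coeff_add, Finsupp.add_apply]
  exact abs_add_le _ _

theorem l1_sub (f g : Alg) : l1 (f - g) ≤ l1 f + l1 g := by
  rw [sub_eq_add_neg]
  calc l1 (f + -g) ≤ l1 f + l1 (-g) := l1_add _ _
    _ = l1 f + l1 g := by rw [l1_neg]

theorem l1_sub_comm (f g : Alg) : l1 (f - g) = l1 (g - f) := by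
  rw [← l1_neg, neg_sub]

theorem l1_sum {ι : Type*} (s : Finset ι) (f : ι → Alg) :
    l1 (∑ i ∈ s, f i) ≤ ∑ i ∈ s, l1 (f i) := by
  classical
  induction s using Finset.induction_on with
  | empty => simp [l1_zero]
  | insert a s ha ih =>
    rw [Finset.sum_insert ha, Finset.sum_insert ha]
    exact (l1_add _ _).trans (by linarith)

theorem l1_single (w : Wd) (a : ℝ) : l1 (MonoidAlgebra.single w a) = |a| := by
  classical
  have h : (MonoidAlgebra.single w a : Alg).coeff.support ⊆ {w} := by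
    rw [MonoidAlgebra.coeff_single]; exact Finsupp.support_single_subset
  rw [l1_eq_of_subset _ h, Finset.sum_singleton, MonoidAlgebra.coeff_single,
    Finsupp.single_eq_same]

theorem mass_zero : mass 0 = 0 := by simp [mass]

theorem mass_add (f g : Alg) : mass (f + g) = mass f + mass g := by
  classical
  have h1 : f.coeff.support ⊆ f.coeff.support ∪ g.coeff.support := Finset.subset_union_left
  have h2 : g.coeff.support ⊆ f.coeff.support ∪ g.coeff.support := Finset.subset_union_right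
  have h3 : (f + g).coeff.support ⊆ f.coeff.support ∪ g.coeff.support := by
    rw [MonoidAlgebra.coeff_add]; exact Finsupp.support_add
  rw [mass_eq_of_subset _ h1, mass_eq_of_subset _ h2, mass_eq_of_subset _ h3,
    ← Finset.sum_add_distrib]
  apply Finset.sum_congr rfl
  intro w _
  rw [MonoidAlgebra.coeff_add, Finsupp.add_apply]

theorem mass_smul (a : ℝ) (f : Alg) : mass (a • f) = a * mass f := by
  have h : (a • f).coeff.support ⊆ f.coeff.support := by
    rw [MonoidAlgebra.coeff_smul]; exact Finsupp.support_smul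
  rw [mass_eq_of_subset _ h, mass, Finset.mul_sum]
  apply Finset.sum_congr rfl
  intro w _
  rw [MonoidAlgebra.coeff_smul, Finsupp.smul_apply, smul_eq_mul]

theorem mass_neg (f : Alg) : mass (-f) = - mass f := by
  have h := mass_smul (-1) f
  rw [neg_one_smul] at h
  rw [h]; ring

theorem mass_sub (f g : Alg) : mass (f - g) = mass f - mass g := by
  rw [sub_eq_add_neg, mass_add, mass_neg]; ring

theorem mass_sum {ι : Type*} (s : Finset ι) (f : ι → Alg) :
    mass (∑ i ∈ s, f i) = ∑ i ∈ s, mass (f i) := by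
  classical
  induction s using Finset.induction_on with
  | empty => simp [mass_zero]
  | insert a s ha ih =>
    rw [Finset.sum_insert ha, Finset.sum_insert ha, mass_add, ih]

theorem mass_single (w : Wd) (a : ℝ) : mass (MonoidAlgebra.single w a) = a := by
  classical
  have h : (MonoidAlgebra.single w a : Alg).coeff.support ⊆ {w} := by
    rw [MonoidAlgebra.coeff_single]; exact Finsupp.support_single_subset
  rw [mass_eq_of_subset _ h, Finset.sum_singleton, MonoidAlgebra.coeff_single,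
    Finsupp.single_eq_same]

/-- the product as a double sum of singles -/
theorem mul_eq_sum (f g : Alg) :
    f * g = ∑ u ∈ f.coeff.support, ∑ v ∈ g.coeff.support,
      MonoidAlgebra.single (u * v) (f.coeff u * g.coeff v) := by
  rw [MonoidAlgebra.mul_def]
  rfl

theorem l1_mul (f g : Alg) : l1 (f * g) ≤ l1 f * l1 g := by
  rw [mul_eq_sum]
  calc l1 (∑ u ∈ f.coeff.support, ∑ v ∈ g.coeff.support,
        MonoidAlgebra.single (u * v) (f.coeff u * g.coeff v))
      ≤ ∑ u ∈ f.coeff.support, ∑ v ∈ g.coeff.support, |f.coeff u * g.coeff v| := by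
        refine (l1_sum _ _).trans (Finset.sum_le_sum fun u _ => ?_)
        refine (l1_sum _ _).trans (Finset.sum_le_sum fun v _ => ?_)
        rw [l1_single]
    _ = l1 f * l1 g := by
        unfold l1
        rw [Finset.sum_mul_sum]
        apply Finset.sum_congr rfl
        intro u _
        apply Finset.sum_congr rfl
        intro v _
        rw [abs_mul]

theorem mass_mul (f g : Alg) : mass (f * g) = mass f * mass g := by
  rw [mul_eq_sum, mass_sum]
  simp_rw [mass_sum, mass_single]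
  unfold mass
  rw [Finset.sum_mul_sum]

theorem l1_one : l1 (1 : Alg) = 1 := by
  rw [MonoidAlgebra.one_def, l1_single, abs_one]

theorem mass_one : mass (1 : Alg) = 1 := by
  rw [MonoidAlgebra.one_def, mass_single]

theorem mass_pow (f : Alg) (n : ℕ) : mass (f ^ n) = mass f ^ n := by
  induction n with
  | zero => simp [mass_one]
  | succ n ih => rw [pow_succ, mass_mul, ih, pow_succ]

theorem abs_mass_le (f : Alg) : |mass f| ≤ l1 f := Finset.abs_sum_le_sum_abs _ _

theorem Nn_one : Nn (1 : Alg) := by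
  classical
  intro w
  rw [MonoidAlgebra.one_def, MonoidAlgebra.coeff_single, Finsupp.single_apply]
  split_ifs <;> norm_num

theorem Nn_zero : Nn (0 : Alg) := by intro w; simp

theorem Nn_add {f g : Alg} (hf : Nn f) (hg : Nn g) : Nn (f + g) := by
  intro w
  rw [MonoidAlgebra.coeff_add, Finsupp.add_apply]
  exact add_nonneg (hf w) (hg w)

theorem Nn_sum {ι : Type*} (s : Finset ι) {f : ι → Alg} (h : ∀ i ∈ s, Nn (f i)) :
    Nn (∑ i ∈ s, f i) := by
  classical
  induction s using Finset.induction_on with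
  | empty => simpa using Nn_zero
  | insert a s ha ih =>
    rw [Finset.sum_insert ha]
    exact Nn_add (h a (Finset.mem_insert_self _ _))
      (ih (fun i hi => h i (Finset.mem_insert_of_mem hi)))

theorem Nn_smul {a : ℝ} (ha : 0 ≤ a) {f : Alg} (hf : Nn f) : Nn (a • f) := by
  intro w
  rw [MonoidAlgebra.coeff_smul, Finsupp.smul_apply, smul_eq_mul]
  exact mul_nonneg ha (hf w)

theorem Nn_single {w : Wd} {a : ℝ} (ha : 0 ≤ a) : Nn (MonoidAlgebra.single w a) := by
  classical
  intro v
  rw [MonoidAlgebra.coeff_single, Finsupp.single_apply]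
  split_ifs
  · exact ha
  · exact le_refl _

theorem Nn_mul {f g : Alg} (hf : Nn f) (hg : Nn g) : Nn (f * g) := by
  rw [mul_eq_sum]
  exact Nn_sum _ (fun u _ => Nn_sum _ (fun v _ => Nn_single (mul_nonneg (hf u) (hg v))))

theorem Nn_pow {f : Alg} (hf : Nn f) (n : ℕ) : Nn (f ^ n) := by
  induction n with
  | zero => simpa using Nn_one
  | succ n ih => rw [pow_succ]; exact Nn_mul ih hf

theorem l1_of_Nn {f : Alg} (hf : Nn f) : l1 f = mass f := by
  unfold l1 mass
  exact Finset.sum_congr rfl (fun w _ => abs_of_nonneg (hf w))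

theorem Pr_one : Pr (1 : Alg) := ⟨Nn_one, mass_one⟩

theorem Pr_mul {f g : Alg} (hf : Pr f) (hg : Pr g) : Pr (f * g) :=
  ⟨Nn_mul hf.1 hg.1, by rw [mass_mul, hf.2, hg.2, one_mul]⟩

theorem Pr_pow {f : Alg} (hf : Pr f) (n : ℕ) : Pr (f ^ n) :=
  ⟨Nn_pow hf.1 n, by rw [mass_pow, hf.2, one_pow]⟩

theorem Pr_prod {l : List Alg} (h : ∀ f ∈ l, Pr f) : Pr l.prod := by
  induction l with
  | nil => simpa using Pr_one
  | cons a l ih =>
    rw [List.prod_cons]
    exact Pr_mul (h a (by simp)) (ih (fun f hf => h f (by simp [hf])))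

theorem Pr_l1 {f : Alg} (hf : Pr f) : l1 f = 1 := by rw [l1_of_Nn hf.1, hf.2]

theorem Pr_convex {f g : Alg} (hf : Pr f) (hg : Pr g) {a : ℝ} (h0 : 0 ≤ a) (h1 : a ≤ 1) :
    Pr (a • f + (1 - a) • g) :=
  ⟨Nn_add (Nn_smul h0 hf.1) (Nn_smul (by linarith) hg.1), by
    rw [mass_add, mass_smul, mass_smul, hf.2, hg.2]; ring⟩

theorem Le_refl (f : Alg) : Le f f := fun _ => le_refl _

theorem Le_trans {f g h : Alg} (h1 : Le f g) (h2 : Le g h) : Le f h :=
  fun w => (h1 w).trans (h2 w)

theorem Le_smul {f g : Alg} (h : Le f g) {a : ℝ} (ha : 0 ≤ a) : Le (a • f) (a • g) := by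
  intro w
  rw [MonoidAlgebra.coeff_smul, MonoidAlgebra.coeff_smul, Finsupp.smul_apply, Finsupp.smul_apply,
    smul_eq_mul, smul_eq_mul]
  exact mul_le_mul_of_nonneg_left (h w) ha

theorem Le_add {f g f' g' : Alg} (h : Le f g) (h' : Le f' g') : Le (f + f') (g + g') := by
  intro w
  rw [MonoidAlgebra.coeff_add, MonoidAlgebra.coeff_add, Finsupp.add_apply, Finsupp.add_apply]
  exact add_le_add (h w) (h' w)

theorem Le_iff_Nn {f g : Alg} : Le f g ↔ Nn (g - f) := by
  constructor
  · intro h w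
    rw [MonoidAlgebra.coeff_sub, Finsupp.sub_apply]
    linarith [h w]
  · intro h w
    have := h w
    rw [MonoidAlgebra.coeff_sub, Finsupp.sub_apply] at this
    linarith

theorem Nn_of_Le {f g : Alg} (hf : Nn f) (h : Le f g) : Nn g := fun w => (hf w).trans (h w)

theorem Le_mul {f g f' g' : Alg} (hf : Nn f) (hf' : Nn f') (h : Le f g) (h' : Le f' g') :
    Le (f * f') (g * g') := by
  rw [Le_iff_Nn]
  have e : g * g' - f * f' = (g - f) * g' + f * (g' - f') := by noncomm_ring
  rw [e]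
  exact Nn_add (Nn_mul (Le_iff_Nn.mp h) (Nn_of_Le hf' h')) (Nn_mul hf (Le_iff_Nn.mp h'))

theorem Le_pow {f g : Alg} {a : ℝ} (ha : 0 ≤ a) (hf : Nn f) (hg : Nn g) (h : Le f (a • g))
    (n : ℕ) : Le (f ^ n) (a ^ n • g ^ n) := by
  induction n with
  | zero => simpa using Le_refl (1 : Alg)
  | succ n ih =>
    have e : a ^ (n + 1) • g ^ (n + 1) = (a ^ n • g ^ n) * (a • g) := by
      rw [smul_mul_smul_comm, pow_succ, pow_succ]
    rw [e, pow_succ]
    exact Le_mul (Nn_pow hf n) hf ih h

theorem mass_nonneg {f : Alg} (hf : Nn f) : 0 ≤ mass f := Finset.sum_nonneg (fun w _ => hf w)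

theorem mass_le_of_Le {f g : Alg} (h : Le f g) : mass f ≤ mass g := by
  have := mass_nonneg (Le_iff_Nn.mp h)
  rw [mass_sub] at this
  linarith

/-- products of l1-bounded factors: telescoping -/
theorem l1_pow_le {f : Alg} {a : ℝ} (ha : l1 f ≤ a) (n : ℕ) : l1 (f ^ n) ≤ a ^ n := by
  have ha0 : 0 ≤ a := (l1_nonneg f).trans ha
  induction n with
  | zero => simp [l1_one]
  | succ n ih =>
    rw [pow_succ, pow_succ]
    calc l1 (f ^ n * f) ≤ l1 (f ^ n) * l1 f := l1_mul _ _
      _ ≤ a ^ n * a := mul_le_mul ih ha (l1_nonneg _) (pow_nonneg ha0 n)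

theorem l1_mul_le {f g : Alg} {a b : ℝ} (ha : l1 f ≤ a) (hb : l1 g ≤ b) :
    l1 (f * g) ≤ a * b :=
  (l1_mul f g).trans (mul_le_mul ha hb (l1_nonneg _) ((l1_nonneg f).trans ha))

theorem l1_pr_mul {f g : Alg} (hf : Pr f) : l1 (f * g) ≤ l1 g := by
  have := l1_mul f g
  rwa [Pr_l1 hf, one_mul] at this

theorem l1_mul_pr {f g : Alg} (hg : Pr g) : l1 (f * g) ≤ l1 f := by
  have := l1_mul f g
  rwa [Pr_l1 hg, mul_one] at this

theorem l1_pow_sub_pow_pr {f g : Alg} (hf : Pr f) (hg : Pr g) (n : ℕ) :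
    l1 (f ^ n - g ^ n) ≤ n * l1 (f - g) := by
  induction n with
  | zero => simp [l1_zero]
  | succ n ih =>
    have e : f ^ (n + 1) - g ^ (n + 1) = (f ^ n - g ^ n) * f + g ^ n * (f - g) := by
      rw [pow_succ, pow_succ]; noncomm_ring
    rw [e]
    calc l1 ((f ^ n - g ^ n) * f + g ^ n * (f - g))
        ≤ l1 ((f ^ n - g ^ n) * f) + l1 (g ^ n * (f - g)) := l1_add _ _
      _ ≤ n * l1 (f - g) + l1 (f - g) :=
          add_le_add ((l1_mul_pr hf).trans ih) (l1_pr_mul (Pr_pow hg n))
      _ = ((n + 1 : ℕ) : ℝ) * l1 (f - g) := by push_cast; ring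

/-- monotonicity of the mixing quantity -/
theorem l1_mix_anti {T : Alg} (hT : Pr T) {M M' : ℕ} (h : M ≤ M') :
    l1 (T ^ M' - T ^ (M' + 1)) ≤ l1 (T ^ M - T ^ (M + 1)) := by
  obtain ⟨d, rfl⟩ := Nat.exists_eq_add_of_le h
  have e : T ^ (M + d) - T ^ (M + d + 1) = (T ^ M - T ^ (M + 1)) * T ^ d := by
    rw [sub_mul, ← pow_add, ← pow_add]
    congr 2
    omega
  rw [e]
  exact l1_mul_pr (Pr_pow hT d)

/-- several steps -/
theorem l1_mix_steps {T : Alg} (hT : Pr T) (M a : ℕ) :
    l1 (T ^ M - T ^ (M + a)) ≤ a * l1 (T ^ M - T ^ (M + 1)) := by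
  induction a with
  | zero => simp [l1_zero]
  | succ a ih =>
    have e : T ^ M - T ^ (M + (a + 1)) =
        (T ^ M - T ^ (M + a)) + (T ^ (M + a) - T ^ (M + a + 1)) := by
      rw [show M + (a + 1) = M + a + 1 by ring]; abel
    rw [e]
    calc l1 ((T ^ M - T ^ (M + a)) + (T ^ (M + a) - T ^ (M + a + 1)))
        ≤ l1 (T ^ M - T ^ (M + a)) + l1 (T ^ (M + a) - T ^ (M + a + 1)) := l1_add _ _
      _ ≤ a * l1 (T ^ M - T ^ (M + 1)) + l1 (T ^ M - T ^ (M + 1)) :=
          add_le_add ih (l1_mix_anti hT (Nat.le_add_right _ _))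
      _ = ((a + 1 : ℕ) : ℝ) * l1 (T ^ M - T ^ (M + 1)) := by push_cast; ring

end Vale.P321S
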