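import Vale.Agent.P321S.BasicL1

/-! # P321: basic relative L2 lemmas (module BL2) -/

namespace Vale.P321S

open scoped BigOperators

theorem L2_nonneg {f g : Alg} {s : ℝ} (h : L2 f g s) : 0 ≤ s := h.1

/-- support independent form of the chi-square sum -/
theorem chi_eq_of_subset (f g : Alg) {S : Finset Wd} (h : f.coeff.support ⊆ S) :
    ∑ w ∈ f.coeff.support, (f.coeff w) ^ 2 / g.coeff w
      = ∑ w ∈ S, (f.coeff w) ^ 2 / g.coeff w := by
  apply Finset.sum_subset h
  intro w _ hw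
  rw [Finsupp.notMem_support_iff.mp hw]
  simp

/-- majorant form: `f² ≤ c g` pointwise with `c ≥ 0`, `mass c ≤ s²` -/
theorem L2_of_maj {f g c : Alg} {s : ℝ} (hs : 0 ≤ s) (hg : Nn g) (hc : Nn c)
    (h : ∀ w, (f.coeff w) ^ 2 ≤ c.coeff w * g.coeff w) (hm : mass c ≤ s ^ 2) : L2 f g s := by
  classical
  refine ⟨hs, ?_, ?_⟩
  · intro w hw
    have := h w
    rw [hw, mul_zero] at this
    exact pow_eq_zero_iff (two_ne_zero) |>.mp (le_antisymm this (sq_nonneg _))
  · refine le_trans ?_ hm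
    have h1 : f.coeff.support ⊆ f.coeff.support ∪ c.coeff.support := Finset.subset_union_left
    have h2 : c.coeff.support ⊆ f.coeff.support ∪ c.coeff.support := Finset.subset_union_right
    rw [chi_eq_of_subset f g h1, mass_eq_of_subset c h2]
    apply Finset.sum_le_sum
    intro w _
    rcases (hg w).eq_or_lt with h0 | h0
    · rw [← h0, div_zero]; exact hc w
    · rw [div_le_iff₀ h0]; exact h w

/-- the canonical majorant -/
noncomputable def maj (f g : Alg) : Alg :=
  ∑ w ∈ f.coeff.support, MonoidAlgebra.single w ((f.coeff w) ^ 2 / g.coeff w)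

theorem maj_coeff (f g : Alg) (w : Wd) : (maj f g).coeff w = (f.coeff w) ^ 2 / g.coeff w := by
  classical
  unfold maj
  rw [MonoidAlgebra.coeff_sum, Finsupp.finsetSum_apply]
  simp_rw [MonoidAlgebra.coeff_single, Finsupp.single_apply]
  rw [Finset.sum_ite_eq']
  split_ifs with h
  · rfl
  · rw [Finsupp.notMem_support_iff.mp h]; simp

theorem maj_Nn (f : Alg) {g : Alg} (hg : Nn g) : Nn (maj f g) := by
  intro w
  rw [maj_coeff]
  exact div_nonneg (sq_nonneg _) (hg w)

theorem maj_mass (f g : Alg) :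
    mass (maj f g) = ∑ w ∈ f.coeff.support, (f.coeff w) ^ 2 / g.coeff w := by
  unfold maj
  rw [mass_sum]
  simp_rw [mass_single]

theorem maj_mul {f g : Alg} {s : ℝ} (h : L2 f g s) (w : Wd) :
    (maj f g).coeff w * g.coeff w = (f.coeff w) ^ 2 := by
  rw [maj_coeff]
  by_cases h0 : g.coeff w = 0
  · rw [h0, h.2.1 w h0]; simp
  · field_simp

theorem L2_mono {f g : Alg} {s s' : ℝ} (h : L2 f g s) (hs : s ≤ s') : L2 f g s' :=
  ⟨h.1.trans hs, h.2.1, h.2.2.trans (pow_le_pow_left₀ h.1 hs 2)⟩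

theorem L2_zero (g : Alg) : L2 0 g 0 := ⟨le_refl _, by simp, by simp⟩

theorem L2_self {g : Alg} (hg : Pr g) : L2 g g 1 := by
  refine L2_of_maj zero_le_one hg.1 hg.1 (fun w => by rw [sq]) ?_
  rw [hg.2]; norm_num

theorem L2_smul {f g : Alg} {s : ℝ} (h : L2 f g s) (a : ℝ) : L2 (a • f) g (|a| * s) := by
  refine ⟨mul_nonneg (abs_nonneg _) h.1, ?_, ?_⟩
  · intro w hw
    rw [MonoidAlgebra.coeff_smul, Finsupp.smul_apply, h.2.1 w hw, smul_zero]
  · have hsub : (a • f).coeff.support ⊆ f.coeff.support := by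
      rw [MonoidAlgebra.coeff_smul]; exact Finsupp.support_smul
    rw [chi_eq_of_subset _ _ hsub, mul_pow, sq_abs]
    have : ∑ w ∈ f.coeff.support, ((a • f).coeff w) ^ 2 / g.coeff w
        = a ^ 2 * ∑ w ∈ f.coeff.support, (f.coeff w) ^ 2 / g.coeff w := by
      rw [Finset.mul_sum]
      apply Finset.sum_congr rfl
      intro w _
      rw [MonoidAlgebra.coeff_smul, Finsupp.smul_apply, smul_eq_mul]
      ring
    rw [this]
    exact mul_le_mul_of_nonneg_left h.2.2 (sq_nonneg _)

theorem L2_neg {f g : Alg} {s : ℝ} (h : L2 f g s) : L2 (-f) g s := by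
  have := L2_smul h (-1)
  rwa [neg_one_smul, abs_neg, abs_one, one_mul] at this

theorem L2_add {f f' g : Alg} {s s' : ℝ} (hg : Nn g) (h : L2 f g s) (h' : L2 f' g s') :
    L2 (f + f') g (s + s') := by
  have hs := h.1
  have hs' := h'.1
  -- use arbitrary positive parameters
  have key : ∀ a b : ℝ, s < a → s' < b →
      L2 (f + f') g (a + b) := by
    intro a b ha hb
    have ha0 : 0 < a := lt_of_le_of_lt hs ha
    have hb0 : 0 < b := lt_of_le_of_lt hs' hb
    refine L2_of_maj (c := ((a + b) / a) • maj f g + ((a + b) / b) • maj f' g) (by positivity) hg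
      (Nn_add (Nn_smul (by positivity) (maj_Nn f hg)) (Nn_smul (by positivity) (maj_Nn f' hg)))
      ?_ ?_
    · intro w
      rw [MonoidAlgebra.coeff_add, MonoidAlgebra.coeff_add, Finsupp.add_apply, Finsupp.add_apply,
        MonoidAlgebra.coeff_smul, MonoidAlgebra.coeff_smul, Finsupp.smul_apply,
        Finsupp.smul_apply, smul_eq_mul, smul_eq_mul, add_mul, mul_assoc, mul_assoc,
        maj_mul h, maj_mul h']
      set x := f.coeff w
      set y := f'.coeff w
      have e : (a + b) / a * x ^ 2 + (a + b) / b * y ^ 2 - (x + y) ^ 2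
          = (b * x - a * y) ^ 2 / (a * b) := by
        field_simp
        ring
      have : 0 ≤ (b * x - a * y) ^ 2 / (a * b) := by positivity
      linarith
    · rw [mass_add, mass_smul, mass_smul, maj_mass, maj_mass]
      have h1 := h.2.2
      have h2 := h'.2.2
      have h3 : s ^ 2 ≤ a ^ 2 := pow_le_pow_left₀ hs ha.le 2
      have h4 : s' ^ 2 ≤ b ^ 2 := pow_le_pow_left₀ hs' hb.le 2
      calc (a + b) / a * ∑ w ∈ f.coeff.support, (f.coeff w) ^ 2 / g.coeff w
            + (a + b) / b * ∑ w ∈ f'.coeff.support, (f'.coeff w) ^ 2 / g.coeff w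
          ≤ (a + b) / a * a ^ 2 + (a + b) / b * b ^ 2 := by
            apply add_le_add
            · exact mul_le_mul_of_nonneg_left (h1.trans h3) (by positivity)
            · exact mul_le_mul_of_nonneg_left (h2.trans h4) (by positivity)
        _ = (a + b) ^ 2 := by field_simp
  refine ⟨by positivity, (key (s + 1) (s' + 1) (by linarith) (by linarith)).2.1, ?_⟩
  -- limit
  apply le_of_forall_pos_le_add
  intro ε hε
  set t := s + s' with ht
  have ht0 : 0 ≤ t := by positivity
  obtain ⟨δ, hδ, hδ'⟩ : ∃ δ : ℝ, 0 < δ ∧ (t + 2 * δ) ^ 2 ≤ t ^ 2 + ε := by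
    refine ⟨min 1 (ε / (4 * (t + 1))), by positivity, ?_⟩
    set δ := min 1 (ε / (4 * (t + 1)))
    have h1 : δ ≤ 1 := min_le_left _ _
    have h2 : δ ≤ ε / (4 * (t + 1)) := min_le_right _ _
    have h0 : 0 ≤ δ := by positivity
    rw [le_div_iff₀ (by positivity)] at h2
    nlinarith
  have := (key (s + δ) (s' + δ) (by linarith) (by linarith)).2.2
  refine this.trans ?_
  calc (s + δ + (s' + δ)) ^ 2 = (t + 2 * δ) ^ 2 := by rw [ht]; ring
    _ ≤ t ^ 2 + ε := hδ'

theorem L2_sum {ι : Type*} (S : Finset ι) {f : ι → Alg} {g : Alg} {s : ι → ℝ} (hg : Nn g)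
    (h : ∀ i ∈ S, L2 (f i) g (s i)) : L2 (∑ i ∈ S, f i) g (∑ i ∈ S, s i) := by
  classical
  induction S using Finset.induction_on with
  | empty => simpa using L2_zero g
  | insert a S ha ih =>
    rw [Finset.sum_insert ha, Finset.sum_insert ha]
    exact L2_add hg (h a (Finset.mem_insert_self _ _))
      (ih (fun i hi => h i (Finset.mem_insert_of_mem hi)))

/-- coefficient of a product over a large index set -/
theorem coeff_mul_of_subset [DecidableEq Wd] (f g : Alg) {S T : Finset Wd}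
    (hS : f.coeff.support ⊆ S) (hT : g.coeff.support ⊆ T) (w : Wd) :
    (f * g).coeff w = ∑ p ∈ (S ×ˢ T).filter (fun p => p.1 * p.2 = w),
      f.coeff p.1 * g.coeff p.2 := by
  rw [mul_eq_sum, MonoidAlgebra.coeff_sum, Finsupp.finsetSum_apply]
  simp_rw [MonoidAlgebra.coeff_sum, Finsupp.finsetSum_apply, MonoidAlgebra.coeff_single,
    Finsupp.single_apply]
  rw [Finset.sum_filter, Finset.sum_product]
  have e1 : ∀ u, (∑ v ∈ g.coeff.support, if u * v = w then f.coeff u * g.coeff v else 0)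
      = ∑ v ∈ T, if u * v = w then f.coeff u * g.coeff v else 0 := by
    intro u
    apply Finset.sum_subset hT
    intro v _ hv
    rw [Finsupp.notMem_support_iff.mp hv]; simp
  simp_rw [e1]
  apply Finset.sum_subset hS
  intro u _ hu
  rw [Finsupp.notMem_support_iff.mp hu]; simp

/-- Cauchy-Schwarz for products, with general pair weights -/
theorem mul_majorant {g g' : Alg} [DecidableEq Wd] (w : Wd) (S : Finset Wd) (T : Finset Wd)
    (φ ψ : Wd × Wd → ℝ) (hψ : ∀ p, 0 ≤ ψ p) (hg : Nn g) (hg' : Nn g')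
    (hgS : g.coeff.support ⊆ S) (hgT : g'.coeff.support ⊆ T)
    (h : ∀ p, (φ p) ^ 2 ≤ ψ p * (g.coeff p.1 * g'.coeff p.2)) :
    (∑ p ∈ (S ×ˢ T).filter (fun p => p.1 * p.2 = w), φ p) ^ 2
      ≤ (∑ p ∈ (S ×ˢ T).filter (fun p => p.1 * p.2 = w), ψ p) * (g * g').coeff w := by
  rw [coeff_mul_of_subset g g' hgS hgT w]
  set A := (S ×ˢ T).filter (fun p => p.1 * p.2 = w)
  exact Finset.sum_sq_le_sum_mul_sum_of_sq_le_mul A (fun p _ => hψ p)
    (fun p _ => mul_nonneg (hg _) (hg' _)) (fun p _ => h p)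

/-- submultiplicativity -/
theorem L2_mul {f f' g g' : Alg} {s s' : ℝ} (hg : Nn g) (hg' : Nn g') (h : L2 f g s)
    (h' : L2 f' g' s') : L2 (f * f') (g * g') (s * s') := by
  classical
  refine L2_of_maj (c := maj f g * maj f' g') (mul_nonneg h.1 h'.1) (Nn_mul hg hg')
    (Nn_mul (maj_Nn f hg) (maj_Nn f' hg')) ?_ ?_
  · intro w
    set S := f.coeff.support ∪ g.coeff.support ∪ (maj f g).coeff.support
    set T := f'.coeff.support ∪ g'.coeff.support ∪ (maj f' g').coeff.support
    have a1 : f.coeff.support ⊆ S := by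
      intro x hx; simp only [S, Finset.mem_union]; tauto
    have a2 : g.coeff.support ⊆ S := by
      intro x hx; simp only [S, Finset.mem_union]; tauto
    have a3 : (maj f g).coeff.support ⊆ S := by
      intro x hx; simp only [S, Finset.mem_union]; tauto
    have b1 : f'.coeff.support ⊆ T := by
      intro x hx; simp only [T, Finset.mem_union]; tauto
    have b2 : g'.coeff.support ⊆ T := by
      intro x hx; simp only [T, Finset.mem_union]; tauto
    have b3 : (maj f' g').coeff.support ⊆ T := by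
      intro x hx; simp only [T, Finset.mem_union]; tauto
    rw [coeff_mul_of_subset f f' a1 b1 w, coeff_mul_of_subset (maj f g) (maj f' g') a3 b3 w]
    refine mul_majorant w S T (fun p => f.coeff p.1 * f'.coeff p.2)
      (fun p => (maj f g).coeff p.1 * (maj f' g').coeff p.2)
      (fun p => mul_nonneg (maj_Nn f hg _) (maj_Nn f' hg' _)) hg hg' a2 b2 ?_
    intro p
    have := maj_mul h p.1
    have h2 := maj_mul h' p.2
    calc (f.coeff p.1 * f'.coeff p.2) ^ 2 = (f.coeff p.1) ^ 2 * (f'.coeff p.2) ^ 2 := by ring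
      _ = ((maj f g).coeff p.1 * g.coeff p.1) * ((maj f' g').coeff p.2 * g'.coeff p.2) := by
          rw [this, h2]
      _ ≤ _ := le_of_eq (by ring)
  · rw [mass_mul, maj_mass, maj_mass, mul_pow]
    exact mul_le_mul h.2.2 h'.2.2
      (Finset.sum_nonneg (fun w _ => div_nonneg (sq_nonneg _) (hg' w))) (sq_nonneg _)

theorem L2_pow {f g : Alg} {s : ℝ} (hg : Nn g) (h : L2 f g s) (n : ℕ) :
    L2 (f ^ n) (g ^ n) (s ^ n) := by
  induction n with
  | zero => simpa using L2_self Pr_one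
  | succ n ih =>
    rw [pow_succ, pow_succ, pow_succ]
    exact L2_mul (Nn_pow hg n) hg ih h

theorem L2_l1 {f g : Alg} {s : ℝ} (hg : Pr g) (h : L2 f g s) : l1 f ≤ s := by
  classical
  apply abs_le_of_sq_le_sq' _ h.1 |>.2
  set S := f.coeff.support ∪ g.coeff.support
  have a1 : f.coeff.support ⊆ S := Finset.subset_union_left
  have a2 : g.coeff.support ⊆ S := Finset.subset_union_right
  have key := Finset.sum_sq_le_sum_mul_sum_of_sq_le_mul S (r := fun w => |f.coeff w|)
    (f := fun w => (maj f g).coeff w) (g := fun w => g.coeff w)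
    (fun w _ => maj_Nn f hg.1 w) (fun w _ => hg.1 w)
    (fun w _ => by rw [sq_abs, maj_mul h w])
  rw [l1_eq_of_subset f a1]
  refine key.trans ?_
  rw [← mass_eq_of_subset g a2, hg.2, mul_one]
  simp_rw [maj_coeff]
  rw [← chi_eq_of_subset f g a1]
  exact h.2.2

/-- change of reference measure -/
theorem L2_ref {f g g' : Alg} {s C : ℝ} (hC : 0 ≤ C) (hg : Nn g) (hg' : Nn g')
    (h : L2 f g s) (hle : Le g (C • g')) : L2 f g' (Real.sqrt C * s) := by
  refine L2_of_maj (c := C • maj f g) (mul_nonneg (Real.sqrt_nonneg _) h.1) hg'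
    (Nn_smul hC (maj_Nn f hg)) ?_ ?_
  · intro w
    have h1 := hle w
    rw [MonoidAlgebra.coeff_smul, Finsupp.smul_apply, smul_eq_mul] at h1
    rw [MonoidAlgebra.coeff_smul, Finsupp.smul_apply, smul_eq_mul, ← maj_mul h w]
    have h2 := maj_Nn f hg w
    calc (maj f g).coeff w * g.coeff w ≤ (maj f g).coeff w * (C * g'.coeff w) :=
          mul_le_mul_of_nonneg_left h1 h2
      _ = _ := by ring
  · rw [mass_smul, maj_mass, mul_pow, Real.sq_sqrt hC]
    exact mul_le_mul_of_nonneg_left h.2.2 hC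

theorem L2_of_le {f g : Alg} {C : ℝ} (hC : 0 ≤ C) (hf : Pr f) (hg : Nn g) (hle : Le f (C • g)) :
    L2 f g (Real.sqrt C) := by
  have := L2_ref hC hf.1 hg (L2_self hf) hle
  rwa [mul_one] at this

/-- orthogonality: `ρ` has mass zero -/
theorem L2_orth {ρ H G Φ G' : Alg} {a b c : ℝ} (hG : Pr G) (hG' : Pr G') (hρ : mass ρ = 0)
    (h1 : L2 ρ G a) (h2 : L2 H G' b) (h3 : L2 Φ G' c) :
    L2 (ρ * H + G * Φ) (G * G') (Real.sqrt (a ^ 2 * b ^ 2 + c ^ 2)) := by
  classical
  -- the cross majorant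
  set X : Alg := ∑ w ∈ H.coeff.support,
    MonoidAlgebra.single w (H.coeff w * Φ.coeff w / G'.coeff w) with hX
  have hXc : ∀ w, X.coeff w = H.coeff w * Φ.coeff w / G'.coeff w := by
    intro w
    rw [hX, MonoidAlgebra.coeff_sum, Finsupp.finsetSum_apply]
    simp_rw [MonoidAlgebra.coeff_single, Finsupp.single_apply]
    rw [Finset.sum_ite_eq']
    split_ifs with h
    · rfl
    · rw [Finsupp.notMem_support_iff.mp h]; simp
  have hX' : ∀ w, X.coeff w * G'.coeff w = H.coeff w * Φ.coeff w := by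
    intro w
    rw [hXc]
    by_cases h0 : G'.coeff w = 0
    · rw [h0, h2.2.1 w h0]; simp
    · field_simp
  set cc : Alg := maj ρ G * maj H G' + (2 : ℝ) • (ρ * X) + G * maj Φ G' with hcc
  -- big index sets
  set S := ρ.coeff.support ∪ G.coeff.support ∪ (maj ρ G).coeff.support with hS
  set T := H.coeff.support ∪ G'.coeff.support ∪ (maj H G').coeff.support ∪ Φ.coeff.support
    ∪ X.coeff.support ∪ (maj Φ G').coeff.support with hT
  have a1 : ρ.coeff.support ⊆ S := by
    intro x hx; simp only [S, Finset.mem_union]; tauto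
  have a2 : G.coeff.support ⊆ S := by
    intro x hx; simp only [S, Finset.mem_union]; tauto
  have a3 : (maj ρ G).coeff.support ⊆ S := by
    intro x hx; simp only [S, Finset.mem_union]; tauto
  have b1 : H.coeff.support ⊆ T := by
    intro x hx; simp only [T, Finset.mem_union]; tauto
  have b2 : G'.coeff.support ⊆ T := by
    intro x hx; simp only [T, Finset.mem_union]; tauto
  have b3 : (maj H G').coeff.support ⊆ T := by
    intro x hx; simp only [T, Finset.mem_union]; tauto
  have b4 : Φ.coeff.support ⊆ T := by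
    intro x hx; simp only [T, Finset.mem_union]; tauto
  have b5 : X.coeff.support ⊆ T := by
    intro x hx; simp only [T, Finset.mem_union]; tauto
  have b6 : (maj Φ G').coeff.support ⊆ T := by
    intro x hx; simp only [T, Finset.mem_union]; tauto
  set ψ : Wd × Wd → ℝ := fun p => (maj ρ G).coeff p.1 * (maj H G').coeff p.2
    + 2 * (ρ.coeff p.1 * X.coeff p.2) + G.coeff p.1 * (maj Φ G').coeff p.2 with hψ
  have hccw : ∀ w, cc.coeff w = ∑ p ∈ (S ×ˢ T).filter (fun p => p.1 * p.2 = w), ψ p := by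
    intro w
    rw [hcc, MonoidAlgebra.coeff_add, MonoidAlgebra.coeff_add, Finsupp.add_apply,
      Finsupp.add_apply, MonoidAlgebra.coeff_smul, Finsupp.smul_apply, smul_eq_mul,
      coeff_mul_of_subset _ _ a3 b3 w, coeff_mul_of_subset _ _ a1 b5 w,
      coeff_mul_of_subset _ _ a2 b6 w, Finset.mul_sum, ← Finset.sum_add_distrib,
      ← Finset.sum_add_distrib]
  -- pointwise identity
  have hpt : ∀ p : Wd × Wd, (ρ.coeff p.1 * H.coeff p.2 + G.coeff p.1 * Φ.coeff p.2) ^ 2
      = ψ p * (G.coeff p.1 * G'.coeff p.2) := by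
    intro p
    have e1 := maj_mul h1 p.1
    have e2 := maj_mul h2 p.2
    have e3 := maj_mul h3 p.2
    have e4 := hX' p.2
    simp only [hψ]
    calc (ρ.coeff p.1 * H.coeff p.2 + G.coeff p.1 * Φ.coeff p.2) ^ 2
        = (ρ.coeff p.1) ^ 2 * (H.coeff p.2) ^ 2
          + 2 * ρ.coeff p.1 * G.coeff p.1 * (H.coeff p.2 * Φ.coeff p.2)
          + (G.coeff p.1) ^ 2 * (Φ.coeff p.2) ^ 2 := by ring
      _ = ((maj ρ G).coeff p.1 * G.coeff p.1) * ((maj H G').coeff p.2 * G'.coeff p.2)
          + 2 * ρ.coeff p.1 * G.coeff p.1 * (X.coeff p.2 * G'.coeff p.2)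
          + (G.coeff p.1) ^ 2 * ((maj Φ G').coeff p.2 * G'.coeff p.2) := by
          rw [e1, e2, e3, e4]
      _ = _ := by ring
  have hψ0 : ∀ p, 0 ≤ ψ p := by
    intro p
    by_cases hz : G.coeff p.1 * G'.coeff p.2 = 0
    · rcases mul_eq_zero.mp hz with h0 | h0
      · have e1 : ρ.coeff p.1 = 0 := h1.2.1 _ h0
        simp only [hψ]
        rw [e1, h0, maj_coeff, e1]; simp
      · have e2 : H.coeff p.2 = 0 := h2.2.1 _ h0
        have e3 : Φ.coeff p.2 = 0 := h3.2.1 _ h0
        simp only [hψ]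
        rw [maj_coeff, maj_coeff, maj_coeff, e2, e3, hXc, e2]; simp
    · have hpos : 0 < G.coeff p.1 * G'.coeff p.2 :=
        lt_of_le_of_ne (mul_nonneg (hG.1 _) (hG'.1 _)) (Ne.symm hz)
      by_contra hneg
      rw [not_le] at hneg
      have : ψ p * (G.coeff p.1 * G'.coeff p.2) < 0 := mul_neg_of_neg_of_pos hneg hpos
      rw [← hpt p] at this
      exact absurd this (not_lt.mpr (sq_nonneg _))
  refine L2_of_maj (c := cc) (Real.sqrt_nonneg _) (Nn_mul hG.1 hG'.1) ?_ ?_ ?_
  · intro w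
    rw [hccw w]
    exact Finset.sum_nonneg (fun p _ => hψ0 p)
  · intro w
    rw [hccw w]
    have e : (ρ * H + G * Φ).coeff w
        = ∑ p ∈ (S ×ˢ T).filter (fun p => p.1 * p.2 = w),
          (ρ.coeff p.1 * H.coeff p.2 + G.coeff p.1 * Φ.coeff p.2) := by
      rw [MonoidAlgebra.coeff_add, Finsupp.add_apply, coeff_mul_of_subset _ _ a1 b1 w,
        coeff_mul_of_subset _ _ a2 b4 w, ← Finset.sum_add_distrib]
    rw [e]
    exact mul_majorant w S T _ ψ hψ0 hG.1 hG'.1 a2 b2 (fun p => le_of_eq (hpt p))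
  · rw [Real.sq_sqrt (by positivity), hcc, mass_add, mass_add, mass_smul, mass_mul, mass_mul,
      mass_mul, hρ, hG.2, maj_mass, maj_mass, maj_mass, zero_mul, mul_zero, add_zero, one_mul]
    exact add_le_add (mul_le_mul h1.2.2 h2.2.2
      (Finset.sum_nonneg (fun w _ => div_nonneg (sq_nonneg _) (hG'.1 w))) (sq_nonneg _)) h3.2.2

/-- powers of a perturbation, the power itself -/
theorem L2_pow_add {g b : Alg} {β : ℝ} (hg : Pr g) (hb : mass b = 0) (h : L2 b g β) (M : ℕ) :
    L2 ((g + b) ^ M) (g ^ M) (Real.sqrt ((1 + β ^ 2) ^ M)) := by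
  induction M with
  | zero => simpa using L2_self Pr_one
  | succ M ih =>
    have e : (g + b) ^ (M + 1) = b * (g + b) ^ M + g * (g + b) ^ M := by
      rw [pow_succ']; noncomm_ring
    rw [e, pow_succ' g]
    have := L2_orth hg (Pr_pow hg M) hb h ih ih
    rw [Real.sq_sqrt (by positivity)] at this
    convert this using 2
    ring

/-- powers of a perturbation -/
theorem L2_pow_sub {g b : Alg} {β : ℝ} (hg : Pr g) (hb : mass b = 0) (h : L2 b g β) (M : ℕ) :
    L2 ((g + b) ^ M - g ^ M) (g ^ M) (Real.sqrt ((1 + β ^ 2) ^ M - 1)) := by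
  induction M with
  | zero => simpa using L2_zero (1 : Alg)
  | succ M ih =>
    have e : (g + b) ^ (M + 1) - g ^ (M + 1)
        = b * (g + b) ^ M + g * ((g + b) ^ M - g ^ M) := by
      rw [pow_succ', pow_succ']; noncomm_ring
    rw [e, pow_succ' g]
    have := L2_orth hg (Pr_pow hg M) hb h (L2_pow_add hg hb h M) ih
    have h1 : (1 : ℝ) ≤ (1 + β ^ 2) ^ M := one_le_pow₀ (by nlinarith [sq_nonneg β])
    rw [Real.sq_sqrt (by positivity), Real.sq_sqrt (by linarith)] at this
    convert this using 2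
    ring

/-- mass correction does not increase the norm -/
theorem L2_proj {f g : Alg} {s : ℝ} (hg : Pr g) (h : L2 f g s) :
    L2 (f - mass f • g) g s := by
  classical
  set μ := mass f with hμ
  refine L2_of_maj (c := maj f g - (2 * μ) • f + (μ ^ 2) • g) h.1 hg.1 ?_ ?_ ?_
  · intro w
    rw [MonoidAlgebra.coeff_add, MonoidAlgebra.coeff_sub, Finsupp.add_apply, Finsupp.sub_apply,
      MonoidAlgebra.coeff_smul, MonoidAlgebra.coeff_smul, Finsupp.smul_apply,
      Finsupp.smul_apply, smul_eq_mul, smul_eq_mul]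
    rcases (hg.1 w).eq_or_lt with h0 | h0
    · rw [maj_coeff, h.2.1 w h0.symm, ← h0]; simp
    · have e := maj_mul h w
      by_contra hneg
      rw [not_le] at hneg
      have h3 := mul_neg_of_neg_of_pos hneg h0
      have : ((maj f g).coeff w - 2 * μ * f.coeff w + μ ^ 2 * g.coeff w) * g.coeff w
          = (f.coeff w - μ * g.coeff w) ^ 2 := by
        have : ((maj f g).coeff w - 2 * μ * f.coeff w + μ ^ 2 * g.coeff w) * g.coeff w
          = (maj f g).coeff w * g.coeff w - 2 * μ * f.coeff w * g.coeff w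
            + μ ^ 2 * g.coeff w ^ 2 := by ring
        rw [this, e]; ring
      rw [this] at h3
      exact absurd h3 (not_lt.mpr (sq_nonneg _))
  · intro w
    rw [MonoidAlgebra.coeff_add, MonoidAlgebra.coeff_sub, MonoidAlgebra.coeff_sub,
      Finsupp.add_apply, Finsupp.sub_apply, Finsupp.sub_apply,
      MonoidAlgebra.coeff_smul, MonoidAlgebra.coeff_smul, MonoidAlgebra.coeff_smul,
      Finsupp.smul_apply, Finsupp.smul_apply, Finsupp.smul_apply, smul_eq_mul, smul_eq_mul,
      smul_eq_mul]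
    have e := maj_mul h w
    have : ((maj f g).coeff w - 2 * μ * f.coeff w + μ ^ 2 * g.coeff w) * g.coeff w
        = (maj f g).coeff w * g.coeff w - 2 * μ * f.coeff w * g.coeff w
          + μ ^ 2 * g.coeff w ^ 2 := by ring
    rw [this, e]
    apply le_of_eq; ring
  · rw [mass_add, mass_sub, mass_smul, mass_smul, hg.2, maj_mass, ← hμ]
    have := h.2.2
    nlinarith [sq_nonneg μ]

theorem Dec_mono {f g : Alg} {s s' τ τ' : ℝ} (h : Dec f g s τ) (hs : s ≤ s') (hτ : τ ≤ τ') :
    Dec f g s' τ' := by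
  obtain ⟨f₁, f₂, h1, h2, h3, h4⟩ := h
  exact ⟨f₁, f₂, h1, h2, L2_mono h3 hs, h4.trans hτ⟩

/-- a decomposition of a mass zero measure can be made with a mass zero first part -/
theorem Dec_of {f f₁ f₂ g : Alg} {s τ : ℝ} (hg : Pr g) (hf : mass f = 0) (h : f = f₁ + f₂)
    (h1 : L2 f₁ g s) (h2 : l1 f₂ ≤ τ) : Dec f g s (2 * τ) := by
  refine ⟨f₁ - mass f₁ • g, f₂ + mass f₁ • g, ?_, ?_, L2_proj hg h1, ?_⟩
  · rw [h]; abel
  · rw [mass_sub, mass_smul, hg.2]; ring
  · have hm : mass f₁ = - mass f₂ := by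
      have : mass f = mass f₁ + mass f₂ := by rw [h, mass_add]
      linarith
    have h3 : |mass f₁| ≤ τ := by
      rw [hm, abs_neg]; exact (abs_mass_le f₂).trans h2
    calc l1 (f₂ + mass f₁ • g) ≤ l1 f₂ + l1 (mass f₁ • g) := l1_add _ _
      _ ≤ τ + τ := by
          refine add_le_add h2 ?_
          rw [l1_smul, Pr_l1 hg, mul_one]; exact h3
      _ = 2 * τ := by ring

theorem Dec_add {f f' g : Alg} {s s' τ τ' : ℝ} (hg : Nn g) (h : Dec f g s τ)
    (h' : Dec f' g s' τ') : Dec (f + f') g (s + s') (τ + τ') := by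
  obtain ⟨f₁, f₂, h1, h2, h3, h4⟩ := h
  obtain ⟨f₁', f₂', h1', h2', h3', h4'⟩ := h'
  refine ⟨f₁ + f₁', f₂ + f₂', ?_, ?_, L2_add hg h3 h3', ?_⟩
  · rw [h1, h1']; abel
  · rw [mass_add, h2, h2', add_zero]
  · exact (l1_add _ _).trans (add_le_add h4 h4')

theorem Dec_smul {f g : Alg} {s τ : ℝ} (h : Dec f g s τ) (a : ℝ) :
    Dec (a • f) g (|a| * s) (|a| * τ) := by
  obtain ⟨f₁, f₂, h1, h2, h3, h4⟩ := h
  refine ⟨a • f₁, a • f₂, ?_, ?_, L2_smul h3 a, ?_⟩
  · rw [h1, smul_add]
  · rw [mass_smul, h2, mul_zero]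
  · rw [l1_smul]; exact mul_le_mul_of_nonneg_left h4 (abs_nonneg _)

theorem Dec_zero (g : Alg) : Dec 0 g 0 0 :=
  ⟨0, 0, by simp, mass_zero, L2_zero g, by rw [l1_zero]⟩

theorem Dec_sum {ι : Type*} (S : Finset ι) {f : ι → Alg} {g : Alg} {s τ : ι → ℝ} (hg : Nn g)
    (h : ∀ i ∈ S, Dec (f i) g (s i) (τ i)) :
    Dec (∑ i ∈ S, f i) g (∑ i ∈ S, s i) (∑ i ∈ S, τ i) := by
  classical
  induction S using Finset.induction_on with
  | empty => simpa using Dec_zero g
  | insert a S ha ih =>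
    rw [Finset.sum_insert ha, Finset.sum_insert ha, Finset.sum_insert ha]
    exact Dec_add hg (h a (Finset.mem_insert_self _ _))
      (ih (fun i hi => h i (Finset.mem_insert_of_mem hi)))

theorem Dec_l1 {f g : Alg} {s τ : ℝ} (hg : Pr g) (h : Dec f g s τ) : l1 f ≤ s + τ := by
  obtain ⟨f₁, f₂, h1, h2, h3, h4⟩ := h
  rw [h1]
  exact (l1_add _ _).trans (add_le_add (L2_l1 hg h3) h4)

theorem Dec_mass {f g : Alg} {s : ℝ} (h : Dec f g s 0) : mass f = 0 := by
  obtain ⟨f₁, f₂, h1, h2, h3, h4⟩ := h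
  have h5 : mass f₂ = 0 := by
    have := (abs_mass_le f₂).trans h4
    exact abs_eq_zero.mp (le_antisymm this (abs_nonneg _))
  rw [h1, mass_add, h2, h5, add_zero]

end Vale.P321S
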