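import Vale.Agent.P321S.BasicL2

/-! # P321S, module CELLS, part A: restriction to words of bounded length -/

namespace Vale.P321S

open scoped BigOperators

noncomputable section

/-- restriction of a measure to words of length at most `t` -/
def trunc (t : ℕ) (f : Alg) : Alg :=
  MonoidAlgebra.ofCoeff (f.coeff.filter (fun w => FreeMonoid.length w ≤ t))

theorem trunc_coeff (t : ℕ) (f : Alg) (w : Wd) :
    (trunc t f).coeff w = if FreeMonoid.length w ≤ t then f.coeff w else 0 := by
  unfold trunc
  rw [MonoidAlgebra.coeff_ofCoeff, Finsupp.filter_apply]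

theorem trunc_coeff_of_le {t : ℕ} {w : Wd} (h : FreeMonoid.length w ≤ t) (f : Alg) :
    (trunc t f).coeff w = f.coeff w := by
  rw [trunc_coeff, if_pos h]

theorem trunc_coeff_of_not_le {t : ℕ} {w : Wd} (h : ¬ FreeMonoid.length w ≤ t) (f : Alg) :
    (trunc t f).coeff w = 0 := by
  rw [trunc_coeff, if_neg h]

theorem alg_ext {f g : Alg} (h : ∀ w, f.coeff w = g.coeff w) : f = g :=
  MonoidAlgebra.coeff_injective (Finsupp.ext h)

theorem trunc_add (t : ℕ) (f g : Alg) : trunc t (f + g) = trunc t f + trunc t g := by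
  apply alg_ext
  intro w
  rw [MonoidAlgebra.coeff_add, Finsupp.add_apply, trunc_coeff, trunc_coeff, trunc_coeff,
    MonoidAlgebra.coeff_add, Finsupp.add_apply]
  split_ifs <;> simp

theorem trunc_sub (t : ℕ) (f g : Alg) : trunc t (f - g) = trunc t f - trunc t g := by
  apply alg_ext
  intro w
  rw [MonoidAlgebra.coeff_sub, Finsupp.sub_apply, trunc_coeff, trunc_coeff, trunc_coeff,
    MonoidAlgebra.coeff_sub, Finsupp.sub_apply]
  split_ifs <;> simp

theorem trunc_smul (t : ℕ) (a : ℝ) (f : Alg) : trunc t (a • f) = a • trunc t f := by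
  apply alg_ext
  intro w
  rw [MonoidAlgebra.coeff_smul, Finsupp.smul_apply, trunc_coeff, trunc_coeff,
    MonoidAlgebra.coeff_smul, Finsupp.smul_apply]
  split_ifs <;> simp

theorem trunc_support_subset (t : ℕ) (f : Alg) : (trunc t f).coeff.support ⊆ f.coeff.support := by
  intro w hw
  rw [Finsupp.mem_support_iff, trunc_coeff] at hw
  rw [Finsupp.mem_support_iff]
  intro h0
  apply hw
  split_ifs
  · exact h0
  · rfl

theorem l1_trunc_le (t : ℕ) (f : Alg) : l1 (trunc t f) ≤ l1 f := by
  rw [l1_eq_of_subset _ (trunc_support_subset t f)]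
  unfold l1
  apply Finset.sum_le_sum
  intro w _
  rw [trunc_coeff]
  split_ifs
  · exact le_refl _
  · simp

theorem Nn_trunc (t : ℕ) {f : Alg} (hf : Nn f) : Nn (trunc t f) := by
  intro w
  rw [trunc_coeff]
  split_ifs
  · exact hf w
  · exact le_refl _

theorem L2_trunc (t : ℕ) {f g : Alg} {s : ℝ} (hg : Nn g) (h : L2 f g s) :
    L2 (trunc t f) (trunc t g) s := by
  obtain ⟨h0, h1, h2⟩ := h
  refine ⟨h0, ?_, ?_⟩
  · intro w hw
    rw [trunc_coeff] at hw ⊢
    split_ifs at hw ⊢ with h
    · exact h1 w hw
    · rfl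
  · rw [chi_eq_of_subset _ _ (trunc_support_subset t f)]
    refine le_trans (Finset.sum_le_sum ?_) h2
    intro w _
    rw [trunc_coeff, trunc_coeff]
    split_ifs
    · exact le_refl _
    · simp only [ne_eq, OfNat.ofNat_ne_zero, not_false_eq_true, zero_pow, div_zero]
      exact div_nonneg (sq_nonneg _) (hg w)

theorem trunc_zero (t : ℕ) : trunc t 0 = 0 := by
  apply alg_ext
  intro w
  rw [trunc_coeff]
  simp

theorem trunc_sum {ι : Type*} (t : ℕ) (s : Finset ι) (f : ι → Alg) :
    trunc t (∑ i ∈ s, f i) = ∑ i ∈ s, trunc t (f i) := by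
  classical
  induction s using Finset.induction_on with
  | empty => simp [trunc_zero]
  | insert a s ha ih => rw [Finset.sum_insert ha, Finset.sum_insert ha, trunc_add, ih]

theorem mass_trunc_single (t : ℕ) (w : Wd) (a : ℝ) :
    mass (trunc t (MonoidAlgebra.single w a)) = if FreeMonoid.length w ≤ t then a else 0 := by
  classical
  split_ifs with h
  · have e : trunc t (MonoidAlgebra.single w a) = MonoidAlgebra.single w a := by
      apply alg_ext
      intro v
      rw [trunc_coeff]
      split_ifs with hv
      · rfl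
      · rw [MonoidAlgebra.coeff_single, Finsupp.single_apply, if_neg]
        rintro rfl
        exact hv h
    rw [e, mass_single]
  · have e : trunc t (MonoidAlgebra.single w a) = 0 := by
      apply alg_ext
      intro v
      rw [trunc_coeff]
      split_ifs with hv
      · rw [MonoidAlgebra.coeff_single, Finsupp.single_apply, if_neg]
        · simp
        · rintro rfl
          exact h hv
      · simp
    rw [e, mass_zero]

theorem mass_trunc_mul (t : ℕ) (f g : Alg) :
    mass (trunc t (f * g)) = ∑ u ∈ f.coeff.support, ∑ v ∈ g.coeff.support,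
      if FreeMonoid.length u + FreeMonoid.length v ≤ t then f.coeff u * g.coeff v else 0 := by
  rw [mul_eq_sum, trunc_sum, mass_sum]
  refine Finset.sum_congr rfl (fun u _ => ?_)
  rw [trunc_sum, mass_sum]
  refine Finset.sum_congr rfl (fun v _ => ?_)
  rw [mass_trunc_single, FreeMonoid.length_mul]

theorem mass_trunc_comm (t : ℕ) (f g : Alg) :
    mass (trunc t (f * g)) = mass (trunc t (g * f)) := by
  rw [mass_trunc_mul, mass_trunc_mul, Finset.sum_comm]
  refine Finset.sum_congr rfl (fun u _ => Finset.sum_congr rfl (fun v _ => ?_))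
  rw [add_comm, mul_comm]

/-- all rearrangements of the cell have the same truncated mass -/
theorem mass_trunc_cell (t : ℕ) (T Q : Alg) (a b : ℕ) :
    mass (trunc t (T ^ a * Q * T ^ b)) = mass (trunc t (T ^ (a + b) * Q)) := by
  rw [mass_trunc_comm, ← mul_assoc, ← pow_add, add_comm b a]

end

end Vale.P321S
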