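import Vale.Agent.P321S.CellsA

/-! # P321S, module CELLS, part B: coefficients of powers of `uu` -/

namespace Vale.P321S

open scoped BigOperators

noncomputable section

theorem coeff_one_mul' (f : Alg) (w : Wd) : ((1 : Alg) * f).coeff w = f.coeff w := by
  rw [one_mul]

/-- the weight of one letter under `uu` -/
def wl (q : ℝ) (b : Bool) : ℝ := if b then q * (1 - q) else 1 - q

/-- the weight of a word -/
def pw (q : ℝ) (l : List Bool) : ℝ := (l.map (wl q)).prod

theorem coeff_single_of_mul_cons (b c : Bool) (a : ℝ) (f : Alg) (l : List Bool) :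
    ((MonoidAlgebra.single (FreeMonoid.of b) a : Alg) * f).coeff (FreeMonoid.ofList (c :: l))
      = if b = c then a * f.coeff (FreeMonoid.ofList l) else 0 := by
  classical
  split_ifs with h
  · subst h
    have e : FreeMonoid.ofList (b :: l) = FreeMonoid.of b * FreeMonoid.ofList l := rfl
    rw [e]
    rw [MonoidAlgebra.coeff_single_mul_mul]
  · apply MonoidAlgebra.coeff_single_mul_of_forall_mul_ne
    intro d hd
    apply h
    have e := congrArg FreeMonoid.toList hd
    simp only [FreeMonoid.toList_mul, FreeMonoid.toList_of, FreeMonoid.toList_ofList,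
      List.singleton_append, List.cons.injEq] at e
    exact e.1

theorem coeff_single_of_mul_nil (b : Bool) (a : ℝ) (f : Alg) :
    ((MonoidAlgebra.single (FreeMonoid.of b) a : Alg) * f).coeff (FreeMonoid.ofList []) = 0 := by
  apply MonoidAlgebra.coeff_single_mul_of_forall_mul_ne
  intro d hd
  have e := congrArg FreeMonoid.toList hd
  simp at e

theorem uu_mul_cons (q : ℝ) (f : Alg) (c : Bool) (l : List Bool) :
    (uu q * f).coeff (FreeMonoid.ofList (c :: l))
      = q ^ 2 * f.coeff (FreeMonoid.ofList (c :: l)) + wl q c * f.coeff (FreeMonoid.ofList l) := by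
  unfold uu
  rw [add_mul, add_mul, smul_mul_assoc, smul_mul_assoc, smul_mul_assoc, one_mul,
    MonoidAlgebra.coeff_add, MonoidAlgebra.coeff_add, Finsupp.add_apply, Finsupp.add_apply,
    MonoidAlgebra.coeff_smul, MonoidAlgebra.coeff_smul, MonoidAlgebra.coeff_smul,
    Finsupp.smul_apply, Finsupp.smul_apply, Finsupp.smul_apply, coeff_single_of_mul_cons,
    coeff_single_of_mul_cons]
  unfold wl
  cases c <;> simp

theorem uu_mul_nil (q : ℝ) (f : Alg) :
    (uu q * f).coeff (FreeMonoid.ofList []) = q ^ 2 * f.coeff (FreeMonoid.ofList []) := by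
  unfold uu
  rw [add_mul, add_mul, smul_mul_assoc, smul_mul_assoc, smul_mul_assoc, one_mul,
    MonoidAlgebra.coeff_add, MonoidAlgebra.coeff_add, Finsupp.add_apply, Finsupp.add_apply,
    MonoidAlgebra.coeff_smul, MonoidAlgebra.coeff_smul, MonoidAlgebra.coeff_smul,
    Finsupp.smul_apply, Finsupp.smul_apply, Finsupp.smul_apply, coeff_single_of_mul_nil,
    coeff_single_of_mul_nil]
  simp

theorem uu_pow_coeff (q : ℝ) (N : ℕ) (l : List Bool) :
    (uu q ^ N).coeff (FreeMonoid.ofList l)
      = (N.choose l.length : ℝ) * (q ^ 2) ^ (N - l.length) * pw q l := by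
  classical
  induction N generalizing l with
  | zero =>
    rw [pow_zero, MonoidAlgebra.one_def, MonoidAlgebra.coeff_single, Finsupp.single_apply]
    cases l with
    | nil => simp [pw]
    | cons c l =>
      rw [if_neg]
      · simp
      · intro h
        have e := congrArg FreeMonoid.toList h
        simp at e
  | succ N ih =>
    rw [pow_succ']
    cases l with
    | nil =>
      rw [uu_mul_nil, ih]
      simp [pw]
      ring
    | cons c l =>
      rw [uu_mul_cons, ih, ih]
      have e1 : (c :: l).length = l.length + 1 := rfl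
      have e2 : pw q (c :: l) = wl q c * pw q l := by simp [pw]
      rw [e1, e2, Nat.choose_succ_succ, Nat.add_sub_add_right]
      push_cast
      by_cases h : l.length + 1 ≤ N
      · obtain ⟨d, hd⟩ := Nat.exists_eq_add_of_le h
        have e3 : N - (l.length + 1) = d := by omega
        have e4 : N - l.length = d + 1 := by omega
        rw [e3, e4]
        ring
      · have e3 : N.choose (l.length + 1) = 0 := Nat.choose_eq_zero_of_lt (by omega)
        rw [e3]
        push_cast
        ring

theorem wl_nonneg {q : ℝ} (h0 : 0 < q) (h1 : q < 1) (b : Bool) : 0 ≤ wl q b := by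
  unfold wl
  split_ifs
  · exact mul_nonneg h0.le (by linarith)
  · linarith

theorem pw_nonneg {q : ℝ} (h0 : 0 < q) (h1 : q < 1) (l : List Bool) : 0 ≤ pw q l := by
  unfold pw
  apply List.prod_nonneg
  intro a ha
  obtain ⟨b, _, rfl⟩ := List.mem_map.mp ha
  exact wl_nonneg h0 h1 b

/-- the ratio of consecutive powers on short words -/
theorem uu_pow_ratio {q : ℝ} (h0 : 0 < q) (h1 : q < 1) (n : ℕ) (w : Wd)
    (hw : (FreeMonoid.length w : ℝ) ≤ (1 - q ^ 2 / 2) * n) :
    (uu q ^ (n + 1)).coeff w ≤ 2 * (uu q ^ n).coeff w := by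
  obtain ⟨l, rfl⟩ : ∃ l, FreeMonoid.ofList l = w := ⟨FreeMonoid.toList w, by simp⟩
  have hlen : FreeMonoid.length (FreeMonoid.ofList l) = l.length := rfl
  rw [hlen] at hw
  rw [uu_pow_coeff, uu_pow_coeff]
  set t := l.length with ht
  have hq2 : 0 < q ^ 2 := by positivity
  have htn : t ≤ n := by
    have : (t : ℝ) ≤ n := by
      have hn : (0 : ℝ) ≤ n := by positivity
      nlinarith
    exact_mod_cast this
  have hc : (n.choose t : ℝ) * (n + 1) = ((n + 1).choose t : ℝ) * (n + 1 - t) := by
    have := Nat.choose_mul_succ_eq n t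
    have h2 : ((n + 1 - t : ℕ) : ℝ) = (n : ℝ) + 1 - t := by
      rw [Nat.cast_sub (by omega)]; push_cast; ring
    rw [← h2]
    exact_mod_cast this
  have hpos : (0 : ℝ) < n + 1 - t := by
    have : (t : ℝ) ≤ n := by exact_mod_cast htn
    linarith
  have hkey : q ^ 2 * (n + 1 : ℝ) ≤ 2 * (n + 1 - t) := by
    have hq1 : q ^ 2 ≤ 1 := by nlinarith
    nlinarith
  have hC : ((n + 1).choose t : ℝ) * q ^ 2 ≤ 2 * (n.choose t : ℝ) := by
    have hcn : (0 : ℝ) ≤ n.choose t := by positivity
    rw [← mul_le_mul_iff_left₀ hpos]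
    calc ((n + 1).choose t : ℝ) * q ^ 2 * (n + 1 - t)
        = q ^ 2 * (((n + 1).choose t : ℝ) * (n + 1 - t)) := by ring
      _ = (n.choose t : ℝ) * (q ^ 2 * (n + 1)) := by rw [← hc]; ring
      _ ≤ (n.choose t : ℝ) * (2 * (n + 1 - t)) := mul_le_mul_of_nonneg_left hkey hcn
      _ = 2 * (n.choose t : ℝ) * (n + 1 - t) := by ring
  have e : n + 1 - t = (n - t) + 1 := by omega
  rw [e, pow_succ]
  have hp := pw_nonneg h0 h1 l
  have hp2 : 0 ≤ (q ^ 2) ^ (n - t) := by positivity
  calc ((n + 1).choose t : ℝ) * ((q ^ 2) ^ (n - t) * q ^ 2) * pw q l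
      = (((n + 1).choose t : ℝ) * q ^ 2) * ((q ^ 2) ^ (n - t) * pw q l) := by ring
    _ ≤ (2 * (n.choose t : ℝ)) * ((q ^ 2) ^ (n - t) * pw q l) :=
        mul_le_mul_of_nonneg_right hC (mul_nonneg hp2 hp)
    _ = 2 * ((n.choose t : ℝ) * (q ^ 2) ^ (n - t) * pw q l) := by ring

end

end Vale.P321S
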