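import Vale.Agent.P321S.CellsB

/-! # P321S, module CELLS, part C: the letter laws, and the mass of the truncated cells -/

namespace Vale.P321S

open scoped BigOperators

noncomputable section

theorem Pr_single (w : Wd) : Pr (MonoidAlgebra.single w 1 : Alg) :=
  ⟨Nn_single zero_le_one, mass_single _ _⟩

theorem Pr_ab {q : ℝ} (h0 : 0 < q) : Pr (ab q) := by
  refine ⟨?_, ?_⟩
  · exact Nn_add (Nn_smul (by positivity) (Nn_single zero_le_one))
      (Nn_smul (by positivity) (Nn_single zero_le_one))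
  · unfold ab
    rw [mass_add, mass_smul, mass_smul, mass_single, mass_single]
    field_simp
    ring

theorem Pr_uu {q : ℝ} (h0 : 0 < q) (h1 : q < 1) : Pr (uu q) := by
  refine ⟨?_, ?_⟩
  · unfold uu
    refine Nn_add (Nn_add (Nn_smul (by positivity) Nn_one) (Nn_smul ?_ (Nn_single zero_le_one)))
      (Nn_smul (by linarith) (Nn_single zero_le_one))
    exact mul_nonneg h0.le (by linarith)
  · unfold uu
    rw [mass_add, mass_add, mass_smul, mass_smul, mass_smul, mass_single, mass_single, mass_one]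
    ring

theorem Pr_aa {q : ℝ} (h0 : 0 < q) (h1 : q < 1) : Pr (aa q) := by
  unfold aa
  exact Pr_convex Pr_one (Pr_single _) h0.le h1.le

theorem Pr_cellN {q : ℝ} (h0 : 0 < q) (h1 : q < 1) (m : ℕ) (d : Fin 3) : Pr (cellN q m d) :=
  Pr_mul (Pr_mul (Pr_pow (Pr_uu h0 h1) _) (Pr_aa h0 h1)) (Pr_pow (Pr_uu h0 h1) _)

theorem uu_eq {q : ℝ} (h0 : 0 < q) : uu q = (q ^ 2) • (1 : Alg) + (1 - q ^ 2) • ab q := by
  have h : (1 + q) ≠ 0 := by positivity
  unfold uu ab
  rw [smul_add, smul_smul, smul_smul, ← add_assoc]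
  congr 2
  · congr 1
    field_simp
    ring
  · field_simp
    ring

theorem aa_eq (q : ℝ) : aa q = aab q + (1 - q) • xi q := by
  unfold aa aab xi
  rw [smul_sub]
  abel

theorem comm_uu_aab {q : ℝ} (h0 : 0 < q) : Commute (uu q) (aab q) := by
  have h : Commute (ab q) (aab q) := by
    unfold aab
    exact ((Commute.one_right _).smul_right q).add_right ((Commute.refl _).smul_right (1 - q))
  rw [uu_eq h0]
  exact ((Commute.one_left _).smul_left _).add_left (h.smul_left _)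

theorem Le_q_aa {q : ℝ} (h1 : q < 1) : Le (q • (1 : Alg)) (aa q) := by
  rw [Le_iff_Nn]
  have e : aa q - q • (1 : Alg) = (1 - q) • MonoidAlgebra.single (FreeMonoid.of true) 1 := by
    unfold aa; abel
  rw [e]
  exact Nn_smul (by linarith) (Nn_single zero_le_one)

theorem Le_aa_uu {q : ℝ} (h0 : 0 < q) (h1 : q < 1) : Le (aa q) ((1 / q) • uu q) := by
  rw [Le_iff_Nn]
  have e : (1 / q) • uu q - aa q
      = ((1 - q) / q) • MonoidAlgebra.single (FreeMonoid.of false) 1 := by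
    unfold aa uu
    rw [smul_add, smul_add, smul_smul, smul_smul, smul_smul]
    have e1 : 1 / q * q ^ 2 = q := by field_simp
    have e2 : 1 / q * (q * (1 - q)) = 1 - q := by field_simp
    have e3 : 1 / q * (1 - q) = (1 - q) / q := by field_simp
    rw [e1, e2, e3]
    abel
  rw [e]
  exact Nn_smul (div_nonneg (by linarith) h0.le) (Nn_single zero_le_one)

theorem cell_exp {m : ℕ} (hm : 1 ≤ m) (d : Fin 3) : (m + d.val - 1) + (m + 1 - d.val) = 2 * m := by
  have := d.isLt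
  omega

theorem Le_cell_lower {q : ℝ} (h0 : 0 < q) (h1 : q < 1) {m : ℕ} (hm : 1 ≤ m) (d : Fin 3) :
    Le (q • uu q ^ (2 * m)) (cellN q m d) := by
  have hu := (Pr_uu h0 h1).1
  have e : q • uu q ^ (2 * m)
      = uu q ^ (m + d.val - 1) * (q • (1 : Alg)) * uu q ^ (m + 1 - d.val) := by
    rw [mul_smul_comm, smul_mul_assoc, mul_one, ← pow_add, cell_exp hm d]
  rw [e]
  unfold cellN
  refine Le_mul (Nn_mul (Nn_pow hu _) (Nn_smul h0.le Nn_one)) (Nn_pow hu _) ?_ (Le_refl _)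
  exact Le_mul (Nn_pow hu _) (Nn_smul h0.le Nn_one) (Le_refl _) (Le_q_aa h1)

theorem Le_cell_upper {q : ℝ} (h0 : 0 < q) (h1 : q < 1) {m : ℕ} (hm : 1 ≤ m) (d : Fin 3) :
    Le (cellN q m d) ((1 / q) • uu q ^ (2 * m + 1)) := by
  have hu := (Pr_uu h0 h1).1
  have ha := (Pr_aa h0 h1).1
  have e : (1 / q) • uu q ^ (2 * m + 1)
      = uu q ^ (m + d.val - 1) * ((1 / q) • uu q) * uu q ^ (m + 1 - d.val) := by
    rw [mul_smul_comm, smul_mul_assoc, ← pow_succ, ← pow_add]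
    congr 2
    have := cell_exp hm d
    omega
  rw [e]
  unfold cellN
  refine Le_mul (Nn_mul (Nn_pow hu _) ha) (Nn_pow hu _) ?_ (Le_refl _)
  exact Le_mul (Nn_pow hu _) ha (Le_refl _) (Le_aa_uu h0 h1)

/-! ### the length cut -/

/-- maximal length kept -/
def tmx (q : ℝ) (m : ℕ) : ℕ := ⌊(1 - q ^ 2 / 2) * (2 * m : ℕ)⌋₊

theorem tmx_nonneg {q : ℝ} (h0 : 0 < q) (h1 : q < 1) (m : ℕ) :
    0 ≤ (1 - q ^ 2 / 2) * ((2 * m : ℕ) : ℝ) := by
  have : q ^ 2 ≤ 1 := by nlinarith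
  have h : (0 : ℝ) ≤ ((2 * m : ℕ) : ℝ) := by positivity
  exact mul_nonneg (by linarith) h

theorem le_of_le_tmx {q : ℝ} (h0 : 0 < q) (h1 : q < 1) {m k : ℕ} (h : k ≤ tmx q m) :
    (k : ℝ) ≤ (1 - q ^ 2 / 2) * ((2 * m : ℕ) : ℝ) :=
  (Nat.le_floor_iff (tmx_nonneg h0 h1 m)).mp h

theorem lt_tmx_succ {q : ℝ} (m : ℕ) :
    (1 - q ^ 2 / 2) * ((2 * m : ℕ) : ℝ) < (tmx q m : ℝ) + 1 := Nat.lt_floor_add_one _

theorem trunc_pow_ratio {q : ℝ} (h0 : 0 < q) (h1 : q < 1) (m : ℕ) (w : Wd)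
    (hw : FreeMonoid.length w ≤ tmx q m) :
    (uu q ^ (2 * m + 1)).coeff w ≤ 2 * (uu q ^ (2 * m)).coeff w :=
  uu_pow_ratio h0 h1 (2 * m) w (le_of_le_tmx h0 h1 hw)

/-- comparison of truncated cells -/
theorem trunc_cell_le {q : ℝ} (h0 : 0 < q) (h1 : q < 1) {m : ℕ} (hm : 1 ≤ m) (d d' : Fin 3) :
    Le (trunc (tmx q m) (cellN q m d)) ((2 / q ^ 2) • trunc (tmx q m) (cellN q m d')) := by
  intro w
  rw [MonoidAlgebra.coeff_smul, Finsupp.smul_apply, smul_eq_mul, trunc_coeff, trunc_coeff]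
  split_ifs with hw
  · have a1 := Le_cell_upper h0 h1 hm d w
    have a2 := Le_cell_lower h0 h1 hm d' w
    have a3 := trunc_pow_ratio h0 h1 m w hw
    rw [MonoidAlgebra.coeff_smul, Finsupp.smul_apply, smul_eq_mul] at a1 a2
    have hq : 0 < q ^ 2 := by positivity
    calc (cellN q m d).coeff w ≤ 1 / q * (uu q ^ (2 * m + 1)).coeff w := a1
      _ ≤ 1 / q * (2 * (uu q ^ (2 * m)).coeff w) :=
          mul_le_mul_of_nonneg_left a3 (by positivity)
      _ = 2 / q ^ 2 * (q * (uu q ^ (2 * m)).coeff w) := by field_simp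
      _ ≤ 2 / q ^ 2 * (cellN q m d').coeff w := mul_le_mul_of_nonneg_left a2 (by positivity)
  · simp

theorem trunc_uu_le {q : ℝ} (h0 : 0 < q) (h1 : q < 1) {m : ℕ} (hm : 1 ≤ m) (d : Fin 3) :
    Le (trunc (tmx q m) (uu q ^ (2 * m + 1))) ((2 / q) • trunc (tmx q m) (cellN q m d)) := by
  intro w
  rw [MonoidAlgebra.coeff_smul, Finsupp.smul_apply, smul_eq_mul, trunc_coeff, trunc_coeff]
  split_ifs with hw
  · have a2 := Le_cell_lower h0 h1 hm d w
    have a3 := trunc_pow_ratio h0 h1 m w hw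
    rw [MonoidAlgebra.coeff_smul, Finsupp.smul_apply, smul_eq_mul] at a2
    calc (uu q ^ (2 * m + 1)).coeff w ≤ 2 * (uu q ^ (2 * m)).coeff w := a3
      _ = 2 / q * (q * (uu q ^ (2 * m)).coeff w) := by field_simp
      _ ≤ 2 / q * (cellN q m d).coeff w := mul_le_mul_of_nonneg_left a2 (by positivity)
  · simp

/-! ### the mass of the truncated cells -/

/-- common mass of the truncated cells -/
def tmass (q : ℝ) (m : ℕ) : ℝ := mass (trunc (tmx q m) (uu q ^ (2 * m) * aa q))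

theorem mass_trunc_cellN {q : ℝ} {m : ℕ} (hm : 1 ≤ m) (d : Fin 3) :
    mass (trunc (tmx q m) (cellN q m d)) = tmass q m := by
  unfold cellN tmass
  rw [mass_trunc_cell, cell_exp hm d]

theorem tmass_le_one {q : ℝ} (h0 : 0 < q) (h1 : q < 1) (m : ℕ) : tmass q m ≤ 1 := by
  have hP : Pr (uu q ^ (2 * m) * aa q) := Pr_mul (Pr_pow (Pr_uu h0 h1) _) (Pr_aa h0 h1)
  unfold tmass
  rw [← l1_of_Nn (Nn_trunc _ hP.1), ← Pr_l1 hP]
  exact l1_trunc_le _ _

/-- evaluation of the length generating function -/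
def lz (z : ℝ) : Alg →ₐ[ℝ] ℝ := MonoidAlgebra.lift ℝ ℝ Wd (FreeMonoid.lift (fun _ => z))

theorem lz_single (z : ℝ) (w : Wd) (a : ℝ) :
    lz z (MonoidAlgebra.single w a) = a * z ^ (FreeMonoid.length w) := by
  unfold lz
  rw [MonoidAlgebra.lift_single, smul_eq_mul]
  congr 1
  obtain ⟨l, rfl⟩ : ∃ l, FreeMonoid.ofList l = w := ⟨FreeMonoid.toList w, by simp⟩
  rw [FreeMonoid.lift_ofList]
  have : FreeMonoid.length (FreeMonoid.ofList l) = l.length := rfl
  rw [this]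
  simp

theorem alg_eq_sum (f : Alg) :
    f = ∑ w ∈ f.coeff.support, MonoidAlgebra.single w (f.coeff w) := by
  classical
  apply alg_ext
  intro v
  rw [MonoidAlgebra.coeff_sum, Finsupp.finsetSum_apply]
  simp_rw [MonoidAlgebra.coeff_single, Finsupp.single_apply]
  rw [Finset.sum_ite_eq']
  split_ifs with h
  · rfl
  · exact Finsupp.notMem_support_iff.mp h

theorem lz_apply (z : ℝ) (f : Alg) :
    lz z f = ∑ w ∈ f.coeff.support, f.coeff w * z ^ (FreeMonoid.length w) := by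
  conv_lhs => rw [alg_eq_sum f]
  rw [map_sum]
  exact Finset.sum_congr rfl (fun w _ => lz_single z w _)

/-- Chernoff (Markov) bound for the mass cut off -/
theorem chernoff {f : Alg} (hf : Nn f) (t : ℕ) {z : ℝ} (hz : 1 ≤ z) :
    (mass f - mass (trunc t f)) * z ^ (t + 1) ≤ lz z f := by
  rw [mass_eq_of_subset _ (trunc_support_subset t f), mass, ← Finset.sum_sub_distrib,
    Finset.sum_mul, lz_apply]
  apply Finset.sum_le_sum
  intro w _
  rw [trunc_coeff]
  split_ifs with h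
  · rw [sub_self, zero_mul]
    exact mul_nonneg (hf w) (by positivity)
  · rw [sub_zero]
    apply mul_le_mul_of_nonneg_left _ (hf w)
    exact pow_le_pow_right₀ hz (by omega)

theorem lz_uu (q z : ℝ) : lz z (uu q) = q ^ 2 + (1 - q ^ 2) * z := by
  unfold uu
  rw [map_add, map_add, map_smul, map_smul, map_smul, map_one, lz_single, lz_single,
    FreeMonoid.length_of, FreeMonoid.length_of]
  simp
  ring

theorem lz_aa (q z : ℝ) : lz z (aa q) = q + (1 - q) * z := by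
  unfold aa
  rw [map_add, map_smul, map_smul, map_one, lz_single, FreeMonoid.length_of]
  simp

theorem one_sub_tmass {q : ℝ} (h0 : 0 < q) (h1 : q < 1) (m : ℕ) :
    1 - tmass q m ≤ Real.exp 1 * Real.exp (-(q ^ 4 / 8 * m)) := by
  have hP : Pr (uu q ^ (2 * m) * aa q) := Pr_mul (Pr_pow (Pr_uu h0 h1) _) (Pr_aa h0 h1)
  set u : ℝ := q ^ 2 / 4 with hu
  have hq2 : 0 < q ^ 2 := by positivity
  have hq21 : q ^ 2 < 1 := by nlinarith
  have hu0 : 0 < u := by positivity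
  have hu1 : u ≤ 1 := by rw [hu]; linarith
  set z := Real.exp u with hz
  have hz1 : 1 ≤ z := Real.one_le_exp hu0.le
  have h := chernoff hP.1 (tmx q m) hz1
  rw [hP.2, map_mul, map_pow, lz_uu, lz_aa] at h
  change (1 - tmass q m) * z ^ (tmx q m + 1) ≤ _ at h
  have hb : z ≤ 1 + u + u ^ 2 := by
    have := Real.abs_exp_sub_one_sub_id_le (x := u) (by rw [abs_of_pos hu0]; exact hu1)
    have := (abs_le.mp this).2
    rw [hz]; linarith
  have hA : q ^ 2 + (1 - q ^ 2) * z ≤ Real.exp ((1 - q ^ 2) * (u + u ^ 2)) := by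
    have h2 : q ^ 2 + (1 - q ^ 2) * z ≤ (1 - q ^ 2) * (u + u ^ 2) + 1 := by
      have := mul_le_mul_of_nonneg_left hb (by linarith : (0 : ℝ) ≤ 1 - q ^ 2)
      nlinarith
    exact h2.trans (Real.add_one_le_exp _)
  have hA0 : 0 ≤ q ^ 2 + (1 - q ^ 2) * z := by
    have := mul_nonneg (by linarith : (0 : ℝ) ≤ 1 - q ^ 2) (by linarith : (0 : ℝ) ≤ z)
    linarith
  have hB : q + (1 - q) * z ≤ Real.exp 1 := by
    have h3 : q + (1 - q) * z ≤ z := by nlinarith
    exact h3.trans (Real.exp_le_exp.mpr hu1)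
  have hB0 : 0 ≤ q + (1 - q) * z := by
    have := mul_nonneg (by linarith : (0 : ℝ) ≤ 1 - q) (by linarith : (0 : ℝ) ≤ z)
    linarith
  have hC : (q ^ 2 + (1 - q ^ 2) * z) ^ (2 * m) * (q + (1 - q) * z)
      ≤ Real.exp (((2 * m : ℕ) : ℝ) * ((1 - q ^ 2) * (u + u ^ 2))) * Real.exp 1 := by
    apply mul_le_mul _ hB hB0 (Real.exp_pos _).le
    rw [Real.exp_nat_mul]
    exact pow_le_pow_left₀ hA0 hA _
  have hD : Real.exp (u * ((1 - q ^ 2 / 2) * ((2 * m : ℕ) : ℝ))) ≤ z ^ (tmx q m + 1) := by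
    rw [hz, ← Real.exp_nat_mul]
    apply Real.exp_le_exp.mpr
    rw [mul_comm]
    apply mul_le_mul_of_nonneg_right _ hu0.le
    push_cast
    have := lt_tmx_succ (q := q) m
    push_cast at this
    exact this.le
  have hM : 0 ≤ 1 - tmass q m := by linarith [tmass_le_one h0 h1 m]
  have hE : (1 - tmass q m) * Real.exp (u * ((1 - q ^ 2 / 2) * ((2 * m : ℕ) : ℝ)))
      ≤ Real.exp (((2 * m : ℕ) : ℝ) * ((1 - q ^ 2) * (u + u ^ 2))) * Real.exp 1 :=
    (mul_le_mul_of_nonneg_left hD hM).trans (h.trans hC)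
  have hF : Real.exp (((2 * m : ℕ) : ℝ) * ((1 - q ^ 2) * (u + u ^ 2)))
      ≤ Real.exp (-(q ^ 4 / 8 * m))
        * Real.exp (u * ((1 - q ^ 2 / 2) * ((2 * m : ℕ) : ℝ))) := by
    rw [← Real.exp_add]
    apply Real.exp_le_exp.mpr
    rw [hu]
    push_cast
    have hm0 : (0 : ℝ) ≤ m := by positivity
    have : 2 * (m : ℝ) * ((1 - q ^ 2) * (q ^ 2 / 4 + (q ^ 2 / 4) ^ 2))
        - (-(q ^ 4 / 8 * m) + q ^ 2 / 4 * ((1 - q ^ 2 / 2) * (2 * m)))
        = - (m * (q ^ 6 / 8)) := by ring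
    have h6 : 0 ≤ (m : ℝ) * (q ^ 6 / 8) := by positivity
    linarith
  have hpos := Real.exp_pos (u * ((1 - q ^ 2 / 2) * ((2 * m : ℕ) : ℝ)))
  rw [← mul_le_mul_iff_left₀ hpos]
  calc (1 - tmass q m) * Real.exp (u * ((1 - q ^ 2 / 2) * ((2 * m : ℕ) : ℝ)))
      ≤ Real.exp (((2 * m : ℕ) : ℝ) * ((1 - q ^ 2) * (u + u ^ 2))) * Real.exp 1 := hE
    _ ≤ (Real.exp (-(q ^ 4 / 8 * m))
        * Real.exp (u * ((1 - q ^ 2 / 2) * ((2 * m : ℕ) : ℝ)))) * Real.exp 1 :=
        mul_le_mul_of_nonneg_right hF (Real.exp_pos _).le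
    _ = _ := by ring

end

end Vale.P321S
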