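import Vale.Agent.P321S.CellsC

/-! # P321S, module CELLS, part D: differences of cells and the application of (SMOOTH) -/

namespace Vale.P321S

open scoped BigOperators

noncomputable section

theorem cellN_zero (q : ℝ) (n : ℕ) :
    cellN q (n + 1) 0 = uu q ^ n * aa q * uu q ^ (n + 2) := by
  unfold cellN
  rfl

theorem cellN_one (q : ℝ) (n : ℕ) :
    cellN q (n + 1) 1 = uu q ^ (n + 1) * aa q * uu q ^ (n + 1) := by
  unfold cellN
  rfl

theorem cellN_two (q : ℝ) (n : ℕ) :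
    cellN q (n + 1) 2 = uu q ^ (n + 2) * aa q * uu q ^ n := by
  unfold cellN
  rfl

theorem dd_one (T Q : Alg) : dd T [1] Q = T * Q - Q * T := by
  simp [dd]

theorem dd_two (T Q : Alg) : dd T [1, 1] Q = T * (T * Q - Q * T) - (T * Q - Q * T) * T := by
  simp [dd]

theorem commute_kill1 {T A : Alg} (h : Commute T A) (n : ℕ) :
    T ^ (n + 2) * A * T ^ n - T ^ n * A * T ^ (n + 2) = 0 := by
  have h1 : T ^ (n + 2) * A = A * T ^ (n + 2) := (h.pow_left _).eq
  have h2 : T ^ n * A = A * T ^ n := (h.pow_left _).eq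
  rw [h1, h2, mul_assoc, mul_assoc, ← pow_add, ← pow_add, add_comm n (n + 2), sub_self]

theorem commute_kill2 {T A : Alg} (h : Commute T A) (n : ℕ) :
    T ^ (n + 2) * A * T ^ n + T ^ n * A * T ^ (n + 2)
      - (2 : ℝ) • (T ^ (n + 1) * A * T ^ (n + 1)) = 0 := by
  have h1 : T ^ (n + 2) * A = A * T ^ (n + 2) := (h.pow_left _).eq
  have h2 : T ^ n * A = A * T ^ n := (h.pow_left _).eq
  have h3 : T ^ (n + 1) * A = A * T ^ (n + 1) := (h.pow_left _).eq
  rw [h1, h2, h3, mul_assoc, mul_assoc, mul_assoc, ← pow_add, ← pow_add, ← pow_add,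
    add_comm n (n + 2)]
  have e : n + 1 + (n + 1) = n + 2 + n := by omega
  rw [e, two_smul, sub_self]

theorem diff_alg1 (T X : Alg) (n : ℕ) :
    T ^ (n + 2) * X * T ^ n - T ^ n * X * T ^ (n + 2)
      = T ^ (n + 1) * dd T [1] X * T ^ n + T ^ n * dd T [1] X * T ^ (n + 1) := by
  rw [dd_one]
  have a1 : T ^ (n + 1) = T ^ n * T := pow_succ _ _
  have a2 : T ^ (n + 1) = T * T ^ n := pow_succ' _ _
  have a3 : T ^ (n + 2) = T ^ n * T * T := by rw [pow_succ, a1]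
  have a4 : T ^ (n + 2) = T * (T * T ^ n) := by rw [pow_succ', a2]
  calc T ^ (n + 2) * X * T ^ n - T ^ n * X * T ^ (n + 2)
      = T ^ n * T * T * X * T ^ n - T ^ n * X * (T * (T * T ^ n)) := by rw [← a3, ← a4]
    _ = (T ^ n * T) * (T * X - X * T) * T ^ n + T ^ n * (T * X - X * T) * (T * T ^ n) := by
        noncomm_ring
    _ = _ := by rw [← a1, ← a2]

theorem diff_alg2 (T X : Alg) (n : ℕ) :
    T ^ (n + 2) * X * T ^ n + T ^ n * X * T ^ (n + 2)
      - (2 : ℝ) • (T ^ (n + 1) * X * T ^ (n + 1))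
      = T ^ n * dd T [1, 1] X * T ^ n := by
  rw [dd_two, two_smul]
  have a1 : T ^ (n + 1) = T ^ n * T := pow_succ _ _
  have a2 : T ^ (n + 1) = T * T ^ n := pow_succ' _ _
  have a3 : T ^ (n + 2) = T ^ n * T * T := by rw [pow_succ, a1]
  have a4 : T ^ (n + 2) = T * (T * T ^ n) := by rw [pow_succ', a2]
  calc T ^ (n + 2) * X * T ^ n + T ^ n * X * T ^ (n + 2)
        - (T ^ (n + 1) * X * T ^ (n + 1) + T ^ (n + 1) * X * T ^ (n + 1))
      = T ^ n * T * T * X * T ^ n + T ^ n * X * (T * (T * T ^ n))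
        - (T ^ n * T * X * (T * T ^ n) + T ^ n * T * X * (T * T ^ n)) := by
        rw [← a3, ← a4, ← a2, ← a1]
    _ = T ^ n * (T * (T * X - X * T) - (T * X - X * T) * T) * T ^ n := by
        noncomm_ring

theorem cell_diff1 {q : ℝ} (h0 : 0 < q) (n : ℕ) :
    cellN q (n + 1) 2 - cellN q (n + 1) 0
      = (1 - q) • (uu q ^ (n + 1) * dd (uu q) (List.replicate 1 1) (xi q) * uu q ^ n
          + uu q ^ n * dd (uu q) (List.replicate 1 1) (xi q) * uu q ^ (n + 1)) := by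
  have e : List.replicate 1 1 = [1] := rfl
  rw [e, ← diff_alg1, cellN_zero, cellN_two, aa_eq]
  have h := commute_kill1 (comm_uu_aab h0) n
  have a1 : uu q ^ (n + 2) * (aab q + (1 - q) • xi q) * uu q ^ n
      = uu q ^ (n + 2) * aab q * uu q ^ n
        + (1 - q) • (uu q ^ (n + 2) * xi q * uu q ^ n) := by
    rw [mul_add, add_mul, mul_smul_comm, smul_mul_assoc]
  have a2 : uu q ^ n * (aab q + (1 - q) • xi q) * uu q ^ (n + 2)
      = uu q ^ n * aab q * uu q ^ (n + 2)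
        + (1 - q) • (uu q ^ n * xi q * uu q ^ (n + 2)) := by
    rw [mul_add, add_mul, mul_smul_comm, smul_mul_assoc]
  rw [a1, a2, smul_sub]
  have h' : uu q ^ (n + 2) * aab q * uu q ^ n = uu q ^ n * aab q * uu q ^ (n + 2) :=
    sub_eq_zero.mp h
  rw [h']
  abel

theorem cell_diff2 {q : ℝ} (h0 : 0 < q) (n : ℕ) :
    cellN q (n + 1) 2 + cellN q (n + 1) 0 - (2 : ℝ) • cellN q (n + 1) 1
      = (1 - q) • (uu q ^ n * dd (uu q) (List.replicate 2 1) (xi q) * uu q ^ n) := by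
  have e : List.replicate 2 1 = [1, 1] := rfl
  rw [e, ← diff_alg2, cellN_zero, cellN_two, cellN_one, aa_eq]
  have h := commute_kill2 (comm_uu_aab h0) n
  have a1 : uu q ^ (n + 2) * (aab q + (1 - q) • xi q) * uu q ^ n
      = uu q ^ (n + 2) * aab q * uu q ^ n
        + (1 - q) • (uu q ^ (n + 2) * xi q * uu q ^ n) := by
    rw [mul_add, add_mul, mul_smul_comm, smul_mul_assoc]
  have a2 : uu q ^ n * (aab q + (1 - q) • xi q) * uu q ^ (n + 2)
      = uu q ^ n * aab q * uu q ^ (n + 2)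
        + (1 - q) • (uu q ^ n * xi q * uu q ^ (n + 2)) := by
    rw [mul_add, add_mul, mul_smul_comm, smul_mul_assoc]
  have a3 : uu q ^ (n + 1) * (aab q + (1 - q) • xi q) * uu q ^ (n + 1)
      = uu q ^ (n + 1) * aab q * uu q ^ (n + 1)
        + (1 - q) • (uu q ^ (n + 1) * xi q * uu q ^ (n + 1)) := by
    rw [mul_add, add_mul, mul_smul_comm, smul_mul_assoc]
  rw [a1, a2, a3, smul_sub, smul_add, smul_comm (1 - q) (2 : ℝ), smul_add]
  have h' := h
  set U := uu q ^ (n + 2) * aab q * uu q ^ n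
  set V := uu q ^ n * aab q * uu q ^ (n + 2)
  set W := uu q ^ (n + 1) * aab q * uu q ^ (n + 1)
  set U' := (1 - q) • (uu q ^ (n + 2) * xi q * uu q ^ n)
  set V' := (1 - q) • (uu q ^ n * xi q * uu q ^ (n + 2))
  set W' := (1 - q) • (uu q ^ (n + 1) * xi q * uu q ^ (n + 1))
  calc U + U' + (V + V') - ((2 : ℝ) • W + (2 : ℝ) • W')
      = (U + V - (2 : ℝ) • W) + (U' + V' - (2 : ℝ) • W') := by abel
    _ = _ := by rw [h', zero_add]

/-! ### the feature `xi` -/

theorem mass_xi {q : ℝ} (h0 : 0 < q) : mass (xi q) = 0 := by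
  unfold xi
  rw [mass_sub, (Pr_ab h0).2, mass_single, sub_self]

theorem l1_xi {q : ℝ} (h0 : 0 < q) : l1 (xi q) ≤ 2 := by
  unfold xi
  refine (l1_sub _ _).trans ?_
  rw [Pr_l1 (Pr_ab h0), Pr_l1 (Pr_single _)]
  norm_num

/-- the constant in the `L2` bound of `xi` -/
def rxi (q : ℝ) : ℝ := Real.sqrt (1 / (q * (1 - q))) + Real.sqrt (1 / (1 - q ^ 2))

theorem L2_xi {q : ℝ} (h0 : 0 < q) (h1 : q < 1) : L2 (xi q) (uu q) (rxi q) := by
  have hu := (Pr_uu h0 h1).1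
  have hq1 : 0 < 1 - q := by linarith
  have hq2 : 0 < 1 - q ^ 2 := by nlinarith
  have hqq : 0 < q * (1 - q) := mul_pos h0 hq1
  have a1 : Le (MonoidAlgebra.single (FreeMonoid.of true) 1) ((1 / (q * (1 - q))) • uu q) := by
    rw [Le_iff_Nn]
    have e : (1 / (q * (1 - q))) • uu q - MonoidAlgebra.single (FreeMonoid.of true) 1
        = (q / (1 - q)) • (1 : Alg)
          + (1 / q) • MonoidAlgebra.single (FreeMonoid.of false) 1 := by
      unfold uu
      rw [smul_add, smul_add, smul_smul, smul_smul, smul_smul]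
      have e1 : 1 / (q * (1 - q)) * q ^ 2 = q / (1 - q) := by field_simp
      have e2 : 1 / (q * (1 - q)) * (q * (1 - q)) = 1 := by field_simp
      have e3 : 1 / (q * (1 - q)) * (1 - q) = 1 / q := by field_simp
      rw [e1, e2, e3, one_smul]
      abel
    rw [e]
    exact Nn_add (Nn_smul (by positivity) Nn_one) (Nn_smul (by positivity)
      (Nn_single zero_le_one))
  have a2 : Le (ab q) ((1 / (1 - q ^ 2)) • uu q) := by
    rw [Le_iff_Nn]
    have e : (1 / (1 - q ^ 2)) • uu q - ab q = (q ^ 2 / (1 - q ^ 2)) • (1 : Alg) := by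
      rw [uu_eq h0, smul_add, smul_smul, smul_smul]
      have e1 : 1 / (1 - q ^ 2) * q ^ 2 = q ^ 2 / (1 - q ^ 2) := by field_simp
      have e2 : 1 / (1 - q ^ 2) * (1 - q ^ 2) = 1 := by field_simp
      rw [e1, e2, one_smul]
      abel
    rw [e]
    exact Nn_smul (by positivity) Nn_one
  have b1 := L2_of_le (by positivity) (Pr_single _) hu a1
  have b2 := L2_neg (L2_of_le (by positivity) (Pr_ab h0) hu a2)
  have := L2_add hu b1 b2
  unfold xi rxi
  rw [sub_eq_add_neg]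
  exact this

theorem rxi_nonneg (q : ℝ) : 0 ≤ rxi q := by unfold rxi; positivity

theorem l1_uu_sub {q : ℝ} (h0 : 0 < q) (h1 : q < 1) :
    l1 (uu q ^ 1 - uu q ^ (1 + 1)) ≤ 2 * (1 - q ^ 2) := by
  have hq2 : 0 < 1 - q ^ 2 := by nlinarith
  have e : uu q ^ 1 - uu q ^ (1 + 1) = uu q * ((1 - q ^ 2) • ((1 : Alg) - ab q)) := by
    have e1 : (1 : Alg) - uu q = (1 - q ^ 2) • ((1 : Alg) - ab q) := by
      rw [uu_eq h0, smul_sub, sub_smul, sub_smul, one_smul, one_smul]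
      abel
    rw [← e1, mul_sub, mul_one, pow_one, pow_succ, pow_one]
  rw [e]
  refine (l1_pr_mul (Pr_uu h0 h1)).trans ?_
  rw [l1_smul, abs_of_pos hq2]
  have : l1 ((1 : Alg) - ab q) ≤ 2 := by
    refine (l1_sub _ _).trans ?_
    rw [l1_one, Pr_l1 (Pr_ab h0)]
    norm_num
  nlinarith

theorem smooth_apply (hS : StSmooth) (hOV : StOV) {q : ℝ} (h0 : 0 < q) (h1 : q < 1) {K : ℕ}
    (hK : 1 ≤ K) (j : ℕ) :
    ∃ C₂ : ℝ, 1 ≤ C₂ ∧ ∀ n n' m w N : ℕ, m ≤ n + 1 → m ≤ n' + 1 → 1 ≤ w →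
      C₂ * (w : ℝ) ^ 2 ≤ m → N = n + n' + (j + 1) →
      ∃ F Res : Alg, uu q ^ n * dd (uu q) (List.replicate j 1) (xi q) * uu q ^ n' = F + Res ∧
        L2 F (uu q ^ N) (C₂ / ((w : ℝ) ^ j * Real.sqrt w)) ∧
        l1 Res ≤ C₂ * (C₂ * w / Real.sqrt m) ^ K := by
  obtain ⟨Cs, hCs1, hCs⟩ := hS K j hK
  have hq21 : q ^ 2 ≤ 1 := by nlinarith
  obtain ⟨Co, hCo2, hCo⟩ := hOV (q ^ 2) (by positivity) hq21
  have hT := Pr_uu h0 h1
  have hmix : Mix (uu q) 1 Co := hCo (uu q) 1 hT le_rfl (l1_uu_sub h0 h1)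
  have hKr : (1 : ℝ) ≤ K := by exact_mod_cast hK
  have hr := rxi_nonneg q
  have hC0 : 0 ≤ Cs := by linarith
  have hCo0 : 0 ≤ Co := by linarith
  have hs8 : 0 ≤ Real.sqrt (8 * K) := Real.sqrt_nonneg _
  set C₂ : ℝ := 8 * K * (j + 1) + 16 * K + 2 * Cs + Cs * Co * Real.sqrt (8 * K)
    + Cs * rxi q with hC₂
  have p1 : 0 ≤ 8 * (K : ℝ) * (j + 1) := by positivity
  have p2 : 0 ≤ 16 * (K : ℝ) := by positivity
  have p3 : 0 ≤ Cs * Co * Real.sqrt (8 * K) := by positivity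
  have p4 : 0 ≤ Cs * rxi q := by positivity
  refine ⟨C₂, by linarith, ?_⟩
  intro n n' m w N hn hn' hw hCw hN
  have hwr : (1 : ℝ) ≤ w := by exact_mod_cast hw
  have hww : (w : ℝ) ≤ (w : ℝ) ^ 2 := by nlinarith
  have hm16 : 16 * (K : ℝ) + 8 * K * (j + 1) * w ≤ m := by
    have hb : (16 * (K : ℝ) + 8 * K * (j + 1)) * (w : ℝ) ^ 2 ≤ C₂ * (w : ℝ) ^ 2 := by
      apply mul_le_mul_of_nonneg_right _ (by positivity)
      linarith
    have hb2 : 16 * (K : ℝ) + 8 * K * (j + 1) * w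
        ≤ (16 * (K : ℝ) + 8 * K * (j + 1)) * (w : ℝ) ^ 2 := by
      have c1 : 16 * (K : ℝ) ≤ 16 * (K : ℝ) * (w : ℝ) ^ 2 := by nlinarith
      have c2 : 8 * (K : ℝ) * (j + 1) * w ≤ 8 * K * (j + 1) * (w : ℝ) ^ 2 :=
        mul_le_mul_of_nonneg_left hww p1
      linarith
    linarith
  have hm16n : 16 * K + 8 * (K * ((j + 1) * w)) ≤ m := by
    have : ((16 * K + 8 * (K * ((j + 1) * w)) : ℕ) : ℝ) ≤ m := by
      push_cast
      linarith
    exact_mod_cast this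
  set M₀ := (m - 1) / (2 * K) with hM₀
  have hKM : 2 * (K * M₀) ≤ m - 1 := by
    have := Nat.div_mul_le_self (m - 1) (2 * K)
    calc 2 * (K * M₀) = (m - 1) / (2 * K) * (2 * K) := by rw [hM₀]; ring
      _ ≤ m - 1 := this
  have hMlow : m ≤ 8 * (K * M₀) := by
    have h3 : m - 1 < 2 * K * (M₀ + 1) := by
      rw [hM₀]
      exact Nat.lt_mul_div_succ _ (by omega)
    have h4 : 2 * K * (M₀ + 1) = 2 * (K * M₀) + 2 * K := by ring
    have h5 : 16 * K ≤ m := by omega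
    omega
  have hM1 : 1 ≤ M₀ := by
    rcases Nat.eq_zero_or_pos M₀ with hcon | hcon
    · rw [hcon] at hMlow
      omega
    · exact hcon
  obtain ⟨c₀, hc₀⟩ : ∃ c₀, n = K * M₀ + c₀ := Nat.exists_eq_add_of_le (by omega)
  have hc : K * ((j + 1) * w) ≤ c₀ := by omega
  obtain ⟨G, Res, hG1, hG2, hG3, hG4⟩ := hCs (uu q) (xi q) w c₀ (K * M₀) n' M₀ (rxi q)
    (Co * Real.sqrt (((1 : ℕ) : ℝ) / (M₀ : ℝ))) hT (mass_xi h0) (L2_xi h0 h1) hw hc le_rfl
    (by omega) (hmix M₀ hM1)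
  refine ⟨uu q ^ (K * M₀) * G * uu q ^ n', Res, ?_, ?_, ?_⟩
  · rw [hc₀, hG1]
  · have b := L2_mul (Nn_mul (Nn_pow hT.1 _) (Nn_pow hT.1 _)) (Nn_pow hT.1 _)
      (L2_mul (Nn_pow hT.1 _) (Nn_pow hT.1 _) (L2_self (Pr_pow hT (K * M₀))) hG3)
      (L2_self (Pr_pow hT n'))
    rw [← pow_add, ← pow_add, one_mul, mul_one] at b
    have e : K * M₀ + (c₀ + j + 1) + n' = N := by omega
    rw [e] at b
    refine L2_mono b ?_
    have hden : 0 < (w : ℝ) ^ j * Real.sqrt w := by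
      have : 0 < Real.sqrt w := Real.sqrt_pos.mpr (by linarith)
      positivity
    calc Cs / ((w : ℝ) ^ j * Real.sqrt w) * rxi q
        = (Cs * rxi q) / ((w : ℝ) ^ j * Real.sqrt w) := by ring
      _ ≤ C₂ / ((w : ℝ) ^ j * Real.sqrt w) := by
          apply div_le_div_of_nonneg_right _ hden.le
          linarith
  · have hmpos : (0 : ℝ) < m := by
      have : (1 : ℝ) ≤ m := by
        have : 1 ≤ m := by omega
        exact_mod_cast this
      linarith
    have hMpos : (0 : ℝ) < M₀ := by exact_mod_cast hM1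
    have hsq : Real.sqrt (((1 : ℕ) : ℝ) / (M₀ : ℝ)) ≤ Real.sqrt (8 * K) / Real.sqrt m := by
      rw [← Real.sqrt_div (by positivity)]
      apply Real.sqrt_le_sqrt
      rw [Nat.cast_one, div_le_div_iff₀ hMpos hmpos]
      have : ((m : ℕ) : ℝ) ≤ ((8 * (K * M₀) : ℕ) : ℝ) := by exact_mod_cast hMlow
      push_cast at this
      linarith
    have hsm : 0 < Real.sqrt m := Real.sqrt_pos.mpr hmpos
    have hbase : Cs * w * (Co * Real.sqrt (((1 : ℕ) : ℝ) / (M₀ : ℝ)))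
        ≤ C₂ * w / Real.sqrt m := by
      calc Cs * w * (Co * Real.sqrt (((1 : ℕ) : ℝ) / (M₀ : ℝ)))
          ≤ Cs * w * (Co * (Real.sqrt (8 * K) / Real.sqrt m)) := by
            apply mul_le_mul_of_nonneg_left _ (by positivity)
            exact mul_le_mul_of_nonneg_left hsq hCo0
        _ = (Cs * Co * Real.sqrt (8 * K)) * w / Real.sqrt m := by ring
        _ ≤ C₂ * w / Real.sqrt m := by
            apply div_le_div_of_nonneg_right _ hsm.le
            apply mul_le_mul_of_nonneg_right _ (by linarith)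
            linarith
    have hbase0 : 0 ≤ Cs * w * (Co * Real.sqrt (((1 : ℕ) : ℝ) / (M₀ : ℝ))) := by positivity
    calc l1 Res ≤ Cs * (Cs * w * (Co * Real.sqrt (((1 : ℕ) : ℝ) / (M₀ : ℝ)))) ^ K
          * l1 (xi q) := hG4
      _ ≤ Cs * (Cs * w * (Co * Real.sqrt (((1 : ℕ) : ℝ) / (M₀ : ℝ)))) ^ K * 2 :=
          mul_le_mul_of_nonneg_left (l1_xi h0) (by positivity)
      _ = (2 * Cs) * (Cs * w * (Co * Real.sqrt (((1 : ℕ) : ℝ) / (M₀ : ℝ)))) ^ K := by ring
      _ ≤ C₂ * (C₂ * w / Real.sqrt m) ^ K := by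
          apply mul_le_mul _ (pow_le_pow_left₀ hbase0 hbase K) (by positivity) (by linarith)
          linarith

end

end Vale.P321S
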