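import Mathlib

/-!
# P321: interface (definitions) for the proof that worst-case trace reconstruction needs
superpolynomially many traces.

`Alg` is the real monoid algebra of the free monoid on two letters (finitely supported signed
measures on words, product = convolution of concatenation).
-/

namespace Vale.P321S

open scoped BigOperators

noncomputable section

/-- words over a two letter alphabet -/
abbrev Wd := FreeMonoid Bool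

/-- finitely supported signed measures on words, with convolution -/
abbrev Alg := MonoidAlgebra ℝ Wd

/-- the l1 norm (total variation mass) -/
def l1 (f : Alg) : ℝ := ∑ w ∈ f.coeff.support, |f.coeff w|

/-- total mass -/
def mass (f : Alg) : ℝ := ∑ w ∈ f.coeff.support, f.coeff w

/-- nonnegative measure -/
def Nn (f : Alg) : Prop := ∀ w, 0 ≤ f.coeff w

/-- probability measure -/
def Pr (f : Alg) : Prop := Nn f ∧ mass f = 1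

/-- pointwise order -/
def Le (f g : Alg) : Prop := ∀ w, f.coeff w ≤ g.coeff w

/-- `f` is absolutely continuous with respect to `g` and `∑ f²/g ≤ s²` -/
def L2 (f g : Alg) (s : ℝ) : Prop :=
  0 ≤ s ∧ (∀ w, g.coeff w = 0 → f.coeff w = 0) ∧
    ∑ w ∈ f.coeff.support, (f.coeff w) ^ 2 / g.coeff w ≤ s ^ 2

/-- decomposition in an `L2`-small part of mass zero and an `l1`-tiny part -/
def Dec (f G : Alg) (s τ : ℝ) : Prop :=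
  ∃ f₁ f₂ : Alg, f = f₁ + f₂ ∧ mass f₁ = 0 ∧ L2 f₁ G s ∧ l1 f₂ ≤ τ

/-- mixing with constant `k` (number of cells) and constant `C` -/
def Mix (T : Alg) (k : ℕ) (C : ℝ) : Prop :=
  ∀ M : ℕ, 1 ≤ M → l1 (T ^ M - T ^ (M + 1)) ≤ C * Real.sqrt ((k : ℝ) / (M : ℝ))

/-- iterated two-sided difference: `dd T (a :: l) Q = T^a (dd T l Q) - (dd T l Q) T^a` -/
def dd (T : Alg) : List ℕ → Alg → Alg
  | [], Q => Q
  | a :: l, Q => T ^ a * dd T l Q - dd T l Q * T ^ a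

/-- Thue-Morse words -/
def tm : ℕ → Bool → List Bool
  | 0, b => [b]
  | K + 1, b => tm K b ++ tm K (!b)

/-- noncommutative evaluation of a Boolean word at `X` (true) and `Y` (false) -/
def val (l : List Bool) (X Y : Alg) : Alg := (l.map (fun b => if b then X else Y)).prod

/-- the multi-level structure: one level -/
structure Lvl (K : ℕ) (T X Y ρ : Alg) (N R kT k : ℕ) (C₀ Γ r η β τ : ℝ) : Prop where
  prT : Pr T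
  prX : Pr X
  prY : Pr Y
  Req : R = 2 * N + 2 ^ K
  massρ : mass ρ = 0
  l2ρ : L2 ρ (T ^ (2 ^ K)) r
  dXY : l1 (X - Y - T ^ N * ρ * T ^ N) ≤ τ
  dρ : Dec (T ^ N * ρ * T ^ N) (T ^ R) η τ
  dY : Dec (Y - T ^ R) (T ^ R) β τ
  YX : Le Y (Γ • X)
  XY : Le X (Γ • Y)
  TY : Le (T ^ R) (Γ • Y)
  YT : Le Y (Γ • T ^ R)
  mixT : Mix T kT C₀
  mixY : Mix Y k C₀
  kbig : R * kT ≤ k

/-! ### letters and cells -/

/-- the letter law `q·[] + (1-q)·[b]` -/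
def let1 (q : ℝ) (b : Bool) : Alg :=
  q • (1 : Alg) + (1 - q) • MonoidAlgebra.single (FreeMonoid.of b) 1

/-- genie law of the block `01`: symbols `A = true`, `Z = false`:
`û = q² + q(1-q) A + (1-q) Z` -/
def uu (q : ℝ) : Alg :=
  (q ^ 2) • (1 : Alg) + (q * (1 - q)) • MonoidAlgebra.single (FreeMonoid.of true) 1
    + (1 - q) • MonoidAlgebra.single (FreeMonoid.of false) 1

/-- genie law of the letter `0`: `â = q + (1-q) A` -/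
def aa (q : ℝ) : Alg :=
  q • (1 : Alg) + (1 - q) • MonoidAlgebra.single (FreeMonoid.of true) 1

/-- the displacement of a cell of type `d : Fin 3`: `0 ↦ m-1`, `1 ↦ m`, `2 ↦ m+1` blocks before
the letter -/
def cellN (q : ℝ) (m : ℕ) (d : Fin 3) : Alg :=
  uu q ^ (m + d.val - 1) * aa q * uu q ^ (m + 1 - d.val)

/-- evaluation of a list of cell types -/
def ev (E : Fin 3 → Alg) (l : List (Fin 3)) : Alg := (l.map E).prod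

/-! ### the module statements -/

/-- (OV) Ornstein / Mineka type bound. -/
def StOV : Prop :=
  ∀ s : ℝ, 0 < s → s ≤ 1 → ∃ C : ℝ, 2 ≤ C ∧ ∀ (T : Alg) (k : ℕ), Pr T → 1 ≤ k →
    l1 (T ^ k - T ^ (k + 1)) ≤ 2 * (1 - s) → Mix T k C

/-- (DD) two-sided difference lemma. -/
def StDD : Prop :=
  ∀ (T Q : Alg) (l : List ℕ) (W M₀ M M' : ℕ) (D : ℝ), Pr T → (∀ a ∈ l, a ≤ W) →
    l1 (T ^ M₀ - T ^ (M₀ + 1)) ≤ D → l.length * M₀ ≤ M → l.length * M₀ ≤ M' →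
    l1 (T ^ M * dd T l Q * T ^ M') ≤ (2 * (W * D)) ^ l.length * l1 Q

/-- (CORE) gain lemma for a single position-randomised feature. -/
def StCore : Prop :=
  ∀ (K w L c₀ X₀ X' h M₀ : ℕ) (T ρ Z : Alg) (r z D : ℝ), Pr T → mass ρ = 0 →
    L2 ρ (T ^ L) r → L2 Z (T ^ h) z → 1 ≤ w → 1 ≤ L → K * (w * L) ≤ c₀ →
    K * M₀ ≤ X₀ → K * M₀ ≤ X' → l1 (T ^ M₀ - T ^ (M₀ + 1)) ≤ D →
    ∃ G Res : Alg, T ^ (X₀ + c₀) * (ρ * Z) * T ^ X' = T ^ X₀ * G * T ^ X' + Res ∧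
      mass G = 0 ∧ L2 G (T ^ (c₀ + L + h)) (2 ^ K * Real.sqrt (1 / w) * r * z) ∧
      l1 Res ≤ (2 * ((w * L : ℕ) * D)) ^ K * l1 (ρ * Z)

/-- (TM) closeness of `T^(R M)` and `Y^M`. -/
def StTM : Prop :=
  ∀ (T Y : Alg) (R M : ℕ) (Γ β τ : ℝ), Pr T → Pr Y → 1 ≤ Γ → 0 ≤ τ →
    Dec (Y - T ^ R) (T ^ R) β τ → Le (T ^ R) (Γ • Y) → (M : ℝ) * (Γ * β ^ 2) ≤ 1 →
    (M : ℝ) * τ ≤ 1 →
    ∃ h t : Alg, T ^ (R * M) = Y ^ M + h + t ∧ mass h = 0 ∧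
      L2 h (Y ^ M) (2 * Real.sqrt (M * Γ) * β) ∧ l1 t ≤ 3 * M * τ

/-- (MIXSTEP) overlap of `Y^k` and `Y^(k+1)` from mixing of `T`. -/
def StMixStep : Prop :=
  ∀ (T Y : Alg) (R kT k : ℕ) (C₀ β τ : ℝ), Pr T → Pr Y → 2 ≤ C₀ → 1 ≤ R → 1 ≤ kT → 0 ≤ τ →
    Mix T kT C₀ → Dec (Y - T ^ R) (T ^ R) β τ → 64 * C₀ ^ 2 * (R * kT) ≤ (k : ℝ) →
    (k : ℝ) * β ^ 2 ≤ 1 / 1000 → (k : ℝ) * τ ≤ 1 / 100 → l1 (Y ^ k - Y ^ (k + 1)) ≤ 1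

/-- (MONO) the gain lemma for monomials: `l` a Boolean word of length `2^K` with at least `s ≥ 1`
letters `true` (the features `Δ`), between two seas of `ν k` cells `Y`. -/
def StMono : Prop :=
  ∀ (K : ℕ) (C₀ Γ : ℝ), 1 ≤ K → 2 ≤ C₀ → 1 ≤ Γ → ∃ C₁ : ℝ, 1 ≤ C₁ ∧
    ∀ (T Y ρ Δ : Alg) (N R kT k ν s : ℕ) (r η β τ : ℝ) (l : List Bool),
      Pr T → Pr Y → R = 2 * N + 2 ^ K → mass ρ = 0 → L2 ρ (T ^ (2 ^ K)) r →
      mass Δ = 0 → L2 Δ (T ^ R) η → l1 (T ^ N * ρ * T ^ N - Δ) ≤ τ →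
      Dec (Y - T ^ R) (T ^ R) β τ → Le (T ^ R) (Γ • Y) → Le Y (Γ • T ^ R) →
      Mix T kT C₀ → R * kT ≤ k → 1 ≤ kT → 1 ≤ N → C₁ ≤ ν → r ≤ 1 → η ≤ 1 →
      C₁ * ((ν * k : ℕ) * β ^ 2) ≤ 1 → C₁ * ((ν * k : ℕ) * τ) ≤ 1 →
      l.length = 2 ^ K → 1 ≤ s → s ≤ l.count true →
      Dec (Y ^ (ν * k) * val l Δ Y * Y ^ (ν * k)) (Y ^ (2 * (ν * k) + 2 ^ K))
        (C₁ * (Real.sqrt (1 / N) * r ^ s + Real.sqrt ((ν * k : ℕ)) * β * η ^ s))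
        (C₁ * ((ν * k : ℕ) * τ + (C₁ / Real.sqrt ν) ^ K))

/-- (STEP) from one level to the next. -/
def StStep : Prop :=
  ∀ (K : ℕ) (C₀ Γ : ℝ), 1 ≤ K → 2 ≤ C₀ → 1 ≤ Γ →
    (∀ (T : Alg) (k : ℕ), Pr T → 1 ≤ k → l1 (T ^ k - T ^ (k + 1)) ≤ 1 → Mix T k C₀) →
    ∃ C₁ : ℝ, 1 ≤ C₁ ∧
    ∀ (T X Y ρ : Alg) (N R kT k ν N' R' k' : ℕ) (r η β τ r' η' β' τ' : ℝ),
      Lvl K T X Y ρ N R kT k C₀ Γ r η β τ →
      1 ≤ kT → 1 ≤ N → C₁ ≤ ν → r ≤ 1 → η ≤ 1 →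
      N' = ν * k → R' = 2 * N' + 2 ^ K → k' = ν * (R' * k) →
      C₁ * (N' * β ^ 2) ≤ 1 → C₁ * (N' * τ) ≤ 1 →
      r' = C₁ * η ^ 2 →
      η' = C₁ * (Real.sqrt (1 / N) * r ^ 2 + Real.sqrt N' * β * η ^ 2) →
      β' = C₁ * (Real.sqrt (1 / N) * r + Real.sqrt N' * β * η) →
      τ' = C₁ * (N' * τ + (C₁ / Real.sqrt ν) ^ K) →
      k' * β' ^ 2 ≤ 1 / 1000 → k' * τ' ≤ 1 / 100 →
      ∃ ρ' : Alg, Lvl K Y (Y ^ N' * val (tm K true) X Y * Y ^ N')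
        (Y ^ N' * val (tm K false) X Y * Y ^ N') ρ' N' R' k k' C₀ (Γ ^ (2 ^ (K + 1)))
        r' η' β' τ'

/-- (LEVEL1) the first level from the cells `Em, E₀, Ep` (feature displaced by -1, 0, 1). -/
def StLevel1 : Prop :=
  ∀ (K : ℕ) (C₀ Γ : ℝ), 1 ≤ K → 2 ≤ C₀ → 1 ≤ Γ →
    (∀ (T : Alg) (k : ℕ), Pr T → 1 ≤ k → l1 (T ^ k - T ^ (k + 1)) ≤ 1 → Mix T k C₀) →
    ∃ C₁ : ℝ, 1 ≤ C₁ ∧
    ∀ (Em E₀ Ep : Alg) (k₀ ν N R k : ℕ) (s₁ s₂ τ₀ r β τ : ℝ),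
      Pr Em → Pr E₀ → Pr Ep → Le E₀ (Γ • Em) → Le E₀ (Γ • Ep) → Le Em (Γ • E₀) →
      Le Ep (Γ • E₀) → Dec ((1 / 2 : ℝ) • (Ep - Em)) E₀ s₁ τ₀ →
      Dec ((1 / 2 : ℝ) • (Ep + Em) - E₀) E₀ s₂ τ₀ → s₁ ≤ 1 → s₂ ≤ 1 → τ₀ ≤ 1 →
      Mix E₀ k₀ C₀ → 1 ≤ k₀ →
      C₁ ≤ ν → N = ν * k₀ → R = 2 * N + 2 ^ K → k = ν * (R * k₀) →
      r = C₁ * (s₁ * s₂ + s₁ ^ 3) → β = C₁ * (s₂ + s₁ ^ 2) →
      τ = C₁ * (τ₀ + (C₁ / Real.sqrt ν) ^ K) →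
      k * β ^ 2 ≤ 1 / 1000 → k * τ ≤ 1 / 100 →
      ∃ ρ : Alg, Lvl K E₀ (E₀ ^ N * val (tm K true) Ep Em * E₀ ^ N)
        (E₀ ^ N * val (tm K false) Ep Em * E₀ ^ N) ρ N R k₀ k C₀ (Γ ^ (2 ^ (K + 1)))
        r r β τ

/-- (CELLS) the truncated cells (`w` is the size of the averaging window, `w² ≤ m`). -/
def StCells : Prop :=
  ∀ q : ℝ, 0 < q → q < 1 → ∃ (Γ c : ℝ) (m₀ : ℕ), 1 ≤ Γ ∧ 0 < c ∧ ∀ K : ℕ, 1 ≤ K →
    ∃ C₁ : ℝ, 1 ≤ C₁ ∧ ∀ m : ℕ, m₀ ≤ m →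
    ∃ E : Fin 3 → Alg, (∀ d, Pr (E d)) ∧
      (∀ d, l1 (E d - cellN q m d) ≤ Γ * Real.exp (-(c * m))) ∧
      Le (E 1) (Γ • E 0) ∧ Le (E 1) (Γ • E 2) ∧ Le (E 0) (Γ • E 1) ∧ Le (E 2) (Γ • E 1) ∧
      ∀ w : ℕ, 1 ≤ w → C₁ * (w : ℝ) ^ 2 ≤ m →
        Dec ((1 / 2 : ℝ) • (E 2 - E 0)) (E 1) (C₁ / (w * Real.sqrt w))
          (C₁ * (C₁ * w / Real.sqrt m) ^ K) ∧
        Dec ((1 / 2 : ℝ) • (E 2 + E 0) - E 1) (E 1) (C₁ / (w ^ 2 * Real.sqrt w))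
          (C₁ * (C₁ * w / Real.sqrt m) ^ K)

/-- (SMOOTH) a mass zero feature in a homogeneous sea, with `j` two-sided differences. -/
def StSmooth : Prop :=
  ∀ (K j : ℕ), 1 ≤ K → ∃ C₁ : ℝ, 1 ≤ C₁ ∧ ∀ (T ρ : Alg) (w c₀ X₀ X' M₀ : ℕ) (r D : ℝ),
    Pr T → mass ρ = 0 → L2 ρ T r → 1 ≤ w → K * ((j + 1) * w) ≤ c₀ → K * M₀ ≤ X₀ →
    K * M₀ ≤ X' → l1 (T ^ M₀ - T ^ (M₀ + 1)) ≤ D →
    ∃ G Res : Alg, T ^ (X₀ + c₀) * dd T (List.replicate j 1) ρ * T ^ X' =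
        T ^ X₀ * G * T ^ X' + Res ∧
      mass G = 0 ∧ L2 G (T ^ (c₀ + j + 1)) (C₁ / (w ^ j * Real.sqrt w) * r) ∧
      l1 Res ≤ C₁ * (C₁ * w * D) ^ K * l1 ρ

/-- (OVERLAP) the sea of cells mixes at about `m` cells. -/
def StOverlap : Prop :=
  ∀ q : ℝ, 0 < q → q < 1 → ∃ (s : ℝ) (C m₀ : ℕ), 0 < s ∧ s ≤ 1 ∧ 1 ≤ C ∧ ∀ m : ℕ, m₀ ≤ m →
    ∃ k : ℕ, 1 ≤ k ∧ k ≤ C * m ∧
      l1 (cellN q m 1 ^ k - cellN q m 1 ^ (k + 1)) ≤ 2 * (1 - s)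

/-! ### definitions for the overlap estimate -/

/-- i.i.d. weight of a word: `true` has weight `q/(1+q)`, `false` has weight `1/(1+q)` -/
def mu (q : ℝ) (w : Wd) : ℝ :=
  ((FreeMonoid.toList w).map (fun b => if b then q / (1 + q) else 1 / (1 + q))).prod

/-- squared L2 norm of the part on words of length `t`, relative to the i.i.d. law -/
def nrm (q : ℝ) (f : Alg) (t : ℕ) : ℝ :=
  ∑ w ∈ f.coeff.support.filter (fun w => (FreeMonoid.toList w).length = t),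
    (f.coeff w) ^ 2 / mu q w

/-- one i.i.d. symbol `Ā` -/
def ab (q : ℝ) : Alg :=
  (q / (1 + q)) • MonoidAlgebra.single (FreeMonoid.of true) 1
    + (1 / (1 + q)) • MonoidAlgebra.single (FreeMonoid.of false) 1

/-- `Ξ = A - Ā` -/
def xi (q : ℝ) : Alg := MonoidAlgebra.single (FreeMonoid.of true) 1 - ab q

/-- the homogenised feature `ā = q + (1-q) Ā` -/
def aab (q : ℝ) : Alg := q • (1 : Alg) + (1 - q) • ab q

/-- sea with features `â`: `û^{n₀} Π (â û^n)` -/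
def feat (q : ℝ) (n₀ : ℕ) (ns : List ℕ) : Alg :=
  uu q ^ n₀ * (ns.map (fun n => aa q * uu q ^ n)).prod

/-- the same with homogenised features -/
def featbar (q : ℝ) (n₀ : ℕ) (ns : List ℕ) : Alg :=
  uu q ^ n₀ * (ns.map (fun n => aab q * uu q ^ n)).prod

/-- binomial pmf -/
def bin (N : ℕ) (θ : ℝ) (s : ℕ) : ℝ := (N.choose s : ℝ) * θ ^ s * (1 - θ) ^ (N - s)

/-- law of the number of symbols of `û^N ā^r` -/
def cbin (q : ℝ) (N r y : ℕ) : ℝ :=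
  ∑ z ∈ Finset.range (y + 1), bin r (1 - q) z * bin N (1 - q ^ 2) (y - z)

/-- (IID) replacing the features by homogenised ones, `ε m` features in gaps of size about `m` -/
def StIid : Prop :=
  ∀ q : ℝ, 0 < q → q < 1 → ∃ (ε : ℝ) (m₀ : ℕ), 0 < ε ∧ ∀ m : ℕ, m₀ ≤ m →
    ∀ (n₀ : ℕ) (ns : List ℕ), m ≤ n₀ → n₀ ≤ 12 * m → (∀ n ∈ ns, m ≤ n ∧ n ≤ 12 * m) →
      (ns.length : ℝ) ≤ ε * m → l1 (feat q n₀ ns - featbar q n₀ ns) ≤ 1 / 8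

/-- (PMF) bounds for the count laws -/
def StPmf : Prop :=
  ∀ q : ℝ, 0 < q → q < 1 → ∃ C : ℝ, 1 ≤ C ∧ ∀ N r : ℕ,
    (∀ y, bin N (1 - q ^ 2) y ≤ C / Real.sqrt (N + 1)) ∧
    (∀ y, cbin q N r y ≤ C / Real.sqrt (N + 1)) ∧
    (∀ y, cbin q N r y / Real.sqrt (y + 1) ≤ C / (N + 1)) ∧
    (∑ y ∈ Finset.range (N + r + 1), cbin q N r y / Real.sqrt (y + 1) ≤ C / Real.sqrt (N + 1))

/-- (RENEW) renewal bound -/
def StRenew : Prop :=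
  ∀ q : ℝ, 0 < q → q < 1 → ∃ C : ℝ, 1 ≤ C ∧ ∀ (m : ℕ) (ns : List ℕ), 1 ≤ m →
    (∀ n ∈ ns, m ≤ n) → ∀ y : ℕ,
      ∑ l ∈ Finset.range ns.length, cbin q ((ns.take (l + 1)).sum) l y
        ≤ C / Real.sqrt (y + 1) + C / m

/-- (ORTHO) orthogonality in the position of `Ξ`, then Cauchy-Schwarz over the features -/
def StOrtho : Prop :=
  ∀ q : ℝ, 0 < q → q < 1 → ∀ (n : ℕ) (F : ℕ → Alg) (c : ℕ → ℕ → ℝ) (S : ℕ),
    (∀ l y, 0 ≤ c l y) → ∀ t : ℕ,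
      nrm q (∑ l ∈ Finset.range n, F l * xi q * (∑ y ∈ Finset.range S, c l y • ab q ^ y)) t
        ≤ (1 / q) * ∑ j ∈ Finset.range t, (if t - 1 - j < S then
            (∑ l ∈ Finset.range n, c l (t - 1 - j)) *
              (∑ l ∈ Finset.range n, c l (t - 1 - j) * nrm q (F l) j) else 0)

/-- (LEVELS) the words of level `J`: with `m = ν^(32 e)`. -/
def StLevels : Prop :=
  ∀ q : ℝ, 0 < q → q < 1 → ∀ J : ℕ, 2 ≤ J → ∃ c : ℕ, ∀ e : ℕ, c ≤ e → ∃ ν₀ : ℕ, ∀ ν : ℕ,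
    ν₀ ≤ ν → ∃ wX wY : List (Fin 3), wX ≠ wY ∧ wX.length = wY.length ∧
      wX.length ≤ ν ^ (c + 32 * e * (2 ^ J - 1)) ∧
      l1 (ev (cellN q (ν ^ (32 * e))) wX - ev (cellN q (ν ^ (32 * e))) wY)
        ≤ (ν : ℝ) ^ c / (ν : ℝ) ^ (e * (2 ^ J * (32 + J)))

/-! ### traces -/

/-- the trace law of a bit string, as a measure on words -/
def tr (q : ℝ) (x : List Bool) : Alg := (x.map (let1 q)).prod

/-- (TV) pairs of strings with superpolynomially close trace laws -/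
def StTV : Prop :=
  ∀ q : ℝ, 0 < q → q < 1 → ∀ A : ℕ, ∃ n₀ : ℕ, ∀ n : ℕ, n₀ ≤ n →
    ∃ x y : List Bool, x.length = n ∧ y.length = n ∧ x ≠ y ∧
      l1 (tr q x - tr q y) ≤ 1 / (n : ℝ) ^ A

/-- the string that remains of `x` when exactly the positions in `S` survive -/
def survive {n : ℕ} (x : Fin n → Bool) (S : Finset (Fin n)) : List Bool :=
  ((List.finRange n).filter (fun i => decide (i ∈ S))).map x

/-- probability that exactly the positions in `S` survive -/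
def wt (q : ℝ) {n : ℕ} (S : Finset (Fin n)) : ℝ := (1 - q) ^ S.card * q ^ (n - S.card)

/-- `m` independent traces suffice: some (randomized) estimator `est` outputs every `x` with
probability at least `2/3`. -/
def Reconstructs (q : ℝ) (n m : ℕ) : Prop :=
  ∃ est : (Fin m → List Bool) → (Fin n → Bool) → ℝ,
    (∀ ys x, 0 ≤ est ys x) ∧ (∀ ys, ∑ x, est ys x = 1) ∧
    ∀ x : Fin n → Bool,
      2 / 3 ≤ ∑ S : Fin m → Finset (Fin n),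
        (∏ i, wt q (S i)) * est (fun i => survive x (S i)) x

/-- (FINAL) the sample complexity is superpolynomial. -/
def StFinal : Prop :=
  ∀ q : ℝ, 0 < q → q < 1 → ∀ A : ℕ, ∃ n₀ : ℕ, ∀ n : ℕ, n₀ ≤ n → ∀ m : ℕ,
    Reconstructs q n m → n ^ A ≤ m

end

end Vale.P321S
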