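import Vale.Agent.P321S.BasicL2
import Vale.Agent.P321S.Words

/-!
# P321Q: interface for the quantitative version `T_q(n) ≥ n^(c log log n)`

The late phase of the hierarchy works with pure weighted norms (no sup bounds).
-/

namespace Vale.P321S

open scoped BigOperators

noncomputable section

/-- weighted `L^p` norm: `f ≪ g` and `∑ |f|^p / g^(p-1) ≤ t^p` -/
def NP (p : ℕ) (f g : Alg) (t : ℝ) : Prop :=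
  0 ≤ t ∧ (∀ w, g.coeff w = 0 → f.coeff w = 0) ∧
    ∑ w ∈ f.coeff.support, |f.coeff w| ^ p / (g.coeff w) ^ (p - 1) ≤ t ^ p

/-- one level of the late phase: blocks `U, V` between seas `T^N` -/
structure LvlQ (T X Y U V ρ : Alg) (L N R kT k : ℕ) (C₀ r β η lam ζ : ℝ) : Prop where
  prT : Pr T
  prU : Pr U
  prV : Pr V
  Xdef : X = T ^ N * U * T ^ N
  Ydef : Y = T ^ N * V * T ^ N
  Req : R = 2 * N + L
  massρ : mass ρ = 0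
  ρT : L2 ρ (T ^ L) r
  ρU : L2 ρ U r
  ρV : L2 ρ V r
  ρT3 : NP 3 ρ (T ^ L) 1
  ρU3 : NP 3 ρ U 1
  ρV3 : NP 3 ρ V 1
  TU : L2 (T ^ L - U) U β
  TV : L2 (T ^ L - V) V β
  VT : L2 (V - T ^ L) (T ^ L) β
  TU3 : NP 3 (T ^ L) U (1 + β)
  TV3 : NP 3 (T ^ L) V (1 + β)
  ΔX : L2 (X - Y) X η
  ΔY : L2 (X - Y) Y η
  lamX : L2 (X - Y - T ^ N * ρ * T ^ N) X lam
  lamY : L2 (X - Y - T ^ N * ρ * T ^ N) Y lam
  ζX : NP 4 (X - Y) X ζ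
  ζY : NP 4 (X - Y) Y ζ
  mixT : Mix T kT C₀
  mixY : Mix Y k C₀
  kbig : R * kT ≤ k

/-- the words with exactly two letters `true` -/
def two1 : List Bool → Alg → Alg → Alg
  | [], _, _ => 0
  | b :: l, Δ, Y => (if b then Δ * one1 l Δ Y else 0) + Y * two1 l Δ Y

/-- the mixing hypothesis -/
def OVh (C₀ : ℝ) : Prop :=
  ∀ (T : Alg) (k : ℕ), Pr T → 1 ≤ k → l1 (T ^ k - T ^ (k + 1)) ≤ 1 → Mix T k C₀

/-! ### the library PW -/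

/-- (PW) the list of lemmas on `NP` that the other modules use -/
structure LibPW : Prop where
  two : ∀ (f g : Alg) (t : ℝ), NP 2 f g t ↔ L2 f g t
  mono : ∀ (p : ℕ) (f g : Alg) (s t : ℝ), NP p f g s → s ≤ t → NP p f g t
  zero : ∀ (p : ℕ) (g : Alg), 1 ≤ p → NP p 0 g 0
  smul : ∀ (p : ℕ) (f g : Alg) (t a : ℝ), NP p f g t → NP p (a • f) g (|a| * t)
  neg : ∀ (p : ℕ) (f g : Alg) (t : ℝ), NP p f g t → NP p (-f) g t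
  add : ∀ (p : ℕ) (f f' g : Alg) (s t : ℝ), 1 ≤ p → Nn g → NP p f g s → NP p f' g t →
    NP p (f + f') g (s + t)
  sub : ∀ (p : ℕ) (f f' g : Alg) (s t : ℝ), 1 ≤ p → Nn g → NP p f g s → NP p f' g t →
    NP p (f - f') g (s + t)
  sum : ∀ (p : ℕ) (S : Finset ℕ) (f : ℕ → Alg) (g : Alg) (s : ℕ → ℝ), 1 ≤ p → Nn g →
    (∀ i ∈ S, NP p (f i) g (s i)) → NP p (∑ i ∈ S, f i) g (∑ i ∈ S, s i)
  mul : ∀ (p : ℕ) (f f' g g' : Alg) (s t : ℝ), 1 ≤ p → Nn g → Nn g' → NP p f g s →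
    NP p f' g' t → NP p (f * f') (g * g') (s * t)
  self : ∀ (p : ℕ) (g : Alg), 1 ≤ p → Pr g → NP p g g 1
  /-- interpolation: an `l1`-tiny function with bounded `L^3` norm is `L^2`-small -/
  l2_of : ∀ (f g : Alg) (τ B t : ℝ), Nn g → l1 f ≤ τ → NP 3 f g B → 0 ≤ t → τ * B ^ 3 ≤ t ^ 4 →
    L2 f g t
  np3_of : ∀ (f g : Alg) (η ζ t : ℝ), Nn g → L2 f g η → NP 4 f g ζ → 0 ≤ t →
    η * ζ ^ 2 ≤ t ^ 3 → NP 3 f g t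
  /-- perturbation of the reference by a mass zero function -/
  l2_one : ∀ (x g : Alg) (η : ℝ), Pr g → mass x = 0 → L2 x g η →
    L2 (g + x) g (Real.sqrt (1 + η ^ 2))
  np3_one : ∀ (x g : Alg) (η θ t : ℝ), Pr g → Nn (g + x) → mass x = 0 → L2 x g η → NP 3 x g θ →
    0 ≤ t → 1 + 3 * η ^ 2 + θ ^ 3 ≤ t ^ 3 → NP 3 (g + x) g t
  /-- products of perturbed factors -/
  prod_l2 : ∀ (l : List (Alg × Alg)) (η : ℝ), 0 ≤ η →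
    (∀ p ∈ l, Pr p.2 ∧ mass (p.1 - p.2) = 0 ∧ L2 (p.1 - p.2) p.2 η) →
    L2 ((l.map Prod.fst).prod - (l.map Prod.snd).prod) ((l.map Prod.snd).prod)
        (Real.sqrt ((1 + η ^ 2) ^ l.length - 1)) ∧
      L2 ((l.map Prod.fst).prod) ((l.map Prod.snd).prod) (Real.sqrt ((1 + η ^ 2) ^ l.length))
  prod_np : ∀ (p : ℕ) (l : List (Alg × Alg)) (t : ℝ), 1 ≤ p → 0 ≤ t →
    (∀ x ∈ l, Pr x.2 ∧ NP p x.1 x.2 t) →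
    NP p ((l.map Prod.fst).prod) ((l.map Prod.snd).prod) (t ^ l.length)
  prod_npd : ∀ (p : ℕ) (l : List (Alg × Alg)) (ζ : ℝ), 1 ≤ p → 0 ≤ ζ →
    (∀ x ∈ l, Pr x.2 ∧ NP p (x.1 - x.2) x.2 ζ) →
    NP p ((l.map Prod.fst).prod - (l.map Prod.snd).prod) ((l.map Prod.snd).prod)
      ((1 + ζ) ^ l.length - 1)
  /-- sup bounds (used at the start only) -/
  np4_sup : ∀ (f g : Alg) (Γ η t : ℝ), Nn g → 0 ≤ Γ → (∀ w, |f.coeff w| ≤ Γ * g.coeff w) →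
    L2 f g η → 0 ≤ t → Γ ^ 2 * η ^ 2 ≤ t ^ 4 → NP 4 f g t
  l2_sup : ∀ (f f₁ f₂ g : Alg) (Γ η τ t : ℝ), Nn g → 0 ≤ Γ →
    (∀ w, |f.coeff w| ≤ Γ * g.coeff w) → f = f₁ + f₂ → L2 f₁ g η → l1 f₂ ≤ τ → 0 ≤ t →
    4 * η ^ 2 + 2 * Γ * τ ≤ t ^ 2 → L2 f g t

/-! ### the modules -/

/-- (WEI) weights for the iterated averaging -/
def StWei : Prop :=
  ∀ K w : ℕ, 1 ≤ w → ∃ W : ℕ → ℝ,
    ∑ a ∈ Finset.Icc 1 (K * w), |W a| ≤ 2 ^ K ∧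
    ∑ a ∈ Finset.Icc 1 (K * w), W a ^ 2 ≤ 4 ^ K / w ∧
    ∀ (T P : Alg) (L X₀ X' M₀ : ℕ) (D : ℝ), Pr T → K * M₀ ≤ X₀ → K * M₀ ≤ X' →
      l1 (T ^ M₀ - T ^ (M₀ + 1)) ≤ D →
      l1 (T ^ (X₀ + K * w * L) * P * T ^ X'
          - ∑ a ∈ Finset.Icc 1 (K * w),
              W a • (T ^ (X₀ + K * w * L - a * L) * P * T ^ (X' + a * L)))
        ≤ (2 * ((w * L : ℕ) * D)) ^ K * l1 P

/-- (ORTHSUM) orthogonality in the position of `ρ` -/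
def StOrthSum : Prop :=
  ∀ (T ρ G' : Alg) (L n : ℕ) (W : ℕ → ℝ) (F : ℕ → Alg) (r κ : ℝ), Pr T → Pr G' →
    mass ρ = 0 → L2 ρ (T ^ L) r → 0 ≤ κ → (∀ a ∈ Finset.Icc 1 n, L2 (F a) G' κ) →
    L2 (∑ a ∈ Finset.Icc 1 n, W a • (T ^ ((n - a) * L) * ρ * T ^ ((a - 1) * L) * F a))
      (T ^ (n * L) * G') (Real.sqrt (∑ a ∈ Finset.Icc 1 n, W a ^ 2) * r * κ)

/-- (MONOQ) two features between two seas, relative to an arbitrary word of cells. -/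
def StMonoQ : Prop :=
  ∀ (T X Y U V ρ : Alg) (L N R kT k : ℕ) (C₀ r β η lam ζ : ℝ),
    LvlQ T X Y U V ρ L N R kT k C₀ r β η lam ζ → 2 ≤ C₀ → 1 ≤ kT → 1 ≤ L →
    r ≤ 1 → lam ≤ η →
    ∀ (K w ν L' : ℕ) (Θ : ℝ), 1 ≤ K → 1 ≤ w → K * (w * L) ≤ N → L' ≤ ν * k → K ≤ ν →
      ((ν * k : ℕ) : ℝ) * β ≤ 1 / 8 → 8 * (L' : ℝ) * η ≤ 1 → 0 ≤ Θ →
      (2 ^ (2 * K + 10) * C₀ / Real.sqrt ν) ^ K ≤ Θ ^ 4 →
      ∀ (i g j : ℕ) (u : List Bool), i + 1 + g + 1 + j = L' → u.length = L' →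
        L2 (Y ^ (ν * k + i) * (X - Y) * Y ^ g * (X - Y) * Y ^ (j + ν * k))
          (Y ^ (ν * k) * val u X Y * Y ^ (ν * k))
          (6 * (lam * η)
            + 48 * ((2 * Real.sqrt ((ν * k : ℕ) : ℝ) * β + 2 * Real.sqrt L' * η) * η ^ 2)
            + 2 ^ (K + 1) * r ^ 2 / Real.sqrt w + Θ)

/-- (BLOCKQ) words of cells relative to words of cells -/
def StBlockQ : Prop :=
  ∀ (X Y : Alg) (n : ℕ) (η ζ : ℝ), Pr X → Pr Y → L2 (X - Y) X η → L2 (X - Y) Y η →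
    NP 4 (X - Y) X ζ → NP 4 (X - Y) Y ζ → 1 ≤ n → 1000 * (n : ℝ) ^ 3 * η ≤ 1 →
    2 * (n : ℝ) * ζ ≤ 1 →
    ∀ l u : List Bool, l.length = n → u.length = n →
      L2 (val l X Y) (val u X Y) 2 ∧
      L2 (val l X Y - val u X Y) (val u X Y) (2 * n * η) ∧
      NP 3 (val l X Y) (val u X Y) (1 + 3 * n * η) ∧
      NP 4 (val l X Y - val u X Y) (val u X Y) (2 * n * ζ) ∧
      L2 (Sk 2 l (X - Y) Y) (val u X Y) (5 * n ^ 2 * η ^ 2) ∧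
      NP 3 (Sk 2 l (X - Y) Y) (val u X Y) (1 / 2) ∧
      L2 (Sk 3 l (X - Y) Y) (val u X Y) (6 * n ^ 3 * η ^ 3) ∧
      NP 3 (one1 l (X - Y) Y) (val u X Y) (1 / 2)

/-- (GAINQ) the difference of the two new cells -/
def StGainQ : Prop :=
  ∀ (T X Y U V ρ : Alg) (L N R kT k : ℕ) (C₀ r β η lam ζ : ℝ),
    LvlQ T X Y U V ρ L N R kT k C₀ r β η lam ζ → 2 ≤ C₀ → 1 ≤ kT → 1 ≤ L →
    r ≤ 1 → lam ≤ η →
    ∀ (K w ν N' : ℕ) (Θ : ℝ), 1 ≤ K → 1 ≤ w → K * (w * L) ≤ N → N' = ν * k → 2 ^ K ≤ ν →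
      (N' : ℝ) * β ≤ 1 / 8 → 1000 * 8 ^ K * η ≤ 1 → 2 ^ (K + 1) * ζ ≤ 1 → 0 ≤ Θ →
      (2 ^ (2 * K + 10) * C₀ / Real.sqrt ν) ^ K ≤ Θ ^ 4 →
      ∀ u : List Bool, u.length = 2 ^ K →
        L2 (Y ^ N' * (one1 (tm K true) (X - Y) Y - one1 (tm K false) (X - Y) Y) * Y ^ N')
          (Y ^ N' * val u X Y * Y ^ N') Θ ∧
        L2 (Y ^ N' * (val (tm K true) X Y - val (tm K false) X Y) * Y ^ N')
          (Y ^ N' * val u X Y * Y ^ N')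
          (2 ^ (3 * K + 8) * (lam * η + Real.sqrt N' * β * η ^ 2 + η ^ 3
            + r ^ 2 / Real.sqrt w + Θ))

/-- (STEPQ) from one level to the next. -/
def StStepQ : Prop :=
  ∀ (C₀ : ℝ), 2 ≤ C₀ → OVh C₀ →
  ∀ (T X Y U V ρ : Alg) (L N R kT k : ℕ) (r β η lam ζ : ℝ),
    LvlQ T X Y U V ρ L N R kT k C₀ r β η lam ζ → 1 ≤ kT → 1 ≤ L → r ≤ 1 → lam ≤ η →
    ∀ (K w ν N' R' k' : ℕ) (r' β' η' lam' ζ' Θ : ℝ), 1 ≤ K → 1 ≤ w → K * (w * L) ≤ N →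
      N' = ν * k → R' = 2 * N' + 2 ^ K → k' = ν * (R' * k) → 2 ^ K ≤ ν →
      64 * C₀ ^ 2 ≤ (ν : ℝ) → (N' : ℝ) * β ≤ 1 / 8 → 1000 * 8 ^ K * η ≤ 1 →
      2 ^ (K + 1) * ζ ≤ 1 → 0 ≤ Θ → (2 ^ (2 * K + 10) * C₀ / Real.sqrt ν) ^ K ≤ Θ ^ 4 →
      r' = 10 * 4 ^ K * η ^ 2 → β' = 4 * 2 ^ K * η → lam' = Θ → ζ' = 2 ^ (K + 1) * ζ →
      η' = 2 ^ (3 * K + 8) * (lam * η + Real.sqrt N' * β * η ^ 2 + η ^ 3
            + r ^ 2 / Real.sqrt w + Θ) →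
      (k' : ℝ) * β' ^ 2 ≤ 1 / 1000 →
      ∃ ρ' : Alg, LvlQ Y (Y ^ N' * val (tm K true) X Y * Y ^ N')
        (Y ^ N' * val (tm K false) X Y * Y ^ N') (val (tm K true) X Y) (val (tm K false) X Y) ρ'
        (2 ^ K) N' R' k k' C₀ r' β' η' lam' ζ'

/-- (LIFTQ) the block data of the first level of the late phase: everything except the bound
of the difference of the new cells, which is a hypothesis here. -/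
def StLiftQ : Prop :=
  ∀ (C₀ : ℝ), 2 ≤ C₀ →
  ∀ (X Y : Alg) (k : ℕ) (η ζ : ℝ), Pr X → Pr Y → L2 (X - Y) X η → L2 (X - Y) Y η →
    NP 4 (X - Y) X ζ → NP 4 (X - Y) Y ζ → Mix Y k C₀ → 1 ≤ k →
    ∀ (K ν N' R' k' : ℕ) (r' β' η' lam' ζ' Θ : ℝ), 1 ≤ K →
      N' = ν * k → R' = 2 * N' + 2 ^ K → k' = ν * (R' * k) → 2 ^ K ≤ ν →
      1000 * 8 ^ K * η ≤ 1 →
      2 ^ (K + 1) * ζ ≤ 1 → 0 ≤ Θ → (2 ^ (2 * K + 10) * C₀ / Real.sqrt ν) ^ K ≤ Θ ^ 4 →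
      r' = 10 * 4 ^ K * η ^ 2 → β' = 4 * 2 ^ K * η → lam' = Θ → ζ' = 2 ^ (K + 1) * ζ →
      L2 (Y ^ N' * val (tm K true) X Y * Y ^ N' - Y ^ N' * val (tm K false) X Y * Y ^ N')
        (Y ^ N' * val (tm K true) X Y * Y ^ N') η' →
      L2 (Y ^ N' * val (tm K true) X Y * Y ^ N' - Y ^ N' * val (tm K false) X Y * Y ^ N')
        (Y ^ N' * val (tm K false) X Y * Y ^ N') η' →
      Mix (Y ^ N' * val (tm K false) X Y * Y ^ N') k' C₀ →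
      ∃ ρ' : Alg, LvlQ Y (Y ^ N' * val (tm K true) X Y * Y ^ N')
        (Y ^ N' * val (tm K false) X Y * Y ^ N') (val (tm K true) X Y) (val (tm K false) X Y) ρ'
        (2 ^ K) N' R' k k' C₀ r' β' η' lam' ζ'

/-- (STARTQ) the first level of the late phase, from the qualitative levels 256 and 257. -/
def StStartQ : Prop :=
  ∀ q : ℝ, 0 < q → q < 1 → ∃ (C₀ Γ₀ c₀ : ℝ) (K₀ E₁ e s₀ : ℕ), 2 ≤ C₀ ∧ OVh C₀ ∧ 1 ≤ Γ₀ ∧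
    0 < c₀ ∧ 1 ≤ K₀ ∧ 1 ≤ e ∧ e ≤ E₁ ∧ ∀ s : ℕ, s₀ ≤ s →
    ∃ (E : Fin 3 → Alg) (T X Y U V ρ : Alg) (N R kT k : ℕ) (r β η lam ζ : ℝ)
      (wX wY : List (Fin 3)),
      (∀ d, Pr (E d)) ∧
      (∀ d, l1 (E d - cellN q (s ^ (32 * e)) d)
        ≤ Γ₀ * Real.exp (-(c₀ * ((s ^ (32 * e) : ℕ) : ℝ)))) ∧
      LvlQ T X Y U V ρ (2 ^ K₀) N R kT k C₀ r β η lam ζ ∧ X = ev E wX ∧ Y = ev E wY ∧
      wX ≠ wY ∧ wX.length = wY.length ∧ wY.length ≤ s ^ (64 * E₁) ∧ 1 ≤ kT ∧ lam ≤ η ∧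
      s ^ (16 * E₁) ≤ N ∧ s ^ (32 * E₁) ≤ k ∧ k ≤ s ^ (64 * E₁) ∧
      r ≤ 1 / (s : ℝ) ^ (256 * E₁) ∧ β ≤ 1 / (s : ℝ) ^ (128 * E₁) ∧
      η ≤ 1 / (s : ℝ) ^ (256 * E₁) ∧ lam ≤ 1 / (s : ℝ) ^ (260 * E₁) ∧
      ζ ≤ 1 / (s : ℝ) ^ (32 * E₁)

/-- (LEVELSQ) the words after `J` levels of the late phase; `s = v^J`, `m = s^(32 e)`. -/
def StLevelsQ : Prop :=
  ∀ q : ℝ, 0 < q → q < 1 → ∃ (B E₁ e : ℕ), 1 ≤ e ∧ e ≤ E₁ ∧ ∀ J v : ℕ, 1 ≤ J →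
    2 ^ (B * J ^ 2) ≤ v → ∃ wX wY : List (Fin 3), wX ≠ wY ∧ wX.length = wY.length ∧
      wX.length ≤ v ^ (2 ^ J * (132 * (J * E₁))) ∧
      l1 (ev (cellN q (v ^ (32 * e * J))) wX - ev (cellN q (v ^ (32 * e * J))) wY)
        ≤ 2 / (v : ℝ) ^ (2 ^ J * ((256 + J) * (J * E₁)))

/-- (TVQ) pairs of strings with very close trace laws -/
def StTVQ : Prop :=
  ∀ q : ℝ, 0 < q → q < 1 → ∃ n₀ : ℕ, ∀ n : ℕ, n₀ ≤ n →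
    ∃ x y : List Bool, x.length = n ∧ y.length = n ∧ x ≠ y ∧
      l1 (tr q x - tr q y) ≤ (n : ℝ) ^ (-(Real.log (Real.log n) / 800))

/-- (FINALQ) the quantitative bound -/
def StFinalQ : Prop :=
  ∀ q : ℝ, 0 < q → q < 1 → ∃ n₀ : ℕ, ∀ n : ℕ, n₀ ≤ n → ∀ m : ℕ,
    Reconstructs q n m → (n : ℝ) ^ (Real.log (Real.log n) / 1000) ≤ m

end

end Vale.P321S
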