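import Vale.Agent.P321S.DefsQ
import Vale.Agent.P321S.TM

/-! # P321Q module MONOQ -/

namespace Vale.P321S.MQ

open Vale.P321S
open scoped BigOperators

noncomputable section

theorem L2c {f f' g g' : Alg} {s s' : ℝ} (h : L2 f g s) (hf : f = f') (hg : g = g')
    (hs : s ≤ s') : L2 f' g' s' := by
  subst hf; subst hg; exact L2_mono h hs

theorem NPc (pw : LibPW) {p : ℕ} {f f' g g' : Alg} {s s' : ℝ} (h : NP p f g s) (hf : f = f')
    (hg : g = g') (hs : s ≤ s') : NP p f' g' s' := by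
  subst hf; subst hg; exact pw.mono p f g s s' h hs

theorem L2m {f f' g g' : Alg} {s s' : ℝ} (hg : Pr g) (hg' : Pr g') (h : L2 f g s)
    (h' : L2 f' g' s') : L2 (f * f') (g * g') (s * s') := L2_mul hg.1 hg'.1 h h'

theorem L2five {a b c d e A B C D E : Alg} {x1 x2 x3 x4 x5 : ℝ} (hA : Pr A) (hB : Pr B)
    (hC : Pr C) (hD : Pr D) (hE : Pr E) (h1 : L2 a A x1) (h2 : L2 b B x2) (h3 : L2 c C x3)
    (h4 : L2 d D x4) (h5 : L2 e E x5) :
    L2 (a * b * c * d * e) (A * B * C * D * E) (x1 * x2 * x3 * x4 * x5) :=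
  L2m (Pr_mul (Pr_mul (Pr_mul hA hB) hC) hD) hE
    (L2m (Pr_mul (Pr_mul hA hB) hC) hD
      (L2m (Pr_mul hA hB) hC (L2m hA hB h1 h2) h3) h4) h5

/-- the facts on one cell `c = T^N B T^N` -/
structure CellF (T X Y ρ c B : Alg) (N L R : ℕ) (r β η lam : ℝ) : Prop where
  prB : Pr B
  eqc : c = T ^ N * B * T ^ N
  TB : L2 (T ^ L - B) B β
  TB3 : NP 3 (T ^ L) B (1 + β)
  ρB : L2 ρ B r
  ρB3 : NP 3 ρ B 1
  Δc : L2 (X - Y) c η
  lamc : L2 (X - Y - T ^ N * ρ * T ^ N) c lam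
  Yc : L2 (Y - c) c η

theorem cellF_true {T X Y U V ρ : Alg} {L N R kT k : ℕ} {C₀ r β η lam ζ : ℝ}
    (h : LvlQ T X Y U V ρ L N R kT k C₀ r β η lam ζ) : CellF T X Y ρ X U N L R r β η lam :=
  { prB := h.prU
    eqc := h.Xdef
    TB := h.TU
    TB3 := h.TU3
    ρB := h.ρU
    ρB3 := h.ρU3
    Δc := h.ΔX
    lamc := h.lamX
    Yc := L2c (L2_neg h.ΔX) (by rw [neg_sub]) rfl le_rfl }

theorem cellF_false {T X Y U V ρ : Alg} {L N R kT k : ℕ} {C₀ r β η lam ζ : ℝ}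
    (h : LvlQ T X Y U V ρ L N R kT k C₀ r β η lam ζ) : CellF T X Y ρ Y V N L R r β η lam :=
  { prB := h.prV
    eqc := h.Ydef
    TB := h.TV
    TB3 := h.TV3
    ρB := h.ρV
    ρB3 := h.ρV3
    Δc := h.ΔY
    lamc := h.lamY
    Yc := L2c (L2_zero Y) (by rw [sub_self]) rfl h.ΔY.1 }

theorem CellF.prc {T X Y ρ c B : Alg} {N L R : ℕ} {r β η lam : ℝ}
    (h : CellF T X Y ρ c B N L R r β η lam) (hT : Pr T) : Pr c := by
  rw [h.eqc]
  exact Pr_mul (Pr_mul (Pr_pow hT _) h.prB) (Pr_pow hT _)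

theorem CellF.Δ₁c {T X Y ρ c B : Alg} {N L R : ℕ} {r β η lam : ℝ}
    (h : CellF T X Y ρ c B N L R r β η lam) (hT : Pr T) (hlam : lam ≤ η) :
    L2 (T ^ N * ρ * T ^ N) c (2 * η) := by
  have h1 := L2_add (h.prc hT).1 h.Δc (L2_neg h.lamc)
  exact L2c h1 (by abel) rfl (by linarith)

theorem TL_B {T B : Alg} {L : ℕ} {β : ℝ} (pw : LibPW) (hT : Pr T) (hB : Pr B)
    (h : L2 (T ^ L - B) B β) : L2 (T ^ L) B (Real.sqrt (1 + β ^ 2)) := by
  have hm : mass (T ^ L - B) = 0 := by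
    rw [mass_sub, (Pr_pow hT L).2, hB.2, sub_self]
  have := pw.l2_one _ _ _ hB hm h
  exact L2c this (by abel) rfl le_rfl

theorem CellF.TRc {T X Y ρ c B : Alg} {N L R : ℕ} {r β η lam : ℝ}
    (h : CellF T X Y ρ c B N L R r β η lam) (hT : Pr T) (hR : R = 2 * N + L) :
    L2 (T ^ R - c) c β := by
  have hTN := Pr_pow hT N
  have h1 := L2m (Pr_mul hTN h.prB) hTN (L2m hTN h.prB (L2_self hTN) h.TB) (L2_self hTN)
  refine L2c h1 ?_ h.eqc.symm (by linarith)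
  rw [h.eqc, hR, mul_sub, sub_mul]
  congr 1
  rw [← pow_add, ← pow_add]
  congr 1
  ring

theorem CellF.TR3 {T X Y ρ c B : Alg} {N L R : ℕ} {r β η lam : ℝ} (pw : LibPW)
    (h : CellF T X Y ρ c B N L R r β η lam) (hT : Pr T) (hR : R = 2 * N + L) :
    NP 3 (T ^ R) c (1 + β) := by
  have hTN := Pr_pow hT N
  have hs := pw.self 3 (T ^ N) (by norm_num) hTN
  have h1 := pw.mul 3 _ _ _ _ _ _ (by norm_num) (Pr_mul hTN h.prB).1 hTN.1
    (pw.mul 3 _ _ _ _ _ _ (by norm_num) hTN.1 h.prB.1 hs h.TB3) hs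
  refine NPc pw h1 ?_ h.eqc.symm (by linarith)
  rw [hR, ← pow_add, ← pow_add]
  congr 1
  ring

/-! ### seas -/

/-- a sea: reference `A`, actual `A0`, homogeneous version `A1` -/
structure Sea (A A0 A1 : Alg) (ε t : ℝ) : Prop where
  prA : Pr A
  s0 : L2 A0 A (9 / 8)
  s1 : L2 A1 A (9 / 8)
  sd : L2 (A0 - A1) A ε
  s3 : NP 3 A1 A t

theorem prod_const (f : Alg) (u : List Bool) (X Y : Alg) :
    ((u.map (fun b => ((f, if b then X else Y) : Alg × Alg))).map Prod.fst).prod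
      = f ^ u.length := by
  induction u with
  | nil => simp
  | cons b u ih =>
    rw [List.map_cons, List.map_cons, List.prod_cons, ih, List.length_cons, pow_succ']

theorem prod_val (f : Alg) (u : List Bool) (X Y : Alg) :
    ((u.map (fun b => ((f, if b then X else Y) : Alg × Alg))).map Prod.snd).prod
      = val u X Y := by
  unfold val
  rw [List.map_map]
  rfl

theorem sea_l2 (pw : LibPW) {f X Y : Alg} {x : ℝ} (hf : Pr f) (hX : Pr X) (hY : Pr Y)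
    (h1 : L2 (f - X) X x) (h2 : L2 (f - Y) Y x) (u : List Bool) :
    L2 (f ^ u.length - val u X Y) (val u X Y) (Real.sqrt ((1 + x ^ 2) ^ u.length - 1)) ∧
      L2 (f ^ u.length) (val u X Y) (Real.sqrt ((1 + x ^ 2) ^ u.length)) := by
  have key := pw.prod_l2 (u.map (fun b => ((f, if b then X else Y) : Alg × Alg))) x h1.1 (by
    intro p hp
    obtain ⟨b, _, rfl⟩ := List.mem_map.1 hp
    cases b
    · refine ⟨hY, ?_, h2⟩
      change mass (f - Y) = 0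
      rw [mass_sub, hf.2, hY.2, sub_self]
    · refine ⟨hX, ?_, h1⟩
      change mass (f - X) = 0
      rw [mass_sub, hf.2, hX.2, sub_self])
  rw [prod_const, prod_val, List.length_map] at key
  exact key

theorem sea_np (pw : LibPW) {f X Y : Alg} {t : ℝ} (hX : Pr X) (hY : Pr Y)
    (h1 : NP 3 f X t) (h2 : NP 3 f Y t) (u : List Bool) :
    NP 3 (f ^ u.length) (val u X Y) (t ^ u.length) := by
  have key := pw.prod_np 3 (u.map (fun b => ((f, if b then X else Y) : Alg × Alg))) t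
    (by norm_num) h1.1 (by
    intro p hp
    obtain ⟨b, _, rfl⟩ := List.mem_map.1 hp
    cases b
    · exact ⟨hY, h2⟩
    · exact ⟨hX, h1⟩)
  rw [prod_const, prod_val, List.length_map] at key
  exact key

theorem opl {x : ℝ} (hx : 0 ≤ x) (M : ℕ) (h : (M : ℝ) * x ≤ 1) :
    (1 + x) ^ M ≤ 1 + 2 * (M * x) := by
  have h0 : 0 ≤ (M : ℝ) * x := by positivity
  have h1 : (1 + x) ^ M ≤ Real.exp (M * x) := by
    rw [Real.exp_nat_mul]
    refine pow_le_pow_left₀ (by linarith) ?_ M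
    linarith [Real.add_one_le_exp x]
  have h2 := Real.abs_exp_sub_one_sub_id_le (x := (M : ℝ) * x) (by rw [abs_of_nonneg h0]; exact h)
  have h3 := (abs_le.mp h2).2
  nlinarith

/-- numerical bound of a product of perturbed norms -/
theorem sq_bd {x : ℝ} {n : ℕ} (h : (n : ℝ) * x ^ 2 ≤ 1 / 16) :
    Real.sqrt ((1 + x ^ 2) ^ n) ≤ 9 / 8 ∧
      Real.sqrt ((1 + x ^ 2) ^ n - 1) ≤ Real.sqrt (2 * (n * x ^ 2)) := by
  have h1 := opl (sq_nonneg x) n (by linarith)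
  constructor
  · rw [Real.sqrt_le_left (by norm_num)]
    nlinarith
  · apply Real.sqrt_le_sqrt
    linarith

theorem sea_make (pw : LibPW) {T X Y ρ U V : Alg} {N L R : ℕ} {r β η lam : ℝ} (hT : Pr T)
    (hR : R = 2 * N + L)
    (hX : CellF T X Y ρ X U N L R r β η lam) (hY : CellF T X Y ρ Y V N L R r β η lam)
    {N' L' : ℕ} {ε : ℝ} (a : List Bool) (ha : a.length ≤ 2 * N')
    (hβ : ((2 * N' : ℕ) : ℝ) * β ^ 2 ≤ 1 / 16) (hη : (L' : ℝ) * η ^ 2 ≤ 1 / 16)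
    (hε : Real.sqrt (2 * ((2 * N' : ℕ) * β ^ 2)) + Real.sqrt (2 * (L' * η ^ 2)) ≤ ε)
    (A0 : Alg)
    (hA0 : L2 A0 (val a X Y) (9 / 8))
    (hA0' : L2 (A0 - val a X Y) (val a X Y) (Real.sqrt (2 * (L' * η ^ 2)))) :
    Sea (val a X Y) A0 (T ^ (R * a.length)) ε ((1 + β) ^ a.length) := by
  have hXp := hX.prc hT
  have hYp := hY.prc hT
  have hv : Pr (val a X Y) := Pr_val hXp hYp a
  have hTR : Pr (T ^ R) := Pr_pow hT R
  obtain ⟨k1, k2⟩ := sea_l2 pw hTR hXp hYp (hX.TRc hT hR) (hY.TRc hT hR) a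
  rw [← pow_mul] at k1 k2
  have hn : (a.length : ℝ) * β ^ 2 ≤ 1 / 16 := by
    refine le_trans (mul_le_mul_of_nonneg_right ?_ (sq_nonneg _)) hβ
    exact_mod_cast ha
  obtain ⟨b1, b2⟩ := sq_bd hn
  have b3 : Real.sqrt (2 * (a.length * β ^ 2)) ≤ Real.sqrt (2 * ((2 * N' : ℕ) * β ^ 2)) := by
    apply Real.sqrt_le_sqrt
    have : (a.length : ℝ) * β ^ 2 ≤ ((2 * N' : ℕ) : ℝ) * β ^ 2 :=
      mul_le_mul_of_nonneg_right (by exact_mod_cast ha) (sq_nonneg _)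
    linarith
  refine ⟨hv, hA0, L2_mono k2 b1, ?_, ?_⟩
  · have := L2_add hv.1 hA0' (L2_neg k1)
    exact L2c this (by abel) rfl (by linarith)
  · have := sea_np pw hXp hYp (hX.TR3 pw hT hR) (hY.TR3 pw hT hR) a
    rwa [← pow_mul] at this

/-! ### steps A and B -/

theorem stepA {A A0 A1 M M0 M1 B B0 B1 c1 c2 Δ Δ₁ : Alg} {ε t1 t2 t3 η lam : ℝ}
    (hA : Sea A A0 A1 ε t1) (hM : Sea M M0 M1 ε t2) (hB : Sea B B0 B1 ε t3)
    (hc1 : Pr c1) (hc2 : Pr c2)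
    (h1 : L2 Δ c1 η) (h2 : L2 Δ c2 η) (h3 : L2 Δ₁ c1 (2 * η)) (h4 : L2 Δ₁ c2 (2 * η))
    (h5 : L2 (Δ - Δ₁) c1 lam) (h6 : L2 (Δ - Δ₁) c2 lam) :
    L2 (A0 * Δ * M0 * Δ * B0 - A0 * Δ₁ * M0 * Δ₁ * B0) (A * c1 * M * c2 * B)
      (6 * (lam * η)) := by
  have k1 := L2five hA.prA hc1 hM.prA hc2 hB.prA hA.s0 h5 hM.s0 h2 hB.s0
  have k2 := L2five hA.prA hc1 hM.prA hc2 hB.prA hA.s0 h3 hM.s0 h6 hB.s0
  have hp : Nn (A * c1 * M * c2 * B) :=
    (Pr_mul (Pr_mul (Pr_mul (Pr_mul hA.prA hc1) hM.prA) hc2) hB.prA).1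
  refine L2c (L2_add hp k1 k2) (by noncomm_ring) rfl ?_
  have := h5.1
  have := h1.1
  have hp : 0 ≤ lam * η := mul_nonneg h5.1 h1.1
  nlinarith

theorem stepB {A A0 A1 M M0 M1 B B0 B1 c1 c2 Δ₁ : Alg} {ε t1 t2 t3 η : ℝ}
    (hA : Sea A A0 A1 ε t1) (hM : Sea M M0 M1 ε t2) (hB : Sea B B0 B1 ε t3)
    (hc1 : Pr c1) (hc2 : Pr c2) (hη : 0 ≤ η)
    (h3 : L2 Δ₁ c1 (2 * η)) (h4 : L2 Δ₁ c2 (2 * η)) :
    L2 (A0 * Δ₁ * M0 * Δ₁ * B0 - A1 * Δ₁ * M1 * Δ₁ * B1) (A * c1 * M * c2 * B)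
      (48 * (ε * η ^ 2)) := by
  have k1 := L2five hA.prA hc1 hM.prA hc2 hB.prA hA.sd h3 hM.s0 h4 hB.s0
  have k2 := L2five hA.prA hc1 hM.prA hc2 hB.prA hA.s1 h3 hM.sd h4 hB.s0
  have k3 := L2five hA.prA hc1 hM.prA hc2 hB.prA hA.s1 h3 hM.s1 h4 hB.sd
  have hp : Nn (A * c1 * M * c2 * B) :=
    (Pr_mul (Pr_mul (Pr_mul (Pr_mul hA.prA hc1) hM.prA) hc2) hB.prA).1
  refine L2c (L2_add hp (L2_add hp k1 k2) k3) (by noncomm_ring) rfl ?_
  have hε := hA.sd.1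
  have hp : 0 ≤ ε * η ^ 2 := by positivity
  nlinarith

end

end Vale.P321S.MQ
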