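import Vale.Agent.P321.RATE
import Vale.Agent.P321S.BasicL1

/-!
# P321S, module OV: overlap of `T^k` and `T^(k+1)` gives mixing with rate `sqrt (k/M)`.
-/

namespace Vale.P321S

namespace OV

/-- pointwise minimum -/
noncomputable def mn (f g : Alg) : Alg :=
  MonoidAlgebra.ofCoeff (Finsupp.zipWith min (min_self (0 : ℝ)) f.coeff g.coeff)

lemma mn_coeff (f g : Alg) (w : Wd) : (mn f g).coeff w = min (f.coeff w) (g.coeff w) := by
  unfold mn
  rw [MonoidAlgebra.coeff_ofCoeff, Finsupp.zipWith_apply]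

lemma mn_le_left (f g : Alg) : Le (mn f g) f := fun w => by rw [mn_coeff]; exact min_le_left _ _

lemma mn_le_right (f g : Alg) : Le (mn f g) g := fun w => by rw [mn_coeff]; exact min_le_right _ _

lemma mn_Nn {f g : Alg} (hf : Nn f) (hg : Nn g) : Nn (mn f g) := fun w => by
  rw [mn_coeff]; exact le_min (hf w) (hg w)

lemma mn_mass (f g : Alg) : mass (mn f g) = (mass f + mass g - l1 (f - g)) / 2 := by
  classical
  set S := f.coeff.support ∪ g.coeff.support with hS
  have h1 : f.coeff.support ⊆ S := Finset.subset_union_left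
  have h2 : g.coeff.support ⊆ S := Finset.subset_union_right
  have h3 : (f - g).coeff.support ⊆ S := by
    rw [MonoidAlgebra.coeff_sub]; exact Finsupp.support_sub
  have h4 : (mn f g).coeff.support ⊆ S := by
    intro w hw
    rw [Finsupp.mem_support_iff, mn_coeff] at hw
    rw [hS, Finset.mem_union, Finsupp.mem_support_iff, Finsupp.mem_support_iff]
    by_contra hcon
    push Not at hcon
    apply hw
    rw [hcon.1, hcon.2, min_self]
  rw [mass_eq_of_subset _ h1, mass_eq_of_subset _ h2, mass_eq_of_subset _ h4,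
    l1_eq_of_subset _ h3, ← Finset.sum_add_distrib, ← Finset.sum_sub_distrib, Finset.sum_div]
  apply Finset.sum_congr rfl
  intro w _
  rw [mn_coeff, MonoidAlgebra.coeff_sub, Finsupp.sub_apply, min_def]
  split_ifs with h
  · rw [abs_of_nonpos (by linarith)]; ring
  · rw [abs_of_nonneg (by linarith [not_le.1 h])]; ring

lemma isNrm_l1 : P321.IsNrm l1 where
  nonneg := l1_nonneg
  add_le := l1_add
  mul_le := l1_mul
  smul := l1_smul
  one_le := l1_one.le

lemma rate_pr {T : Alg} {k : ℕ} {s : ℝ} (hT : Pr T) (hs : 0 < s)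
    (h : l1 (T ^ k - T ^ (k + 1)) ≤ 2 * (1 - s)) (J : ℕ) :
    l1 (T ^ ((k + 1) * J) - T ^ ((k + 1) * J + 1)) ^ 2 ≤ 4 / (1 + s * J / 2) := by
  set Y := mn (T ^ k) (T ^ (k + 1)) with hY
  set η := mass Y with hη
  have hPk : ∀ n, Pr (T ^ n) := fun n => Pr_pow hT n
  have hYN : Nn Y := mn_Nn (hPk k).1 (hPk (k + 1)).1
  have hηe : η = 1 - l1 (T ^ k - T ^ (k + 1)) / 2 := by
    rw [hη, hY, mn_mass, (hPk k).2, (hPk (k + 1)).2]
    ring
  have hηs : s ≤ η := by rw [hηe]; linarith
  have hη1 : η ≤ 1 := by rw [hηe]; linarith [l1_nonneg (T ^ k - T ^ (k + 1))]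
  have hη0 : 0 ≤ η := by linarith
  set c := T ^ (k + 1) - Y * ((1 / 2 : ℝ) • (1 + T)) with hc
  have hdec : T ^ (k + 1) = Y * ((1 / 2 : ℝ) • (1 + T)) + c := by rw [hc]; abel
  have hle : Le (Y * ((1 / 2 : ℝ) • (1 + T))) (T ^ (k + 1)) := by
    have e1 : Y * ((1 / 2 : ℝ) • (1 + T)) = (1 / 2 : ℝ) • Y + (1 / 2 : ℝ) • (Y * T) := by
      rw [mul_smul_comm, mul_add, mul_one, smul_add]
    have e2 : T ^ (k + 1) = (1 / 2 : ℝ) • T ^ (k + 1) + (1 / 2 : ℝ) • (T ^ k * T) := by
      rw [← pow_succ, ← add_smul]; norm_num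
    rw [e1, e2]
    apply Le_add
    · exact Le_smul (mn_le_right _ _) (by norm_num)
    · exact Le_smul (Le_mul hYN hT.1 (mn_le_left _ _) (Le_refl T)) (by norm_num)
  have hcN : Nn c := by rw [hc]; exact Le_iff_Nn.1 hle
  have hcm : l1 c ≤ 1 - η := by
    rw [l1_of_Nn hcN, hc, mass_sub, mass_mul, mass_smul, mass_add, mass_one, hT.2,
      (hPk (k + 1)).2]
    linarith
  have hYm : l1 Y ≤ η := by rw [l1_of_Nn hYN]
  have hT1 : l1 T ≤ 1 := (Pr_l1 hT).le
  have := P321.RATE.main isNrm_l1 hT1 hη0 hη1 hdec hYm hcm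
    (fun j => P321.LAZY.main isNrm_l1 hT1 j) J 0
  rw [pow_zero, one_mul, mul_sub, mul_one, ← pow_succ, l1_sub_comm] at this
  refine this.trans ?_
  apply div_le_div_of_nonneg_left (by norm_num) (by positivity)
  have : s * J ≤ η * J := mul_le_mul_of_nonneg_right hηs (by positivity)
  push_cast
  linarith

end OV

/-- OV -/
theorem stOV : StOV := by
  intro s hs hs1
  refine ⟨4 / Real.sqrt s, ?_, ?_⟩
  · have h1 : Real.sqrt s ≤ 1 := Real.sqrt_le_one.2 hs1
    have h0 : 0 < Real.sqrt s := Real.sqrt_pos.2 hs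
    rw [le_div_iff₀ h0]
    linarith
  · intro T k hT hk h M hM
    have hM0 : (0 : ℝ) < M := by exact_mod_cast hM
    have hk0 : (0 : ℝ) < k := by exact_mod_cast hk
    set J := M / (k + 1) with hJ
    have h1 : (k + 1) * J ≤ M := Nat.mul_div_le M (k + 1)
    have h2 : M < (k + 1) * (J + 1) := by
      have := Nat.lt_mul_div_succ M (Nat.succ_pos k)
      simpa [hJ] using this
    have h3 := l1_mix_anti hT h1
    have h4 := OV.rate_pr hT hs h J
    have h2' : (M : ℝ) < (k + 1) * (J + 1) := by exact_mod_cast h2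
    have hk1 : (1 : ℝ) ≤ k := by exact_mod_cast hk
    have h5 : (4 : ℝ) / (1 + s * J / 2) ≤ (4 / Real.sqrt s * Real.sqrt (k / M)) ^ 2 := by
      rw [mul_pow, div_pow, Real.sq_sqrt hs.le, Real.sq_sqrt (by positivity)]
      have e : (4 : ℝ) ^ 2 / s * (k / M) = 16 * k / (s * M) := by
        field_simp; norm_num
      rw [e, div_le_div_iff₀ (by positivity) (by positivity)]
      have h6 : (M : ℝ) ≤ 2 * k * (J + 1) := by
        have : ((k : ℝ) + 1) * (J + 1) ≤ 2 * k * (J + 1) := by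
          apply mul_le_mul_of_nonneg_right _ (by positivity)
          linarith
        linarith
      have h7 : s * M ≤ s * (2 * k * (J + 1)) := mul_le_mul_of_nonneg_left h6 hs.le
      nlinarith [mul_nonneg hk0.le (by linarith : (0:ℝ) ≤ 1 - s)]
    have h8 : l1 (T ^ ((k + 1) * J) - T ^ ((k + 1) * J + 1))
        ≤ 4 / Real.sqrt s * Real.sqrt (k / M) :=
      le_of_sq_le_sq (h4.trans h5) (by positivity)
    exact h3.trans h8

end Vale.P321S
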