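import Vale.Agent.P321S.AllQ

/-! # P321: close pairs of strings, every success level, growth forms -/

namespace Vale.P321S

open scoped BigOperators
open Filter Topology

noncomputable section

/-- pairs of strings with very close trace laws (assembly) -/
theorem tvQ : StTVQ := by
  have iid : StIid := stIid stPmf (stRenew stPmf) stOrtho
  have cells : StCells := stCells stSmooth stOV
  have step : StStep := stStep (stMono (stCore stDD) stTM) stDD stMixStep
  have lev1 : StLevel1 := stLevel1 stDD stMixStep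
  have ovl : StOverlap := stOverlap iid stOV
  have hB : StBlockQ := stBlockQ libPW
  have hM : StMonoQ := MQ.stMonoQ libPW (stWei stDD) stOrthSum
  have hG : StGainQ := stGainQ libPW hM hB stDD
  have hL : StLiftQ := stLiftQ libPW hB stDD
  have hS : StStepQ := stStepQ libPW hG hL hB stMixStep
  have hStart : StStartQ := stStartQ libPW hL step lev1 cells ovl stOV
  exact stTVQ (stLevelsQ hS hStart)

/-- law of one trace -/
def lawP (q : ℝ) {n : ℕ} (x : Fin n → Bool) (z : List Bool) : ℝ :=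
  ∑ S : Finset (Fin n), if survive x S = z then wt q S else 0

theorem lawP_eq (q : ℝ) {n : ℕ} (x : Fin n → Bool) (z : List Bool) :
    lawP q x z = (tr q (List.ofFn x)).coeff (FreeMonoid.ofList z) := by
  rw [FinalMod.tr_eq_T, P321.link q n x z]
  rfl

theorem tv_eq (q : ℝ) {n : ℕ} (x y : Fin n → Bool) :
    ∑' z : List Bool, |lawP q x z - lawP q y z|
      = l1 (tr q (List.ofFn x) - tr q (List.ofFn y)) := by
  have h1 : ∀ z : List Bool, |lawP q x z - lawP q y z|
      = |(tr q (List.ofFn x) - tr q (List.ofFn y)).coeff (FreeMonoid.ofList z)| := by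
    intro z
    rw [lawP_eq, lawP_eq, MonoidAlgebra.coeff_sub, Finsupp.sub_apply]
  simp_rw [h1]
  rw [FreeMonoid.ofList.tsum_eq
    (fun w => |(tr q (List.ofFn x) - tr q (List.ofFn y)).coeff w|)]
  unfold l1
  refine tsum_eq_sum ?_
  intro w hw
  rw [Finsupp.notMem_support_iff.mp hw, abs_zero]

/-- `m` traces suffice for success probability `s` -/
def SufS (q s : ℝ) (n m : ℕ) : Prop :=
  ∃ est : (Fin m → List Bool) → (Fin n → Bool) → ℝ,
    (∀ ys x, 0 ≤ est ys x) ∧ (∀ ys, ∑ x, est ys x = 1) ∧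
    ∀ x : Fin n → Bool,
      s ≤ ∑ S : Fin m → Finset (Fin n),
        (∏ i, wt q (S i)) * est (fun i => survive x (S i)) x

theorem sufS_exists {q s : ℝ} (h0 : 0 < q) (h1 : q < 1) (hs : s < 1) (n : ℕ) :
    ∃ m, SufS q s n m := by
  classical
  have hp : 0 < 1 - q := by linarith
  set a : ℝ := wt q (Finset.univ : Finset (Fin n)) with ha
  have ha0 : 0 < a := by
    rw [ha]; unfold wt
    simp only [Finset.card_univ, Fintype.card_fin, Nat.sub_self, pow_zero, mul_one]
    positivity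
  have ha1 : a ≤ 1 := by
    rw [← wt_sum (q := q) (n := n)]
    exact Finset.single_le_sum (f := fun S => wt q S) (fun S _ => wt_nonneg h0 h1 S)
      (Finset.mem_univ _)
  obtain ⟨m, hm⟩ := exists_pow_lt_of_lt_one (show (0 : ℝ) < 1 - s by linarith)
    (show 1 - a < 1 by linarith)
  refine ⟨m, fullEst n m, fullEst_nonneg n m, fullEst_sum n m, ?_⟩
  intro x
  have hall : ∑ S : Fin m → Finset (Fin n), ∏ i, wt q (S i) = 1 := by
    have e1 := Finset.prod_univ_sum (fun _ : Fin m => (Finset.univ : Finset (Finset (Fin n))))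
      (fun _ S => wt q S)
    rw [Fintype.piFinset_univ] at e1
    rw [← e1]
    simp [wt_sum]
  have hbad : ∑ S : Fin m → Finset (Fin n),
      (if ∃ i, S i = Finset.univ then 0 else ∏ i, wt q (S i)) ≤ (1 - a) ^ m := by
    have e : ∀ S : Fin m → Finset (Fin n),
        (if ∃ i, S i = Finset.univ then (0 : ℝ) else ∏ i, wt q (S i))
          = ∏ i, (if S i = Finset.univ then 0 else wt q (S i)) := by
      intro S
      split_ifs with h
      · obtain ⟨i, hi⟩ := h
        symm
        apply Finset.prod_eq_zero (Finset.mem_univ i)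
        rw [if_pos hi]
      · apply Finset.prod_congr rfl
        intro i _
        rw [if_neg (fun hi => h ⟨i, hi⟩)]
    simp_rw [e]
    have e2 := Finset.prod_univ_sum (fun _ : Fin m => (Finset.univ : Finset (Finset (Fin n))))
      (fun _ S => if S = Finset.univ then (0 : ℝ) else wt q S)
    rw [Fintype.piFinset_univ] at e2
    rw [← e2, Finset.prod_const, Finset.card_univ, Fintype.card_fin]
    apply le_of_eq
    congr 1
    have e3 : ∑ S : Finset (Fin n), (if S = Finset.univ then (0 : ℝ) else wt q S)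
        = ∑ S : Finset (Fin n), wt q S - a := by
      rw [← Finset.add_sum_erase Finset.univ (fun S => wt q S) (Finset.mem_univ Finset.univ),
        ← Finset.add_sum_erase Finset.univ
          (fun S : Finset (Fin n) => if S = Finset.univ then (0 : ℝ) else wt q S)
          (Finset.mem_univ Finset.univ)]
      simp only [if_true]
      rw [← ha, zero_add, add_sub_cancel_left]
      apply Finset.sum_congr rfl
      intro S hS
      rw [if_neg (Finset.ne_of_mem_erase hS)]
    rw [e3, wt_sum]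
  have hge : ∑ S : Fin m → Finset (Fin n), ((∏ i, wt q (S i))
      - (if ∃ i, S i = Finset.univ then 0 else ∏ i, wt q (S i)))
      ≤ ∑ S : Fin m → Finset (Fin n),
        (∏ i, wt q (S i)) * fullEst n m (fun i => survive x (S i)) x := by
    apply Finset.sum_le_sum
    intro S _
    split_ifs with h
    · rw [fullEst_one x S h]; linarith
    · rw [sub_self]
      exact mul_nonneg (Finset.prod_nonneg (fun i _ => wt_nonneg h0 h1 _))
        (fullEst_nonneg _ _ _ _)
  rw [Finset.sum_sub_distrib, hall] at hge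
  linarith

theorem sufS_bound {q s : ℝ} (h0 : 0 ≤ q) (h1 : q ≤ 1) {n m : ℕ} {x y : Fin n → Bool}
    (hxy : x ≠ y) (hr : SufS q s n m) :
    2 * s - 1 ≤ (m : ℝ) * l1 (tr q (List.ofFn x) - tr q (List.ofFn y)) := by
  obtain ⟨est, hnn, hsum, hsucc⟩ := hr
  have sx : s ≤ P321.SAMP.Ex q x m (fun ω => est ω x) := hsucc x
  have sy : s ≤ P321.SAMP.Ex q y m (fun ω => est ω y) := hsucc y
  have hle : ∀ ω, est ω y ≤ 1 - est ω x := by
    intro ω
    have h := hsum ω
    have h2 : est ω x + est ω y ≤ ∑ z, est ω z := by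
      classical
      rw [← Finset.sum_pair hxy]
      exact Finset.sum_le_sum_of_subset_of_nonneg (Finset.subset_univ _) (fun z _ _ => hnn ω z)
    linarith
  have hle1 : ∀ ω, est ω y ≤ 1 := fun ω => by
    have := hle ω
    have := hnn ω x
    linarith
  have hx : P321.SAMP.Ex q x m (fun ω => est ω y) ≤ 1 - s := by
    have h3 := P321.SAMP.Ex_mono h0 h1 x m hle
    rw [P321.SAMP.Ex_sub, P321.SAMP.Ex_const] at h3
    linarith
  have h4 := P321.SAMP.hybrid P321.link h0 h1 y x m (fun ω => est ω y) (fun ω => hnn ω y) hle1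
  rw [← FinalMod.tr_eq_T, ← FinalMod.tr_eq_T] at h4
  rw [FinalMod.l1_eq_nrm]
  linarith

theorem close_pair (q : ℝ) (h0 : 0 < q) (h1 : q < 1) :
    ∀ᶠ n : ℕ in atTop, ∃ x y : Fin n → Bool, x ≠ y ∧
      l1 (tr q (List.ofFn x) - tr q (List.ofFn y))
        ≤ (n : ℝ) ^ (-(Real.log (Real.log n) / 800)) := by
  obtain ⟨n₀, hn₀⟩ := tvQ q h0 h1
  filter_upwards [eventually_ge_atTop n₀] with n hn
  obtain ⟨x, y, hx, hy, hxy, hc⟩ := hn₀ n hn
  refine ⟨fun i => x.get (i.cast hx.symm), fun i => y.get (i.cast hy.symm), ?_, ?_⟩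
  · intro h
    apply hxy
    rw [← FinalMod.ofFn_cast x hx, ← FinalMod.ofFn_cast y hy, h]
  · rw [FinalMod.ofFn_cast x hx, FinalMod.ofFn_cast y hy]
    exact hc

theorem loglog_tendsto : Tendsto (fun n : ℕ => Real.log (Real.log n)) atTop atTop :=
  Real.tendsto_log_atTop.comp (Real.tendsto_log_atTop.comp tendsto_natCast_atTop_atTop)

theorem low_S (q s : ℝ) (h0 : 0 < q) (h1 : q < 1) (hs : 1 / 2 < s) :
    ∀ᶠ n : ℕ in atTop, ∀ m : ℕ, SufS q s n m →
      (n : ℝ) ^ (Real.log (Real.log n) / 1000) ≤ m := by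
  have hc : 0 < 2 * s - 1 := by linarith
  have e1 : ∀ᶠ n : ℕ in atTop, 4000 ≤ Real.log (Real.log n) :=
    loglog_tendsto.eventually_ge_atTop 4000
  have e2 : ∀ᶠ n : ℕ in atTop, 1 / (2 * s - 1) ≤ (n : ℝ) :=
    tendsto_natCast_atTop_atTop.eventually_ge_atTop _
  filter_upwards [close_pair q h0 h1, e1, e2, eventually_ge_atTop 1] with n hn h4 h5 hn1 m hm
  obtain ⟨x, y, hxy, hcl⟩ := hn
  have hb := sufS_bound h0.le h1.le hxy hm
  have hn1' : (1 : ℝ) ≤ n := by exact_mod_cast hn1
  have hnpos : (0 : ℝ) < n := by linarith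
  obtain ⟨L, hL⟩ : ∃ L : ℝ, L = Real.log (Real.log n) := ⟨_, rfl⟩
  rw [← hL] at hcl h4 ⊢
  have h2 : 2 * s - 1 ≤ (m : ℝ) * (n : ℝ) ^ (-(L / 800)) :=
    hb.trans (mul_le_mul_of_nonneg_left hcl (Nat.cast_nonneg m))
  have h3 : 1 / (2 * s - 1) ≤ (n : ℝ) ^ (L / 4000) := by
    calc 1 / (2 * s - 1) ≤ (n : ℝ) := h5
      _ = (n : ℝ) ^ (1 : ℝ) := (Real.rpow_one _).symm
      _ ≤ (n : ℝ) ^ (L / 4000) := Real.rpow_le_rpow_of_exponent_le hn1' (by linarith)
  have h6 : 1 ≤ (2 * s - 1) * (n : ℝ) ^ (L / 4000) := by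
    rw [div_le_iff₀ hc] at h3
    linarith
  have e : (n : ℝ) ^ (L / 800) = (n : ℝ) ^ (L / 1000) * (n : ℝ) ^ (L / 4000) := by
    rw [← Real.rpow_add hnpos]
    congr 1
    ring
  have h7 : 0 < (n : ℝ) ^ (L / 1000) := by positivity
  have h9 : (m : ℝ) * (n : ℝ) ^ (-(L / 800)) * (n : ℝ) ^ (L / 800) = m := by
    rw [mul_assoc, ← Real.rpow_add hnpos]
    simp
  calc (n : ℝ) ^ (L / 1000) ≤ (n : ℝ) ^ (L / 1000) * ((2 * s - 1) * (n : ℝ) ^ (L / 4000)) := by
        nlinarith
    _ = (2 * s - 1) * (n : ℝ) ^ (L / 800) := by rw [e]; ring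
    _ ≤ (m : ℝ) * (n : ℝ) ^ (-(L / 800)) * (n : ℝ) ^ (L / 800) :=
        mul_le_mul_of_nonneg_right h2 (by positivity)
    _ = m := h9

/-- consequences for a sequence that is eventually at least `n ^ (log log n / 1000)` -/
theorem grow {T : ℕ → ℕ}
    (h : ∀ᶠ n : ℕ in atTop, (n : ℝ) ^ (Real.log (Real.log n) / 1000) ≤ T n) :
    (∀ A : ℕ, (fun n : ℕ => (n : ℝ) ^ A) =o[atTop] fun n => (T n : ℝ)) ∧
    (¬ ∃ A : ℕ, (fun n => (T n : ℝ)) =O[atTop] fun n : ℕ => (n : ℝ) ^ A) ∧
    Tendsto (fun n : ℕ => Real.log (T n) / Real.log n) atTop atTop := by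
  have key : ∀ A : ℕ, ∀ᶠ n : ℕ in atTop, (n : ℝ) ^ A * n ≤ T n := by
    intro A
    have e1 : ∀ᶠ n : ℕ in atTop, 1000 * ((A : ℝ) + 1) ≤ Real.log (Real.log n) :=
      loglog_tendsto.eventually_ge_atTop _
    filter_upwards [h, e1, eventually_ge_atTop 1] with n hn h1 hn1
    have hn1' : (1 : ℝ) ≤ n := by exact_mod_cast hn1
    refine le_trans ?_ hn
    calc (n : ℝ) ^ A * n = (n : ℝ) ^ ((A : ℝ) + 1) := by
          rw [Real.rpow_add (by linarith), Real.rpow_natCast, Real.rpow_one]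
      _ ≤ (n : ℝ) ^ (Real.log (Real.log n) / 1000) :=
          Real.rpow_le_rpow_of_exponent_le hn1' (by linarith)
  have hlo : ∀ A : ℕ, (fun n : ℕ => (n : ℝ) ^ A) =o[atTop] fun n => (T n : ℝ) := by
    intro A
    rw [Asymptotics.isLittleO_iff]
    intro c hc
    have e2 : ∀ᶠ n : ℕ in atTop, 1 / c ≤ (n : ℝ) :=
      tendsto_natCast_atTop_atTop.eventually_ge_atTop _
    filter_upwards [key A, e2] with n hn h2
    rw [Real.norm_of_nonneg (by positivity), Real.norm_of_nonneg (Nat.cast_nonneg _)]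
    have h3 : 1 ≤ c * n := by
      rw [div_le_iff₀ hc] at h2
      linarith
    have h4 : (0 : ℝ) ≤ (n : ℝ) ^ A := by positivity
    calc (n : ℝ) ^ A ≤ (n : ℝ) ^ A * (c * n) := by nlinarith
      _ = c * ((n : ℝ) ^ A * n) := by ring
      _ ≤ c * (T n : ℝ) := mul_le_mul_of_nonneg_left hn hc.le
  refine ⟨hlo, ?_, ?_⟩
  · rintro ⟨A, hA⟩
    have hself : (fun n : ℕ => (n : ℝ) ^ A) =o[atTop] fun n : ℕ => (n : ℝ) ^ A :=
      (hlo A).trans_isBigO hA
    rw [Asymptotics.isLittleO_iff] at hself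
    have h2 := hself (show (0 : ℝ) < 1 / 2 by norm_num)
    obtain ⟨n, h3, h4⟩ := (h2.and (eventually_ge_atTop 1)).exists
    have hn1' : (0 : ℝ) < n := by exact_mod_cast h4
    have h5 : (0 : ℝ) < (n : ℝ) ^ A := by positivity
    rw [Real.norm_of_nonneg h5.le] at h3
    linarith
  · have hdiv : Tendsto (fun n : ℕ => Real.log (Real.log n) / 1000) atTop atTop :=
      loglog_tendsto.atTop_div_const (by norm_num)
    refine tendsto_atTop_mono' _ ?_ hdiv
    filter_upwards [h, eventually_ge_atTop 3] with n hn hn3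
    have hn3' : (3 : ℝ) ≤ n := by exact_mod_cast hn3
    have hnpos : (0 : ℝ) < n := by linarith
    have hlog : 0 < Real.log n := Real.log_pos (by linarith)
    rw [le_div_iff₀ hlog]
    have h5 : (0 : ℝ) < (n : ℝ) ^ (Real.log (Real.log n) / 1000) := by positivity
    have h6 := Real.log_le_log h5 hn
    rw [Real.log_rpow hnpos] at h6
    exact h6

end

end Vale.P321S
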